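import Crest.Agent.R169.Defs

/-! # The power series side: lattices -/

set_option autoImplicit false

namespace Crest.Agent.R169

noncomputable section

open MvPowerSeries

/-- the fraction field of `ℂ⟦x,y,z⟧` -/
abbrev F3 : Type := FractionRing A3

/-- the variables in `F3`; `xv 2` plays the role of the uniformiser `t` -/
def xv (i : Fin 3) : F3 := algebraMap A3 F3 (X i)

/-- `𝒪 = {a / h : h homogeneous polynomial of degree n, a ∈ 𝔪ⁿ}` -/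
def OrdMem (f : F3) : Prop :=
  ∃ (n : ℕ) (h : P3), h ≠ 0 ∧ h.IsHomogeneous n ∧ ∃ a ∈ IsLocalRing.maximalIdeal A3 ^ n,
    algebraMap A3 F3 (h : A3) * f = algebraMap A3 F3 a

variable {N : ℕ}

/-- `t^k Λ₀`, `Λ₀ = 𝒪^N` -/
def InLam (k : ℕ) (u : Fin N → F3) : Prop := ∀ i, OrdMem ((xv 2 ^ k)⁻¹ * u i)

/-- `u ∈ t^(-n) A^N` -/
def InM (n : ℕ) (u : Fin N → F3) : Prop := ∀ i, ∃ a : A3, xv 2 ^ n * u i = algebraMap A3 F3 a

/-- The data on `U = F3^N`: an action of the field `K` commuting with `F3`, in which `xb`, `yb` act as `x / z`, `y / z`,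
elements of `Rn n` map `A^N` to `t^(-n) A^N`, and `K` is spanned over `ℂ(xb, yb)` by finitely many elements of some `Rn n`. -/
structure AData (K : Type) [Field K] [Algebra ℂ K] (xb yb : K) (Rn : ℕ → Submodule ℂ K) (N : ℕ)
    [Module K (Fin N → F3)] : Prop where
  comm : ∀ (τ : K) (f : F3) (u : Fin N → F3), τ • f • u = f • τ • u
  hx : ∀ u : Fin N → F3, xb • u = (xv 0 / xv 2) • u
  hy : ∀ u : Fin N → F3, yb • u = (xv 1 / xv 2) • u
  hR : ∀ n, ∀ τ ∈ Rn n, ∀ u : Fin N → F3, InM 0 u → InM n (τ • u)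
  hgen : ∃ (s : Finset K) (n : ℕ), (∀ τ ∈ s, τ ∈ Rn n) ∧
    Submodule.span (IntermediateField.adjoin ℂ {xb, yb}) (s : Set K) = ⊤

variable {K : Type} [Field K] [Module K (Fin N → F3)]

/-- a `K`-stable lattice between `t^k Λ₀` and `Λ₀` -/
structure IsLat (Λ : Submodule K (Fin N → F3)) : Prop where
  smul : ∀ (a : A3), ∀ u ∈ Λ, algebraMap A3 F3 a • u ∈ Λ
  le : ∀ u ∈ Λ, InLam 0 u
  ge : ∃ k, ∀ u, InLam k u → u ∈ Λ

variable [Algebra ℂ K] [IsScalarTower ℂ K (Fin N → F3)]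

/-- `t^(-n) A^N ∩ Λ` -/
def FL (Λ : Submodule K (Fin N → F3)) (n : ℕ) : Submodule ℂ (Fin N → F3) where
  carrier := {u | u ∈ Λ ∧ InM n u}
  add_mem' := by
    rintro u w ⟨hu, hu'⟩ ⟨hw, hw'⟩
    refine ⟨Λ.add_mem hu hw, fun i => ?_⟩
    obtain ⟨a, ha⟩ := hu' i
    obtain ⟨b, hb⟩ := hw' i
    exact ⟨a + b, by rw [Pi.add_apply, mul_add, ha, hb, map_add]⟩
  zero_mem' := ⟨Λ.zero_mem, fun i => ⟨0, by simp⟩⟩
  smul_mem' := by
    rintro c u ⟨hu, hu'⟩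
    refine ⟨Λ.smul_of_tower_mem c hu, fun i => ?_⟩
    obtain ⟨a, ha⟩ := hu' i
    refine ⟨c • a, ?_⟩
    rw [Pi.smul_apply, mul_smul_comm, ha, Algebra.smul_def, Algebra.smul_def, map_mul,
      ← IsScalarTower.algebraMap_apply]

/-- `dim (t^(-n) A^N ∩ Λ) ⧸ (t^(-n) A^N ∩ Λ')` -/
def DD (n : ℕ) (Λ Λ' : Submodule K (Fin N → F3)) : ℕ :=
  Module.finrank ℂ (FL Λ n ⧸ (FL Λ' n).comap (FL Λ n).subtype)

/-- `t Λ` (meaningful when the action of `K` commutes with `F3`) -/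
def tL (Λ : Submodule K (Fin N → F3)) : Submodule K (Fin N → F3) :=
  Submodule.span K ((fun u => xv 2 • u) '' (Λ : Set (Fin N → F3)))

/-- the image of `t^(-n) A^N ∩ Λ` in `Λ ⧸ t Λ`, inside `U ⧸ t Λ` -/
def EL (Λ : Submodule K (Fin N → F3)) (n : ℕ) : Submodule ℂ ((Fin N → F3) ⧸ tL Λ) :=
  (FL Λ n).map ((tL Λ).mkQ.restrictScalars ℂ)

end

end Crest.Agent.R169
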