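import Crest.Agent.R169.Defs

/-! # One-variable families: convexity, slope bound, Birkhoff–Grothendieck splitting -/

set_option autoImplicit false
set_option linter.unusedSectionVars false

namespace Crest.Agent.R169

open Polynomial

variable {k F V : Type} [Field k] [Field F] [Algebra k F] [AddCommGroup V] [Module k V] [Module F V]
  [IsScalarTower k F V] {x : F} {M : ℤ → Submodule k V}

theorem IsFam.mono_le (hM : IsFam x M) {a b : ℤ} (h : a ≤ b) : M a ≤ M b := by
  exact monotone_int_of_le_succ hM.mono h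

theorem IsFam.pow_mul (hM : IsFam x M) {a : ℤ} {v : V} (hv : v ∈ M a) (n : ℕ) :
    x ^ n • v ∈ M (a + n) := by
  induction n with
  | zero => simpa using hv
  | succ n ih =>
    rw [pow_succ', mul_smul, Nat.cast_succ, ← add_assoc]
    exact hM.mul _ _ ih

theorem IsFam.aeval_mul (hM : IsFam x M) {a : ℤ} {v : V} (hv : v ∈ M a) (p : k[X]) :
    aeval x p • v ∈ M (a + p.natDegree) := by
  rw [aeval_eq_sum_range, Finset.sum_smul]
  refine Submodule.sum_mem _ fun i hi => ?_
  rw [smul_assoc]
  have h := Finset.mem_range.1 hi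
  exact Submodule.smul_mem _ _ (hM.mono_le (by omega) (hM.pow_mul hv i))

/-- if `v ∈ M (a+1)` and `x ^ D • v ∈ M (a + D)` then `v ∈ M a` (downward induction on `D`) -/
theorem IsFam.sat_pow (hM : IsFam x M) {a : ℤ} {v : V} (hv : v ∈ M (a + 1)) (D : ℕ)
    (h : x ^ D • v ∈ M (a + D)) : v ∈ M a := by
  induction D with
  | zero => simpa using h
  | succ D ih =>
    refine ih (hM.sat _ _ ?_ ?_)
    · have h1 := hM.pow_mul hv D
      rwa [add_right_comm] at h1
    · rwa [pow_succ', mul_smul, Nat.cast_succ, ← add_assoc] at h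

/-- multiplication by `c` as a `k`-linear map -/
def BG_mul (k : Type) {F : Type} (V : Type) [Field k] [Field F] [Algebra k F] [AddCommGroup V]
    [Module k V] [Module F V] [IsScalarTower k F V] (c : F) : V →ₗ[k] V :=
  (LinearMap.lsmul F V c).restrictScalars k

@[simp] theorem BG_mul_apply (c : F) (v : V) : BG_mul k V c v = c • v := rfl

theorem BG_exists_range (hM : IsFam x M) (hfin : ∀ a, FiniteDimensional k (M a)) (a : ℤ) :
    ∃ R : Submodule k V, (∀ v, v ∈ R ↔ ∃ v0 ∈ M (a + 1), ∃ v1 ∈ M (a + 1), v = v0 + x • v1) ∧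
      R ≤ M (a + 2) ∧
      2 * Module.finrank k (M (a + 1)) = Module.finrank k (M a) + Module.finrank k R := by
  let φ : (M (a + 1) × M (a + 1)) →ₗ[k] V :=
    (M (a + 1)).subtype.coprod (BG_mul k V x ∘ₗ (M (a + 1)).subtype)
  let ψ : M a →ₗ[k] (M (a + 1) × M (a + 1)) :=
    LinearMap.prod (-(BG_mul k V x).restrict (hM.mul a)) (Submodule.inclusion (hM.mono a))
  have h1 : Function.Injective ψ := fun v w h =>
    Submodule.inclusion_injective (hM.mono a) (congrArg Prod.snd h)
  have h2 : LinearMap.range ψ = LinearMap.ker φ := by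
    ext ⟨v, w⟩
    constructor
    · rintro ⟨u, hu⟩
      rw [LinearMap.mem_ker, ← hu]
      exact neg_add_cancel (x • (u : V))
    · intro h
      have h3 : (v : V) + x • (w : V) = 0 := h
      have h4 : x • (w : V) = -(v : V) := eq_neg_of_add_eq_zero_right h3
      refine ⟨⟨w, hM.sat a w w.2 (h4 ▸ neg_mem v.2)⟩, Prod.ext (Subtype.ext ?_) rfl⟩
      change -(x • (w : V)) = v
      rw [h4, neg_neg]
  have h3 : ∀ v, v ∈ LinearMap.range φ ↔
      ∃ v0 ∈ M (a + 1), ∃ v1 ∈ M (a + 1), v = v0 + x • v1 := by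
    intro v
    constructor
    · rintro ⟨⟨v0, v1⟩, rfl⟩
      exact ⟨v0, v0.2, v1, v1.2, rfl⟩
    · rintro ⟨v0, h0, v1, h1, rfl⟩
      exact ⟨(⟨v0, h0⟩, ⟨v1, h1⟩), rfl⟩
  refine ⟨LinearMap.range φ, h3, fun v hv => ?_, ?_⟩
  · obtain ⟨v0, h0, v1, h1, rfl⟩ := (h3 v).1 hv
    have h4 : a + 2 = a + 1 + 1 := by ring
    rw [h4]
    exact add_mem (hM.mono _ h0) (hM.mul _ _ h1)
  · have h4 := φ.finrank_range_add_finrank_ker
    rw [← h2, LinearMap.finrank_range_of_inj h1, Module.finrank_prod] at h4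
    omega

/-- Convexity: `M (a+1) × M (a+1) → M (a+2)`, `(v, w) ↦ v + x • w` has kernel `≅ M a`. -/
theorem IsFam.convex (hM : IsFam x M) (hfin : ∀ a, FiniteDimensional k (M a)) (a : ℤ) :
    2 * Module.finrank k (M (a + 1)) ≤ Module.finrank k (M a) + Module.finrank k (M (a + 2)) := by
  obtain ⟨R, -, h2, h3⟩ := BG_exists_range hM hfin a
  rw [h3]
  exact Nat.add_le_add_left (Submodule.finrank_mono h2) _

theorem IsFam.linear (hM : IsFam x M) (hfin : ∀ a, FiniteDimensional k (M a)) (a : ℤ)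
    (hgen : ∀ v ∈ M (a + 2), ∃ v0 ∈ M (a + 1), ∃ v1 ∈ M (a + 1), v = v0 + x • v1) :
    2 * Module.finrank k (M (a + 1)) = Module.finrank k (M a) + Module.finrank k (M (a + 2)) := by
  obtain ⟨R, h1, h2, h3⟩ := BG_exists_range hM hfin a
  rw [h3, le_antisymm h2 fun v hv => (h1 v).2 (hgen v hv)]

theorem BG_aeval_mem (hM : IsFam x M) {a : ℤ} {v : V} (hv : v ∈ M (a + 1)) {p : k[X]} {D : ℕ}
    (hp : p.degree < D) : aeval x p • v ∈ M (a + D) := by
  by_cases h0 : p = 0
  · simp [h0]
  · have h1 := (natDegree_lt_iff_degree_lt h0).2 hp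
    exact hM.mono_le (by omega) (hM.aeval_mul hv p)

theorem BG_poly_rel (hM : IsFam x M) {ι : Type} {a : ℤ} {v : ι → V} (hv : ∀ i, v i ∈ M (a + 1))
    (hli : LinearIndependent k (fun i => (M a).mkQ (v i))) (s : Finset ι) (p : ι → k[X])
    (h : ∑ i ∈ s, aeval x (p i) • v i = 0) (D : ℕ) (hD : ∀ i ∈ s, (p i).degree < D) :
    ∀ i ∈ s, p i = 0 := by
  induction D with
  | zero =>
    intro i hi
    exact degree_eq_bot.1 (Nat.WithBot.lt_zero_iff.1 (hD i hi))
  | succ D ih =>
    have h1 : ∀ i ∈ s, (p i - monomial D ((p i).coeff D)).degree < D := by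
      intro i hi
      rw [degree_lt_iff_coeff_zero]
      intro m hm
      rw [coeff_sub, coeff_monomial]
      split_ifs with h2
      · rw [h2, sub_self]
      · rw [sub_zero]
        exact (degree_lt_iff_coeff_zero _ _).1 (hD i hi) m (by omega)
    have h2 : x ^ D • ∑ i ∈ s, (p i).coeff D • v i =
        -∑ i ∈ s, aeval x (p i - monomial D ((p i).coeff D)) • v i := by
      simp only [map_sub, sub_smul, Finset.sum_sub_distrib, h, zero_sub, neg_neg, aeval_monomial,
        Finset.smul_sum]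
      refine Finset.sum_congr rfl fun i _ => ?_
      rw [mul_comm, mul_smul, algebraMap_smul]
    have h3 : ∑ i ∈ s, (p i).coeff D • v i ∈ M a := by
      refine hM.sat_pow (Submodule.sum_mem _ fun i _ => Submodule.smul_mem _ _ (hv i)) D ?_
      rw [h2]
      exact neg_mem (Submodule.sum_mem _ fun i hi => BG_aeval_mem hM (hv i) (h1 i hi))
    have h4 := linearIndependent_iff'.1 hli s (fun i => (p i).coeff D) (by
      simp only [← map_smul, ← map_sum]
      exact (Submodule.Quotient.mk_eq_zero _).2 h3)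
    refine ih fun i hi => ?_
    have h5 := h1 i hi
    rwa [h4 i hi, monomial_zero_right, sub_zero] at h5

theorem BG_common_den (hx : ∀ f : F, ∃ p q : k[X], aeval x q ≠ 0 ∧ f * aeval x q = aeval x p)
    {ι : Type} (s : Finset ι) (g : ι → F) :
    ∃ (c : F) (P : ι → k[X]), c ≠ 0 ∧ ∀ i ∈ s, c * g i = aeval x (P i) := by
  classical
  choose p q hq hp using hx
  refine ⟨∏ i ∈ s, aeval x (q (g i)), fun i => p (g i) * ∏ j ∈ s.erase i, q (g j),
    Finset.prod_ne_zero_iff.2 fun i _ => hq _, fun i hi => ?_⟩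
  rw [map_mul, map_prod, ← hp, ← Finset.mul_prod_erase _ _ hi]
  ring

/-- Vectors of `M (a+1)` that are `k`-independent modulo `M a` are `F`-independent: clear denominators in a
relation, take the top degree `D` part and use `sat_pow`. -/
theorem IsFam.linearIndependent (hM : IsFam x M)
    (hx : ∀ f : F, ∃ p q : k[X], aeval x q ≠ 0 ∧ f * aeval x q = aeval x p)
    {ι : Type} {a : ℤ} {v : ι → V} (hv : ∀ i, v i ∈ M (a + 1))
    (hli : LinearIndependent k (fun i => (M a).mkQ (v i))) : LinearIndependent F v := by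
  refine linearIndependent_iff'.2 fun s g hg i hi => ?_
  obtain ⟨c, P, hc, hP⟩ := BG_common_den hx s g
  have h1 : ∑ i ∈ s, aeval x (P i) • v i = 0 := by
    rw [← smul_zero c, ← hg, Finset.smul_sum]
    exact Finset.sum_congr rfl fun j hj => by rw [← hP j hj, mul_smul]
  have h2 := BG_poly_rel hM hv hli s P h1 (s.sup (fun j => (P j).natDegree) + 1) (fun j hj =>
    degree_le_natDegree.trans_lt (by
      exact_mod_cast Nat.lt_succ_of_le (Finset.le_sup (f := fun j => (P j).natDegree) hj))) i hi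
  have h3 := hP i hi
  rw [h2, map_zero] at h3
  exact (mul_eq_zero.1 h3).resolve_left hc

theorem BG_rank_map_le {W : Type} [AddCommGroup W] [Module k W] (π : V →ₗ[k] W)
    (A : Submodule k V) (S : Submodule F V) (hAS : ∀ v ∈ A, v ∈ S)
    (h : ∀ (ι : Type) (u : ι → V), (∀ i, u i ∈ A) → LinearIndependent k (fun i => π (u i)) →
      LinearIndependent F u) : Module.rank k (A.map π) ≤ Module.rank F S := by
  let b := Module.Basis.ofVectorSpace k (A.map π)
  choose u hu hπ using fun i => Submodule.mem_map.1 (b i).2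
  have h1 : LinearIndependent F u := by
    refine h _ u hu ?_
    simp only [hπ]
    exact b.linearIndependent.map' (A.map π).subtype (Submodule.ker_subtype _)
  have h2 : LinearIndependent F fun i => (⟨u i, hAS _ (hu i)⟩ : S) :=
    LinearIndependent.of_comp S.subtype h1
  rw [← b.mk_eq_rank'']
  exact h2.cardinal_le_rank

/-- slope bound -/
theorem IsFam.rank_succ_le (hM : IsFam x M)
    (hx : ∀ f : F, ∃ p q : k[X], aeval x q ≠ 0 ∧ f * aeval x q = aeval x p) (a : ℤ) :
    Module.rank k (M (a + 1)) ≤ Module.rank k (M a) +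
      Module.rank F (Submodule.span F (M (a + 1) : Set V)) := by
  have h1 := LinearMap.rank_range_add_rank_ker ((M a).mkQ ∘ₗ (M (a + 1)).subtype)
  rw [LinearMap.range_comp, Submodule.range_subtype, LinearMap.ker_comp, Submodule.ker_mkQ,
    (Submodule.comapSubtypeEquivOfLe (hM.mono a)).rank_eq] at h1
  rw [← h1, add_comm]
  exact add_le_add le_rfl (BG_rank_map_le _ _ _ (fun v hv => Submodule.subset_span hv)
    fun ι u hu hli => hM.linearIndependent hx hu hli)

theorem IsFam.finrank_succ_le (hM : IsFam x M)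
    (hx : ∀ f : F, ∃ p q : k[X], aeval x q ≠ 0 ∧ f * aeval x q = aeval x p)
    (hfin : ∀ a, FiniteDimensional k (M a)) (a : ℤ) (n : ℕ)
    (hn : Module.rank F (Submodule.span F (M (a + 1) : Set V)) ≤ n) :
    Module.finrank k (M (a + 1)) ≤ Module.finrank k (M a) + n := by
  have h1 := (hM.rank_succ_le hx a).trans (add_le_add le_rfl hn)
  rw [← Module.finrank_eq_rank k (M (a + 1)), ← Module.finrank_eq_rank k (M a)] at h1
  exact_mod_cast h1

theorem BG_adapted_aux {W : Type} [AddCommGroup W] [Module k W] {G : ℤ → Submodule k W}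
    (hG : Monotone G) {a0 : ℤ} (h0 : G a0 = ⊥) (m : ℕ) :
    ∃ (B : Set W) (d : W → ℤ), LinearIndepOn k id B ∧ (∀ e ∈ B, e ∈ G (d e) ∧ d e ≤ a0 + m) ∧
      ∀ a ≤ a0 + m, G a ≤ Submodule.span k {e | e ∈ B ∧ d e ≤ a} := by
  classical
  induction m with
  | zero =>
    refine ⟨∅, fun _ => 0, linearIndepOn_empty _ _, by simp, fun a ha => ?_⟩
    have h1 : G a ≤ G a0 := hG (by simpa using ha)
    rw [h0] at h1
    exact h1.trans bot_le
  | succ m ih =>
    obtain ⟨B, d, h1, h2, h3⟩ := ih
    obtain ⟨B', h4, h5, h6, h7⟩ := exists_linearIndepOn_id_extension h1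
      (t := (G (a0 + (m + 1 : ℕ)) : Set W))
      (fun e he => hG ((h2 e he).2.trans (by push_cast; omega)) (h2 e he).1)
    refine ⟨B', fun e => if e ∈ B then d e else a0 + (m + 1 : ℕ), h7, fun e he => ?_,
      fun a ha => ?_⟩
    · beta_reduce
      split_ifs with h8
      · exact ⟨(h2 e h8).1, (h2 e h8).2.trans (by push_cast; omega)⟩
      · exact ⟨h4 he, le_rfl⟩
    · rcases ha.eq_or_lt with rfl | ha'
      · refine le_trans (fun v hv => h6 hv) (Submodule.span_mono fun e he => ⟨he, ?_⟩)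
        beta_reduce
        split_ifs with h8
        · exact (h2 e h8).2.trans (by push_cast; omega)
        · exact le_rfl
      · refine (h3 a (by push_cast at ha'; omega)).trans (Submodule.span_mono fun e he => ?_)
        exact ⟨h5 he.1, (if_pos he.1).trans_le he.2⟩

/-- a basis adapted to a bounded filtration -/
theorem BG_adapted {W : Type} [AddCommGroup W] [Module k W] {G : ℤ → Submodule k W}
    (hG : Monotone G) {a0 : ℤ} (h0 : G a0 = ⊥) {n : ℕ} (hn : ∀ a, Module.rank k (G a) ≤ n) :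
    ∃ (J : Type) (_ : Fintype J) (e : J → W) (d : J → ℤ), LinearIndependent k e ∧
      (∀ j, e j ∈ G (d j)) ∧ ∀ a, G a ≤ Submodule.span k (e '' {j | d j ≤ a}) := by
  have hfin : ∀ a, FiniteDimensional k (G a) := fun a =>
    Module.rank_lt_aleph0_iff.1 ((hn a).trans_lt Cardinal.natCast_lt_aleph0)
  have hb : BddAbove (Set.range fun a => Module.finrank k (G a)) :=
    ⟨n, by rintro _ ⟨a, rfl⟩; exact Module.finrank_le_of_rank_le (hn a)⟩
  obtain ⟨a1, ha1⟩ := Nat.sSup_mem (Set.range_nonempty fun a => Module.finrank k (G a)) hb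
  have h1 : ∀ a, a1 ≤ a → G a1 = G a := fun a ha =>
    Submodule.eq_of_le_of_finrank_le (hG ha) ((le_csSup hb ⟨a, rfl⟩).trans ha1.ge)
  obtain ⟨B, d, h2, h3, h4⟩ := BG_adapted_aux hG h0 (a1 - a0).toNat
  have h5 : ∀ e ∈ B, e ∈ G (a0 + (a1 - a0).toNat) := fun e he => hG (h3 e he).2 (h3 e he).1
  have h6 : LinearIndependent k fun e : B => (⟨e, h5 e e.2⟩ : G (a0 + (a1 - a0).toNat)) :=
    LinearIndependent.of_comp (G _).subtype h2
  have h7 : Finite B := h6.finite_of_isNoetherian
  refine ⟨B, Fintype.ofFinite B, Subtype.val, fun e => d e, h2, fun e => (h3 e e.2).1, fun a => ?_⟩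
  by_cases ha : a ≤ a0 + (a1 - a0).toNat
  · exact (h4 a ha).trans (Submodule.span_mono fun e he => ⟨⟨e, he.1⟩, he.2, rfl⟩)
  · rw [← h1 a (by omega), h1 (a0 + (a1 - a0).toNat) (by omega)]
    exact (h4 _ le_rfl).trans (Submodule.span_mono fun e he =>
      ⟨⟨e, he.1⟩, he.2.trans (not_le.1 ha).le, rfl⟩)

/-- the sections vanishing at infinity -/
def BG_T (x : F) (M : ℤ → Submodule k V) : Submodule k V :=
  ⨆ a : ℤ, (M a).comap (BG_mul k V (x ^ (a + 1)))

theorem BG_zpow_mul (hM : IsFam x M) (hx0 : x ≠ 0) {a b c : ℤ} (h : a ≤ b) {v : V}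
    (hv : x ^ (a + c) • v ∈ M a) : x ^ (b + c) • v ∈ M b := by
  obtain ⟨n, rfl⟩ := Int.le.dest h
  have h1 := hM.pow_mul hv n
  rwa [smul_smul, ← zpow_natCast, ← zpow_add₀ hx0, show (n : ℤ) + (a + c) = a + n + c by ring] at h1

theorem BG_mem_of_mem_T (hM : IsFam x M) (hx0 : x ≠ 0) {a : ℤ} {v : V}
    (hv : x ^ (a + 1) • v ∈ M (a + 1)) (hT : v ∈ BG_T x M) : x ^ (a + 1) • v ∈ M a := by
  have hmono : Monotone fun a : ℤ => (M a).comap (BG_mul k V (x ^ (a + 1))) :=
    fun a b h v hv => BG_zpow_mul hM hx0 h hv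
  obtain ⟨b, hb⟩ := (Submodule.mem_iSup_of_directed _ hmono.directed_le).1 hT
  rcases le_total b a with h | h
  · exact hmono h hb
  · obtain ⟨n, rfl⟩ := Int.le.dest h
    refine hM.sat_pow hv n ?_
    rw [smul_smul, ← zpow_natCast, ← zpow_add₀ hx0, show (n : ℤ) + (a + 1) = a + n + 1 by ring]
    exact hb

theorem BG_indep (hM : IsFam x M) (hx0 : x ≠ 0)
    (hx : ∀ f : F, ∃ p q : k[X], aeval x q ≠ 0 ∧ f * aeval x q = aeval x p) {a : ℤ} {ι : Type}
    {u : ι → V} (hu : ∀ i, x ^ a • u i ∈ M a)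
    (hli : LinearIndependent k fun i => (BG_T x M).mkQ (u i)) : LinearIndependent F u := by
  obtain ⟨a, rfl⟩ : ∃ b, a = b + 1 := ⟨a - 1, by ring⟩
  have h1 : M a ≤ (BG_T x M).comap (BG_mul k V (x ^ (-(a + 1)))) := by
    intro v hv
    refine Submodule.mem_iSup_of_mem a ?_
    change x ^ (a + 1) • x ^ (-(a + 1)) • v ∈ M a
    rwa [smul_smul, ← zpow_add₀ hx0, add_neg_cancel, zpow_zero, one_smul]
  have h2 : LinearIndependent k fun i => (M a).mkQ (x ^ (a + 1) • u i) := by
    refine LinearIndependent.of_comp ((M a).mapQ (BG_T x M) _ h1) ?_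
    convert hli using 1
    funext i
    change (BG_T x M).mkQ (x ^ (-(a + 1)) • x ^ (a + 1) • u i) = _
    rw [smul_smul, ← zpow_add₀ hx0, neg_add_cancel, zpow_zero, one_smul]
  exact LinearIndependent.of_comp (LinearMap.lsmul F V (x ^ (a + 1)))
    (hM.linearIndependent hx hu h2)

theorem BG_finrank {J : Type} [Fintype J] {w : J → V} (hw : LinearIndependent F w)
    (htr : Transcendental k x) (n : J → ℕ) {N : Submodule k V}
    (hN : ∀ v, v ∈ N ↔ ∃ p : J → k[X], (∀ j, (p j).degree < n j) ∧ v = ∑ j, aeval x (p j) • w j) :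
    FiniteDimensional k N ∧ Module.finrank k N = ∑ j, n j := by
  let φ : ((j : J) → degreeLT k (n j)) →ₗ[k] V :=
    { toFun := fun p => ∑ j, aeval x (p j : k[X]) • w j
      map_add' := fun p q => by simp [add_smul, Finset.sum_add_distrib]
      map_smul' := fun c p => by simp [Finset.smul_sum] }
  have h1 : Function.Injective φ := by
    rw [injective_iff_map_eq_zero]
    intro p hp
    funext j
    have h2 := Fintype.linearIndependent_iff.1 hw (fun j => aeval x (p j : k[X])) hp j
    exact Subtype.ext (transcendental_iff.1 htr _ h2)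
  have h2 : LinearMap.range φ = N := by
    ext v
    rw [hN]
    constructor
    · rintro ⟨p, rfl⟩
      exact ⟨fun j => p j, fun j => mem_degreeLT.1 (p j).2, rfl⟩
    · rintro ⟨p, hp, rfl⟩
      exact ⟨fun j => ⟨p j, mem_degreeLT.2 (hp j)⟩, rfl⟩
  have h3 : ∀ j, FiniteDimensional k (degreeLT k (n j)) := fun j =>
    (degreeLTEquiv k (n j)).symm.finiteDimensional
  subst h2
  refine ⟨inferInstance, ?_⟩
  rw [LinearMap.finrank_range_of_inj h1, Module.finrank_pi_fintype]
  exact Finset.sum_congr rfl fun j _ => by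
    rw [(degreeLTEquiv k (n j)).finrank_eq, Module.finrank_fin_fun]

/-- Birkhoff–Grothendieck.  Plan: `N a = M a ⧸ M (a-1)`; `x : N a → N (a+1)` is injective (`sat`), the
dimensions are bounded (`rank_succ_le`), so `x` is bijective for large `a`.  For each `a` choose lifts of a
basis of a complement of `x • N (a-1)` in `N a`.  (A convenient induction: for every `a` there is a finite
family `(w j, d j)`, `d j ≤ a`, such that the statement holds for all `a' ≤ a` and the images of
`x ^ (a - d j) • w j` are a basis of `N a`.) -/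
theorem IsFam.split (hM : IsFam x M) (htr : Transcendental k x)
    (hx : ∀ f : F, ∃ p q : k[X], aeval x q ≠ 0 ∧ f * aeval x q = aeval x p)
    (hfin : FiniteDimensional F (Submodule.span F (⋃ a, (M a : Set V))))
    (hbot : ∃ a0, M a0 = ⊥) :
    ∃ (J : Type) (_ : Fintype J) (w : J → V) (d : J → ℤ), LinearIndependent F w ∧
      (∀ j, w j ∈ M (d j)) ∧
      (∀ a v, v ∈ M a ↔ ∃ p : J → k[X], (∀ j, p j = 0 ∨ d j + (p j).natDegree ≤ a) ∧
        v = ∑ j, aeval x (p j) • w j) ∧
      (∀ a, FiniteDimensional k (M a)) ∧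
      (∀ a, Module.finrank k (M a) = ∑ j, (a - d j + 1).toNat) := by
  classical
  obtain ⟨a0, h0⟩ := hbot
  have hx0 : x ≠ 0 := fun h => htr (h ▸ isAlgebraic_zero)
  have hG : Monotone fun a : ℤ => ((M a).comap (BG_mul k V (x ^ a))).map (BG_T x M).mkQ := by
    refine fun a b h => Submodule.map_mono fun v hv => ?_
    have h1 := BG_zpow_mul hM hx0 h (c := 0) (v := v) (by rw [add_zero]; exact hv)
    rwa [add_zero] at h1
  obtain ⟨J, hJ, e, d, he, hed, hsp⟩ := BG_adapted hG (a0 := a0)
    (n := Module.finrank F (Submodule.span F (⋃ a, (M a : Set V)))) (by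
      rw [h0, Submodule.comap_bot, LinearMap.ker_eq_bot.2, Submodule.map_bot]
      exact smul_right_injective V (zpow_ne_zero a0 hx0)) (fun a => by
      rw [Module.finrank_eq_rank]
      refine BG_rank_map_le _ _ _ (fun v hv => ?_) fun ι u hu hli => BG_indep hM hx0 hx hu hli
      rw [← Submodule.smul_mem_iff _ (zpow_ne_zero a hx0)]
      exact Submodule.subset_span (Set.mem_iUnion.2 ⟨a, hv⟩))
  choose u hu hπ using fun j => Submodule.mem_map.1 (hed j)
  have hu' : ∀ a j, d j ≤ a → x ^ a • u j ∈ M a := by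
    intro a j h
    have h1 := BG_zpow_mul hM hx0 h (c := 0) (v := u j) (by rw [add_zero]; exact hu j)
    rwa [add_zero] at h1
  have hw : LinearIndependent F fun j => x ^ d j • u j := by
    obtain ⟨a, ha⟩ := (Set.finite_range d).bddAbove
    have h1 := BG_indep hM hx0 hx (fun j => hu' a j (ha ⟨j, rfl⟩)) (by simpa only [hπ] using he)
    exact h1.units_smul fun j => Units.mk0 _ (zpow_ne_zero (d j) hx0)
  have hspan : ∀ (m : ℕ) (a : ℤ), a ≤ a0 + m → ∀ v ∈ M a, ∃ p : J → k[X],
      (∀ j, (p j).degree < (a - d j + 1).toNat) ∧ v = ∑ j, aeval x (p j) • x ^ d j • u j := by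
    intro m
    induction m with
    | zero =>
      intro a ha v hv
      have h1 := hM.mono_le (b := a0) (by simpa using ha) hv
      rw [h0, Submodule.mem_bot] at h1
      exact ⟨0, fun j => WithBot.bot_lt_coe _, by simp [h1]⟩
    | succ m ih =>
      intro a ha v hv
      obtain ⟨a, rfl⟩ : ∃ b, a = b + 1 := ⟨a - 1, by ring⟩
      have h1 : x ^ (a + 1) • x ^ (-(a + 1)) • v = v := by
        rw [smul_smul, ← zpow_add₀ hx0, add_neg_cancel, zpow_zero, one_smul]
      have h2 := hsp (a + 1) (Submodule.mem_map_of_mem (f := (BG_T x M).mkQ)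
        (r := x ^ (-(a + 1)) • v) (by rwa [Submodule.mem_comap, BG_mul_apply, h1]))
      rw [show {j | d j ≤ a + 1} = (Finset.univ.filter fun j => d j ≤ a + 1 : Finset J) by simp,
        Submodule.mem_span_image_finset_iff_exists_fun'] at h2
      obtain ⟨c, hc⟩ := h2
      have h3 : x ^ (-(a + 1)) • v - ∑ j ∈ Finset.univ.filter fun j => d j ≤ a + 1, c j • u j ∈
          BG_T x M := by
        rw [← Submodule.Quotient.mk_eq_zero, ← Submodule.mkQ_apply, map_sub, map_sum, ← hc]
        simp only [map_smul, hπ, sub_self]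
      have h4 := BG_mem_of_mem_T hM hx0 (a := a) (by
        rw [smul_sub, h1, Finset.smul_sum]
        refine sub_mem hv (Submodule.sum_mem _ fun j hj => ?_)
        rw [smul_comm]
        exact Submodule.smul_mem _ _ (hu' _ j (Finset.mem_filter.1 hj).2)) h3
      obtain ⟨p, hp, h5⟩ := ih a (by push_cast at ha; omega) _ h4
      refine ⟨fun j => p j + if d j ≤ a + 1 then monomial (a + 1 - d j).toNat (c j) else 0,
        fun j => (degree_add_le _ _).trans_lt (max_lt ((hp j).trans_le ?_) ?_), ?_⟩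
      · exact_mod_cast Int.toNat_le_toNat (by omega)
      · split_ifs with h6
        · refine (degree_monomial_le _ _).trans_lt ?_
          exact_mod_cast (by omega : (a + 1 - d j).toNat < (a + 1 - d j + 1).toNat)
        · exact WithBot.bot_lt_coe _
      · rw [smul_sub, h1, sub_eq_iff_eq_add] at h5
        rw [h5, Finset.smul_sum, Finset.sum_filter, ← Finset.sum_add_distrib]
        refine Finset.sum_congr rfl fun j _ => ?_
        rw [map_add, add_smul]
        congr 1
        split_ifs with h6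
        · rw [aeval_monomial, mul_smul, algebraMap_smul, smul_comm, smul_smul, ← zpow_natCast,
            ← zpow_add₀ hx0, Int.toNat_of_nonneg (by omega), sub_add_cancel]
        · simp
  have hdeg : ∀ (p : k[X]) (a b : ℤ), p.degree < (a - b + 1).toNat ↔
      p = 0 ∨ b + p.natDegree ≤ a := by
    intro p a b
    by_cases hp : p = 0
    · simp [hp]
    · rw [← natDegree_lt_iff_degree_lt hp, or_iff_right hp]
      omega
  have hmem : ∀ a v, v ∈ M a ↔ ∃ p : J → k[X],
      (∀ j, (p j).degree < (a - d j + 1).toNat) ∧ v = ∑ j, aeval x (p j) • x ^ d j • u j := by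
    refine fun a v => ⟨hspan (a - a0).toNat a (by omega) v, ?_⟩
    rintro ⟨p, hp, rfl⟩
    refine Submodule.sum_mem _ fun j _ => ?_
    rcases (hdeg _ _ _).1 (hp j) with h | h
    · simp [h]
    · exact hM.mono_le h (hM.aeval_mul (hu j) _)
  refine ⟨J, hJ, fun j => x ^ d j • u j, d, hw, hu, fun a v => ?_,
    fun a => (BG_finrank hw htr _ (hmem a)).1, fun a => (BG_finrank hw htr _ (hmem a)).2⟩
  simp only [hmem, hdeg]

end Crest.Agent.R169
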