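import Crest.Agent.R169.Omega
import Crest.Agent.R169.BG

/-! # Abstract lattice families on `P¹` split -/

set_option autoImplicit false

namespace Crest.Agent.R169

noncomputable section

open Matrix Polynomial

namespace PlaceSys

variable {k : Type} [Field k] (PS : PlaceSys k)

theorem AS_nu_inv (v : PS.ι) {f : RatFunc k} (hf : f ≠ 0) : PS.nu v f⁻¹ = -PS.nu v f := by
  have h := PS.nu_mul v f f⁻¹ hf (inv_ne_zero hf)
  rw [mul_inv_cancel₀ hf, PS.nu_one] at h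
  omega

theorem AS_nu_eq_zero (v : PS.ι) {f : RatFunc k} (hf : f ≠ 0) (h1 : f ∈ PS.O v)
    (h2 : f⁻¹ ∈ PS.O v) : PS.nu v f = 0 := by
  have a1 := (PS.mem_iff v f hf).1 h1
  have a2 := (PS.mem_iff v f⁻¹ (inv_ne_zero hf)).1 h2
  rw [PS.AS_nu_inv v hf] at a2
  omega

theorem AS_nu_prod (v : PS.ι) {J : Type} (s : Finset J) {x : J → RatFunc k}
    (hx : ∀ j ∈ s, x j ≠ 0) : PS.nu v (∏ j ∈ s, x j) = ∑ j ∈ s, PS.nu v (x j) := by
  classical
  induction s using Finset.induction_on with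
  | empty => simp [PS.nu_one]
  | insert a s ha ih =>
    rw [Finset.prod_insert ha, Finset.sum_insert ha,
      PS.nu_mul v _ _ (hx a (by simp)) (Finset.prod_ne_zero_iff.2 fun j hj => hx j (by simp [hj])),
      ih fun j hj => hx j (by simp [hj])]

theorem AS_nu_inf_zpow (a : ℤ) : PS.nu PS.inf ((RatFunc.X : RatFunc k) ^ a) = -a := by
  rw [PS.nu_zpow _ RatFunc.X_ne_zero, PS.nu_inf_X]; ring

theorem AS_poly_ne {p : k[X]} (hp : p ≠ 0) : algebraMap k[X] (RatFunc k) p ≠ 0 :=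
  RatFunc.algebraMap_ne_zero hp

theorem AS_nu_inf_poly {p : k[X]} (hp : p ≠ 0) :
    PS.nu PS.inf (algebraMap k[X] (RatFunc k) p) = -(p.natDegree : ℤ) := by
  have hX : (RatFunc.X : RatFunc k) ≠ 0 := RatFunc.X_ne_zero
  let _ : Invertible (RatFunc.X : RatFunc k) := invertibleOfNonzero hX
  have h1 := eval₂_reverse_mul_pow (algebraMap k (RatFunc k)) (RatFunc.X : RatFunc k) p
  rw [invOf_eq_inv, ← aeval_def, ← aeval_def, RatFunc.aeval_X_left_eq_algebraMap] at h1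
  have hc : (reverse p).coeff 0 ≠ 0 := by
    rw [coeff_zero_reverse]; exact leadingCoeff_ne_zero.2 hp
  have hne : aeval (RatFunc.X : RatFunc k)⁻¹ (reverse p) ≠ 0 := by
    intro h0
    rw [h0, zero_mul] at h1
    exact AS_poly_ne hp h1.symm
  have m1 : aeval (RatFunc.X : RatFunc k)⁻¹ (reverse p) ∈ PS.O PS.inf :=
    (PS.loc_inf _).2 ⟨1, reverse p, by simp, by simp⟩
  have m2 : (aeval (RatFunc.X : RatFunc k)⁻¹ (reverse p))⁻¹ ∈ PS.O PS.inf :=
    (PS.loc_inf _).2 ⟨reverse p, 1, hc, by rw [mul_inv_cancel₀ hne]; simp⟩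
  have h0 := PS.AS_nu_eq_zero PS.inf hne m1 m2
  rw [← h1, PS.nu_mul _ _ _ hne (pow_ne_zero _ hX), h0, ← zpow_natCast, PS.AS_nu_inf_zpow]
  simp

theorem AS_zpow_mem_inf {a : ℤ} (ha : a ≤ 0) : (RatFunc.X : RatFunc k) ^ a ∈ PS.O PS.inf := by
  rw [PS.mem_iff _ _ (zpow_ne_zero _ RatFunc.X_ne_zero), PS.AS_nu_inf_zpow]
  omega

/-- a polynomial divisible by finitely many given local denominators -/
theorem AS_exists_poly (S : Finset PS.ι) (d : PS.ι → RatFunc k) (hd : ∀ v, d v ≠ 0) :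
    ∃ q : k[X], q ≠ 0 ∧ ∀ v ∈ S, v ≠ PS.inf →
      algebraMap k[X] (RatFunc k) q * (d v)⁻¹ ∈ PS.O v := by
  classical
  refine ⟨∏ v ∈ S, (d v).num, Finset.prod_ne_zero_iff.2 fun v _ => RatFunc.num_ne_zero (hd v), ?_⟩
  intro v hv hvi
  rw [← Finset.mul_prod_erase S _ hv, map_mul]
  have h1 : algebraMap k[X] (RatFunc k) (d v).num * (d v)⁻¹ =
      algebraMap k[X] (RatFunc k) (d v).denom := by
    have h2 := RatFunc.num_div_denom (d v)
    have h3 : algebraMap k[X] (RatFunc k) (d v).denom ≠ 0 := AS_poly_ne (RatFunc.denom_ne_zero _)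
    rw [div_eq_iff h3] at h2
    rw [h2]
    field_simp [hd v]
  rw [mul_right_comm, h1]
  exact (PS.O v).mul_mem (PS.poly_mem v hvi _) (PS.poly_mem v hvi _)

/-- a family of local lattices in a vector space over `k(X)` -/
structure LatFam {V : Type} [AddCommGroup V] [Module (RatFunc k) V] (Λ : PS.ι → Set V) : Prop where
  zero : ∀ v, (0 : V) ∈ Λ v
  add : ∀ v x y, x ∈ Λ v → y ∈ Λ v → x + y ∈ Λ v
  smul : ∀ v f, f ∈ PS.O v → ∀ x ∈ Λ v, f • x ∈ Λ v
  ae : ∀ y, {v | y ∉ Λ v}.Finite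
  denom : ∀ v y, ∃ d : RatFunc k, d ≠ 0 ∧ d • y ∈ Λ v
  bdd : ∃ (J : Type) (_ : Fintype J) (φ : J → V →ₗ[RatFunc k] RatFunc k),
    (∀ y, (∀ j, φ j y = 0) → y = 0) ∧ (∀ j, {v | ∃ y ∈ Λ v, φ j y ∉ PS.O v}.Finite) ∧
    ∀ j v, ∃ d : RatFunc k, d ≠ 0 ∧ ∀ y ∈ Λ v, d * φ j y ∈ PS.O v

variable {PS}
variable {V : Type} [AddCommGroup V] [Module (RatFunc k) V] {Λ : PS.ι → Set V}

theorem LatFam.sum (h : PS.LatFam Λ) (v : PS.ι) {J : Type} (s : Finset J) {x : J → V}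
    (hx : ∀ j ∈ s, x j ∈ Λ v) : ∑ j ∈ s, x j ∈ Λ v := by
  classical
  induction s using Finset.induction_on with
  | empty => simpa using h.zero v
  | insert a s ha ih =>
    rw [Finset.sum_insert ha]
    exact h.add v _ _ (hx a (by simp)) (ih fun j hj => hx j (by simp [hj]))

theorem LatFam.exists_glob (h : PS.LatFam Λ) (y : V) :
    ∃ q : k[X], q ≠ 0 ∧ ∀ v, v ≠ PS.inf → algebraMap k[X] (RatFunc k) q • y ∈ Λ v := by
  classical
  choose d hd hdy using fun v => h.denom v y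
  obtain ⟨q, hq, hqd⟩ := PS.AS_exists_poly (h.ae y).toFinset d hd
  refine ⟨q, hq, fun v hv => ?_⟩
  by_cases hy : y ∈ Λ v
  · exact h.smul v _ (PS.poly_mem v hv _) _ hy
  · have h1 := h.smul v _ (hqd v (by simpa using hy) hv) _ (hdy v)
    rwa [smul_smul, inv_mul_cancel_right₀ (hd v)] at h1

theorem LatFam.exists_loc (h : PS.LatFam Λ) {v : PS.ι} (hv : v ≠ PS.inf) {y : V} (hy : y ∈ Λ v) :
    ∃ q : k[X], q ≠ 0 ∧ PS.nu v (algebraMap k[X] (RatFunc k) q) = 0 ∧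
      ∀ w, w ≠ PS.inf → algebraMap k[X] (RatFunc k) q • y ∈ Λ w := by
  classical
  choose d hd hdy using fun v => h.denom v y
  choose s hs hsv hsw using fun w => PS.approx v hv (d w)⁻¹
  refine ⟨∏ w ∈ (h.ae y).toFinset, s w, Finset.prod_ne_zero_iff.2 fun w _ => hs w, ?_, ?_⟩
  · rw [map_prod, PS.AS_nu_prod v _ fun w _ => AS_poly_ne (hs w)]
    simp [hsv]
  · intro w hw
    by_cases hyw : y ∈ Λ w
    · exact h.smul w _ (PS.poly_mem w hw _) _ hyw
    · have hwv : w ≠ v := fun e => hyw (e ▸ hy)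
      have hmem : w ∈ (h.ae y).toFinset := by simpa using hyw
      rw [← Finset.mul_prod_erase _ _ hmem, mul_comm, map_mul, mul_smul]
      refine h.smul w _ (PS.poly_mem w hw _) _ ?_
      have h1 := h.smul w _ (hsw w w hw hwv) _ (hdy w)
      rwa [smul_smul, inv_mul_cancel_right₀ (hd w)] at h1

theorem LatFam.exists_inf (h : PS.LatFam Λ) (y : V) :
    ∃ D : ℤ, (RatFunc.X : RatFunc k) ^ (-D) • y ∈ Λ PS.inf := by
  obtain ⟨d, hd, hdy⟩ := h.denom PS.inf y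
  refine ⟨PS.nu PS.inf d, ?_⟩
  have hm : (RatFunc.X : RatFunc k) ^ (-PS.nu PS.inf d) * d⁻¹ ∈ PS.O PS.inf := by
    rw [PS.mem_iff _ _ (mul_ne_zero (zpow_ne_zero _ RatFunc.X_ne_zero) (inv_ne_zero hd)),
      PS.nu_mul _ _ _ (zpow_ne_zero _ RatFunc.X_ne_zero) (inv_ne_zero hd), PS.AS_nu_inf_zpow,
      PS.AS_nu_inv _ hd]
    omega
  have h1 := h.smul _ _ hm _ hdy
  rwa [smul_smul, inv_mul_cancel_right₀ hd] at h1

theorem LatFam.exists_bot (h : PS.LatFam Λ) : ∃ b : ℤ, ∀ y : V, (∀ v, v ≠ PS.inf → y ∈ Λ v) →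
    (RatFunc.X : RatFunc k) ^ (-b) • y ∈ Λ PS.inf → y = 0 := by
  classical
  obtain ⟨J, _, φ, hsep, hae, hd⟩ := h.bdd
  have key : ∀ j, ∃ b : ℤ, ∀ b' ≤ b, ∀ y : V, (∀ v, v ≠ PS.inf → y ∈ Λ v) →
      (RatFunc.X : RatFunc k) ^ (-b') • y ∈ Λ PS.inf → φ j y = 0 := by
    intro j
    choose d hd0 hdy using hd j
    obtain ⟨q, hq, hqd⟩ := PS.AS_exists_poly (hae j).toFinset d hd0
    refine ⟨-(q.natDegree : ℤ) - PS.nu PS.inf (d PS.inf) - 1, fun b' hb' y hy hyi => ?_⟩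
    by_contra hne
    have h1 : ∀ v, v ≠ PS.inf → algebraMap k[X] (RatFunc k) q * φ j y ∈ PS.O v := by
      intro v hv
      by_cases hm : φ j y ∈ PS.O v
      · exact (PS.O v).mul_mem (PS.poly_mem v hv _) hm
      · have h2 := (PS.O v).mul_mem (hqd v (by simpa using ⟨y, hy v hv, hm⟩) hv) (hdy v y (hy v hv))
        rwa [mul_assoc, inv_mul_cancel_left₀ (hd0 v)] at h2
    obtain ⟨p, hp⟩ := PS.glob _ h1
    have hp0 : p ≠ 0 := by
      rintro rfl
      rw [map_zero] at hp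
      exact mul_ne_zero (AS_poly_ne hq) hne hp
    have h3 := congrArg (PS.nu PS.inf) hp
    rw [PS.nu_mul _ _ _ (AS_poly_ne hq) hne, PS.AS_nu_inf_poly hq, PS.AS_nu_inf_poly hp0] at h3
    have h4 := hdy PS.inf _ hyi
    have hX : (RatFunc.X : RatFunc k) ^ (-b') ≠ 0 := zpow_ne_zero _ RatFunc.X_ne_zero
    rw [map_smul, smul_eq_mul, PS.mem_iff _ _ (mul_ne_zero (hd0 _) (mul_ne_zero hX hne)),
      PS.nu_mul _ _ _ (hd0 _) (mul_ne_zero hX hne), PS.nu_mul _ _ _ hX hne,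
      PS.AS_nu_inf_zpow] at h4
    omega
  choose b hb using key
  obtain ⟨B, hB⟩ : ∃ B : ℤ, ∀ j, B ≤ b j := by
    obtain ⟨B, hB⟩ := (Set.finite_range b).bddBelow
    exact ⟨B, fun j => hB ⟨j, rfl⟩⟩
  exact ⟨B, fun y hy hyi => hsep y fun j => hb j B (hB j) y hy hyi⟩

open Classical in
theorem LatFam.split [FiniteDimensional (RatFunc k) V] (h : PS.LatFam Λ) :
    ∃ (J : Type) (_ : Fintype J) (x : Module.Basis J (RatFunc k) V) (a : J → ℤ),
      ∀ v y, y ∈ Λ v ↔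
        ∀ j, (if v = PS.inf then RatFunc.X ^ a j else 1) * x.repr y j ∈ PS.O v := by
  let _ : Module k V := Module.compHom V (algebraMap k (RatFunc k))
  have _ : IsScalarTower k (RatFunc k) V := ⟨fun c f y => by
    change (c • f) • y = algebraMap k (RatFunc k) c • f • y
    rw [Algebra.smul_def, mul_smul]⟩
  have hX : (RatFunc.X : RatFunc k) ≠ 0 := RatFunc.X_ne_zero
  have hks : ∀ (c : k) (y : V), c • y = algebraMap k (RatFunc k) c • y := fun _ _ => rfl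
  let M : ℤ → Submodule k V := fun b =>
    { carrier := {y | (∀ v, v ≠ PS.inf → y ∈ Λ v) ∧ (RatFunc.X : RatFunc k) ^ (-b) • y ∈ Λ PS.inf}
      zero_mem' := ⟨fun v _ => h.zero v, by simpa using h.zero _⟩
      add_mem' := fun {x y} hx hy => ⟨fun v hv => h.add v _ _ (hx.1 v hv) (hy.1 v hv), by
        rw [smul_add]; exact h.add _ _ _ hx.2 hy.2⟩
      smul_mem' := fun c y hy => ⟨fun v hv => by
        rw [hks]; exact h.smul v _ ((PS.O v).algebraMap_mem c) _ (hy.1 v hv), by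
        rw [hks, smul_comm]; exact h.smul _ _ ((PS.O _).algebraMap_mem c) _ hy.2⟩ }
  have hM : ∀ b y, y ∈ M b ↔
      (∀ v, v ≠ PS.inf → y ∈ Λ v) ∧ (RatFunc.X : RatFunc k) ^ (-b) • y ∈ Λ PS.inf := fun _ _ => Iff.rfl
  have hfam : IsFam (RatFunc.X : RatFunc k) M := by
    refine ⟨fun a y hy => ?_, fun a y hy => ?_, fun a y hy hxy => ?_⟩
    · rw [hM] at hy ⊢
      refine ⟨hy.1, ?_⟩
      have h1 := h.smul _ _ (PS.AS_zpow_mem_inf (a := -1) (by norm_num)) _ hy.2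
      rw [smul_smul, ← zpow_add₀ hX] at h1
      convert h1 using 3; ring
    · rw [hM] at hy ⊢
      refine ⟨fun v hv => h.smul v _ ?_ _ (hy.1 v hv), ?_⟩
      · simpa using PS.poly_mem v hv X
      · rw [smul_smul, ← zpow_add_one₀ hX]
        convert hy.2 using 3; ring
    · rw [hM] at hy hxy ⊢
      refine ⟨hy.1, ?_⟩
      have h1 := hxy.2
      rw [smul_smul, ← zpow_add_one₀ hX] at h1
      convert h1 using 3; ring
  obtain ⟨J, hJ, w, d, hli, hw, hsp, -, -⟩ := hfam.split RatFunc.transcendental_X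
    (fun f => ⟨f.num, f.denom, by
      rw [RatFunc.aeval_X_left_eq_algebraMap]; exact AS_poly_ne (RatFunc.denom_ne_zero _), by
      rw [RatFunc.aeval_X_left_eq_algebraMap, RatFunc.aeval_X_left_eq_algebraMap]
      have h2 := RatFunc.num_div_denom f
      rw [div_eq_iff (AS_poly_ne (RatFunc.denom_ne_zero _))] at h2
      exact h2.symm⟩) inferInstance (by
      obtain ⟨b, hb⟩ := h.exists_bot
      exact ⟨b, (Submodule.eq_bot_iff _).2 fun y hy => hb y hy.1 hy.2⟩)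
  have hspan : ⊤ ≤ Submodule.span (RatFunc k) (Set.range w) := by
    intro y _
    obtain ⟨q, hq, hqy⟩ := h.exists_glob y
    obtain ⟨D, hD⟩ := h.exists_inf (algebraMap k[X] (RatFunc k) q • y)
    obtain ⟨p, -, hp⟩ := (hsp D _).1 ((hM D _).2 ⟨hqy, hD⟩)
    have h1 : y = (algebraMap k[X] (RatFunc k) q)⁻¹ • algebraMap k[X] (RatFunc k) q • y := by
      rw [smul_smul, inv_mul_cancel₀ (AS_poly_ne hq), one_smul]
    rw [h1, hp]
    exact Submodule.smul_mem _ _ (Submodule.sum_mem _ fun j _ =>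
      Submodule.smul_mem _ _ (Submodule.subset_span ⟨j, rfl⟩))
  let x : Module.Basis J (RatFunc k) V := Module.Basis.mk hli hspan
  have hx : ∀ j, x j = w j := fun j => Module.Basis.mk_apply hli hspan j
  have hrepr : ∀ (q : k[X]) (y : V) (p : J → k[X]), q ≠ 0 →
      algebraMap k[X] (RatFunc k) q • y = ∑ j, aeval (RatFunc.X : RatFunc k) (p j) • w j →
      ∀ j, x.repr y j = (algebraMap k[X] (RatFunc k) q)⁻¹ * algebraMap k[X] (RatFunc k) (p j) := by
    intro q y p hq hp j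
    have h1 := congrArg (fun z => x.repr z j) hp
    simp only [← hx, map_smul, Finsupp.smul_apply, smul_eq_mul] at h1
    rw [x.repr_sum_self, RatFunc.aeval_X_left_eq_algebraMap] at h1
    rw [← h1, inv_mul_cancel_left₀ (AS_poly_ne hq)]
  refine ⟨J, hJ, x, d, fun v y => ⟨fun hy j => ?_, fun hy => ?_⟩⟩
  · by_cases hv : v = PS.inf
    · subst hv
      rw [if_pos rfl]
      obtain ⟨q, hq, hqy⟩ := h.exists_glob y
      have hD : (RatFunc.X : RatFunc k) ^ (-(q.natDegree : ℤ)) •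
          algebraMap k[X] (RatFunc k) q • y ∈ Λ PS.inf := by
        rw [smul_smul]
        refine h.smul _ _ ?_ _ hy
        rw [PS.mem_iff _ _ (mul_ne_zero (zpow_ne_zero _ hX) (AS_poly_ne hq)),
          PS.nu_mul _ _ _ (zpow_ne_zero _ hX) (AS_poly_ne hq), PS.AS_nu_inf_zpow,
          PS.AS_nu_inf_poly hq]
        omega
      obtain ⟨p, hpd, hp⟩ := (hsp _ _).1 ((hM _ _).2 ⟨hqy, hD⟩)
      rw [hrepr q y p hq hp j]
      by_cases hp0 : p j = 0
      · rw [hp0]; simp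
      · have h5 := (hpd j).resolve_left hp0
        have h6 : (algebraMap k[X] (RatFunc k) q)⁻¹ ≠ 0 := inv_ne_zero (AS_poly_ne hq)
        rw [PS.mem_iff _ _ (mul_ne_zero (zpow_ne_zero _ hX) (mul_ne_zero h6 (AS_poly_ne hp0))),
          PS.nu_mul _ _ _ (zpow_ne_zero _ hX) (mul_ne_zero h6 (AS_poly_ne hp0)),
          PS.nu_mul _ _ _ h6 (AS_poly_ne hp0), PS.AS_nu_inv _ (AS_poly_ne hq), PS.AS_nu_inf_zpow,
          PS.AS_nu_inf_poly hq, PS.AS_nu_inf_poly hp0]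
        omega
    · rw [if_neg hv, one_mul]
      obtain ⟨q, hq, hqv, hqy⟩ := h.exists_loc hv hy
      obtain ⟨D, hD⟩ := h.exists_inf (algebraMap k[X] (RatFunc k) q • y)
      obtain ⟨p, -, hp⟩ := (hsp D _).1 ((hM D _).2 ⟨hqy, hD⟩)
      rw [hrepr q y p hq hp j]
      refine (PS.O v).mul_mem ?_ (PS.poly_mem v hv _)
      rw [PS.mem_iff _ _ (inv_ne_zero (AS_poly_ne hq)), PS.AS_nu_inv _ (AS_poly_ne hq), hqv]
      simp
  · rw [← x.sum_repr y]
    refine h.sum v _ fun j _ => ?_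
    have h1 := hy j
    have h2 := (hM _ _).1 (hw j)
    by_cases hv : v = PS.inf
    · subst hv
      rw [if_pos rfl] at h1
      have h3 := h.smul _ _ h1 _ h2.2
      rw [smul_smul, mul_right_comm, ← zpow_add₀ hX, add_neg_cancel, zpow_zero, one_mul] at h3
      rwa [hx]
    · rw [if_neg hv, one_mul] at h1
      rw [hx]
      exact h.smul _ _ h1 _ (h2.1 v hv)

variable (PS)

theorem AS_det_mem (v : PS.ι) {J : Type} [Fintype J] [DecidableEq J] {P : Matrix J J (RatFunc k)}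
    (hP : ∀ i j, P i j ∈ PS.O v) : P.det ∈ PS.O v := by
  rw [Matrix.det_apply]
  refine Subalgebra.sum_mem _ fun σ _ => ?_
  rw [Units.smul_def, zsmul_eq_mul]
  exact (PS.O v).mul_mem (intCast_mem _ _) (Subalgebra.prod_mem _ fun i _ => hP _ _)

/-- comparison of two weighted coordinate lattices -/
theorem AS_nu_det (v : PS.ι) {J : Type} [Fintype J] [DecidableEq J] {P : Matrix J J (RatFunc k)}
    (hP : P.det ≠ 0) {c c' : J → RatFunc k} (hc : ∀ j, c j ≠ 0) (hc' : ∀ j, c' j ≠ 0)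
    (h : ∀ z : J → RatFunc k, (∀ j, c j * z j ∈ PS.O v) ↔ ∀ j, c' j * (P *ᵥ z) j ∈ PS.O v) :
    PS.nu v P.det + ∑ j, PS.nu v (c' j) = ∑ j, PS.nu v (c j) := by
  have hu : IsUnit P.det := isUnit_iff_ne_zero.2 hP
  have h1 : ∀ i j, (diagonal c' * P * diagonal (fun j => (c j)⁻¹)) i j ∈ PS.O v := by
    intro i j
    have := (h (Pi.single j (c j)⁻¹)).1 (fun l => by
      by_cases hl : l = j
      · subst hl; simp [hc l]
      · simp [hl]) i
    simpa [mul_assoc] using this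
  have h2 : ∀ i j, (diagonal c * P⁻¹ * diagonal (fun j => (c' j)⁻¹)) i j ∈ PS.O v := by
    intro i j
    have := (h (P⁻¹ *ᵥ Pi.single j (c' j)⁻¹)).2 (fun l => by
      rw [mulVec_mulVec, mul_nonsing_inv _ hu, one_mulVec]
      by_cases hl : l = j
      · subst hl; simp [hc' l]
      · simp [hl]) i
    simpa [mul_assoc] using this
  have d1 := PS.AS_det_mem v h1
  have d2 := PS.AS_det_mem v h2
  rw [det_mul, det_mul, det_diagonal, det_diagonal] at d1 d2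
  rw [det_nonsing_inv, Ring.inverse_eq_inv'] at d2
  have p1 : ∏ j, c j ≠ 0 := Finset.prod_ne_zero_iff.2 fun j _ => hc j
  have p2 : ∏ j, c' j ≠ 0 := Finset.prod_ne_zero_iff.2 fun j _ => hc' j
  rw [Finset.prod_inv_distrib] at d1 d2
  rw [PS.mem_iff _ _ (mul_ne_zero (mul_ne_zero p2 hP) (inv_ne_zero p1)),
    PS.nu_mul _ _ _ (mul_ne_zero p2 hP) (inv_ne_zero p1), PS.nu_mul _ _ _ p2 hP,
    PS.AS_nu_inv _ p1] at d1
  rw [PS.mem_iff _ _ (mul_ne_zero (mul_ne_zero p1 (inv_ne_zero hP)) (inv_ne_zero p2)),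
    PS.nu_mul _ _ _ (mul_ne_zero p1 (inv_ne_zero hP)) (inv_ne_zero p2),
    PS.nu_mul _ _ _ p1 (inv_ne_zero hP), PS.AS_nu_inv _ p2, PS.AS_nu_inv _ hP] at d2
  rw [PS.AS_nu_prod _ _ fun j _ => hc j, PS.AS_nu_prod _ _ fun j _ => hc' j] at d1 d2
  omega

end PlaceSys

end

end Crest.Agent.R169
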