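import Crest.Agent.R169.CDefs

/-! # Linear algebra over an adelic system -/

set_option autoImplicit false

namespace Crest.Agent.R169

noncomputable section

open Matrix
open scoped Kronecker

namespace AdSys

variable {L : Type} [Field L] (A : AdSys L)

theorem ν_one (v : A.ι) : A.ν v 1 = 0 := by
  have := A.ν_mul v 1 1 one_ne_zero one_ne_zero
  rw [mul_one] at this
  linarith

theorem ν_inv (v : A.ι) {x : L} (hx : x ≠ 0) : A.ν v x⁻¹ = -A.ν v x := by
  have := A.ν_mul v x x⁻¹ hx (inv_ne_zero hx)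
  rw [mul_inv_cancel₀ hx, A.ν_one] at this
  linarith

theorem ν_eq_zero (v : A.ι) {x : L} (hx : x ≠ 0) (h : x ∈ A.I v) (h' : x⁻¹ ∈ A.I v) : A.ν v x = 0 := by
  have h1 := A.ν_nonneg v x hx h
  have h2 := A.ν_nonneg v x⁻¹ (inv_ne_zero hx) h'
  rw [A.ν_inv v hx] at h2
  linarith

theorem ν_prod (v : A.ι) {J : Type} (s : Finset J) {x : J → L} (hx : ∀ j ∈ s, x j ≠ 0) :
    A.ν v (∏ j ∈ s, x j) = ∑ j ∈ s, A.ν v (x j) := by
  classical
  induction s using Finset.induction_on with
  | empty => simp [A.ν_one]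
  | insert j s hj ih =>
    have h1 : ∀ i ∈ s, x i ≠ 0 := fun i hi => hx i (Finset.mem_insert_of_mem hi)
    rw [Finset.prod_insert hj, Finset.sum_insert hj,
      A.ν_mul v _ _ (hx j (Finset.mem_insert_self _ _)) (Finset.prod_ne_zero_iff.2 h1), ih h1]

variable {A}

theorem IsIdele.finite_support {c : A.ι → L} (h : A.IsIdele c) :
    (Function.support fun v => A.ν v (c v)).Finite := by
  refine h.2.subset fun v hv => ?_
  by_contra h'
  simp only [Set.mem_ofPred_eq, not_or, not_not] at h'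
  exact hv (A.ν_eq_zero v (h.1 v) h'.1 h'.2)

theorem isIdele_const {x : L} (hx : x ≠ 0) : A.IsIdele (fun _ => x) := by
  exact ⟨fun _ => hx, (A.fin_supp x).union (A.fin_supp x⁻¹)⟩

theorem IsIdele.mul {c c' : A.ι → L} (h : A.IsIdele c) (h' : A.IsIdele c') :
    A.IsIdele (fun v => c v * c' v) := by
  refine ⟨fun v => mul_ne_zero (h.1 v) (h'.1 v), (h.2.union h'.2).subset fun v hv => ?_⟩
  by_contra h1
  simp only [Set.mem_union, Set.mem_ofPred_eq, not_or, not_not] at h1
  rcases hv with hv | hv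
  · exact hv (mul_mem h1.1.1 h1.2.1)
  · rw [mul_inv] at hv
    exact hv (mul_mem h1.1.2 h1.2.2)

theorem IsIdele.inv {c : A.ι → L} (h : A.IsIdele c) : A.IsIdele (fun v => (c v)⁻¹) := by
  refine ⟨fun v => inv_ne_zero (h.1 v), h.2.subset fun v hv => ?_⟩
  simp only [Set.mem_ofPred_eq, inv_inv] at hv ⊢
  exact hv.symm

theorem IsIdele.zpow {c : A.ι → L} (h : A.IsIdele c) (n : ℤ) : A.IsIdele (fun v => c v ^ n) := by
  induction n using Int.induction_on with
  | zero => simpa using isIdele_const (A := A) one_ne_zero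
  | succ n ih => simpa only [zpow_add_one₀ (h.1 _)] using ih.mul h
  | pred n ih => simpa only [zpow_sub_one₀ (h.1 _)] using ih.mul h.inv

theorem IsIdele.prod {J : Type} (s : Finset J) {c : J → A.ι → L} (h : ∀ j ∈ s, A.IsIdele (c j)) :
    A.IsIdele (fun v => ∏ j ∈ s, c j v) := by
  classical
  induction s using Finset.induction_on with
  | empty => simpa using isIdele_const (A := A) one_ne_zero
  | insert j s hj ih =>
    simp only [Finset.prod_insert hj]
    exact (h j (Finset.mem_insert_self _ _)).mul (ih fun i hi => h i (Finset.mem_insert_of_mem hi))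

theorem deg_const {x : L} (hx : x ≠ 0) : A.deg (fun _ => x) = 0 := by
  rw [deg, A.prod x hx, neg_zero]

theorem deg_mul {c c' : A.ι → L} (h : A.IsIdele c) (h' : A.IsIdele c') :
    A.deg (fun v => c v * c' v) = A.deg c + A.deg c' := by
  unfold deg
  rw [← neg_add, ← finsum_add_distrib h.finite_support h'.finite_support]
  congr 1
  exact finsum_congr fun v => A.ν_mul v _ _ (h.1 v) (h'.1 v)

theorem deg_inv {c : A.ι → L} (h : A.IsIdele c) : A.deg (fun v => (c v)⁻¹) = -A.deg c := by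
  have h1 := deg_mul h h.inv
  simp only [mul_inv_cancel₀ (h.1 _)] at h1
  rw [deg_const one_ne_zero] at h1
  linarith

theorem deg_zpow {c : A.ι → L} (h : A.IsIdele c) (n : ℤ) :
    A.deg (fun v => c v ^ n) = n * A.deg c := by
  induction n using Int.induction_on with
  | zero => simpa using deg_const (A := A) one_ne_zero
  | succ n ih =>
    simp only [zpow_add_one₀ (h.1 _)]
    rw [deg_mul (h.zpow _) h, ih]
    push_cast
    ring
  | pred n ih =>
    simp only [zpow_sub_one₀ (h.1 _)]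
    rw [deg_mul (h.zpow _) h.inv, ih, deg_inv h]
    push_cast
    ring

theorem deg_prod {J : Type} (s : Finset J) {c : J → A.ι → L} (h : ∀ j ∈ s, A.IsIdele (c j)) :
    A.deg (fun v => ∏ j ∈ s, c j v) = ∑ j ∈ s, A.deg (c j) := by
  classical
  induction s using Finset.induction_on with
  | empty => simpa using deg_const (A := A) one_ne_zero
  | insert j s hj ih =>
    have h1 : ∀ i ∈ s, A.IsIdele (c i) := fun i hi => h i (Finset.mem_insert_of_mem hi)
    simp only [Finset.prod_insert hj, Finset.sum_insert hj]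
    rw [deg_mul (h j (Finset.mem_insert_self _ _)) (IsIdele.prod s h1), ih h1]

theorem iwa_deg_le {c c' : A.ι → L} (h : A.IsIdele c) (h' : A.IsIdele c')
    (hd : ∀ v, A.ν v (c v) ≤ A.ν v (c' v)) : A.deg c' ≤ A.deg c :=
  neg_le_neg (finsum_le_finsum' h.finite_support h'.finite_support hd)

theorem deg_le_of_dvd {c c' : A.ι → L} (h : A.IsIdele c) (h' : A.IsIdele c')
    (hd : ∀ v, (c v)⁻¹ * c' v ∈ A.I v) : A.deg c' ≤ A.deg c := by
  refine iwa_deg_le h h' fun v => ?_
  have h1 := A.ν_nonneg v _ (mul_ne_zero (inv_ne_zero (h.1 v)) (h'.1 v)) (hd v)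
  rw [A.ν_mul v _ _ (inv_ne_zero (h.1 v)) (h'.1 v), A.ν_inv v (h.1 v)] at h1
  linarith

variable {n m : Type} [Fintype n] [DecidableEq n] [Fintype m] [DecidableEq m]

theorem mem_Lat_one (v : A.ι) (x : n → L) : x ∈ A.Lat v (1 : Matrix n n L) ↔ ∀ i, x i ∈ A.I v := by
  constructor
  · rintro ⟨y, hy, rfl⟩
    rwa [one_mulVec]
  · exact fun h => ⟨x, h, (one_mulVec x).symm⟩

theorem mem_Lat_iff (v : A.ι) {g : Matrix n n L} (hg : g.det ≠ 0) (x : n → L) :
    x ∈ A.Lat v g ↔ ∀ i, (g⁻¹ *ᵥ x) i ∈ A.I v := by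
  constructor
  · rintro ⟨y, hy, rfl⟩
    rwa [mulVec_mulVec, nonsing_inv_mul _ (Ne.isUnit hg), one_mulVec]
  · exact fun h => ⟨_, h, by rw [mulVec_mulVec, mul_nonsing_inv _ (Ne.isUnit hg), one_mulVec]⟩

theorem mulVec_mem_Lat_mul (v : A.ι) {h : Matrix n n L} (hh : h.det ≠ 0) (g : Matrix n m L)
    (x : n → L) : h *ᵥ x ∈ A.Lat v (h * g) ↔ x ∈ A.Lat v g := by
  constructor
  · rintro ⟨y, hy, e⟩
    refine ⟨y, hy, ?_⟩
    have := congrArg (fun z => h⁻¹ *ᵥ z) e
    simpa only [mulVec_mulVec, nonsing_inv_mul _ (Ne.isUnit hh), one_mulVec,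
      nonsing_inv_mul_cancel_left _ _ (Ne.isUnit hh)] using this
  · rintro ⟨y, hy, rfl⟩
    exact ⟨y, hy, by rw [mulVec_mulVec]⟩

theorem col_mem_Lat (v : A.ι) (g : Matrix n m L) (j : m) : (fun i => g i j) ∈ A.Lat v g := by
  refine ⟨Pi.single j 1, fun i => ?_, ?_⟩
  · rw [Pi.single_apply]
    split_ifs
    · exact one_mem _
    · exact zero_mem _
  · rw [mulVec_single_one]
    rfl

theorem Lat_add {v : A.ι} {g : Matrix n m L} {x y : n → L} (hx : x ∈ A.Lat v g) (hy : y ∈ A.Lat v g) :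
    x + y ∈ A.Lat v g := by
  obtain ⟨a, ha, rfl⟩ := hx
  obtain ⟨b, hb, rfl⟩ := hy
  exact ⟨a + b, fun i => add_mem (ha i) (hb i), (mulVec_add _ _ _).symm⟩

theorem Lat_smul {v : A.ι} {g : Matrix n m L} {r : L} (hr : r ∈ A.I v) {x : n → L}
    (hx : x ∈ A.Lat v g) : r • x ∈ A.Lat v g := by
  obtain ⟨a, ha, rfl⟩ := hx
  exact ⟨r • a, fun i => mul_mem hr (ha i), (mulVec_smul _ _ _).symm⟩

theorem iwa_mulVec_mem {v : A.ι} {p q : Type} [Fintype q] {Y : Matrix p q L}
    (hY : ∀ i j, Y i j ∈ A.I v) {y : q → L} (hy : ∀ j, y j ∈ A.I v) (i : p) :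
    (Y *ᵥ y) i ∈ A.I v :=
  sum_mem fun j _ => mul_mem (hY i j) (hy j)

theorem iwa_exists_mul {v : A.ι} {k p q : Type} [Fintype q] {g : Matrix k p L} {g' : Matrix k q L}
    (h : ∀ j, (fun i => g i j) ∈ A.Lat v g') :
    ∃ Y : Matrix q p L, (∀ i j, Y i j ∈ A.I v) ∧ g = g' * Y := by
  choose y hy e using h
  refine ⟨Matrix.of fun i j => y j i, fun i j => hy j i, ?_⟩
  ext i j
  exact congrFun (e j) i

theorem iwa_subset_of_cols {v : A.ι} {k p q : Type} [Fintype p] [Fintype q] {g : Matrix k p L}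
    {g' : Matrix k q L} (h : ∀ j, (fun i => g i j) ∈ A.Lat v g') : A.Lat v g ⊆ A.Lat v g' := by
  obtain ⟨Y, hY, rfl⟩ := iwa_exists_mul h
  rintro x ⟨y, hy, rfl⟩
  exact ⟨Y *ᵥ y, iwa_mulVec_mem hY hy, (mulVec_mulVec _ _ _).symm⟩

theorem iwa_det_mem {v : A.ι} {Y : Matrix n n L} (hY : ∀ i j, Y i j ∈ A.I v) : Y.det ∈ A.I v := by
  rw [det_apply']
  exact sum_mem fun σ _ => mul_mem (intCast_mem _ _) (prod_mem fun i _ => hY _ _)

theorem iwa_Lat_mul_congr {v : A.ι} {k p q l : Type} [Fintype k] [Fintype p] [Fintype q]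
    {g : Matrix k p L} {g' : Matrix k q L} (e : A.Lat v g = A.Lat v g') (h : Matrix l k L) :
    A.Lat v (h * g) = A.Lat v (h * g') := by
  ext x
  constructor
  · rintro ⟨y, hy, rfl⟩
    obtain ⟨z, hz, e'⟩ : g *ᵥ y ∈ A.Lat v g' := e ▸ ⟨y, hy, rfl⟩
    exact ⟨z, hz, by rw [← mulVec_mulVec, e', mulVec_mulVec]⟩
  · rintro ⟨y, hy, rfl⟩
    obtain ⟨z, hz, e'⟩ : g' *ᵥ y ∈ A.Lat v g := e ▸ ⟨y, hy, rfl⟩
    exact ⟨z, hz, by rw [← mulVec_mulVec, e', mulVec_mulVec]⟩

theorem Lat_subset_iff (v : A.ι) {g g' : Matrix n n L} (hg' : g'.det ≠ 0) :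
    A.Lat v g ⊆ A.Lat v g' ↔ ∀ i j, (g'⁻¹ * g) i j ∈ A.I v := by
  constructor
  · exact fun h i j => (mem_Lat_iff v hg' _).1 (h (col_mem_Lat v g j)) i
  · exact fun h => iwa_subset_of_cols fun j => (mem_Lat_iff v hg' _).2 fun i => h i j

theorem ν_det_le (v : A.ι) {g g' : Matrix n n L} (hg : g.det ≠ 0) (hg' : g'.det ≠ 0)
    (h : A.Lat v g ⊆ A.Lat v g') : A.ν v g'.det ≤ A.ν v g.det := by
  have h1 := iwa_det_mem ((Lat_subset_iff v hg').1 h)
  rw [det_mul, det_nonsing_inv, Ring.inverse_eq_inv'] at h1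
  have h2 := A.ν_nonneg v _ (mul_ne_zero (inv_ne_zero hg') hg) h1
  rw [A.ν_mul v _ _ (inv_ne_zero hg') hg, A.ν_inv v hg'] at h2
  linarith

theorem det_ne_zero_of_Lat_eq (v : A.ι) {g g' : Matrix n n L} (hg : g.det ≠ 0)
    (h : A.Lat v g = A.Lat v g') : g'.det ≠ 0 := by
  obtain ⟨Y, -, e⟩ := iwa_exists_mul (v := v) (g := g) (g' := g') fun j => h ▸ col_mem_Lat v g j
  rw [e, det_mul] at hg
  exact left_ne_zero_of_mul hg

theorem iwa_Lat_eq_one_iff (v : A.ι) {g : Matrix n n L} (hg : g.det ≠ 0) :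
    A.Lat v g = A.Lat v (1 : Matrix n n L) ↔
      (∀ i j, g i j ∈ A.I v) ∧ ∀ i j, g⁻¹ i j ∈ A.I v := by
  rw [Set.Subset.antisymm_iff, Lat_subset_iff v (by simp), Lat_subset_iff v hg, inv_one,
    Matrix.one_mul, Matrix.mul_one]

theorem isBun_const {h : Matrix n n L} (hh : h.det ≠ 0) : A.IsBun (fun _ => h) := by
  refine ⟨fun _ => hh, ((Set.finite_iUnion fun i => Set.finite_iUnion fun j =>
    A.fin_supp (h i j)).union (Set.finite_iUnion fun i => Set.finite_iUnion fun j =>
    A.fin_supp (h⁻¹ i j))).subset fun v hv => ?_⟩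
  by_contra h1
  simp only [Set.mem_union, Set.mem_iUnion, Set.mem_ofPred_eq, not_or, not_exists, not_not] at h1
  exact hv ((iwa_Lat_eq_one_iff v hh).2 h1)

theorem IsBun.congr {g g' : A.ι → Matrix n n L} (hg : A.IsBun g)
    (h : ∀ v, A.Lat v (g v) = A.Lat v (g' v)) : A.IsBun g' ∧ A.D g' = A.D g := by
  have h1 : ∀ v, (g' v).det ≠ 0 := fun v => det_ne_zero_of_Lat_eq v (hg.det_ne v) (h v)
  refine ⟨⟨h1, by simpa only [h] using hg.ae⟩, ?_⟩
  unfold D deg
  congr 1
  exact finsum_congr fun v => le_antisymm (ν_det_le v (hg.det_ne v) (h1 v) (h v).subset)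
    (ν_det_le v (h1 v) (hg.det_ne v) (h v).superset)

theorem IsBun.det_idele {g : A.ι → Matrix n n L} (hg : A.IsBun g) :
    A.IsIdele (fun v => (g v).det) := by
  refine ⟨hg.det_ne, hg.ae.subset fun v hv h => ?_⟩
  obtain ⟨h1, h2⟩ := (iwa_Lat_eq_one_iff v (hg.det_ne v)).1 h
  have h3 := iwa_det_mem h2
  rw [det_nonsing_inv, Ring.inverse_eq_inv'] at h3
  exact hv.elim (fun h => h (iwa_det_mem h1)) fun h => h h3

theorem IsBun.mul_left {g : A.ι → Matrix n n L} (hg : A.IsBun g) {h : Matrix n n L} (hh : h.det ≠ 0) :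
    A.IsBun (fun v => h * g v) ∧ A.D (fun v => h * g v) = A.D g := by
  refine ⟨⟨fun v => by rw [det_mul]; exact mul_ne_zero hh (hg.det_ne v),
    (hg.ae.union (isBun_const hh).ae).subset fun v hv => ?_⟩, ?_⟩
  · by_contra h1
    simp only [Set.mem_union, Set.mem_ofPred_eq, not_or, not_not] at h1
    exact hv (by rw [iwa_Lat_mul_congr h1.1 h, Matrix.mul_one, h1.2])
  · unfold D
    simp only [det_mul]
    rw [deg_mul (isIdele_const hh) hg.det_idele, deg_const hh, zero_add]

theorem IsBun.smul {g : A.ι → Matrix n n L} (hg : A.IsBun g) {u : A.ι → L} (hu : A.IsIdele u) :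
    A.IsBun (fun v => u v • g v) ∧ A.D (fun v => u v • g v) = A.D g + Fintype.card n * A.deg u := by
  refine ⟨⟨fun v => by rw [det_smul]; exact mul_ne_zero (pow_ne_zero _ (hu.1 v)) (hg.det_ne v),
    (hg.ae.union hu.2).subset fun v hv => ?_⟩, ?_⟩
  · by_contra h1
    simp only [Set.mem_union, Set.mem_ofPred_eq, not_or, not_not] at h1
    refine hv (Eq.trans (Set.Subset.antisymm (iwa_subset_of_cols fun j => ?_)
      (iwa_subset_of_cols fun j => ?_)) h1.1)
    · exact Lat_smul h1.2.1 (col_mem_Lat v (g v) j)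
    · have := Lat_smul h1.2.2 (col_mem_Lat v (u v • g v) j)
      convert this using 1
      ext i
      simp [hu.1 v]
  · have h1 := hu.zpow (Fintype.card n)
    have h2 := deg_zpow hu (Fintype.card n)
    simp only [zpow_natCast, Int.cast_natCast] at h1 h2
    unfold D
    simp only [det_smul]
    rw [deg_mul h1 hg.det_idele, h2, add_comm]

theorem IsBun.D_mono {g g' : A.ι → Matrix n n L} (hg : A.IsBun g) (hg' : A.IsBun g')
    (h : ∀ v, A.Lat v (g v) ⊆ A.Lat v (g' v)) : A.D g ≤ A.D g' := by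
  exact iwa_deg_le hg'.det_idele hg.det_idele fun v =>
    ν_det_le v (hg.det_ne v) (hg'.det_ne v) (h v)

theorem iwa_gcd (v : A.ι) {p : Type} (x : p → L) (s : Finset p) :
    ∃ (g : L) (a : p → L), (∀ j, a j ∈ A.I v) ∧ g = ∑ j ∈ s, x j * a j ∧
      ∀ j ∈ s, ∃ x' ∈ A.I v, x j = x' * g := by
  classical
  induction s using Finset.induction_on with
  | empty => exact ⟨0, 0, fun _ => zero_mem _, by simp, by simp⟩
  | insert k s hk ih =>
    obtain ⟨g, a, ha, hg, hx⟩ := ih
    obtain ⟨g', c, d, x', y', hc, hd, hx', hy', e1, e2, e3⟩ := A.bezout v (x k) g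
    refine ⟨g', Function.update (fun j => d * a j) k c, fun j => ?_, ?_, fun j hj => ?_⟩
    · rcases eq_or_ne j k with rfl | h
      · rwa [Function.update_self]
      · rw [Function.update_of_ne h]
        exact mul_mem hd (ha j)
    · rw [Finset.sum_insert hk, Function.update_self, e1, hg, Finset.mul_sum, mul_comm]
      congr 1
      refine Finset.sum_congr rfl fun j hj => ?_
      rw [Function.update_of_ne (ne_of_mem_of_not_mem hj hk)]
      ring
    · rcases Finset.mem_insert.1 hj with rfl | hj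
      · exact ⟨x', hx', by rw [mul_comm]; exact e2⟩
      · obtain ⟨z, hz, e⟩ := hx j hj
        exact ⟨z * y', mul_mem hz hy', by rw [e, e3]; ring⟩

/-- Hermite normal form over a Bezout domain: a finitely generated lattice has a triangular system of
generators (induction on `r`; the last coordinates generate a principal ideal). -/
theorem iwasawa (v : A.ι) (r : ℕ) {p : Type} [Fintype p] (G : Matrix (Fin r) p L) :
    ∃ t : Matrix (Fin r) (Fin r) L, (∀ i j, t i j ≠ 0 → i ≤ j) ∧ A.Lat v G = A.Lat v t := by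
  classical
  induction r with
  | zero => exact ⟨0, fun i => i.elim0, by
      ext x
      exact ⟨fun _ => ⟨0, fun _ => zero_mem _, Subsingleton.elim _ _⟩,
        fun _ => ⟨0, fun _ => zero_mem _, Subsingleton.elim _ _⟩⟩⟩
  | succ r ih =>
    obtain ⟨g, a, ha, hg, hx⟩ := iwa_gcd v (G (Fin.last r)) Finset.univ
    choose x' hx' e using fun j => hx j (Finset.mem_univ j)
    have hc : G *ᵥ a ∈ A.Lat v G := ⟨a, ha, rfl⟩
    have hcl : (G *ᵥ a) (Fin.last r) = g := hg.symm
    generalize G *ᵥ a = c at hc hcl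
    let G' : Matrix (Fin (r + 1)) p L := Matrix.of fun i j => G i j - x' j * c i
    have hG' : A.Lat v G' ⊆ A.Lat v G := iwa_subset_of_cols fun j => by
      have := Lat_add (col_mem_Lat v G j) (Lat_smul (neg_mem (hx' j)) hc)
      convert this using 1
      ext i
      simp [G', sub_eq_add_neg]
    have hG'l : ∀ j, G' (Fin.last r) j = 0 := fun j => by
      simp only [G', of_apply, hcl, ← e j, sub_self]
    obtain ⟨t', ht', hL⟩ := ih (G'.submatrix Fin.castSucc id)
    let t : Matrix (Fin (r + 1)) (Fin (r + 1)) L := Matrix.of fun i j =>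
      Fin.lastCases (c i) (fun j' => Fin.lastCases 0 (fun i' => t' i' j') i) j
    have htl : ∀ i, t i (Fin.last r) = c i := fun i => by simp [t]
    have ht0 : ∀ j, t (Fin.last r) (Fin.castSucc j) = 0 := fun j => by simp [t]
    have htc : ∀ i j, t (Fin.castSucc i) (Fin.castSucc j) = t' i j := fun i j => by simp [t]
    refine ⟨t, fun i j h => ?_, Set.Subset.antisymm (iwa_subset_of_cols fun j => ?_)
      (iwa_subset_of_cols fun j => ?_)⟩
    · induction j using Fin.lastCases with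
      | last => exact Fin.le_last i
      | cast j =>
        induction i using Fin.lastCases with
        | last => exact absurd (ht0 j) h
        | cast i => exact Fin.castSucc_le_castSucc_iff.2 (ht' i j (by rwa [htc] at h))
    · obtain ⟨y, hy, e'⟩ : (fun i => G'.submatrix Fin.castSucc id i j) ∈ A.Lat v t' :=
        hL ▸ col_mem_Lat v _ j
      refine ⟨Fin.snoc (α := fun _ => L) y (x' j), fun i => ?_, ?_⟩
      · induction i using Fin.lastCases with
        | last => simpa using hx' j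
        | cast i => simpa using hy i
      · ext i
        simp only [mulVec, dotProduct, Fin.sum_univ_castSucc, Fin.snoc_castSucc, Fin.snoc_last, htl]
        induction i using Fin.lastCases with
        | last => simp [ht0, hcl, e j, mul_comm]
        | cast i =>
          have := congrFun e' i
          simp only [submatrix_apply, id, G', of_apply, mulVec, dotProduct] at this
          simp only [htc, ← this]
          ring
    · induction j using Fin.lastCases with
      | last => simpa only [htl] using hc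
      | cast j =>
        obtain ⟨y, hy, e'⟩ : (fun i => t' i j) ∈ A.Lat v (G'.submatrix Fin.castSucc id) :=
          hL ▸ col_mem_Lat v _ j
        refine hG' ⟨y, hy, ?_⟩
        ext i
        induction i using Fin.lastCases with
        | last => simp [ht0, mulVec, dotProduct, hG'l]
        | cast i =>
          rw [htc]
          exact congrFun e' i

/-- the determinant of a `ρ`-triangular matrix -/
theorem det_of_tri {t : Matrix n n L} {ρ : n → ℕ} (ht : ∀ i j, t i j ≠ 0 → i = j ∨ ρ i < ρ j) :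
    t.det = ∏ i, t i i := by
  rw [det_apply', Finset.sum_eq_single 1]
  · simp
  · intro σ _ hσ
    refine mul_eq_zero_of_right _ ?_
    by_contra h
    have h1 : ∀ i, σ i = i ∨ ρ (σ i) < ρ i := fun i =>
      ht _ _ (Finset.prod_ne_zero_iff.1 h i (Finset.mem_univ i))
    obtain ⟨i, hi⟩ : ∃ i, σ i ≠ i := by
      by_contra h2
      exact hσ (Equiv.ext fun i => not_not.1 fun h3 => h2 ⟨i, h3⟩)
    have h2 : ∑ i, ρ (σ i) < ∑ i, ρ i :=
      Finset.sum_lt_sum (fun j _ => (h1 j).elim (fun e => by rw [e]) le_of_lt)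
        ⟨i, Finset.mem_univ i, (h1 i).resolve_left hi⟩
    rw [Equiv.sum_comp σ ρ] at h2
    exact lt_irrefl _ h2
  · simp

theorem IsBun.diag_idele {t : A.ι → Matrix n n L} (hb : A.IsBun t) {ρ : n → ℕ}
    (ht : ∀ v i j, t v i j ≠ 0 → i = j ∨ ρ i < ρ j) :
    (∀ i, A.IsIdele (fun v => t v i i)) ∧ A.D t = ∑ i, A.deg (fun v => t v i i) := by
  have hd : ∀ v, (t v).det = ∏ i, t v i i := fun v => det_of_tri (ht v)
  have h0 : ∀ v i, t v i i ≠ 0 := fun v i => by
    have := hb.det_ne v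
    rw [hd] at this
    exact Finset.prod_ne_zero_iff.1 this i (Finset.mem_univ i)
  have h1 : ∀ i, A.IsIdele (fun v => t v i i) := fun i => by
    refine ⟨fun v => h0 v i, hb.ae.subset fun v hv h => ?_⟩
    obtain ⟨h1, h2⟩ := (iwa_Lat_eq_one_iff v (hb.det_ne v)).1 h
    have h3 := iwa_det_mem h2
    rw [det_nonsing_inv, Ring.inverse_eq_inv'] at h3
    refine hv.elim (fun h => h (h1 i i)) fun h => h ?_
    have h4 : (t v i i)⁻¹ = (t v).det⁻¹ * ∏ j ∈ Finset.univ.erase i, t v j j := by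
      have h5 : ∏ j ∈ Finset.univ.erase i, t v j j ≠ 0 :=
        Finset.prod_ne_zero_iff.2 fun j _ => h0 v j
      rw [hd, ← Finset.mul_prod_erase _ _ (Finset.mem_univ i), mul_inv, mul_assoc,
        inv_mul_cancel₀ h5, mul_one]
    rw [h4]
    exact mul_mem h3 (prod_mem fun j _ => h1 j j)
  refine ⟨h1, ?_⟩
  unfold D
  simp only [hd]
  exact deg_prod _ fun i _ => h1 i

theorem Tri.mono {g : A.ι → Matrix n n L} {lo hi lo' hi' : ℚ} (h : A.Tri g lo hi) (hlo : lo' ≤ lo)
    (hhi : hi ≤ hi') : A.Tri g lo' hi' := by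
  obtain ⟨k, t, ρ, h1, h2, h3, h4⟩ := h
  exact ⟨k, t, ρ, h1, h2, h3, fun i => ⟨hlo.trans (h4 i).1, (h4 i).2.trans hhi⟩⟩

end AdSys

end

end Crest.Agent.R169
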