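import Crest.Agent.R169.Omega
import Crest.Agent.R169.Iwa

/-! # Extension of scalars and Galois descent (this is where characteristic zero is used) -/

set_option autoImplicit false

namespace Crest.Agent.R169

noncomputable section

open Matrix

theorem desc_inv_map {L L' : Type} [Field L] [Field L'] (f : L →+* L') {n : Type} [Fintype n]
    [DecidableEq n] {g : Matrix n n L} (hg : g.det ≠ 0) : (g.map f)⁻¹ = g⁻¹.map f := by
  refine Matrix.inv_eq_left_inv ?_
  rw [← Matrix.map_mul, Matrix.nonsing_inv_mul _ (Ne.isUnit hg), Matrix.map_one _ f.map_zero f.map_one]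

theorem desc_det_map {L L' : Type} [Field L] [Field L'] (f : L →+* L') {n : Type} [Fintype n]
    [DecidableEq n] (g : Matrix n n L) : (g.map f).det = f g.det :=
  (f.map_det g).symm

theorem desc_mulVec_mem {L : Type} [Field L] (R : Subring L) {n m : Type} [Fintype m]
    {a : Matrix n m L} (ha : ∀ i j, a i j ∈ R) {y : m → L} (hy : ∀ j, y j ∈ R) (i : n) :
    (a *ᵥ y) i ∈ R :=
  R.sum_mem fun j _ => R.mul_mem (ha i j) (hy j)

/-- the rows of a matrix of full column rank generate a free lattice -/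
theorem desc_local {L : Type} [Field L] (A : AdSys L) (v : A.ι) {n : Type} [Fintype n]
    [DecidableEq n] {s : ℕ} {u : Matrix n (Fin s) L} (hu : Function.Injective u.mulVec) :
    ∃ (T : Matrix (Fin s) (Fin s) L) (a : Matrix (Fin s) n L) (b : Matrix n (Fin s) L),
      T.det ≠ 0 ∧ (∀ i j, a i j ∈ A.I v) ∧ (∀ i j, b i j ∈ A.I v) ∧ T = a * u ∧ u = b * T := by
  obtain ⟨t, -, ht⟩ := A.iwasawa v s uᵀ
  have h1 : ∀ j, (fun i => t i j) ∈ A.Lat v uᵀ := fun j => ht ▸ AdSys.col_mem_Lat v t j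
  have h2 : ∀ j, (fun i => uᵀ i j) ∈ A.Lat v t := fun j => ht ▸ AdSys.col_mem_Lat v uᵀ j
  choose a ha ha' using h1
  choose b hb hb' using h2
  have e1 : tᵀ = Matrix.of a * u := by
    ext j l
    have := congrFun (ha' j) l
    simp only [mulVec, dotProduct, transpose_apply] at this
    simp only [transpose_apply, mul_apply, of_apply, this, mul_comm]
  have e2 : u = Matrix.of b * tᵀ := by
    ext j l
    have := congrFun (hb' j) l
    simp only [mulVec, dotProduct, transpose_apply] at this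
    simp only [transpose_apply, mul_apply, of_apply, this, mul_comm]
  refine ⟨tᵀ, Matrix.of a, Matrix.of b, ?_, ha, hb, e1, e2⟩
  refine ((Matrix.isUnit_iff_isUnit_det _).1 (mulVec_injective_iff_isUnit.1 fun y y' h => hu ?_)).ne_zero
  rw [e2, ← mulVec_mulVec, ← mulVec_mulVec, h]

theorem desc_left_inv {L : Type} [Field L] {n m : Type} [Fintype n] [DecidableEq n] [Fintype m]
    [DecidableEq m] {w : Matrix n m L} (hw : Function.Injective w.mulVec) :
    ∃ l : Matrix m n L, ∀ z, l *ᵥ (w *ᵥ z) = z := by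
  obtain ⟨f, hf⟩ := LinearMap.exists_leftInverse_of_injective w.mulVecLin
    (LinearMap.ker_eq_bot.2 hw)
  refine ⟨LinearMap.toMatrix' f, fun z => ?_⟩
  rw [LinearMap.toMatrix'_mulVec]
  exact LinearMap.congr_fun hf z

/-- Artin's independence theorem, in matrix form -/
theorem desc_artin {K Ω : Type} [Field K] [Field Ω] [Algebra K Ω] [IsGalois K Ω] {s : ℕ}
    {z : Fin s → Ω} (hz : LinearIndependent K z) :
    ∃ σ : Fin s → Ω ≃ₐ[K] Ω, (Matrix.of fun i j => σ j (z i)).det ≠ 0 := by
  classical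
  have h1 : LinearIndependent (FixedPoints.subfield (Ω ≃ₐ[K] Ω) Ω) z := by
    rw [Fintype.linearIndependent_iff] at hz ⊢
    intro c hc i
    have h2 : ∀ i, (c i : Ω) ∈ Set.range (algebraMap K Ω) := fun i =>
      (InfiniteGalois.mem_range_algebraMap_iff_fixed _).2 (c i).2
    choose a ha using h2
    have h3 := hz a (by
      rw [← hc]
      refine Finset.sum_congr rfl fun j _ => ?_
      rw [Algebra.smul_def, ha]
      rfl) i
    refine Subtype.ext ?_
    rw [← ha, h3, map_zero]
    rfl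
  have h4 := FixedPoints.linearIndependent_smul_of_linearIndependent (Ω ≃ₐ[K] Ω) Ω
    (s := Finset.univ.image z) (by simpa using h1.linearIndepOn_id)
  have h5 : LinearIndependent Ω fun (i : Fin s) (σ : Ω ≃ₐ[K] Ω) => σ (z i) :=
    LinearIndependent.comp h4 (fun i => ⟨z i, by simp⟩) fun i j h =>
      hz.injective (congrArg Subtype.val h)
  have h6 := span_flip_eq_top_iff_linearIndependent.2 h5
  obtain ⟨f, hf, -, hli⟩ := Submodule.exists_fun_fin_finrank_span_eq Ω
    (Set.range (flip fun (i : Fin s) (σ : Ω ≃ₐ[K] Ω) => σ (z i)))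
  have h7 : Module.finrank Ω (Submodule.span Ω
      (Set.range (flip fun (i : Fin s) (σ : Ω ≃ₐ[K] Ω) => σ (z i)))) = s := by
    rw [h6, finrank_top, Module.finrank_fin_fun]
  choose σ hσ using hf
  refine ⟨fun j => σ (Fin.cast h7.symm j), ?_⟩
  refine ((Matrix.isUnit_iff_isUnit_det _).1 (linearIndependent_cols_iff_isUnit.1 ?_)).ne_zero
  have h8 := hli.comp (Fin.cast h7.symm) (Fin.cast_injective _)
  have h9 : (Matrix.of fun i j => σ (Fin.cast h7.symm j) (z i)).col = f ∘ Fin.cast h7.symm :=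
    funext fun j => hσ _
  rw [h9]
  exact h8

theorem desc_factor {K Ω : Type} [Field K] [Field Ω] [Algebra K Ω] {n : Type} [Fintype n]
    (x : n → Ω) : ∃ (s : ℕ) (w : Matrix n (Fin s) K) (z : Fin s → Ω),
      Function.Injective w.mulVec ∧ LinearIndependent K z ∧ x = w.map (algebraMap K Ω) *ᵥ z := by
  have : Module.Finite K (Submodule.span K (Set.range x)) :=
    Module.Finite.span_of_finite K (Set.finite_range x)
  obtain ⟨z, hz, hsp, hli⟩ := Submodule.exists_fun_fin_finrank_span_eq K (Set.range x)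
  have h1 : ∀ i, ∃ c : _ → K, ∑ j, c j • z j = x i := fun i =>
    (Submodule.mem_span_range_iff_exists_fun K).1 (hsp.ge (Submodule.subset_span ⟨i, rfl⟩))
  choose w hw using h1
  choose e he using hz
  refine ⟨_, Matrix.of w, z, ?_, hli, ?_⟩
  · have h2 : ∀ j, w (e j) = Pi.single j 1 := by
      intro j
      refine (linearIndependent_iff_injective_fintypeLinearCombination.1 hli) ?_
      rw [Fintype.linearCombination_apply_single, Fintype.linearCombination_apply, hw, he, one_smul]
    intro y y' h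
    funext j
    have h3 := congrFun h (e j)
    simpa [mulVec, Matrix.row, h2] using h3
  · funext i
    rw [← hw]
    simp [mulVec, dotProduct, Algebra.smul_def]

namespace PlaceSys

variable {k : Type} [Field k] [CharZero k] (PS : PlaceSys k)
variable {K Ω : Type} [Field K] [Field Ω] [Algebra (RatFunc k) K] [Algebra (RatFunc k) Ω] [Algebra K Ω]
  [IsScalarTower (RatFunc k) K Ω] [Algebra.IsAlgebraic (RatFunc k) K]
  [Algebra.IsAlgebraic (RatFunc k) Ω]
variable {n : Type} [Fintype n] [DecidableEq n]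

section general

variable {L L' : Type} [Field L] [Field L'] [Algebra (RatFunc k) L] [Algebra (RatFunc k) L']
  [Algebra.IsAlgebraic (RatFunc k) L] [Algebra.IsAlgebraic (RatFunc k) L']
  (σ : L →ₐ[RatFunc k] L')

theorem desc_map_mem (v : PS.ι) {g : Matrix n n L} (hg : g.det ≠ 0) (x : n → L) :
    (fun i => σ (x i)) ∈ (PS.ad L').Lat v (g.map σ) ↔ x ∈ (PS.ad L).Lat v g := by
  have h1 : (g.map σ).det ≠ 0 := by
    have := desc_det_map (σ : L →+* L') g
    exact this ▸ (map_ne_zero (σ : L →+* L')).2 hg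
  rw [AdSys.mem_Lat_iff _ h1, AdSys.mem_Lat_iff _ hg]
  refine forall_congr' fun i => ?_
  have h2 : (g.map σ)⁻¹ = g⁻¹.map σ := desc_inv_map (σ : L →+* L') hg
  have h3 : (g⁻¹.map σ *ᵥ fun i => σ (x i)) i = σ ((g⁻¹ *ᵥ x) i) :=
    (RingHom.map_mulVec (σ : L →+* L') g⁻¹ x i).symm
  rw [h2, h3]
  exact PS.map_mem_I_iff σ v _

theorem desc_idele {c : PS.ι → L} (hc : (PS.ad L).IsIdele c) :
    (PS.ad L').IsIdele (fun v => σ (c v)) ∧
      (PS.ad L').deg (fun v => σ (c v)) = (PS.ad L).deg c := by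
  refine ⟨⟨fun v => (map_ne_zero σ).2 (hc.1 v), hc.2.subset fun v hv => ?_⟩, ?_⟩
  · simp only [Set.mem_ofPred_eq, ← map_inv₀, PS.map_mem_I_iff] at hv
    exact hv
  · simp only [AdSys.deg, PS.nuL_map]

theorem desc_Lat_subset (v : PS.ι) {g g' : Matrix n n L} (hg' : g'.det ≠ 0)
    (h : (PS.ad L).Lat v g ⊆ (PS.ad L).Lat v g') :
    (PS.ad L').Lat v (g.map σ) ⊆ (PS.ad L').Lat v (g'.map σ) := by
  have h1 : (g'.map σ).det ≠ 0 := by
    have := desc_det_map (σ : L →+* L') g'
    exact this ▸ (map_ne_zero (σ : L →+* L')).2 hg'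
  rw [AdSys.Lat_subset_iff _ hg'] at h
  rw [AdSys.Lat_subset_iff _ h1]
  intro i j
  have h2 : (g'.map σ)⁻¹ = g'⁻¹.map σ := desc_inv_map (σ : L →+* L') hg'
  have h3 : g'⁻¹.map σ * g.map σ = (g'⁻¹ * g).map σ := (Matrix.map_mul (f := (σ : L →+* L'))).symm
  rw [h2, h3]
  exact (PS.map_mem_I_iff σ v _).2 (h i j)

end general

theorem map_mem_Lat_iff (v : PS.ι) {g : Matrix n n K} (hg : g.det ≠ 0) (x : n → K) :
    (fun i => algebraMap K Ω (x i)) ∈ (PS.ad Ω).Lat v (g.map (algebraMap K Ω)) ↔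
      x ∈ (PS.ad K).Lat v g := by
  exact PS.desc_map_mem (IsScalarTower.toAlgHom (RatFunc k) K Ω) v hg x

theorem idele_map {c : PS.ι → K} (hc : (PS.ad K).IsIdele c) :
    (PS.ad Ω).IsIdele (fun v => algebraMap K Ω (c v)) ∧
      (PS.ad Ω).deg (fun v => algebraMap K Ω (c v)) = (PS.ad K).deg c := by
  exact PS.desc_idele (IsScalarTower.toAlgHom (RatFunc k) K Ω) hc

theorem isBun_map {g : PS.ι → Matrix n n K} (hg : (PS.ad K).IsBun g) :
    (PS.ad Ω).IsBun (fun v => (g v).map (algebraMap K Ω)) ∧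
      (PS.ad Ω).D (fun v => (g v).map (algebraMap K Ω)) = (PS.ad K).D g := by
  refine ⟨⟨fun v => ?_, hg.ae.subset fun v hv h => hv ?_⟩, ?_⟩
  · rw [desc_det_map]
    exact (map_ne_zero _).2 (hg.det_ne v)
  · have h1 := PS.desc_Lat_subset (IsScalarTower.toAlgHom (RatFunc k) K Ω) v (g := g v) (g' := 1)
      (by simp) h.subset
    have h2 := PS.desc_Lat_subset (IsScalarTower.toAlgHom (RatFunc k) K Ω) v (g := 1) (g' := g v)
      (hg.det_ne v) h.superset
    rw [Matrix.map_one _ (map_zero _) (map_one _)] at h1 h2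
    exact Set.Subset.antisymm h1 h2
  · simp only [AdSys.D, desc_det_map]
    exact (PS.idele_map hg.det_idele).2

/-- Saturated sublattices: for `w` of full column rank there are local bases `t v` of `w K^s ∩ Lat`, and the
description survives extension of scalars.  (Complete `w` to an invertible matrix and use `iwasawa`; or use that
`I K v` is a PID: `(g v)⁻¹ w (t v)` is integral with an integral left inverse.) -/
theorem exists_sub_bun {g : PS.ι → Matrix n n K} (hg : (PS.ad K).IsBun g) {s : ℕ}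
    {w : Matrix n (Fin s) K} (hw : Function.Injective w.mulVec) :
    ∃ t : PS.ι → Matrix (Fin s) (Fin s) K, (PS.ad K).IsBun t ∧
      (∀ v z, w *ᵥ z ∈ (PS.ad K).Lat v (g v) ↔ z ∈ (PS.ad K).Lat v (t v)) ∧
      ∀ v (z : Fin s → Ω), w.map (algebraMap K Ω) *ᵥ z ∈ (PS.ad Ω).Lat v ((g v).map (algebraMap K Ω)) →
        z ∈ (PS.ad Ω).Lat v ((t v).map (algebraMap K Ω)) := by
  have hu : ∀ v, Function.Injective ((g v)⁻¹ * w).mulVec := by
    intro v y y' h
    refine hw ?_
    have h1 := congrArg (g v).mulVec h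
    simpa only [mulVec_mulVec, mul_nonsing_inv_cancel_left _ _ (Ne.isUnit (hg.det_ne v))] using h1
  choose T a b hT ha hb hTa hub using fun v => desc_local (PS.ad K) v (hu v)
  have hT' : ∀ v, (T v)⁻¹.det ≠ 0 := fun v =>
    (Matrix.isUnit_nonsing_inv_det _ (Ne.isUnit (hT v))).ne_zero
  have hmain : ∀ v z, w *ᵥ z ∈ (PS.ad K).Lat v (g v) ↔ z ∈ (PS.ad K).Lat v (T v)⁻¹ := by
    intro v z
    rw [AdSys.mem_Lat_iff _ (hg.det_ne v), AdSys.mem_Lat_iff _ (hT' v),
      nonsing_inv_nonsing_inv _ (Ne.isUnit (hT v)), mulVec_mulVec]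
    constructor
    · intro h
      rw [hTa v, ← mulVec_mulVec]
      exact desc_mulVec_mem _ (ha v) h
    · intro h
      rw [hub v, ← mulVec_mulVec]
      exact desc_mulVec_mem _ (hb v) h
  refine ⟨fun v => (T v)⁻¹, ⟨hT', ?_⟩, hmain, fun v z h => ?_⟩
  · obtain ⟨l, hl⟩ := desc_left_inv hw
    have f1 : (⋃ i, ⋃ j, {v | w i j ∉ PS.I K v}).Finite :=
      Set.finite_iUnion fun i => Set.finite_iUnion fun j => PS.I_fin_supp K _
    have f2 : (⋃ i, ⋃ j, {v | l i j ∉ PS.I K v}).Finite :=
      Set.finite_iUnion fun i => Set.finite_iUnion fun j => PS.I_fin_supp K _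
    refine ((hg.ae.union f1).union f2).subset fun v hv => ?_
    by_contra hc
    simp only [Set.mem_union, Set.mem_ofPred_eq, Set.mem_iUnion, not_or, not_exists, not_not] at hc
    obtain ⟨⟨h1, h2⟩, h3⟩ := hc
    refine hv (Set.ext fun z => ?_)
    rw [← hmain, h1, AdSys.mem_Lat_one, AdSys.mem_Lat_one]
    constructor
    · intro h
      rw [← hl z]
      exact desc_mulVec_mem _ h3 h
    · exact fun h => desc_mulVec_mem _ h2 h
  · have h1 : ((g v).map (algebraMap K Ω)).det ≠ 0 := by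
      rw [desc_det_map]
      exact (map_ne_zero _).2 (hg.det_ne v)
    have h2 : ((T v)⁻¹.map (algebraMap K Ω)).det ≠ 0 := by
      rw [desc_det_map]
      exact (map_ne_zero _).2 (hT' v)
    rw [AdSys.mem_Lat_iff _ h1, desc_inv_map _ (hg.det_ne v), mulVec_mulVec, ← Matrix.map_mul] at h
    rw [AdSys.mem_Lat_iff _ h2, desc_inv_map _ (hT' v),
      nonsing_inv_nonsing_inv _ (Ne.isUnit (hT v)), hTa v, Matrix.map_mul, ← mulVec_mulVec]
    exact desc_mulVec_mem _ (fun i j =>
      (PS.map_mem_I_iff (IsScalarTower.toAlgHom (RatFunc k) K Ω) v _).2 (ha v i j)) h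

/-- Galois descent.  Given `x ≠ 0` over `Ω` and an idele `c` with `c v • x ∈ Lat`, write `x = w *ᵥ z` with `w` over `K` of
full column rank `s` and `z : Fin s → Ω` linearly independent over `K` (a basis of the `K`-span of the entries of
`x`).  The vectors `σ ∘ z`, `σ : Ω ≃ₐ[K] Ω`, span `Ω^s` (Artin: `FixedPoints.linearIndependent_smul_of_linearIndependent`;
the fixed field is `K` because `Ω / K` is Galois), so there are `σ 1, …, σ s` with `m = (σ j (z i))` invertible.
`σ (c v) • σ x ∈ Lat`, so `Lat (m * diagonal (σ j (c v))) ⊆ Lat (t v)`, and `s * deg c ≤ D t ≤ s * μ`. -/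
theorem bd_of_semiAd [IsAlgClosure K Ω] {g : PS.ι → Matrix n n K} (hg : (PS.ad K).IsBun g) {μ : ℚ}
    (h : (PS.ad K).SemiAd g μ) : (PS.ad Ω).Bd (fun v => (g v).map (algebraMap K Ω)) μ := by
  have : CharZero K := charZero_of_injective_algebraMap (algebraMap (RatFunc k) K).injective
  intro x hx c hc hcx
  obtain ⟨s, w, z, hw, hz, hxz⟩ := desc_factor (K := K) x
  have hs : (0 : ℚ) < s := by
    rcases s with _ | s
    · exact absurd (hxz.trans (by funext i; simp [mulVec, dotProduct])) hx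
    · positivity
  obtain ⟨σ, hσ⟩ := desc_artin hz
  obtain ⟨t, ht, ht1, ht2⟩ := PS.exists_sub_bun (Ω := Ω) hg hw
  have hD := h s w t hw ht ht1
  obtain ⟨htΩ, hDΩ⟩ := PS.isBun_map (Ω := Ω) ht
  let τ : Fin s → Ω →ₐ[RatFunc k] Ω := fun j => ((σ j : Ω →ₐ[K] Ω).restrictScalars (RatFunc k))
  have hτ : ∀ j y, τ j y = σ j y := fun _ _ => rfl
  have hid := fun j => PS.desc_idele (τ j) hc
  set m : Matrix (Fin s) (Fin s) Ω := Matrix.of fun i j => σ j (z i) with hm
  have hprod := AdSys.IsIdele.prod Finset.univ (c := fun j v => τ j (c v)) fun j _ => (hid j).1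
  have hG := (AdSys.isIdele_const (A := PS.ad Ω) hσ).mul hprod
  have hdeg : (PS.ad Ω).deg (fun v => m.det * ∏ j, τ j (c v)) = s * (PS.ad Ω).deg c := by
    rw [AdSys.deg_mul (AdSys.isIdele_const hσ) hprod, AdSys.deg_const hσ, zero_add,
      AdSys.deg_prod Finset.univ (c := fun j v => τ j (c v)) fun j _ => (hid j).1]
    simp [fun j => (hid j).2]
  have hle : ∀ v, (PS.ad Ω).ν v ((t v).map (algebraMap K Ω)).det ≤
      (PS.ad Ω).ν v (m.det * ∏ j, τ j (c v)) := by
    intro v
    have e1 : (m * diagonal fun j => τ j (c v)).det = m.det * ∏ j, τ j (c v) := by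
      rw [det_mul, det_diagonal]
    rw [← e1]
    refine AdSys.ν_det_le v (e1 ▸ hG.1 v) (htΩ.det_ne v) ?_
    rw [AdSys.Lat_subset_iff _ (htΩ.det_ne v)]
    intro i j
    have h1 : ((g v).map (algebraMap K Ω)).det ≠ 0 := (PS.isBun_map (Ω := Ω) hg).1.det_ne v
    have h2 := (PS.desc_map_mem (τ j) v h1 _).2 (hcx v)
    have h3 : ((g v).map (algebraMap K Ω)).map (τ j) = (g v).map (algebraMap K Ω) := by
      ext a b
      exact (σ j).commutes _
    have h4 : (fun i => τ j ((c v • x) i)) =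
        w.map (algebraMap K Ω) *ᵥ fun i => (m * diagonal fun j => τ j (c v)) i j := by
      funext a
      rw [hxz]
      simp only [Pi.smul_apply, smul_eq_mul, mulVec, dotProduct, map_apply, map_mul, map_sum,
        mul_diagonal, hm, of_apply, hτ, AlgEquiv.commutes, Finset.mul_sum]
      exact Finset.sum_congr rfl fun b _ => by ring
    rw [h3, h4] at h2
    exact (AdSys.mem_Lat_iff _ (htΩ.det_ne v) _).1 (ht2 v _ h2) i
  have hfin := finsum_le_finsum' htΩ.det_idele.finite_support hG.finite_support hle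
  have h5 : s * (PS.ad Ω).deg c ≤ s * μ := by
    rw [← hdeg]
    refine le_trans ?_ (hDΩ.le.trans hD)
    exact neg_le_neg hfin
  exact le_of_mul_le_mul_left h5 hs

end PlaceSys

end

end Crest.Agent.R169
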