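import Crest.Agent.R169.Omega
import Crest.Agent.R169.Iwa
import Crest.Agent.R169.BG
import Crest.Agent.R169.Desc
import Crest.Agent.R169.ASAux

/-! # Splitting of the direct image of an adelic bundle on `P¹`, Riemann's inequality -/

set_option autoImplicit false

namespace Crest.Agent.R169

noncomputable section

open Matrix

namespace PlaceSys

variable {k : Type} [Field k] [CharZero k] (PS : PlaceSys k)

theorem AS_smul_mem (L : Type) [Field L] [Algebra (RatFunc k) L] [Algebra.IsAlgebraic (RatFunc k) L]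
    {n m : Type} [Fintype n] [DecidableEq n] [Fintype m] [DecidableEq m] {v : PS.ι} {g : Matrix n m L}
    {f : RatFunc k} (hf : f ∈ PS.O v) {x : n → L} (hx : x ∈ (PS.ad L).Lat v g) :
    f • x ∈ (PS.ad L).Lat v g := by
  have h := AdSys.Lat_smul (A := PS.ad L) (v := v) ((PS.algebraMap_mem_I_iff L v f).2 hf) hx
  rwa [algebraMap_smul] at h

omit [CharZero k] in
theorem AS_exists_denom (L : Type) [Field L] [Algebra (RatFunc k) L] [Algebra.IsAlgebraic (RatFunc k) L]
    (v : PS.ι) {J : Type} [Fintype J] (x : J → L) :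
    ∃ d : RatFunc k, d ≠ 0 ∧ ∀ j, algebraMap (RatFunc k) L d * x j ∈ PS.I L v := by
  classical
  choose d hdm hd0 hdx using fun j => PS.exists_denom L v (x j)
  refine ⟨∏ j, d j, Finset.prod_ne_zero_iff.2 fun j _ => hd0 j, fun j => ?_⟩
  rw [← Finset.mul_prod_erase _ _ (Finset.mem_univ j), mul_comm (d j), map_mul, mul_assoc]
  exact (PS.I L v).mul_mem ((PS.algebraMap_mem_I_iff L v _).2
    (Subalgebra.prod_mem _ fun i _ => hdm i)) (hdx j)

theorem AS_latFam (L : Type) [Field L] [Algebra (RatFunc k) L] [FiniteDimensional (RatFunc k) L]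
    {n : Type} [Fintype n] [DecidableEq n] {g : PS.ι → Matrix n n L} (hg : (PS.ad L).IsBun g) :
    PS.LatFam (fun v => (PS.ad L).Lat v (g v)) where
  zero v := ⟨0, fun _ => Subring.zero_mem _, by simp⟩
  add v x y hx hy := AdSys.Lat_add hx hy
  smul v f hf x hx := PS.AS_smul_mem L hf hx
  ae y := by
    refine (hg.ae.union (Set.finite_iUnion fun i : n => PS.I_fin_supp L (y i))).subset ?_
    intro v hv
    by_contra hc
    simp only [Set.mem_union, Set.mem_ofPred_eq, Set.mem_iUnion, not_or, not_exists, not_not] at hc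
    apply hv
    rw [hc.1, AdSys.mem_Lat_one]
    exact hc.2
  denom v y := by
    obtain ⟨d, hd, hdy⟩ := PS.AS_exists_denom L v ((g v)⁻¹ *ᵥ y)
    refine ⟨d, hd, ?_⟩
    rw [AdSys.mem_Lat_iff _ (hg.det_ne v)]
    intro i
    rw [← algebraMap_smul L d y, mulVec_smul]
    exact hdy i
  bdd := by
    classical
    let ω := Module.finBasis (RatFunc k) L
    let φ : n × Fin (Module.finrank (RatFunc k) L) → (n → L) →ₗ[RatFunc k] RatFunc k := fun p =>
      (Algebra.traceForm (RatFunc k) L (ω p.2)) ∘ₗ (LinearMap.proj p.1)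
    have hφ : ∀ p y, φ p y = Algebra.trace (RatFunc k) L (ω p.2 * y p.1) := fun _ _ => rfl
    refine ⟨n × Fin (Module.finrank (RatFunc k) L), inferInstance, φ, fun y hy => ?_, fun p => ?_,
      fun p v => ?_⟩
    · funext i
      refine (traceForm_nondegenerate (RatFunc k) L).2 (y i) fun z => ?_
      have : (Algebra.traceForm (RatFunc k) L).flip (y i) = 0 :=
        ω.ext fun l => by simpa [hφ] using hy (i, l)
      exact LinearMap.congr_fun this z
    · refine (hg.ae.union (PS.I_fin_supp L (ω p.2))).subset ?_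
      rintro v ⟨y, hy, hn⟩
      by_contra hc
      simp only [Set.mem_union, Set.mem_ofPred_eq, not_or, not_not] at hc
      apply hn
      rw [hc.1, AdSys.mem_Lat_one] at hy
      rw [hφ]
      exact PS.trace_mem_O L v ((PS.I L v).mul_mem hc.2 (hy p.1))
    · obtain ⟨d, hd, hdy⟩ := PS.AS_exists_denom L v (fun j => ω p.2 * g v p.1 j)
      refine ⟨d, hd, ?_⟩
      rintro y ⟨z, hz, rfl⟩
      rw [hφ, ← smul_eq_mul, ← map_smul, Algebra.smul_def]
      refine PS.trace_mem_O L v ?_
      simp only [mulVec, dotProduct, Finset.mul_sum]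
      refine Subring.sum_mem _ fun j _ => ?_
      have := (PS.I L v).mul_mem (hdy j) (hz j)
      simpa [mul_assoc] using this

open Classical in
/-- Splitting, without the degree.  Apply `IsFam.split` (field `k`, `F = k(X)`, `x = X`, `V = n → L` with the
`k`-structure from `Module.compHom`) to `M b = {y | y ∈ Lat v for v finite, X ^ (-b) • y ∈ Lat ∞}`; `M b = ⊥` for
`b ≪ 0` since the coordinates in a fixed basis of `L` have bounded denominators (`exists_trace_dual`-like bounds,
`glob`).  Local-global: for `y ∈ Lat v`, `v` finite, `approx` gives a polynomial `s`, unit at `v`, with `s • y` in all finite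
lattices, so in `M b` for large `b`; at infinity, for `y ∈ Lat ∞` take a monic polynomial `s` of degree `D` with `s • y` in all
finite lattices: `s • y ∈ M D` and `s / X ^ D` is a unit at infinity. -/
theorem exists_split (L : Type) [Field L] [Algebra (RatFunc k) L] [FiniteDimensional (RatFunc k) L]
    {n : Type} [Fintype n] [DecidableEq n] {g : PS.ι → Matrix n n L} (hg : (PS.ad L).IsBun g) :
    ∃ (J : Type) (_ : Fintype J) (x : Module.Basis J (RatFunc k) (n → L)) (a : J → ℤ),
      ∀ v y, y ∈ (PS.ad L).Lat v (g v) ↔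
        ∀ j, (if v = PS.inf then RatFunc.X ^ a j else 1) * x.repr y j ∈ PS.O v :=
  (PS.AS_latFam L hg).split

open Classical in
/-- Apply `exists_split` to the trivial line bundle to get `(ω l, α l)` and put `AL = ∑ α l`.  Compare the two
`O v`-bases `ω l (g v) e i` and `x j` of `Lat v (g v)`, using `LinearMap.det_restrictScalars`, `finrank_mul_nuL` and the product formula. -/
theorem adelic_split (L : Type) [Field L] [Algebra (RatFunc k) L] [FiniteDimensional (RatFunc k) L] :
    ∃ AL : ℤ, ∀ (n : Type) [Fintype n] [DecidableEq n] (g : PS.ι → Matrix n n L), (PS.ad L).IsBun g →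
      ∃ (J : Type) (_ : Fintype J) (x : Module.Basis J (RatFunc k) (n → L)) (a : J → ℤ),
        (∀ v y, y ∈ (PS.ad L).Lat v (g v) ↔
          ∀ j, (if v = PS.inf then RatFunc.X ^ a j else 1) * x.repr y j ∈ PS.O v) ∧
        (Module.finrank (RatFunc k) L : ℚ) * (PS.ad L).D g = Fintype.card n * AL - ∑ j, (a j : ℚ) := by
  have hX : (RatFunc.X : RatFunc k) ≠ 0 := RatFunc.X_ne_zero
  obtain ⟨J₀, hJ₀, ω', α, hω'⟩ := PS.exists_split L (n := Unit) (g := fun _ => 1)
    (AdSys.isBun_const (A := PS.ad L) (by simp))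
  let ω : Module.Basis J₀ (RatFunc k) L := ω'.map (LinearEquiv.funUnique Unit (RatFunc k) L)
  have hω : ∀ v (z : L), z ∈ PS.I L v ↔
      ∀ l, (if v = PS.inf then RatFunc.X ^ α l else 1) * ω.repr z l ∈ PS.O v := by
    intro v z
    have h1 := hω' v (fun _ => z)
    rw [AdSys.mem_Lat_one] at h1
    exact ⟨fun hz => h1.1 fun _ => hz, fun hz => h1.2 hz ()⟩
  refine ⟨∑ l, α l, fun n _ _ g hg => ?_⟩
  obtain ⟨J, hJ, x, a, hx⟩ := PS.exists_split L hg
  refine ⟨J, hJ, x, a, hx, ?_⟩
  let b : Module.Basis (J₀ × n) (RatFunc k) (n → L) := ω.smulTower (Pi.basisFun L n)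
  have hb : ∀ y p, b.repr y p = ω.repr (y p.2) p.1 := fun y p => by
    simp [b, Module.Basis.smulTower_repr]
  let e : J ≃ J₀ × n := x.indexEquiv b
  let x' := x.reindex e
  let T : Matrix (J₀ × n) (J₀ × n) (RatFunc k) := LinearMap.toMatrix b x' LinearMap.id
  have hT : T.det ≠ 0 := by
    have : IsUnit T.det := LinearEquiv.isUnit_det (LinearEquiv.refl _ _) b x'
    exact this.ne_zero
  have hloc : ∀ v, (Module.finrank (RatFunc k) L : ℚ) * PS.nuL L v (g v).det =
      -(PS.nu v T.det : ℚ) +
        if v = PS.inf then ((Fintype.card n * ∑ l, α l - ∑ j, a j : ℤ) : ℚ) * (-1) else 0 := by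
    intro v
    let G : (n → L) →ₗ[RatFunc k] (n → L) := (Matrix.toLin' (g v)).restrictScalars (RatFunc k)
    have hG : G.det = Algebra.norm (RatFunc k) (g v).det := by
      rw [LinearMap.det_restrictScalars, LinearMap.det_toLin']
    have hN : Algebra.norm (RatFunc k) (g v).det ≠ 0 :=
      (Algebra.norm_ne_zero_iff).2 (hg.det_ne v)
    have hP : (LinearMap.toMatrix b x' G).det = T.det * Algebra.norm (RatFunc k) (g v).det := by
      rw [← hG, ← LinearMap.det_toMatrix b G, ← det_mul, ← LinearMap.toMatrix_comp]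
      rfl
    have hP0 : (LinearMap.toMatrix b x' G).det ≠ 0 := hP ▸ mul_ne_zero hT hN
    have key := PS.AS_nu_det v hP0
      (c := fun p => if v = PS.inf then RatFunc.X ^ α p.1 else 1)
      (c' := fun p => if v = PS.inf then RatFunc.X ^ a (e.symm p) else 1)
      (fun p => by split_ifs; exacts [zpow_ne_zero _ hX, one_ne_zero])
      (fun p => by split_ifs; exacts [zpow_ne_zero _ hX, one_ne_zero]) (fun z => by
        obtain ⟨y, rfl⟩ : ∃ y, z = ⇑(b.repr y) := ⟨b.equivFun.symm z, by
          rw [← Module.Basis.equivFun_apply, LinearEquiv.apply_symm_apply]⟩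
        rw [LinearMap.toMatrix_mulVec_repr]
        have h1 : G y ∈ (PS.ad L).Lat v (g v) ↔ y ∈ (PS.ad L).Lat v (1 : Matrix n n L) := by
          have := AdSys.mulVec_mem_Lat_mul (A := PS.ad L) v (hg.det_ne v) (1 : Matrix n n L) y
          rwa [Matrix.mul_one] at this
        rw [hx, AdSys.mem_Lat_one] at h1
        constructor
        · intro h p
          have h2 := h1.2 (fun i => (hω v _).2 fun l => by simpa only [hb] using h (l, i)) (e.symm p)
          simpa only [x', Module.Basis.repr_reindex_apply] using h2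
        · intro h p
          have h2 := h1.1 (fun j => by
            simpa only [x', Module.Basis.repr_reindex_apply, Equiv.symm_apply_apply] using h (e j))
          rw [hb]
          exact (hω v _).1 (h2 p.2) p.1)
    rw [PS.finrank_mul_nuL L v (hg.det_ne v)]
    rw [hP, PS.nu_mul _ _ _ hT hN] at key
    by_cases hv : v = PS.inf
    · subst hv
      simp only [if_true, PS.AS_nu_inf_zpow] at key ⊢
      rw [Equiv.sum_comp e.symm (fun j => -a j), Fintype.sum_prod_type] at key
      simp only [Finset.sum_const, Finset.card_univ, nsmul_eq_mul, Finset.sum_neg_distrib,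
        mul_neg, ← Finset.mul_sum] at key
      have : PS.nu PS.inf (Algebra.norm (RatFunc k) (g PS.inf).det) =
          -PS.nu PS.inf T.det + (Fintype.card n * ∑ l, α l - ∑ j, a j) * (-1) := by linarith
      exact_mod_cast this
    · simp only [if_neg hv, PS.nu_one, Finset.sum_const_zero] at key ⊢
      have : PS.nu v (Algebra.norm (RatFunc k) (g v).det) = -PS.nu v T.det + 0 := by linarith
      exact_mod_cast this
  have hfinT : (Function.support fun v => PS.nu v T.det).Finite := by
    refine ((PS.fin_supp T.det).union (PS.fin_supp T.det⁻¹)).subset fun v hv => ?_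
    by_contra hc
    simp only [Set.mem_union, Set.mem_ofPred_eq, not_or, not_not] at hc
    exact hv (PS.AS_nu_eq_zero v hT hc.1 hc.2)
  have hsumT : ∑ᶠ v, (PS.nu v T.det : ℚ) = 0 := by
    have h1 := (Int.castAddHom ℚ).map_finsum hfinT
    rw [PS.prod _ hT] at h1
    simpa using h1.symm
  have hfinT' : (Function.support fun v => -(PS.nu v T.det : ℚ)).Finite :=
    hfinT.subset fun v hv => by simpa using hv
  have hD : (PS.ad L).D g = -∑ᶠ v, PS.nuL L v (g v).det := rfl
  rw [hD, mul_neg, mul_finsum]
  simp only [hloc]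
  rw [finsum_add_distrib hfinT' ((Set.finite_singleton PS.inf).subset fun v hv => by
    by_contra hc
    exact hv (if_neg hc)), finsum_neg_distrib, hsumT, finsum_eq_single _ PS.inf fun v hv => if_neg hv]
  simp

/-- With `L = k(X)(T)` and `γ = AL / [L : k(X)] - 1`: if all `a j ≥ 1` then `D g ≤ m γ`; if `a j ≤ 0` then `x j` is a
section. -/
theorem ad_RR (Ω : Type) [Field Ω] [Algebra (RatFunc k) Ω] [Algebra.IsAlgebraic (RatFunc k) Ω] :
    (PS.ad Ω).RR := by
  classical
  intro T
  let L := IntermediateField.adjoin (RatFunc k) (T : Set Ω)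
  have hfd : FiniteDimensional (RatFunc k) L :=
    IntermediateField.finiteDimensional_adjoin fun x _ => Algebra.IsIntegral.isIntegral x
  obtain ⟨AL, hAL⟩ := PS.adelic_split L
  have hd : (0 : ℚ) < Module.finrank (RatFunc k) L := by exact_mod_cast Module.finrank_pos
  refine ⟨AL / Module.finrank (RatFunc k) L - 1, fun m g hg hT hlt => ?_⟩
  have hmem : ∀ v i j, g v i j ∈ L := fun v i j =>
    (Subfield.closure_le (t := L.toSubfield)).2 (IntermediateField.subset_adjoin _ _) (hT v i j)
  let g' : PS.ι → Matrix (Fin m) (Fin m) L := fun v i j => ⟨g v i j, hmem v i j⟩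
  have hgg : ∀ v, (g' v).map (algebraMap L Ω) = g v := fun v => rfl
  have hdet : ∀ v, (g' v).det ≠ 0 := by
    intro v h0
    apply hg.det_ne v
    rw [← hgg v]
    have := (algebraMap L Ω).map_det (g' v)
    rw [h0, map_zero] at this
    exact this.symm
  have hg' : (PS.ad L).IsBun g' := by
    refine ⟨hdet, hg.ae.subset fun v hv => ?_⟩
    intro hc
    apply hv
    ext y
    rw [← PS.map_mem_Lat_iff (Ω := Ω) v (hdet v), ← PS.map_mem_Lat_iff (Ω := Ω) v (g := 1) (by simp),
      hgg, hc, Matrix.map_one _ (map_zero _) (map_one _)]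
  obtain ⟨J, hJ, x, a, hx, hD⟩ := hAL (Fin m) g' hg'
  have hDD : (PS.ad Ω).D g = (PS.ad L).D g' := (PS.isBun_map (Ω := Ω) hg').2
  have hcard : Fintype.card J = m * Module.finrank (RatFunc k) L := by
    rw [← Module.finrank_eq_card_basis x, Module.finrank_pi_fintype]
    simp
  obtain ⟨j, hj⟩ : ∃ j, a j ≤ 0 := by
    by_contra hc
    push Not at hc
    have h1 : (Fintype.card J : ℚ) ≤ ∑ j, (a j : ℚ) := by
      have : ∑ _j : J, (1 : ℚ) ≤ ∑ j, (a j : ℚ) :=
        Finset.sum_le_sum fun j _ => by exact_mod_cast hc j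
      simpa using this
    rw [hDD] at hlt
    have h2 := mul_lt_mul_of_pos_left hlt hd
    rw [hD, Fintype.card_fin] at h2
    rw [hcard] at h1
    push_cast at h1
    have h3 : (Module.finrank (RatFunc k) L : ℚ) * (m * (AL / Module.finrank (RatFunc k) L - 1)) =
        m * AL - m * Module.finrank (RatFunc k) L := by field_simp
    linarith
  refine ⟨fun i => algebraMap L Ω (x j i), fun h0 => x.ne_zero j ?_, fun v => ?_⟩
  · funext i
    exact (map_eq_zero (algebraMap L Ω)).1 (congrFun h0 i)
  · rw [← hgg v, PS.map_mem_Lat_iff (Ω := Ω) v (hdet v), hx]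
    intro j'
    rw [x.repr_self]
    by_cases hjj : j = j'
    · subst hjj
      rw [Finsupp.single_eq_same, mul_one]
      split_ifs with hv
      · subst hv; exact PS.AS_zpow_mem_inf hj
      · exact (PS.O v).one_mem
    · rw [Finsupp.single_eq_of_ne (Ne.symm hjj), mul_zero]
      exact (PS.O v).zero_mem

end PlaceSys

end

end Crest.Agent.R169
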