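import Crest.Agent.R169.ADefs

/-! # The ring `𝒪`, lattices, Artin–Rees -/

set_option autoImplicit false
set_option linter.unusedSectionVars false

namespace Crest.Agent.R169

noncomputable section

open MvPowerSeries

theorem as1_inj : Function.Injective (algebraMap A3 F3) := IsFractionRing.injective A3 F3

theorem as1_order_X (i : Fin 3) : (X i : A3).order = 1 := by
  rw [X, order_monomial_of_ne_zero one_ne_zero]
  simp

theorem as1_X_ne_zero (i : Fin 3) : (X i : A3) ≠ 0 := by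
  intro h
  have := as1_order_X i
  rw [h, order_zero] at this
  exact absurd this (by simp)

theorem xv_ne_zero (i : Fin 3) : xv i ≠ 0 := by
  intro h
  exact as1_X_ne_zero i (as1_inj (by rw [map_zero]; exact h))

theorem as1_cancel {n : ℕ} {i : Fin 3} {a b : A3} (h : a = X i * b)
    (ha : ∀ d : Fin 3 →₀ ℕ, d.degree < n + 1 → coeff d a = 0) : (n : ℕ∞) ≤ b.order := by
  have h1 : ((n + 1 : ℕ) : ℕ∞) ≤ a.order := nat_le_order ha
  rw [h, order_mul, as1_order_X, Nat.cast_add, Nat.cast_one, add_comm] at h1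
  exact (ENat.add_le_add_iff_left (by simp)).1 h1

theorem as1_decomp {n : ℕ} {a : A3} (h : ((n + 1 : ℕ) : ℕ∞) ≤ a.order) :
    ∃ b : Fin 3 → A3, (∀ i, (n : ℕ∞) ≤ (b i).order) ∧ a = ∑ i, X i * b i := by
  have ha : ∀ d : Fin 3 →₀ ℕ, d.degree < n + 1 → coeff d a = 0 := fun d hd =>
    coeff_of_lt_order (lt_of_lt_of_le (by exact_mod_cast hd) h)
  obtain ⟨b, hb⟩ : ∃ b : A3, ∀ d, coeff d b = if d 0 = 0 then coeff d a else 0 :=
    ⟨fun d => if d 0 = 0 then coeff d a else 0, fun _ => rfl⟩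
  obtain ⟨c, hc⟩ : ∃ c : A3, ∀ d, coeff d c = if d 1 = 0 then coeff d b else 0 :=
    ⟨fun d => if d 1 = 0 then coeff d b else 0, fun _ => rfl⟩
  have hb0 : ∀ d : Fin 3 →₀ ℕ, d.degree < n + 1 → coeff d b = 0 := fun d hd => by
    rw [hb, ha d hd, ite_self]
  have hc0 : ∀ d : Fin 3 →₀ ℕ, d.degree < n + 1 → coeff d c = 0 := fun d hd => by
    rw [hc, hb0 d hd, ite_self]
  obtain ⟨a0, h0⟩ : (X 0 : A3) ∣ a - b := X_dvd_iff.2 fun m hm => by
    rw [map_sub, hb, if_pos hm, sub_self]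
  obtain ⟨a1, h1⟩ : (X 1 : A3) ∣ b - c := X_dvd_iff.2 fun m hm => by
    rw [map_sub, hc, if_pos hm, sub_self]
  obtain ⟨a2, h2⟩ : (X 2 : A3) ∣ c := X_dvd_iff.2 fun m hm => by
    rw [hc, hb]
    split_ifs with h1 h0
    · have : m = 0 := by
        ext i
        fin_cases i
        exacts [h0, h1, hm]
      exact ha m (by rw [this]; simp)
    · rfl
    · rfl
  refine ⟨![a0, a1, a2], fun i => ?_, ?_⟩
  · fin_cases i
    · exact as1_cancel h0 fun d hd => by rw [map_sub, ha d hd, hb0 d hd, sub_self]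
    · exact as1_cancel h1 fun d hd => by rw [map_sub, hb0 d hd, hc0 d hd, sub_self]
    · exact as1_cancel h2 hc0
  · rw [Fin.sum_univ_three]
    change a = X 0 * a0 + X 1 * a1 + X 2 * a2
    rw [← h0, ← h1, ← h2]
    ring

theorem as1_mem_max (a : A3) : a ∈ IsLocalRing.maximalIdeal A3 ↔ (1 : ℕ∞) ≤ a.order := by
  rw [IsLocalRing.mem_maximalIdeal, mem_nonunits_iff, isUnit_iff_constantCoeff,
    one_le_order_iff_constCoeff_eq_zero, isUnit_iff_ne_zero, not_not]

theorem as1_X_mem (i : Fin 3) : (X i : A3) ∈ IsLocalRing.maximalIdeal A3 :=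
  (as1_mem_max _).2 (as1_order_X i).ge

theorem maximalIdeal_A3 : IsLocalRing.maximalIdeal A3 = Ideal.span (Set.range (X : Fin 3 → A3)) := by
  refine le_antisymm (fun a ha => ?_) (Ideal.span_le.2 ?_)
  · obtain ⟨b, -, rfl⟩ := as1_decomp (n := 0) (a := a) (by simpa using (as1_mem_max a).1 ha)
    exact Ideal.sum_mem _ fun i _ => Ideal.mul_mem_right _ _ (Ideal.subset_span ⟨i, rfl⟩)
  · rintro _ ⟨i, rfl⟩
    exact as1_X_mem i

/-- `𝔪ⁿ` is the set of series of order `≥ n` -/
theorem mem_maximalIdeal_pow_iff (n : ℕ) (a : A3) :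
    a ∈ IsLocalRing.maximalIdeal A3 ^ n ↔ (n : ℕ∞) ≤ a.order := by
  induction n generalizing a with
  | zero => simp
  | succ n ih =>
    rw [pow_succ']
    constructor
    · intro h
      refine Submodule.mul_induction_on h (fun x hx y hy => ?_) (fun x y hx hy => ?_)
      · rw [order_mul, Nat.cast_add, Nat.cast_one, add_comm]
        exact add_le_add ((as1_mem_max x).1 hx) ((ih y).1 hy)
      · exact le_trans (le_min hx hy) min_order_le_add
    · intro h
      obtain ⟨b, hb, rfl⟩ := as1_decomp h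
      exact Ideal.sum_mem _ fun i _ => Ideal.mul_mem_mul (as1_X_mem i) ((ih _).2 (hb i))

theorem as1_hom_mem {n : ℕ} {p : P3} (hp : p.IsHomogeneous n) :
    (p : A3) ∈ IsLocalRing.maximalIdeal A3 ^ n :=
  (mem_maximalIdeal_pow_iff n _).2 (nat_le_order fun d hd => by
    rw [MvPolynomial.coeff_coe]; exact hp.coeff_eq_zero hd.ne)

theorem as1_hom_order {n : ℕ} {p : P3} (hp : p.IsHomogeneous n) (h0 : p ≠ 0) :
    (p : A3).order = n := by
  refine le_antisymm ?_ ((mem_maximalIdeal_pow_iff n _).1 (as1_hom_mem hp))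
  obtain ⟨d, hd⟩ := MvPolynomial.exists_coeff_ne_zero h0
  have h1 : d.degree = n := by
    by_contra h
    exact hd (hp.coeff_eq_zero h)
  rw [← h1]
  exact order_le (by rw [MvPolynomial.coeff_coe]; exact hd)

theorem as1_coe_ne_zero {h : P3} (h0 : h ≠ 0) : algebraMap A3 F3 (h : A3) ≠ 0 := fun e =>
  h0 (MvPolynomial.coe_eq_zero_iff.1 (as1_inj (by rw [map_zero]; exact e)))

theorem OrdMem.add {f g : F3} (hf : OrdMem f) (hg : OrdMem g) : OrdMem (f + g) := by
  obtain ⟨n, h, h0, hh, a, ha, e⟩ := hf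
  obtain ⟨n', h', h0', hh', a', ha', e'⟩ := hg
  refine ⟨n + n', h * h', mul_ne_zero h0 h0', hh.mul hh', a * h' + h * a', ?_, ?_⟩
  · rw [pow_add]
    exact Ideal.add_mem _ (Ideal.mul_mem_mul ha (as1_hom_mem hh'))
      (Ideal.mul_mem_mul (as1_hom_mem hh) ha')
  · rw [MvPolynomial.coe_mul, map_mul, map_add, map_mul, map_mul, ← e, ← e']
    ring

theorem OrdMem.mul {f g : F3} (hf : OrdMem f) (hg : OrdMem g) : OrdMem (f * g) := by
  obtain ⟨n, h, h0, hh, a, ha, e⟩ := hf
  obtain ⟨n', h', h0', hh', a', ha', e'⟩ := hg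
  refine ⟨n + n', h * h', mul_ne_zero h0 h0', hh.mul hh', a * a', ?_, ?_⟩
  · rw [pow_add]
    exact Ideal.mul_mem_mul ha ha'
  · rw [MvPolynomial.coe_mul, map_mul, map_mul, ← e, ← e']
    ring

theorem ordMem_algebraMap (a : A3) : OrdMem (algebraMap A3 F3 a) :=
  ⟨0, 1, one_ne_zero, MvPolynomial.isHomogeneous_one _ _, a, by simp, by simp⟩

theorem as1_ordMem_zero : OrdMem 0 := by simpa using ordMem_algebraMap 0

theorem as1_ordMem_sum {ι : Type} (s : Finset ι) (f : ι → F3) (h : ∀ i ∈ s, OrdMem (f i)) :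
    OrdMem (∑ i ∈ s, f i) :=
  Finset.sum_induction f OrdMem (fun _ _ => OrdMem.add) as1_ordMem_zero h

/-- degree zero fractions -/
theorem ordMem_div {n : ℕ} {p h : P3} (hp : p.IsHomogeneous n) (hh : h.IsHomogeneous n) (h0 : h ≠ 0) :
    OrdMem (algebraMap A3 F3 (p : A3) / algebraMap A3 F3 (h : A3)) :=
  ⟨n, h, h0, hh, p, as1_hom_mem hp, mul_div_cancel₀ _ (as1_coe_ne_zero h0)⟩

theorem as1_coe_X (i : Fin 3) : algebraMap A3 F3 ((MvPolynomial.X i : P3) : A3) = xv i := by
  rw [MvPolynomial.coe_X]; rfl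

/-- `tⁿ 𝒪 ∩ A = 𝔪ⁿ` (`MvPowerSeries.order_mul`) -/
theorem ordMem_iff_mem_pow (n : ℕ) (a : A3) :
    OrdMem ((xv 2 ^ n)⁻¹ * algebraMap A3 F3 a) ↔ a ∈ IsLocalRing.maximalIdeal A3 ^ n := by
  have ht : xv 2 ^ n ≠ 0 := pow_ne_zero n (xv_ne_zero 2)
  have hX : algebraMap A3 F3 ((MvPolynomial.X 2 ^ n : P3) : A3) = xv 2 ^ n := by
    rw [MvPolynomial.coe_pow, map_pow, as1_coe_X]
  have hX0 : (MvPolynomial.X 2 ^ n : P3) ≠ 0 := pow_ne_zero n (MvPolynomial.X_ne_zero 2)
  constructor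
  · rintro ⟨k, h, h0, hh, b, hb, e⟩
    have e1 : (h : A3) * a = ((MvPolynomial.X 2 ^ n : P3) : A3) * b := by
      refine as1_inj ?_
      rw [map_mul, map_mul, hX, ← e]
      field_simp
    have e2 := congrArg order e1
    rw [order_mul, order_mul, as1_hom_order hh h0,
      as1_hom_order (MvPolynomial.isHomogeneous_X_pow 2 n) hX0] at e2
    rw [mem_maximalIdeal_pow_iff] at hb ⊢
    have e3 : (k : ℕ∞) + n ≤ k + a.order := by
      rw [e2, add_comm]
      exact add_le_add le_rfl hb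
    exact (ENat.add_le_add_iff_left (by simp)).1 e3
  · intro ha
    refine ⟨n, MvPolynomial.X 2 ^ n, hX0, MvPolynomial.isHomogeneous_X_pow 2 n, a, ha, ?_⟩
    rw [hX, mul_inv_cancel_left₀ ht]

/-- `𝒪 = κ₀ + t 𝒪` -/
theorem OrdMem.exists_residue {f : F3} (hf : OrdMem f) : ∃ (n : ℕ) (p h : P3), p.IsHomogeneous n ∧
    h.IsHomogeneous n ∧ h ≠ 0 ∧
    OrdMem ((xv 2)⁻¹ * (f - algebraMap A3 F3 (p : A3) / algebraMap A3 F3 (h : A3))) := by
  obtain ⟨n, h, h0, hh, a, ha, e⟩ := hf
  obtain ⟨p, hp⟩ : ∃ p : P3, p = MvPolynomial.homogeneousComponent n (truncTotal (n + 1) a) :=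
    ⟨_, rfl⟩
  refine ⟨n, p, h, hp ▸ MvPolynomial.homogeneousComponent_isHomogeneous _ _, hh, h0, 1 + n,
    MvPolynomial.X 2 * h, mul_ne_zero (MvPolynomial.X_ne_zero 2) h0,
    (MvPolynomial.isHomogeneous_X _ 2).mul hh, a - p, ?_, ?_⟩
  · rw [mem_maximalIdeal_pow_iff] at ha ⊢
    refine nat_le_order fun d hd => ?_
    rw [map_sub, MvPolynomial.coeff_coe, hp, MvPolynomial.coeff_homogeneousComponent]
    split_ifs with h1
    · rw [coeff_truncTotal _ (by omega), sub_self]
    · rw [sub_zero]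
      exact coeff_of_lt_order (lt_of_lt_of_le (by exact_mod_cast (by omega : d.degree < n)) ha)
  · have h1 := as1_coe_ne_zero h0
    have h2 := xv_ne_zero 2
    rw [MvPolynomial.coe_mul, map_mul, as1_coe_X, map_sub, ← e]
    field_simp

theorem as1_C (c : ℂ) : algebraMap A3 F3 (C c) = algebraMap ℂ F3 c := by
  rw [IsScalarTower.algebraMap_apply ℂ A3 F3]
  rfl

theorem as1_aeval (p : P3) : MvPolynomial.aeval xv p = algebraMap A3 F3 (p : A3) := by
  induction p using MvPolynomial.induction_on with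
  | C c => rw [MvPolynomial.aeval_C, MvPolynomial.coe_C, as1_C]
  | add p q hp hq => rw [map_add, hp, hq, MvPolynomial.coe_add, map_add]
  | mul_X p i hp => rw [map_mul, hp, MvPolynomial.aeval_X, MvPolynomial.coe_mul, map_mul, as1_coe_X]

theorem as1_aeval_div {n : ℕ} {p : P3} (hp : p.IsHomogeneous n) :
    MvPolynomial.aeval (fun i => xv i / xv 2) p = algebraMap A3 F3 (p : A3) / xv 2 ^ n := by
  rw [← as1_aeval, MvPolynomial.aeval_def, MvPolynomial.aeval_def, MvPolynomial.eval₂_eq',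
    MvPolynomial.eval₂_eq', Finset.sum_div]
  refine Finset.sum_congr rfl fun d hd => ?_
  have h1 : d.degree = n := by
    by_contra h
    exact MvPolynomial.mem_support_iff.1 hd (hp.coeff_eq_zero h)
  rw [← h1, Finsupp.degree_eq_sum, mul_div_assoc, ← Finset.prod_pow_eq_pow_sum,
    ← Finset.prod_div_distrib]
  simp only [div_pow]

variable {N : ℕ} {K : Type} [Field K] [Algebra ℂ K] [Module K (Fin N → F3)]
  [IsScalarTower ℂ K (Fin N → F3)] {xb yb : K} {Rn : ℕ → Submodule ℂ K}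

theorem as1_smul_C (c : ℂ) (u : Fin N → F3) : algebraMap ℂ K c • u = algebraMap ℂ F3 c • u := by
  rw [algebraMap_smul, algebraMap_smul]

omit [IsScalarTower ℂ K (Fin N → F3)] in
theorem AData.as1_var (hA : AData K xb yb Rn N) (i : Fin 3) (u : Fin N → F3) :
    (![xb, yb, 1] i) • u = (xv i / xv 2) • u := by
  fin_cases i
  · exact hA.hx u
  · exact hA.hy u
  · change (1 : K) • u = (xv 2 / xv 2) • u
    rw [div_self (xv_ne_zero 2), one_smul, one_smul]

theorem AData.as1_ev (hA : AData K xb yb Rn N) (p : P3) : ∀ u : Fin N → F3,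
    MvPolynomial.aeval ![xb, yb, 1] p • u = MvPolynomial.aeval (fun i => xv i / xv 2) p • u := by
  induction p using MvPolynomial.induction_on with
  | C c => intro u; rw [MvPolynomial.aeval_C, MvPolynomial.aeval_C, as1_smul_C]
  | add p q hp hq => intro u; rw [map_add, map_add, add_smul, add_smul, hp, hq]
  | mul_X p i hp =>
    intro u
    rw [map_mul, map_mul, MvPolynomial.aeval_X, MvPolynomial.aeval_X, mul_smul, mul_smul,
      hA.as1_var, hp]

theorem as1_ev_mem (xb yb : K) (p : P3) :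
    MvPolynomial.aeval ![xb, yb, 1] p ∈ IntermediateField.adjoin ℂ {xb, yb} := by
  induction p using MvPolynomial.induction_on with
  | C c => rw [MvPolynomial.aeval_C]; exact IntermediateField.algebraMap_mem _ c
  | add p q hp hq => rw [map_add]; exact add_mem hp hq
  | mul_X p i hp =>
    rw [map_mul, MvPolynomial.aeval_X]
    refine mul_mem hp ?_
    fin_cases i
    · exact IntermediateField.subset_adjoin _ _ (by simp)
    · exact IntermediateField.subset_adjoin _ _ (by simp)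
    · exact one_mem _

/-- degree zero fractions act through elements of `ℂ(xb, yb)`, and conversely.  (A homogeneous `h ≠ 0` of degree `n` acts as
the scalar `h / tⁿ ≠ 0` through `τ = h(xb, yb, 1)`, so `τ ≠ 0` when `N > 0`.) -/
theorem AData.exists_of_div (hA : AData K xb yb Rn N) (hN : 0 < N) {n : ℕ} {p h : P3}
    (hp : p.IsHomogeneous n) (hh : h.IsHomogeneous n) (h0 : h ≠ 0) :
    ∃ τ ∈ IntermediateField.adjoin ℂ {xb, yb}, ∀ u : Fin N → F3,
      τ • u = (algebraMap A3 F3 (p : A3) / algebraMap A3 F3 (h : A3)) • u := by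
  have ht : xv 2 ^ n ≠ 0 := pow_ne_zero n (xv_ne_zero 2)
  have h1 := as1_coe_ne_zero h0
  have ep := hA.as1_ev p
  have eh := hA.as1_ev h
  rw [as1_aeval_div hp] at ep
  rw [as1_aeval_div hh] at eh
  have hne : MvPolynomial.aeval ![xb, yb, 1] h ≠ 0 := by
    intro e
    have := congrFun (eh 1) ⟨0, hN⟩
    rw [e, zero_smul] at this
    simp only [Pi.zero_apply, Pi.smul_apply, Pi.one_apply, smul_eq_mul, mul_one] at this
    exact div_ne_zero h1 ht this.symm
  refine ⟨_, div_mem (as1_ev_mem xb yb p) (as1_ev_mem xb yb h), fun u => ?_⟩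
  refine smul_right_injective _ hne ?_
  dsimp only
  rw [smul_smul, mul_div_cancel₀ _ hne, ep, eh, smul_smul]
  congr 1
  field_simp

theorem AData.exists_div (hA : AData K xb yb Rn N) (hN : 0 < N) {τ : K}
    (hτ : τ ∈ IntermediateField.adjoin ℂ {xb, yb}) : ∃ (n : ℕ) (p h : P3), p.IsHomogeneous n ∧
      h.IsHomogeneous n ∧ h ≠ 0 ∧ ∀ u : Fin N → F3,
      τ • u = (algebraMap A3 F3 (p : A3) / algebraMap A3 F3 (h : A3)) • u := by
  have _ := hN
  induction hτ using IntermediateField.adjoin_induction with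
  | mem x hx =>
    rcases hx with rfl | rfl
    · exact ⟨1, MvPolynomial.X 0, MvPolynomial.X 2, MvPolynomial.isHomogeneous_X _ _,
        MvPolynomial.isHomogeneous_X _ _, MvPolynomial.X_ne_zero 2, fun u => by
          rw [as1_coe_X, as1_coe_X]; exact hA.hx u⟩
    · exact ⟨1, MvPolynomial.X 1, MvPolynomial.X 2, MvPolynomial.isHomogeneous_X _ _,
        MvPolynomial.isHomogeneous_X _ _, MvPolynomial.X_ne_zero 2, fun u => by
          rw [as1_coe_X, as1_coe_X]; exact hA.hy u⟩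
  | algebraMap c =>
    exact ⟨0, MvPolynomial.C c, 1, MvPolynomial.isHomogeneous_C _ _,
      MvPolynomial.isHomogeneous_one _ _, one_ne_zero, fun u => by
        rw [MvPolynomial.coe_one, map_one, div_one, MvPolynomial.coe_C, as1_C, as1_smul_C]⟩
  | add x y _ _ hx hy =>
    obtain ⟨n, p, h, hp, hh, h0, e⟩ := hx
    obtain ⟨n', p', h', hp', hh', h0', e'⟩ := hy
    refine ⟨n + n', p * h' + h * p', h * h', (hp.mul hh').add (hh.mul hp'), hh.mul hh',
      mul_ne_zero h0 h0', fun u => ?_⟩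
    rw [add_smul, e, e', ← add_smul, div_add_div _ _ (as1_coe_ne_zero h0) (as1_coe_ne_zero h0')]
    simp only [MvPolynomial.coe_add, MvPolynomial.coe_mul, map_add, map_mul]
  | inv x _ hx =>
    obtain ⟨n, p, h, hp, hh, h0, e⟩ := hx
    by_cases hp0 : p = 0
    · refine ⟨n, p, h, hp, hh, h0, fun u => ?_⟩
      rw [← e]
      simp only [hp0, MvPolynomial.coe_zero, map_zero, zero_div, zero_smul] at e
      by_cases hx0 : x = 0
      · rw [hx0, inv_zero]
      · have : u = 0 := (smul_eq_zero.1 (e u)).resolve_left hx0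
        rw [this, smul_zero, smul_zero]
    · refine ⟨n, h, p, hh, hp, hp0, fun u => ?_⟩
      have h1 := as1_coe_ne_zero h0
      have h2 := as1_coe_ne_zero hp0
      have h3 : x • (algebraMap A3 F3 (h : A3) / algebraMap A3 F3 (p : A3)) • u = u := by
        rw [e, smul_smul, div_mul_div_cancel₀ h1, div_self h2, one_smul]
      by_cases hx0 : x = 0
      · rw [hx0, zero_smul] at h3
        rw [← h3, smul_zero, smul_zero]
      · rw [inv_smul_eq_iff₀ hx0, h3]
  | mul x y _ _ hx hy =>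
    obtain ⟨n, p, h, hp, hh, h0, e⟩ := hx
    obtain ⟨n', p', h', hp', hh', h0', e'⟩ := hy
    refine ⟨n + n', p * p', h * h', hp.mul hp', hh.mul hh', mul_ne_zero h0 h0', fun u => ?_⟩
    rw [mul_smul, e, e', smul_smul, div_mul_div_comm]
    simp only [MvPolynomial.coe_mul, map_mul]

/-- multiplication by a scalar of `F3` as a `K`-linear map -/
def AData.as1_mulL (hA : AData K xb yb Rn N) (f : F3) : (Fin N → F3) →ₗ[K] (Fin N → F3) where
  toFun u := f • u
  map_add' := smul_add f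
  map_smul' τ u := (hA.comm τ f u).symm

theorem AData.mem_tL (hA : AData K xb yb Rn N) (Λ : Submodule K (Fin N → F3)) (u : Fin N → F3) :
    u ∈ tL Λ ↔ (xv 2)⁻¹ • u ∈ Λ := by
  have h : tL Λ = Λ.map (hA.as1_mulL (xv 2)) := Submodule.span_eq (Λ.map (hA.as1_mulL (xv 2)))
  rw [h, Submodule.mem_map]
  constructor
  · rintro ⟨w, hw, rfl⟩
    change (xv 2)⁻¹ • xv 2 • w ∈ Λ
    rwa [inv_smul_smul₀ (xv_ne_zero 2)]
  · intro hu
    exact ⟨_, hu, smul_inv_smul₀ (xv_ne_zero 2) u⟩

theorem as1_InLam_add {k : ℕ} {u w : Fin N → F3} (hu : InLam k u) (hw : InLam k w) :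
    InLam k (u + w) := fun i => by
  rw [Pi.add_apply, mul_add]; exact (hu i).add (hw i)

theorem as1_InLam_zero (k : ℕ) : InLam k (0 : Fin N → F3) := fun i => by
  rw [Pi.zero_apply, mul_zero]; exact as1_ordMem_zero

theorem as1_InLam_smul {k : ℕ} {f : F3} {u : Fin N → F3} (hf : OrdMem f) (hu : InLam k u) :
    InLam k (f • u) := fun i => by
  rw [Pi.smul_apply, smul_eq_mul, mul_left_comm]; exact hf.mul (hu i)

/-- `span K (tⁿ Λ₀)` is a lattice, with `n` from `hgen` -/
theorem AData.exists_lat (hA : AData K xb yb Rn N) (hN : 0 < N) :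
    ∃ Λ : Submodule K (Fin N → F3), IsLat Λ := by
  obtain ⟨s, n, hs, hsp⟩ := hA.hgen
  have ht : xv 2 ^ n ≠ 0 := pow_ne_zero n (xv_ne_zero 2)
  have base : ∀ τ ∈ Rn n, ∀ u : Fin N → F3, InLam n u → InLam 0 (τ • u) := by
    intro τ hτ u hu j
    have e : u = ∑ i, u i • (Pi.single i 1 : Fin N → F3) := pi_eq_sum_univ' u
    rw [pow_zero, inv_one, one_mul, e, Finset.smul_sum, Finset.sum_apply]
    refine as1_ordMem_sum _ _ fun i _ => ?_
    obtain ⟨a, ha⟩ := hA.hR n τ hτ (Pi.single i 1) (fun l => by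
      rcases eq_or_ne l i with rfl | h
      · exact ⟨1, by simp⟩
      · exact ⟨0, by simp [h]⟩) j
    have := (hu i).mul (ordMem_algebraMap a)
    rw [← ha] at this
    rw [hA.comm, Pi.smul_apply, smul_eq_mul]
    convert this using 1
    field_simp
  have all : ∀ (τ : K) (u : Fin N → F3), InLam n u → InLam 0 (τ • u) := by
    intro τ u hu
    have hτ : τ ∈ Submodule.span (IntermediateField.adjoin ℂ {xb, yb}) (s : Set K) := by
      rw [hsp]; trivial
    induction hτ using Submodule.span_induction with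
    | mem x hx => exact base x (hs x hx) u hu
    | zero => rw [zero_smul]; exact as1_InLam_zero 0
    | add x y _ _ hx hy => rw [add_smul]; exact as1_InLam_add hx hy
    | smul c x _ hx =>
      obtain ⟨m, p, h, hp, hh, h0, e⟩ := hA.exists_div hN c.2
      change InLam 0 (((c : K) * x) • u)
      rw [mul_smul, e]
      exact as1_InLam_smul (ordMem_div hp hh h0) hx
  refine ⟨Submodule.span K {u | InLam n u}, fun a u hu => ?_, fun u hu => ?_,
    n, fun u hu => Submodule.subset_span hu⟩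
  · have : (Submodule.span K {u : Fin N → F3 | InLam n u}).map (hA.as1_mulL (algebraMap A3 F3 a)) ≤
        Submodule.span K {u | InLam n u} := by
      rw [Submodule.map_span, Submodule.span_le]
      rintro _ ⟨w, hw, rfl⟩
      exact Submodule.subset_span (as1_InLam_smul (ordMem_algebraMap a) hw)
    exact this ⟨u, hu, rfl⟩
  · have : ∀ τ : K, InLam 0 (τ • u) := by
      induction hu using Submodule.span_induction with
      | mem x hx => exact fun τ => all τ x hx
      | zero => intro τ; rw [smul_zero]; exact as1_InLam_zero 0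
      | add x y _ _ hx hy => intro τ; rw [smul_add]; exact as1_InLam_add (hx τ) (hy τ)
      | smul c x _ hx => intro τ; rw [smul_smul]; exact hx _
    simpa using this 1

theorem AData.isLat_tL (hA : AData K xb yb Rn N) {Λ : Submodule K (Fin N → F3)} (h : IsLat Λ) :
    IsLat (tL Λ) ∧ tL Λ ≤ Λ := by
  have hle : tL Λ ≤ Λ := fun u hu => by
    have := h.smul (X 2) _ ((hA.mem_tL Λ u).1 hu)
    rwa [show algebraMap A3 F3 (X 2) = xv 2 from rfl, smul_inv_smul₀ (xv_ne_zero 2)] at this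
  refine ⟨⟨fun a u hu => ?_, fun u hu => h.le u (hle hu), ?_⟩, hle⟩
  · rw [hA.mem_tL] at hu ⊢
    rw [smul_comm]
    exact h.smul a _ hu
  · obtain ⟨k, hk⟩ := h.ge
    refine ⟨k + 1, fun u hu => (hA.mem_tL Λ u).2 (hk _ fun i => ?_)⟩
    have := hu i
    rwa [pow_succ, mul_inv, mul_assoc] at this

/-- every `K`-subspace between `t Λ` and `Λ` is a lattice: `a = a(0) + x a₀ + y a₁ + z a₂` and `x = t xb`, `y = t yb` -/
theorem AData.isLat_of_between (hA : AData K xb yb Rn N) {Λ Λ' : Submodule K (Fin N → F3)}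
    (h : IsLat Λ) (h1 : tL Λ ≤ Λ') (h2 : Λ' ≤ Λ) : IsLat Λ' := by
  refine ⟨fun a u hu => ?_, fun u hu => h.le u (h2 hu), ?_⟩
  · obtain ⟨b, -, hb⟩ := as1_decomp (n := 0) (a := a - C (constantCoeff a))
      (by simpa using one_le_order_iff_constCoeff_eq_zero.2 (by simp))
    rw [sub_eq_iff_eq_add] at hb
    rw [hb, map_add, add_smul, as1_C, ← as1_smul_C (K := K), map_sum, Finset.sum_smul]
    refine Λ'.add_mem (Λ'.sum_mem fun i _ => h1 ?_) (Λ'.smul_mem _ hu)
    rw [hA.mem_tL, map_mul, mul_smul, smul_smul, show algebraMap A3 F3 (X i) = xv i from rfl,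
      inv_mul_eq_div, ← hA.as1_var]
    exact Λ.smul_mem _ (h.smul _ _ (h2 hu))
  · obtain ⟨k, hk⟩ := (hA.isLat_tL h).1.ge
    exact ⟨k, fun u hu => h1 (hk u hu)⟩

theorem as1_fin_of_ker_le {M Q W : Type} [AddCommGroup M] [Module ℂ M] [AddCommGroup Q] [Module ℂ Q]
    [AddCommGroup W] [Module ℂ W] [FiniteDimensional ℂ W] (π : M →ₗ[ℂ] Q)
    (hπ : Function.Surjective π) (Ψ : M →ₗ[ℂ] W) (h : LinearMap.ker Ψ ≤ LinearMap.ker π) :
    FiniteDimensional ℂ Q := by
  have : FiniteDimensional ℂ (M ⧸ LinearMap.ker Ψ) :=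
    Module.Finite.equiv Ψ.quotKerEquivRange.symm
  refine Module.Finite.of_surjective ((LinearMap.ker Ψ).liftQ π h) fun q => ?_
  obtain ⟨m, rfl⟩ := hπ q
  exact ⟨Submodule.Quotient.mk m, rfl⟩

/-- `a ↦ t^(-n) a` -/
def as1_emb (N n : ℕ) : (Fin N → A3) →ₗ[ℂ] (Fin N → F3) where
  toFun a i := (xv 2 ^ n)⁻¹ * algebraMap A3 F3 (a i)
  map_add' a b := by
    funext i
    simp only [Pi.add_apply, map_add, mul_add]
  map_smul' c a := by
    funext i
    simp only [Pi.smul_apply, RingHom.id_apply]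
    rw [Algebra.smul_def, Algebra.smul_def, map_mul, ← IsScalarTower.algebraMap_apply]
    ring

theorem as1_emb_apply (n : ℕ) (a : Fin N → A3) (i : Fin N) :
    as1_emb N n a i = (xv 2 ^ n)⁻¹ * algebraMap A3 F3 (a i) := rfl

theorem as1_InM_iff {n : ℕ} {u : Fin N → F3} : InM n u ↔ ∃ a, as1_emb N n a = u := by
  have ht : xv 2 ^ n ≠ 0 := pow_ne_zero n (xv_ne_zero 2)
  constructor
  · intro h
    choose a ha using h
    exact ⟨a, funext fun i => by rw [as1_emb_apply, ← ha, inv_mul_cancel_left₀ ht]⟩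
  · rintro ⟨a, rfl⟩ i
    exact ⟨a i, by rw [as1_emb_apply, mul_inv_cancel_left₀ ht]⟩

/-- `FL Λ n ⧸ FL Λ' n` is a subquotient of `(𝔪ⁿ ⧸ 𝔪^(n+k))^N` -/
theorem IsLat.finite_quot {Λ Λ' : Submodule K (Fin N → F3)} (h : IsLat Λ) (h' : IsLat Λ') (n : ℕ) :
    FiniteDimensional ℂ (FL Λ n ⧸ (FL Λ' n).comap (FL Λ n).subtype) := by
  have _ := h
  obtain ⟨k, hk⟩ := h'.ge
  have : Finite {d : Fin 3 →₀ ℕ | d.degree < k + n} := Finsupp.finite_of_degree_lt (k + n)
  let M : Submodule ℂ (Fin N → A3) := (FL Λ n).comap (as1_emb N n)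
  let π₀ : M →ₗ[ℂ] FL Λ n := (as1_emb N n).restrict fun a ha => ha
  let Ψ : (Fin N → A3) →ₗ[ℂ] (Fin N → {d : Fin 3 →₀ ℕ | d.degree < k + n} → ℂ) :=
    LinearMap.pi fun i => LinearMap.pi fun d => (coeff d.1).comp (LinearMap.proj i)
  refine as1_fin_of_ker_le (((FL Λ' n).comap (FL Λ n).subtype).mkQ.comp π₀) ?_
    (Ψ.comp M.subtype) ?_
  · refine (Submodule.mkQ_surjective _).comp fun u => ?_
    obtain ⟨a, ha⟩ := as1_InM_iff.1 u.2.2
    exact ⟨⟨a, show as1_emb N n a ∈ FL Λ n from ha ▸ u.2⟩, Subtype.ext ha⟩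
  · intro a ha
    rw [LinearMap.mem_ker, LinearMap.comp_apply, Submodule.mkQ_apply,
      Submodule.Quotient.mk_eq_zero]
    refine ⟨hk _ fun i => ?_, a.2.2⟩
    have h1 : a.1 i ∈ IsLocalRing.maximalIdeal A3 ^ (k + n) :=
      (mem_maximalIdeal_pow_iff _ _).2 (nat_le_order fun d hd =>
        congrFun (congrFun (LinearMap.mem_ker.1 ha) i) ⟨d, hd⟩)
    have h2 := (ordMem_iff_mem_pow _ _).2 h1
    rw [pow_add, mul_inv, mul_assoc] at h2
    exact h2

theorem as1_emb_smul (n : ℕ) (r : A3) (a : Fin N → A3) :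
    as1_emb N n (r • a) = algebraMap A3 F3 r • as1_emb N n a := by
  funext i
  simp only [as1_emb_apply, Pi.smul_apply, smul_eq_mul, map_mul]
  ring

theorem as1_emb_X (n : ℕ) (i : Fin 3) (a : Fin N → A3) :
    as1_emb N (n + 1) ((X i : A3) • a) = (xv i / xv 2) • as1_emb N n a := by
  funext j
  have := xv_ne_zero 2
  simp only [as1_emb_apply, Pi.smul_apply, smul_eq_mul, map_mul]
  rw [show algebraMap A3 F3 (X i) = xv i from rfl]
  field_simp
  ring

/-- Artin–Rees: `n ↦ A^N ∩ tⁿ Λ` is an `𝔪`-filtration of `A^N` contained in the `𝔪`-adic one, so it is stable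
(`Ideal.Filtration.Stable.of_le`).  Stated for any `A`-stable subgroup `X` of `Λ₀` that is stable under `x/t`, `y/t`. -/
theorem artin_rees (X : AddSubgroup (Fin N → F3))
    (hs : ∀ (a : A3), ∀ u ∈ X, algebraMap A3 F3 a • u ∈ X)
    (hx : ∀ i, ∀ u ∈ X, (xv i / xv 2) • u ∈ X) (hle : ∀ u ∈ X, InLam 0 u) :
    ∃ n0, ∀ n, n0 ≤ n → ∀ u ∈ X, InM (n + 1) u → ∃ w : Fin 3 → (Fin N → F3),
      (∀ i, w i ∈ X ∧ InM n (w i)) ∧ u = ∑ i, (xv i / xv 2) • w i := by
  let Nn : ℕ → Submodule A3 (Fin N → A3) := fun n =>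
    { carrier := {a | as1_emb N n a ∈ X}
      add_mem' := fun {a b} ha hb => by
        change as1_emb N n (a + b) ∈ X
        rw [map_add]; exact X.add_mem ha hb
      zero_mem' := by
        change as1_emb N n 0 ∈ X
        rw [map_zero]; exact X.zero_mem
      smul_mem' := fun r a ha => by
        change as1_emb N n (r • a) ∈ X
        rw [as1_emb_smul]; exact hs r _ ha }
  have hmem : ∀ n a, a ∈ Nn n ↔ as1_emb N n a ∈ X := fun _ _ => Iff.rfl
  have hdec : ∀ n, ∀ a ∈ IsLocalRing.maximalIdeal A3 • Nn n, ∃ b : Fin 3 → Fin N → A3,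
      (∀ i, b i ∈ Nn n) ∧ a = ∑ i, (MvPowerSeries.X i : A3) • b i := by
    intro n a ha
    refine Submodule.smul_induction_on ha (fun r hr c hc => ?_) ?_
    · obtain ⟨b, -, rfl⟩ := as1_decomp (n := 0) (a := r) (by simpa using (as1_mem_max r).1 hr)
      refine ⟨fun i => b i • c, fun i => (Nn n).smul_mem _ hc, ?_⟩
      rw [Finset.sum_smul]
      simp only [mul_smul]
    · rintro _ _ ⟨b, hb, rfl⟩ ⟨b', hb', rfl⟩
      refine ⟨b + b', fun i => (Nn n).add_mem (hb i) (hb' i), ?_⟩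
      rw [← Finset.sum_add_distrib]
      simp only [Pi.add_apply, smul_add]
  let F : (IsLocalRing.maximalIdeal A3).Filtration (Fin N → A3) :=
    { N := Nn
      mono := fun n a ha => by
        have h1 := hs (MvPowerSeries.X 2) _ ((hmem _ _).1 ha)
        rw [← as1_emb_smul, as1_emb_X, div_self (xv_ne_zero 2), one_smul] at h1
        exact h1
      smul_le := fun n a ha => by
        obtain ⟨b, hb, rfl⟩ := hdec n a ha
        rw [hmem, map_sum]
        refine sum_mem fun i _ => ?_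
        rw [as1_emb_X]
        exact hx i _ (hb i) }
  have hF : F ≤ (IsLocalRing.maximalIdeal A3).stableFiltration ⊤ := by
    intro n a ha
    change a ∈ IsLocalRing.maximalIdeal A3 ^ n • (⊤ : Submodule A3 (Fin N → A3))
    rw [pi_eq_sum_univ' a]
    refine Submodule.sum_mem _ fun i _ => Submodule.smul_mem_smul ?_ trivial
    have := hle _ ((hmem _ _).1 ha) i
    rw [pow_zero, inv_one, one_mul, as1_emb_apply] at this
    exact (ordMem_iff_mem_pow n _).1 this
  obtain ⟨n0, hn0⟩ := (Ideal.stableFiltration_stable _ ⊤).of_le hF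
  refine ⟨n0, fun n hn u hu hM => ?_⟩
  obtain ⟨a, rfl⟩ := as1_InM_iff.1 hM
  have ha : a ∈ IsLocalRing.maximalIdeal A3 • Nn n := by
    have : IsLocalRing.maximalIdeal A3 • Nn n = Nn (n + 1) := hn0 n hn
    rw [this]; exact hu
  obtain ⟨b, hb, rfl⟩ := hdec n a ha
  refine ⟨fun i => as1_emb N n (b i), fun i => ⟨hb i, as1_InM_iff.2 ⟨_, rfl⟩⟩, ?_⟩
  rw [map_sum]
  exact Finset.sum_congr rfl fun i _ => as1_emb_X n i (b i)

end

end Crest.Agent.R169
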