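import Crest.Agent.R169.ASide2Aux2

/-! # The lower bound for the energy of a lattice -/

set_option autoImplicit false

namespace Crest.Agent.R169

noncomputable section

open A2

variable {N : ℕ} {K : Type} [Field K] [Algebra ℂ K] [Module K (Fin N → F3)]
  [IsScalarTower ℂ K (Fin N → F3)] {xb yb : K} {Rn : ℕ → Submodule ℂ K}

/-- Pure numerics.  `D n` = colength of `t^(-n) M ∩ Λ` in `t^(-n) M ∩ Λ₀`. From the recursion, `2 A = N` (else `D` grows cubically),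
`D n = (c₁ - 3N/2) n² / 2 + (c₀ - N - (c₁ - 3N/2)/2) n + const`; the two bounds give `c₁ - 3N/2 = S := ∑ q k` and
`c₀ ≥ N + ∑ q k (k + 2)`; with `q k ≤ N` one has `N ∑ q k (2k+1) ≥ S²`. -/
theorem energy_numerics (N : ℕ) (k0 : ℕ) (q : ℕ → ℕ) (hq : ∀ k, q k ≤ N) (D : ℕ → ℕ) (A c1 c0 : ℤ)
    (n1 : ℕ) (hrec : ∀ n, n1 ≤ n → A * (n : ℤ) ^ 2 + c1 * n + c0 =
      N * ((n + 2).choose 2 : ℕ) + D (n + 1) - D n)
    (hlo : ∀ n, ∑ k ∈ Finset.range k0, q k * (n + k + 2).choose 2 ≤ D n)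
    (d : ℕ) (hhi : ∀ n, n1 ≤ n → D n ≤ ∑ k ∈ Finset.range k0, q k * (n + d + 2).choose 2) :
    2 * A = N ∧ -(N : ℤ) ^ 2 ≤ 8 * N * c0 - 4 * c1 ^ 2 := by
  set S : ℤ := ∑ k ∈ Finset.range k0, (q k : ℤ) with hS
  set T : ℤ := ∑ k ∈ Finset.range k0, (q k : ℤ) * (2 * k + 1) with hT
  set T' : ℤ := ∑ k ∈ Finset.range k0, (q k : ℤ) * ((k + 2) * (k + 1)) with hT'
  set a : ℤ := 2 * A - N with ha
  set b : ℤ := 2 * c1 - 3 * N with hb
  set c : ℤ := 2 * c0 - 2 * N with hc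
  obtain ⟨E, hE⟩ : ∃ E : ℤ, ∀ n, n1 ≤ n → 12 * (D n : ℤ)
      = a * ((n - 1) * n * (2 * n - 1)) + 3 * b * (n * (n - 1)) + 6 * c * n + E := by
    refine ⟨12 * (D n1 : ℤ)
      - (a * ((n1 - 1) * n1 * (2 * n1 - 1)) + 3 * b * (n1 * (n1 - 1)) + 6 * c * n1), ?_⟩
    intro n hn
    induction n, hn using Nat.le_induction with
    | base => ring
    | succ n hn ih =>
      have h1 := hrec n hn
      have h2 := a2_choose n
      rw [ha, hb, hc] at ih ⊢
      push_cast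
      linear_combination ih - 12 * h1 - 6 * (N : ℤ) * h2
  have hlo' : ∀ n : ℕ, S * (n : ℤ) ^ 2 + (T + 2 * S) * n + T' ≤ 2 * (D n : ℤ) := fun n => by
    have h1 : ((∑ k ∈ Finset.range k0, q k * (n + k + 2).choose 2 : ℕ) : ℤ) ≤ D n := by
      exact_mod_cast hlo n
    refine le_trans (le_of_eq ?_) (mul_le_mul_of_nonneg_left h1 zero_le_two)
    rw [Nat.cast_sum, hS, hT, hT', Finset.mul_sum, Finset.mul_sum, ← Finset.sum_add_distrib,
      Finset.sum_mul, Finset.sum_mul, ← Finset.sum_add_distrib, ← Finset.sum_add_distrib]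
    refine Finset.sum_congr rfl fun k _ => ?_
    have h2 := a2_choose (n + k)
    push_cast at h2 ⊢
    linear_combination (-(q k : ℤ)) * h2
  have hhi' : ∀ n : ℕ, n1 ≤ n → 2 * (D n : ℤ) ≤ S * ((n + d + 2) * (n + d + 1)) := fun n hn => by
    have h1 : (D n : ℤ) ≤ ((∑ k ∈ Finset.range k0, q k * (n + d + 2).choose 2 : ℕ) : ℤ) := by
      exact_mod_cast hhi n hn
    refine le_trans (mul_le_mul_of_nonneg_left h1 zero_le_two) (le_of_eq ?_)
    rw [Nat.cast_sum, hS, Finset.mul_sum, Finset.sum_mul]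
    refine Finset.sum_congr rfl fun k _ => ?_
    have h2 := a2_choose (n + d)
    push_cast at h2 ⊢
    linear_combination (q k : ℤ) * h2
  have a1 : 0 ≤ 2 * a := a2_lead n1 (2 * a) (-3 * a + 3 * b - 6 * S)
    (a - 3 * b + 6 * c - 6 * (T + 2 * S)) (E - 6 * T') fun n hn => by
      have h1 := hE n hn
      have h2 := hlo' n
      linarith
  have a2 : 0 ≤ -2 * a := a2_lead n1 (-2 * a) (3 * a - 3 * b + 6 * S)
    (-a + 3 * b - 6 * c + 6 * S * (2 * d + 3)) (6 * S * ((d + 2) * (d + 1)) - E) fun n hn => by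
      have h1 := hE n hn
      have h2 := hhi' n hn
      linarith
  have a0 : a = 0 := by omega
  rw [a0] at hE
  have b1 : 0 ≤ 3 * b - 6 * S := a2_lead2 n1 (3 * b - 6 * S)
    (-3 * b + 6 * c - 6 * (T + 2 * S)) (E - 6 * T') fun n hn => by
      have h1 := hE n hn
      have h2 := hlo' n
      linarith
  have b2 : 0 ≤ -3 * b + 6 * S := a2_lead2 n1 (-3 * b + 6 * S)
    (3 * b - 6 * c + 6 * S * (2 * d + 3)) (6 * S * ((d + 2) * (d + 1)) - E) fun n hn => by
      have h1 := hE n hn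
      have h2 := hhi' n hn
      linarith
  have b0 : b = 2 * S := by omega
  rw [b0] at hE
  have c1' : 0 ≤ -6 * S + 6 * c - 6 * (T + 2 * S) := a2_lead1 n1
    (-6 * S + 6 * c - 6 * (T + 2 * S)) (E - 6 * T') fun n hn => by
      have h1 := hE n hn
      have h2 := hlo' n
      linarith
  have hsq := (a2_sq N q hq k0).2
  rw [← hS, ← hT] at hsq
  have hN : (0 : ℤ) ≤ N := Int.natCast_nonneg N
  have h1 : 2 * c1 = 2 * S + 3 * N := by omega
  have h2 : T + 3 * S + 2 * N ≤ 2 * c0 := by omega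
  refine ⟨by omega, ?_⟩
  have h3 : 4 * c1 ^ 2 = (2 * S + 3 * N) ^ 2 := by rw [← h1]; ring
  rw [h3]
  nlinarith [mul_le_mul_of_nonneg_left h2 hN]

/-- multiplication by `t` -/
def A2.mulT (N : ℕ) : (Fin N → F3) ≃ₗ[ℂ] (Fin N → F3) where
  toFun u := xv 2 • u
  invFun u := (xv 2)⁻¹ • u
  map_add' := smul_add _
  map_smul' c u := by ext i; simp
  left_inv u := inv_smul_smul₀ (xv_ne_zero 2) u
  right_inv u := smul_inv_smul₀ (xv_ne_zero 2) u

theorem A2.inM_mulT (n : ℕ) (u : Fin N → F3) : InM (n + 1) ((xv 2)⁻¹ • u) ↔ InM n u := by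
  have h0 := xv_ne_zero 2
  have : ∀ i, xv 2 ^ (n + 1) * ((xv 2)⁻¹ • u) i = xv 2 ^ n * u i := fun i => by
    rw [Pi.smul_apply, smul_eq_mul]
    field_simp
    ring
  simp only [InM, this]

theorem A2.inLam_mulT (u : Fin N → F3) : InLam 0 ((xv 2)⁻¹ • u) ↔ InLam 1 u := by
  simp [InLam]

/-- Let `κ₀ = ℂ(xb, yb)`, `Λ_k = Λ + t^k Λ₀` (`κ₀`-subspaces, not `K`-subspaces), `Λ_0 = Λ₀`, `Λ_{k0} = Λ`.  `Λ_k ⧸ Λ_{k+1}` is spanned over
`κ₀` by the images of `t^k e i` (`exists_residue`); choose a basis among them, of size `q k ≤ N`.  The image of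
`t^(-n) A^N ∩ Λ_k` in it contains the independent vectors `(h / t^(n+k)) t^k e i`, `h` a monomial of degree `n + k`, and by `artin_rees` it is
generated over `ℂ[xb, yb]` by the finite-dimensional space in degree `n0`, whose coordinates have a common denominator;
so its dimension is at most `q k * C(n + d + 2, 2)`.  With `D n = ` colength of `t^(-n) A^N ∩ Λ` in `t^(-n) A^N ∩ Λ₀ = t^(-n) (𝔪ⁿ)^N`:
`DD n Λ (t Λ) = N C(n+2, 2) + D (n+1) - D n`. -/
theorem AData.energy_lower (hA : AData K xb yb Rn N) (hN : 0 < N) {Λ : Submodule K (Fin N → F3)}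
    (hΛ : IsLat Λ) {A c1 c0 : ℤ} {n1 : ℕ}
    (h : ∀ n, n1 ≤ n → (DD n Λ (tL Λ) : ℤ) = A * (n : ℤ) ^ 2 + c1 * n + c0) :
    2 * A = N ∧ -(N : ℤ) ^ 2 ≤ 8 * N * c0 - 4 * c1 ^ 2 := by
  let ΛF : Submodule F0 (Fin N → F3) :=
    { carrier := Λ
      add_mem' := Λ.add_mem
      zero_mem' := Λ.zero_mem
      smul_mem' := fun c u hu => by
        obtain ⟨n, p, g, hp, hg, h0, hc⟩ := c.2
        obtain ⟨τ, -, hτ⟩ := hA.exists_of_div hN hp hg h0
        have := Λ.smul_mem τ hu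
        rw [hτ, ← pF_apply, ← pF_apply, ← hc] at this
        exact this }
  obtain ⟨k0, hk0⟩ := hΛ.ge
  have hle : ΛF ≤ LL N 0 := hΛ.le
  have hge : LL N k0 ≤ ΛF := hk0
  choose q hq d n0 hlo hhi using piece ΛF hΛ.smul hle
  have hfin : ∀ n, rk (FF (LL N 0) n) (FF ΛF n) < Cardinal.aleph0 := rk_lt hge hle le_rfl
  let D : ℕ → ℕ := fun n => Cardinal.toNat (rk (FF (LL N 0) n) (FF ΛF n))
  have hD : ∀ n, (D n : Cardinal) = rk (FF (LL N 0) n) (FF ΛF n) := fun n =>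
    Cardinal.cast_toNat_of_lt_aleph0 (hfin n)
  have hsum : ∀ n, (D n : Cardinal) = ∑ k ∈ Finset.range k0,
      rk (FF (ΛF ⊔ LL N k) n) (FF (ΛF ⊔ LL N (k + 1)) n) := fun n => by
    rw [← rk_chain (fun k => FF (ΛF ⊔ LL N k) n)
      (fun k => FF_mono (sup_le_sup_left (LL_succ_le N k) _) n) k0, hD,
      sup_eq_right.mpr hle, sup_eq_left.mpr hge]
  set n2 := n1 + ∑ k ∈ Finset.range k0, n0 k with hn2
  refine energy_numerics N k0 q hq D A c1 c0 n2 (fun n hn => ?_) (fun n => ?_)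
    (∑ k ∈ Finset.range k0, d k) fun n hn => ?_
  · rw [← h n (by omega)]
    have e1 : FL (tL Λ) n = (FF ΛF (n + 1)).map (mulT N : _ →ₗ[ℂ] _) := by
      ext u
      rw [Submodule.mem_map_equiv]
      exact and_congr (hA.mem_tL Λ u) (inM_mulT n u).symm
    have e2 : FF (LL N 1) n = (FF (LL N 0) (n + 1)).map (mulT N : _ →ₗ[ℂ] _) := by
      ext u
      rw [Submodule.mem_map_equiv]
      exact and_congr (inLam_mulT u).symm (inM_mulT n u).symm
    have l1 : FL (tL Λ) n ≤ FF ΛF n := fun u hu => ⟨(hA.isLat_tL hΛ).2 hu.1, hu.2⟩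
    have l2 : FL (tL Λ) n ≤ FF (LL N 1) n := by
      rw [e1, e2]
      exact Submodule.map_mono (FF_mono hle _)
    have k1 := rk_add l1 (FF_mono hle n)
    have k2 := rk_add l2 (FF_mono (LL_succ_le N 0) n)
    have k3 : rk (FF (LL N 1) n) (FL (tL Λ) n) = D (n + 1) := by rw [e1, e2, rk_map, hD]
    rw [k1, rk_LL, k3, ← hD] at k2
    have k4 : rk (FF ΛF n) (FL (tL Λ) n) < Cardinal.aleph0 := by
      refine lt_of_le_of_lt (le_add_self.trans k2.le) ?_
      rw [← Nat.cast_add]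
      exact Cardinal.natCast_lt_aleph0
    have k5 : (DD n Λ (tL Λ) : Cardinal) = rk (FF ΛF n) (FL (tL Λ) n) :=
      Cardinal.cast_toNat_of_lt_aleph0 k4
    rw [← k5] at k2
    have k6 : D n + DD n Λ (tL Λ) = N * (n + 0 + 2).choose 2 + D (n + 1) := by exact_mod_cast k2
    rw [add_zero] at k6
    have k7 : (D n : ℤ) + DD n Λ (tL Λ) = N * ((n + 2).choose 2 : ℕ) + D (n + 1) := by
      exact_mod_cast k6
    linarith
  · have : ((∑ k ∈ Finset.range k0, q k * (n + k + 2).choose 2 : ℕ) : Cardinal) ≤ D n := by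
      rw [hsum, Nat.cast_sum]
      exact Finset.sum_le_sum fun k _ => hlo k n
    exact_mod_cast this
  · have : (D n : Cardinal) ≤ ((∑ k ∈ Finset.range k0,
        q k * (n + ∑ k ∈ Finset.range k0, d k + 2).choose 2 : ℕ) : Cardinal) := by
      rw [hsum, Nat.cast_sum]
      refine Finset.sum_le_sum fun k hk => ?_
      have h1 : n0 k ≤ ∑ k ∈ Finset.range k0, n0 k :=
        Finset.single_le_sum (fun _ _ => Nat.zero_le _) hk
      have h2 : d k ≤ ∑ k ∈ Finset.range k0, d k :=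
        Finset.single_le_sum (fun _ _ => Nat.zero_le _) hk
      refine (hhi k n (by omega)).trans ?_
      exact_mod_cast Nat.mul_le_mul_left _ (Nat.choose_le_choose 2 (by omega))
    exact_mod_cast this

end

end Crest.Agent.R169
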