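import Crest.Agent.R169.ASide1

/-! # Relative ranks, homogeneous polynomials, the field of degree zero fractions -/

set_option autoImplicit false

namespace Crest.Agent.R169.A2

noncomputable section

open MvPowerSeries Cardinal

/-! ### numerics -/

theorem a2_lead (n1 : ℕ) (α β γ δ : ℤ)
    (h : ∀ n : ℕ, n1 ≤ n → 0 ≤ α * (n : ℤ) ^ 3 + β * (n : ℤ) ^ 2 + γ * n + δ) : 0 ≤ α := by
  by_contra hα
  have hα' : α ≤ -1 := by omega
  set n : ℕ := n1 + β.natAbs + γ.natAbs + δ.natAbs + 1 with hn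
  have h1 := h n (by omega)
  have hb : β ≤ β.natAbs := Int.le_natAbs
  have hc : γ ≤ γ.natAbs := Int.le_natAbs
  have hd : δ ≤ δ.natAbs := Int.le_natAbs
  have hn' : (n : ℤ) = n1 + β.natAbs + γ.natAbs + δ.natAbs + 1 := by rw [hn]; push_cast; ring
  have hb0 : (0 : ℤ) ≤ β.natAbs := Int.natCast_nonneg _
  have hc0 : (0 : ℤ) ≤ γ.natAbs := Int.natCast_nonneg _
  have hd0 : (0 : ℤ) ≤ δ.natAbs := Int.natCast_nonneg _
  have h10 : (0 : ℤ) ≤ n1 := Int.natCast_nonneg _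
  generalize (β.natAbs : ℤ) = b at *
  generalize (γ.natAbs : ℤ) = c at *
  generalize (δ.natAbs : ℤ) = d at *
  generalize (n : ℤ) = m at *
  have hm : 1 ≤ m := by omega
  have hm2 : m ≤ m ^ 2 := by nlinarith
  have e1 : β * m ^ 2 ≤ b * m ^ 2 := by gcongr
  have e2 : γ * m ≤ c * m ^ 2 := by
    calc γ * m ≤ c * m := by gcongr
      _ ≤ c * m ^ 2 := by gcongr
  have e3 : δ ≤ d * m ^ 2 := by nlinarith
  have e4 : α * m ^ 3 ≤ -m ^ 3 := by nlinarith [pow_pos (show 0 < m by omega) 3]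
  have e5 : (b + c + d + 1) * m ^ 2 ≤ m ^ 3 := by
    calc (b + c + d + 1) * m ^ 2 ≤ m * m ^ 2 := by gcongr; omega
      _ = m ^ 3 := by ring
  nlinarith

theorem a2_lead2 (n1 : ℕ) (β γ δ : ℤ)
    (h : ∀ n : ℕ, n1 ≤ n → 0 ≤ β * (n : ℤ) ^ 2 + γ * n + δ) : 0 ≤ β :=
  a2_lead n1 β γ δ 0 fun n hn => by
    have := mul_nonneg (Int.natCast_nonneg n) (h n hn)
    linarith

theorem a2_lead1 (n1 : ℕ) (γ δ : ℤ) (h : ∀ n : ℕ, n1 ≤ n → 0 ≤ γ * n + δ) : 0 ≤ γ :=
  a2_lead2 n1 γ δ 0 fun n hn => by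
    have := mul_nonneg (Int.natCast_nonneg n) (h n hn)
    linarith

theorem a2_choose (m : ℕ) : 2 * (((m + 2).choose 2 : ℕ) : ℤ) = (m + 2) * (m + 1) := by
  induction m with
  | zero => simp
  | succ m ih =>
    rw [show m + 1 + 2 = (m + 2) + 1 by ring, Nat.choose_succ_succ' (m + 2) 1,
      Nat.choose_one_right]
    push_cast at ih ⊢
    linarith

theorem a2_sq (N : ℕ) (q : ℕ → ℕ) (hq : ∀ k, q k ≤ N) (k0 : ℕ) :
    (∑ k ∈ Finset.range k0, (q k : ℤ)) ≤ N * k0 ∧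
    (∑ k ∈ Finset.range k0, (q k : ℤ)) ^ 2
      ≤ N * ∑ k ∈ Finset.range k0, (q k : ℤ) * (2 * k + 1) := by
  induction k0 with
  | zero => simp
  | succ k ih =>
    rw [Finset.sum_range_succ, Finset.sum_range_succ]
    have h1 : (q k : ℤ) ≤ N := by exact_mod_cast hq k
    have h0 : (0 : ℤ) ≤ q k := Int.natCast_nonneg _
    push_cast
    refine ⟨by linarith [ih.1], ?_⟩
    nlinarith [ih.2, mul_le_mul_of_nonneg_left ih.1 h0, mul_le_mul_of_nonneg_left h1 h0]

/-! ### relative ranks -/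

section rk

variable {U W : Type} [AddCommGroup U] [Module ℂ U] [AddCommGroup W] [Module ℂ W]

/-- the rank of `X ⧸ (X ∩ Y)` -/
def rk (X Y : Submodule ℂ U) : Cardinal := Module.rank ℂ (X ⧸ Y.comap X.subtype)

theorem rk_eq_map {X Y : Submodule ℂ U} (φ : U →ₗ[ℂ] W) (h : ∀ u ∈ X, φ u = 0 ↔ u ∈ Y) :
    rk X Y = Module.rank ℂ (X.map φ) := by
  have h1 : Y.comap X.subtype = LinearMap.ker (φ ∘ₗ X.subtype) := by
    ext u
    simp [h u.1 u.2]
  have h2 : X.map φ = LinearMap.range (φ ∘ₗ X.subtype) := by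
    rw [LinearMap.range_comp, Submodule.range_subtype]
  rw [rk, h1, h2]
  exact (φ ∘ₗ X.subtype).quotKerEquivRange.rank_eq

theorem rk_add {X Y Z : Submodule ℂ U} (hZ : Z ≤ Y) (hY : Y ≤ X) : rk X Z = rk X Y + rk Y Z := by
  rw [rk_eq_map (X := X) (Y := Z) Z.mkQ (by simp), rk_eq_map (X := X) (Y := Y) Y.mkQ (by simp),
    rk_eq_map (X := Y) (Y := Z) Z.mkQ (by simp)]
  let ψ : (U ⧸ Z) →ₗ[ℂ] U ⧸ Y := Submodule.factor hZ
  rw [← LinearMap.rank_range_add_rank_ker (ψ ∘ₗ (X.map Z.mkQ).subtype)]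
  congr 1
  · rw [LinearMap.range_comp, Submodule.range_subtype, ← Submodule.map_comp]
    rfl
  · have : LinearMap.ker (ψ ∘ₗ (X.map Z.mkQ).subtype)
        = (Y.map Z.mkQ).comap (X.map Z.mkQ).subtype := by
      ext ⟨_, u, hu, rfl⟩
      simp only [LinearMap.mem_ker, LinearMap.comp_apply, Submodule.subtype_apply,
        Submodule.mem_comap]
      constructor
      · intro h
        exact ⟨u, (Submodule.Quotient.mk_eq_zero Y).mp h, rfl⟩
      · rintro ⟨w, hw, h⟩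
        rw [← h]
        exact (Submodule.Quotient.mk_eq_zero Y).mpr hw
    rw [this]
    exact (Submodule.comapSubtypeEquivOfLe (Submodule.map_mono hY)).rank_eq

theorem rk_self (X : Submodule ℂ U) : rk X X = 0 := by
  rw [rk_eq_map (X := X) (Y := X) (0 : U →ₗ[ℂ] U) (by simp +contextual)]
  simp

theorem rk_map (e : U ≃ₗ[ℂ] W) (X Y : Submodule ℂ U) :
    rk (X.map (e : U →ₗ[ℂ] W)) (Y.map (e : U →ₗ[ℂ] W)) = rk X Y := by
  rw [rk_eq_map (X := X) (Y := Y) Y.mkQ (by simp),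
    rk_eq_map (X := X.map (e : U →ₗ[ℂ] W)) (Y := Y.map (e : U →ₗ[ℂ] W))
      (Y.mkQ ∘ₗ (e.symm : W →ₗ[ℂ] U)), ← Submodule.map_comp]
  · have : (Y.mkQ ∘ₗ (e.symm : W →ₗ[ℂ] U)) ∘ₗ (e : U →ₗ[ℂ] W) = Y.mkQ := by
      ext u
      simp
    rw [this]
  · intro u _
    simp [Submodule.mem_map_equiv]

theorem rk_chain (X : ℕ → Submodule ℂ U) (h : ∀ k, X (k + 1) ≤ X k) (m : ℕ) :
    rk (X 0) (X m) = ∑ k ∈ Finset.range m, rk (X k) (X (k + 1)) := by
  induction m with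
  | zero => simp [rk_self]
  | succ m ih =>
    rw [Finset.sum_range_succ, ← ih]
    exact rk_add (h m) (antitone_nat_of_succ_le h (Nat.zero_le m))

end rk

/-! ### homogeneous polynomials -/

/-- homogeneous polynomials of degree `e` -/
abbrev HH (e : ℕ) : Submodule ℂ P3 := MvPolynomial.homogeneousSubmodule (Fin 3) ℂ e

theorem a2_mem_antidiag (e : ℕ) (d : Fin 3 →₀ ℕ) :
    d ∈ (Finset.univ : Finset (Fin 3)).finsuppAntidiag e ↔ d.degree = e := by
  rw [Finset.mem_finsuppAntidiag, Finsupp.degree_eq_sum]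
  simp

theorem rank_HH (e : ℕ) : Module.rank ℂ (HH e) = ((e + 2).choose 2 : ℕ) := by
  have h : {d : Fin 3 →₀ ℕ | d.degree = e}
      = ((Finset.univ : Finset (Fin 3)).finsuppAntidiag e : Set _) := by
    ext d
    simp only [Set.mem_ofPred_eq, Finset.mem_coe, a2_mem_antidiag]
  rw [HH, MvPolynomial.homogeneousSubmodule_eq_finsupp_supported, h]
  refine (AddMonoidAlgebra.supportedEquivFinsupp _).rank_eq.trans ?_
  rw [rank_finsupp_self', Finset.coe_sort_coe, Cardinal.mk_coe_finset,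
    Finset.card_finsuppAntidiag_nat_eq_choose, Finset.card_univ, Fintype.card_fin,
    show 3 + e - 1 = e + 2 by omega, Nat.choose_symm_add]

/-- polynomials inside `F3` -/
def pF : P3 →ₐ[ℂ] F3 :=
  (IsScalarTower.toAlgHom ℂ A3 F3).comp (MvPolynomial.coeToMvPowerSeries.algHom ℂ)

theorem pF_apply (p : P3) : pF p = algebraMap A3 F3 (p : A3) := by
  simp [pF]

theorem pF_inj : Function.Injective pF := fun p q h => by
  rw [pF_apply, pF_apply] at h
  exact MvPolynomial.coe_injective _ _ (IsFractionRing.injective A3 F3 h)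

theorem pF_ne {p : P3} (h : p ≠ 0) : pF p ≠ 0 := fun h' => h (pF_inj (by rw [h', map_zero]))

theorem pF_X (i : Fin 3) : pF (MvPolynomial.X i) = xv i := by
  rw [pF_apply, MvPolynomial.coe_X, xv]

theorem hom_X_pow (i : Fin 3) (n : ℕ) : (MvPolynomial.X i ^ n : P3).IsHomogeneous n := by
  simpa using (MvPolynomial.isHomogeneous_X ℂ i).pow n

theorem X_pow_ne (i : Fin 3) (n : ℕ) : (MvPolynomial.X i ^ n : P3) ≠ 0 :=
  pow_ne_zero _ (MvPolynomial.X_ne_zero i)

/-- the field of degree zero fractions -/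
def F0 : IntermediateField ℂ F3 where
  carrier := {f | ∃ (n : ℕ) (p h : P3), p.IsHomogeneous n ∧ h.IsHomogeneous n ∧ h ≠ 0 ∧
    f = pF p / pF h}
  mul_mem' := by
    rintro _ _ ⟨n, p, h, hp, hh, h0, rfl⟩ ⟨n', p', h', hp', hh', h0', rfl⟩
    exact ⟨n + n', p * p', h * h', hp.mul hp', hh.mul hh', mul_ne_zero h0 h0', by
      rw [map_mul, map_mul, div_mul_div_comm]⟩
  add_mem' := by
    rintro _ _ ⟨n, p, h, hp, hh, h0, rfl⟩ ⟨n', p', h', hp', hh', h0', rfl⟩
    exact ⟨n + n', p * h' + h * p', h * h', (hp.mul hh').add (hh.mul hp'), hh.mul hh',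
      mul_ne_zero h0 h0', by
        rw [map_add, map_mul, map_mul, map_mul, div_add_div _ _ (pF_ne h0) (pF_ne h0')]⟩
  algebraMap_mem' c := ⟨0, MvPolynomial.C c, 1, MvPolynomial.isHomogeneous_C _ c,
    MvPolynomial.isHomogeneous_one _ _, one_ne_zero, by
      rw [map_one, div_one, ← MvPolynomial.algebraMap_eq, AlgHom.commutes]⟩
  inv_mem' := by
    rintro _ ⟨n, p, h, hp, hh, h0, rfl⟩
    by_cases hp0 : p = 0
    · exact ⟨n, p, h, hp, hh, h0, by simp [hp0]⟩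
    · exact ⟨n, h, p, hh, hp, hp0, by rw [inv_div]⟩

theorem F0.ordMem (c : F0) : OrdMem (c : F3) := by
  obtain ⟨n, p, h, hp, hh, h0, hc⟩ := c.2
  rw [hc, pF_apply, pF_apply]
  exact ordMem_div hp hh h0

/-- `p ↦ p / g` -/
def dv {e : ℕ} {g : P3} (hg : g.IsHomogeneous e) (h0 : g ≠ 0) : HH e →ₗ[ℂ] F0 where
  toFun p := ⟨pF p / pF g, e, p, g, p.2, hg, h0, rfl⟩
  map_add' p q := Subtype.ext (by simp [add_div])
  map_smul' c p := Subtype.ext (by simp [smul_div_assoc])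

theorem dv_coe {e : ℕ} {g : P3} (hg : g.IsHomogeneous e) (h0 : g ≠ 0) (p : HH e) :
    (dv hg h0 p : F3) = pF p / pF g := rfl

theorem dv_eq_zero {e : ℕ} {g : P3} (hg : g.IsHomogeneous e) (h0 : g ≠ 0) {p : HH e}
    (h : dv hg h0 p = 0) : p = 0 := by
  have := congrArg Subtype.val h
  rw [dv_coe] at this
  rcases div_eq_zero_iff.mp this with h1 | h1
  · exact Subtype.ext (pF_inj (by rw [h1]; simp))
  · exact absurd h1 (pF_ne h0)

/-- a common denominator -/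
theorem F0.common {ι : Type} [Finite ι] (c : ι → F0) :
    ∃ (e : ℕ) (g : P3) (hg : g.IsHomogeneous e) (h0 : g ≠ 0), ∀ i, ∃ p, dv hg h0 p = c i := by
  classical
  have := Fintype.ofFinite ι
  choose n p h hp hh h0 hc using fun i => (c i).2
  refine ⟨∑ i, n i, ∏ i, h i, MvPolynomial.IsHomogeneous.prod _ _ _ fun i _ => hh i,
    Finset.prod_ne_zero_iff.mpr fun i _ => h0 i, fun i => ⟨⟨p i * ∏ j ∈ Finset.univ.erase i, h j,
      ?_⟩, Subtype.ext ?_⟩⟩
  · rw [← Finset.add_sum_erase _ _ (Finset.mem_univ i)]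
    exact (hp i).mul (MvPolynomial.IsHomogeneous.prod _ _ _ fun j _ => hh j)
  · rw [dv_coe, hc, ← Finset.mul_prod_erase _ _ (Finset.mem_univ i), map_mul, map_mul,
      mul_div_mul_right _ _ (pF_ne (Finset.prod_ne_zero_iff.mpr fun j _ => h0 j))]

theorem hom_eq_zero {e : ℕ} {p : P3} (hp : p.IsHomogeneous e)
    (h : (p : A3) ∈ IsLocalRing.maximalIdeal A3 ^ (e + 1)) : p = 0 := by
  rw [mem_maximalIdeal_pow_iff] at h
  ext d
  by_cases hd : d.degree = e
  · rw [← MvPolynomial.coeff_coe]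
    refine coeff_of_lt_order (lt_of_lt_of_le ?_ h)
    rw [hd]
    exact_mod_cast Nat.lt_succ_self e
  · exact hp.coeff_eq_zero hd

theorem exists_hom {e : ℕ} {a : A3} (h : a ∈ IsLocalRing.maximalIdeal A3 ^ e) :
    ∃ p : P3, p.IsHomogeneous e ∧ a - p ∈ IsLocalRing.maximalIdeal A3 ^ (e + 1) := by
  rw [mem_maximalIdeal_pow_iff] at h
  refine ⟨∑ d ∈ Finset.univ.finsuppAntidiag e, MvPolynomial.monomial d (coeff d a),
    MvPolynomial.IsHomogeneous.sum _ _ _ fun d hd =>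
      MvPolynomial.isHomogeneous_monomial _ ((a2_mem_antidiag e d).mp hd), ?_⟩
  rw [mem_maximalIdeal_pow_iff]
  refine nat_le_order fun d hd => ?_
  rw [map_sub, MvPolynomial.coeff_coe, MvPolynomial.coeff_sum]
  simp only [MvPolynomial.coeff_monomial, Finset.sum_ite_eq', a2_mem_antidiag]
  split_ifs with h1
  · exact sub_self _
  · rw [sub_zero]
    refine coeff_of_lt_order (lt_of_lt_of_le ?_ h)
    exact_mod_cast (show d.degree < e by omega)

end

end Crest.Agent.R169.A2
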