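import Crest.Agent.R169.ASide2Aux

/-! # The graded pieces of the chain `Λ + t^k Λ₀` -/

set_option autoImplicit false

namespace Crest.Agent.R169.A2

noncomputable section

open MvPowerSeries Cardinal

variable {N : ℕ}

/-- `t^(-n) A^N` -/
def MM (N n : ℕ) : Submodule ℂ (Fin N → F3) where
  carrier := {u | InM n u}
  add_mem' := by
    intro u w hu hw i
    obtain ⟨a, ha⟩ := hu i
    obtain ⟨b, hb⟩ := hw i
    exact ⟨a + b, by rw [Pi.add_apply, mul_add, ha, hb, map_add]⟩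
  zero_mem' := fun i => ⟨0, by simp⟩
  smul_mem' := by
    intro c u hu i
    obtain ⟨a, ha⟩ := hu i
    refine ⟨c • a, ?_⟩
    rw [Pi.smul_apply, mul_smul_comm, ha, Algebra.smul_def, Algebra.smul_def, map_mul,
      ← IsScalarTower.algebraMap_apply]

theorem InLam.smul {k : ℕ} {u : Fin N → F3} (hu : InLam k u) {f : F3} (hf : OrdMem f) :
    InLam k (f • u) := fun i => by
  rw [Pi.smul_apply, smul_eq_mul, mul_left_comm]
  exact hf.mul (hu i)

/-- `t^k Λ₀` -/
def LL (N k : ℕ) : Submodule F0 (Fin N → F3) where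
  carrier := {u | InLam k u}
  add_mem' := by
    intro u w hu hw i
    rw [Pi.add_apply, mul_add]
    exact (hu i).add (hw i)
  zero_mem' := fun i => by simpa using ordMem_algebraMap 0
  smul_mem' := fun c _ hu => InLam.smul hu (F0.ordMem c)

theorem LL_succ_le (N k : ℕ) : LL N (k + 1) ≤ LL N k := fun u hu i => by
  have h := (ordMem_algebraMap (X 2)).mul (hu i)
  have h0 := xv_ne_zero 2
  have : algebraMap A3 F3 (X 2) * ((xv 2 ^ (k + 1))⁻¹ * u i) = (xv 2 ^ k)⁻¹ * u i := by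
    change xv 2 * _ = _
    field_simp
    ring
  rwa [this] at h

theorem LL_anti (N : ℕ) : Antitone (LL N) := antitone_nat_of_succ_le (LL_succ_le N)

/-- `X ∩ t^(-n) A^N` -/
def FF (X : Submodule F0 (Fin N → F3)) (n : ℕ) : Submodule ℂ (Fin N → F3) :=
  X.restrictScalars ℂ ⊓ MM N n

theorem mem_FF {X : Submodule F0 (Fin N → F3)} {n : ℕ} {u : Fin N → F3} :
    u ∈ FF X n ↔ u ∈ X ∧ InM n u := Iff.rfl

theorem FF_mono {X Y : Submodule F0 (Fin N → F3)} (h : X ≤ Y) (n : ℕ) : FF X n ≤ FF Y n :=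
  fun _ hu => ⟨h hu.1, hu.2⟩

theorem rk_FF (X Y : Submodule F0 (Fin N → F3)) (n : ℕ) :
    rk (FF X n) (FF Y n) = Module.rank ℂ ((FF X n).map (Y.mkQ.restrictScalars ℂ)) :=
  rk_eq_map _ fun u hu => by
    rw [LinearMap.restrictScalars_apply, Submodule.mkQ_apply, Submodule.Quotient.mk_eq_zero,
      mem_FF]
    exact ⟨fun h => ⟨h, hu.2⟩, fun h => h.1⟩

/-- `p ↦ t^(-n) p` -/
def Psi (N n e : ℕ) : (Fin N → HH e) →ₗ[ℂ] (Fin N → F3) where
  toFun p := fun i => (xv 2 ^ n)⁻¹ * pF (p i)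
  map_add' p q := by ext i; simp [mul_add]
  map_smul' c p := by ext i; simp

theorem rk_LL (N n j : ℕ) :
    rk (FF (LL N j) n) (FF (LL N (j + 1)) n) = (N * (n + j + 2).choose 2 : ℕ) := by
  have h0 := xv_ne_zero 2
  have e1 : ∀ (k : ℕ) (f : F3), (xv 2 ^ k)⁻¹ * ((xv 2 ^ n)⁻¹ * f) = (xv 2 ^ (n + k))⁻¹ * f :=
    fun k f => by field_simp; ring
  have hr : (FF (LL N j) n).map ((LL N (j + 1)).mkQ.restrictScalars ℂ)
      = LinearMap.range ((LL N (j + 1)).mkQ.restrictScalars ℂ ∘ₗ Psi N n (n + j)) := by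
    apply le_antisymm
    · rintro _ ⟨u, ⟨hu, hu'⟩, rfl⟩
      choose a ha using hu'
      have hua : ∀ i, u i = (xv 2 ^ n)⁻¹ * algebraMap A3 F3 (a i) := fun i => by
        rw [← ha i]; field_simp
      have : ∀ i, a i ∈ IsLocalRing.maximalIdeal A3 ^ (n + j) := fun i => by
        rw [← ordMem_iff_mem_pow, ← e1, ← hua]
        exact hu i
      choose p hp hap using fun i => exists_hom (this i)
      refine ⟨fun i => ⟨p i, hp i⟩, ?_⟩
      symm
      refine (Submodule.Quotient.eq _).mpr fun i => ?_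
      have h2 := (ordMem_iff_mem_pow _ _).mpr (hap i)
      rw [add_assoc, ← e1, map_sub, mul_sub (xv 2 ^ n)⁻¹, ← hua, ← pF_apply] at h2
      exact h2
    · rintro _ ⟨p, rfl⟩
      refine ⟨Psi N n (n + j) p, ⟨fun i => ?_, fun i => ⟨(p i : P3), ?_⟩⟩, rfl⟩
      · change OrdMem ((xv 2 ^ j)⁻¹ * ((xv 2 ^ n)⁻¹ * pF (p i)))
        have := F0.ordMem (dv (hom_X_pow 2 (n + j)) (X_pow_ne 2 (n + j)) (p i))
        rwa [dv_coe, map_pow, pF_X, div_eq_inv_mul, ← e1] at this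
      · change xv 2 ^ n * ((xv 2 ^ n)⁻¹ * pF (p i)) = _
        rw [← pF_apply]
        field_simp
  have hinj : Function.Injective
      ((LL N (j + 1)).mkQ.restrictScalars ℂ ∘ₗ Psi N n (n + j)) := by
    rw [injective_iff_map_eq_zero]
    intro p hp
    have h1 : Psi N n (n + j) p ∈ LL N (j + 1) := (Submodule.Quotient.mk_eq_zero _).mp hp
    funext i
    have h2 : OrdMem ((xv 2 ^ (j + 1))⁻¹ * ((xv 2 ^ n)⁻¹ * pF (p i))) := h1 i
    rw [e1, pF_apply, ordMem_iff_mem_pow, ← add_assoc] at h2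
    exact Subtype.ext (hom_eq_zero (p i).2 h2)
  rw [rk_FF, hr, rank_range_of_injective _ hinj, rank_fun, rank_HH, Fintype.card_fin]
  push_cast
  rfl

theorem rk_LL_lt (N n j : ℕ) : rk (FF (LL N 0) n) (FF (LL N j) n) < ℵ₀ := by
  rw [rk_chain (fun k => FF (LL N k) n) (fun k => FF_mono (LL_succ_le N k) n) j]
  simp_rw [rk_LL]
  rw [← Nat.cast_sum]
  exact Cardinal.natCast_lt_aleph0

theorem rk_lt {X Y : Submodule F0 (Fin N → F3)} {j : ℕ} (h1 : LL N j ≤ Y) (h2 : Y ≤ X)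
    (h3 : X ≤ LL N 0) (n : ℕ) : rk (FF X n) (FF Y n) < ℵ₀ := by
  have := rk_LL_lt N n j
  rw [rk_add (FF_mono (h1.trans h2) n) (FF_mono h3 n), rk_add (FF_mono h1 n) (FF_mono h2 n)]
    at this
  exact lt_of_le_of_lt (le_add_right le_rfl |>.trans le_add_self) this

section Phi

variable {Q : Type} [AddCommGroup Q] [Module F0 Q] [Module ℂ Q] [IsScalarTower ℂ F0 Q]
  {κ : Type} [Fintype κ]

/-- `p ↦ ∑ j, (p j / g) v j` -/
def Phi {e : ℕ} {g : P3} (hg : g.IsHomogeneous e) (h0 : g ≠ 0) (v : κ → Q) :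
    (κ → HH e) →ₗ[ℂ] Q where
  toFun p := ∑ j, dv hg h0 (p j) • v j
  map_add' p q := by simp [add_smul, Finset.sum_add_distrib]
  map_smul' c p := by simp [Finset.smul_sum]

theorem Phi_apply {e : ℕ} {g : P3} (hg : g.IsHomogeneous e) (h0 : g ≠ 0) (v : κ → Q)
    (p : κ → HH e) : Phi hg h0 v p = ∑ j, dv hg h0 (p j) • v j := rfl

theorem rank_Phi_le {e : ℕ} {g : P3} (hg : g.IsHomogeneous e) (h0 : g ≠ 0) (v : κ → Q) :
    Module.rank ℂ (LinearMap.range (Phi hg h0 v))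
      ≤ (Fintype.card κ * (e + 2).choose 2 : ℕ) := by
  refine (rank_range_le _).trans ?_
  rw [rank_fun, rank_HH]
  push_cast
  rfl

theorem rank_Phi {e : ℕ} {g : P3} (hg : g.IsHomogeneous e) (h0 : g ≠ 0) {v : κ → Q}
    (hv : LinearIndependent F0 v) : Module.rank ℂ (LinearMap.range (Phi hg h0 v))
      = (Fintype.card κ * (e + 2).choose 2 : ℕ) := by
  have hinj : Function.Injective (Phi hg h0 v) := by
    rw [injective_iff_map_eq_zero]
    intro p hp
    funext j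
    exact dv_eq_zero hg h0 (Fintype.linearIndependent_iff.mp hv _ hp j)
  rw [rank_range_of_injective _ hinj, rank_fun, rank_HH]
  push_cast
  rfl

/-- `x_i / t` -/
def xi (i : Fin 3) : F0 :=
  dv (MvPolynomial.isHomogeneous_X ℂ 2) (MvPolynomial.X_ne_zero 2)
    ⟨MvPolynomial.X i, MvPolynomial.isHomogeneous_X ℂ i⟩

theorem xi_coe (i : Fin 3) : (xi i : F3) = xv i / xv 2 := by
  rw [xi, dv_coe, pF_X, pF_X]

theorem xi_smul_Phi {e : ℕ} {g : P3} (hg : g.IsHomogeneous e) (h0 : g ≠ 0) (v : κ → Q)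
    (i : Fin 3) {y : Q} (hy : y ∈ LinearMap.range (Phi hg h0 v)) :
    xi i • y ∈ LinearMap.range (Phi (hg.mul (MvPolynomial.isHomogeneous_X ℂ 2))
      (mul_ne_zero h0 (MvPolynomial.X_ne_zero 2)) v) := by
  obtain ⟨p, rfl⟩ := hy
  refine ⟨fun j => ⟨(p j : P3) * MvPolynomial.X i,
    MvPolynomial.IsHomogeneous.mul (p j).2 (MvPolynomial.isHomogeneous_X ℂ i)⟩, ?_⟩
  rw [Phi_apply, Phi_apply, Finset.smul_sum]
  refine Finset.sum_congr rfl fun j _ => ?_
  rw [smul_smul]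
  congr 1
  apply Subtype.ext
  rw [IntermediateField.coe_mul, xi_coe, dv_coe, dv_coe, map_mul, map_mul, pF_X, pF_X,
    mul_comm (xv i / xv 2), div_mul_div_comm]

theorem fg_le_Phi (v : κ → Q) {I : Submodule ℂ Q} (hI : I.FG)
    (h : ∀ y ∈ I, y ∈ Submodule.span F0 (Set.range v)) :
    ∃ (e : ℕ) (g : P3) (hg : g.IsHomogeneous e) (h0 : g ≠ 0),
      I ≤ LinearMap.range (Phi hg h0 v) := by
  obtain ⟨S, rfl⟩ := hI
  choose c hc using fun y : S =>
    (Submodule.mem_span_range_iff_exists_fun F0).mp (h y (Submodule.subset_span y.2))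
  obtain ⟨e, g, hg, h0, hp⟩ := F0.common (ι := S × κ) fun z => c z.1 z.2
  choose p hp using hp
  refine ⟨e, g, hg, h0, Submodule.span_le.mpr fun y hy => ⟨fun j => p (⟨y, hy⟩, j), ?_⟩⟩
  rw [Phi_apply]
  simp_rw [hp]
  exact hc ⟨y, hy⟩

end Phi

theorem piece (Λ : Submodule F0 (Fin N → F3))
    (hs : ∀ (a : A3), ∀ u ∈ Λ, algebraMap A3 F3 a • u ∈ Λ) (hle : Λ ≤ LL N 0) (k : ℕ) :
    ∃ q : ℕ, q ≤ N ∧ ∃ d n0 : ℕ,
      (∀ n, ((q * (n + k + 2).choose 2 : ℕ) : Cardinal)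
        ≤ rk (FF (Λ ⊔ LL N k) n) (FF (Λ ⊔ LL N (k + 1)) n)) ∧
      ∀ n, n0 ≤ n → rk (FF (Λ ⊔ LL N k) n) (FF (Λ ⊔ LL N (k + 1)) n)
        ≤ ((q * (n + d + 2).choose 2 : ℕ) : Cardinal) := by
  classical
  have h0 := xv_ne_zero 2
  set X := Λ ⊔ LL N k with hX
  set Y := Λ ⊔ LL N (k + 1) with hY
  have hYX : Y ≤ X := sup_le_sup_left (LL_succ_le N k) _
  have hX0 : X ≤ LL N 0 := sup_le hle (LL_anti N (Nat.zero_le k))
  let w : Fin N → Fin N → F3 := fun i => Pi.single i (xv 2 ^ k)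
  have hw : ∀ i, w i ∈ LL N k := fun i j => by
    by_cases hij : j = i
    · subst hij
      have : (xv 2 ^ k)⁻¹ * w j j = algebraMap A3 F3 1 := by
        simp only [w, Pi.single_eq_same, map_one]
        field_simp
      rw [this]
      exact ordMem_algebraMap 1
    · simpa [w, Pi.single_eq_of_ne hij] using ordMem_algebraMap 0
  obtain ⟨κ, a, ha, hsp, hli⟩ := exists_linearIndependent' F0 (fun i => Y.mkQ (w i))
  have : Finite κ := Finite.of_injective a ha
  have := Fintype.ofFinite κ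
  set v := (fun i => Y.mkQ (w i)) ∘ a with hv
  have hspan : ∀ u ∈ X, Y.mkQ u ∈ Submodule.span F0 (Set.range v) := by
    intro u hu
    rw [hsp]
    obtain ⟨u1, hu1, u2, hu2, rfl⟩ := Submodule.mem_sup.mp hu
    have e1 : Y.mkQ u1 = 0 :=
      (Submodule.Quotient.mk_eq_zero _).mpr (Submodule.mem_sup_left hu1)
    choose n p h hp hh hh0 hr using fun i => (hu2 i).exists_residue
    let c : Fin N → F0 := fun i => dv (hh i) (hh0 i) ⟨p i, hp i⟩
    have e2 : Y.mkQ u2 = Y.mkQ (∑ i, c i • w i) := by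
      refine (Submodule.Quotient.eq _).mpr (Submodule.mem_sup_right fun i => ?_)
      have e3 : (∑ j, c j • w j) i = (c i : F3) * xv 2 ^ k := by
        rw [Finset.sum_apply, Finset.sum_eq_single i]
        · simp [w, IntermediateField.smul_def]
        · intro j _ hj
          simp [w, Pi.single_eq_of_ne hj.symm]
        · simp
      have e4 := hr i
      rw [← pF_apply, ← pF_apply] at e4
      rw [Pi.sub_apply, e3]
      convert e4 using 1
      simp only [c, dv_coe]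
      field_simp
      ring
    rw [map_add, e1, zero_add, e2, map_sum]
    refine Submodule.sum_mem _ fun i _ => ?_
    rw [map_smul]
    exact Submodule.smul_mem _ _ (Submodule.subset_span ⟨i, rfl⟩)
  obtain ⟨n0, hAR⟩ := artin_rees X.toAddSubgroup
    (fun b u hu => by
      obtain ⟨u1, hu1, u2, hu2, rfl⟩ := Submodule.mem_sup.mp hu
      rw [smul_add]
      exact X.add_mem (Submodule.mem_sup_left (hs b u1 hu1))
        (Submodule.mem_sup_right (InLam.smul hu2 (ordMem_algebraMap b))))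
    (fun i u hu => by
      rw [← xi_coe]
      exact X.smul_mem (xi i) hu)
    (fun u hu => hX0 hu)
  let I : ℕ → Submodule ℂ ((Fin N → F3) ⧸ Y) := fun n => (FF X n).map (Y.mkQ.restrictScalars ℂ)
  have hfg : (I n0).FG := by
    rw [← Module.Finite.iff_fg, ← Module.rank_lt_aleph0_iff, ← rk_FF]
    exact rk_lt le_sup_right hYX hX0 n0
  obtain ⟨d, g, hg, hg0, hI⟩ := fg_le_Phi v hfg (by
    rintro _ ⟨u, hu, rfl⟩
    exact hspan u hu.1)
  have hup : ∀ m, ∃ (g : P3) (hg : g.IsHomogeneous (d + m)) (h0 : g ≠ 0),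
      I (n0 + m) ≤ LinearMap.range (Phi hg h0 v) := by
    intro m
    induction m with
    | zero => exact ⟨g, hg, hg0, hI⟩
    | succ m ih =>
      obtain ⟨g', hg', hg0', ih⟩ := ih
      refine ⟨_, hg'.mul (MvPolynomial.isHomogeneous_X ℂ 2),
        mul_ne_zero hg0' (MvPolynomial.X_ne_zero 2), ?_⟩
      rintro _ ⟨u, hu, rfl⟩
      obtain ⟨z, hz, rfl⟩ := hAR (n0 + m) (Nat.le_add_right _ _) u hu.1 hu.2
      rw [map_sum]
      refine Submodule.sum_mem _ fun i _ => ?_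
      have : (Y.mkQ.restrictScalars ℂ) ((xv i / xv 2) • z i) = xi i • Y.mkQ (z i) := by
        rw [← xi_coe, ← map_smul]
        rfl
      rw [this]
      exact xi_smul_Phi hg' hg0' v i (ih ⟨z i, hz i, rfl⟩)
  refine ⟨Fintype.card κ, by simpa using Fintype.card_le_of_injective a ha, d, n0,
    fun n => ?_, fun n hn => ?_⟩
  · rw [rk_FF, ← rank_Phi (hom_X_pow 2 (n + k)) (X_pow_ne 2 (n + k)) hli]
    refine Submodule.rank_mono ?_
    rintro _ ⟨p, rfl⟩
    rw [Phi_apply]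
    refine Submodule.sum_mem _ fun j _ => ⟨dv (hom_X_pow 2 (n + k)) (X_pow_ne 2 (n + k)) (p j) •
      w (a j), ⟨X.smul_mem _ (Submodule.mem_sup_right (hw _)), fun i => ?_⟩, rfl⟩
    by_cases hi : i = a j
    · refine ⟨(p j : P3), ?_⟩
      rw [← pF_apply, Pi.smul_apply, IntermediateField.smul_def, dv_coe, map_pow, pF_X, hi]
      simp only [w, Pi.single_eq_same, smul_eq_mul]
      field_simp
      ring
    · exact ⟨0, by simp [w, Pi.single_eq_of_ne hi]⟩
  · obtain ⟨m, rfl⟩ := Nat.exists_eq_add_of_le hn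
    obtain ⟨g', hg', hg0', h⟩ := hup m
    rw [rk_FF]
    refine ((Submodule.rank_mono h).trans (rank_Phi_le hg' hg0' v)).trans ?_
    exact_mod_cast Nat.mul_le_mul_left _ (Nat.choose_le_choose 2 (by omega))

end

end Crest.Agent.R169.A2
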