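import Crest.Agent.R169.ASide2

/-! # Minimising the energy -/

set_option autoImplicit false

namespace Crest.Agent.R169

noncomputable section

theorem as3_equiv {U V : Type} [AddCommGroup U] [Module ℂ U] [AddCommGroup V] [Module ℂ V]
    (A B : Submodule ℂ U) (f : U →ₗ[ℂ] V) (h : ∀ u ∈ A, f u = 0 ↔ u ∈ B) :
    Nonempty ((A ⧸ B.comap A.subtype) ≃ₗ[ℂ] A.map f) := by
  have e : B.comap A.subtype = LinearMap.ker (f.domRestrict A) := by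
    ext u
    simp [h u u.2]
  exact ⟨(Submodule.quotEquivOfEq _ _ e).trans ((f.domRestrict A).quotKerEquivRange.trans
    (LinearEquiv.ofEq _ _ (LinearMap.range_domRestrict _ _)))⟩

theorem as3_finrank {U V : Type} [AddCommGroup U] [Module ℂ U] [AddCommGroup V] [Module ℂ V]
    (A B : Submodule ℂ U) (f : U →ₗ[ℂ] V) (h : ∀ u ∈ A, f u = 0 ↔ u ∈ B) :
    Module.finrank ℂ (A ⧸ B.comap A.subtype) = Module.finrank ℂ (A.map f) :=
  (as3_equiv A B f h).some.finrank_eq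

theorem as3_add {U : Type} [AddCommGroup U] [Module ℂ U] (A B C : Submodule ℂ U) (h1 : B ≤ A)
    (h2 : C ≤ B) [FiniteDimensional ℂ (A ⧸ C.comap A.subtype)] :
    Module.finrank ℂ (A ⧸ C.comap A.subtype) =
      Module.finrank ℂ (A ⧸ B.comap A.subtype) + Module.finrank ℂ (B ⧸ C.comap B.subtype) := by
  have hC : ∀ u, C.mkQ u = 0 ↔ u ∈ C := fun u => by simp
  have : FiniteDimensional ℂ (A.map C.mkQ) :=
    (as3_equiv A C C.mkQ fun u _ => hC u).some.finiteDimensional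
  rw [as3_finrank A C C.mkQ fun u _ => hC u, as3_finrank B C C.mkQ fun u _ => hC u,
    as3_finrank A B ((B.map C.mkQ).mkQ ∘ₗ C.mkQ), Submodule.map_comp,
    ← as3_finrank (A.map C.mkQ) (B.map C.mkQ) (B.map C.mkQ).mkQ (fun u _ => by simp),
    ← (Submodule.comapSubtypeEquivOfLe (Submodule.map_mono (f := C.mkQ) h1)).finrank_eq,
    Submodule.finrank_quotient_add_finrank]
  intro u _
  rw [LinearMap.comp_apply, Submodule.mkQ_apply (B.map C.mkQ), Submodule.Quotient.mk_eq_zero,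
    ← Submodule.mem_comap, Submodule.comap_map_eq, Submodule.ker_mkQ, sup_eq_left.2 h2]

theorem as3_poly {a b c a' b' c' : ℤ} {n1 : ℕ}
    (h : ∀ n : ℕ, n1 ≤ n → a * (n : ℤ) ^ 2 + b * n + c = a' * (n : ℤ) ^ 2 + b' * n + c') :
    a = a' ∧ b = b' ∧ c = c' := by
  have h0 := h n1 le_rfl
  have h1 := h (n1 + 1) (by omega)
  have h2 := h (n1 + 2) (by omega)
  push_cast at h1 h2
  have ha : a = a' := by linarith
  subst ha
  have hb : b = b' := by linarith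
  subst hb
  exact ⟨rfl, rfl, by linarith⟩

variable {N : ℕ} {K : Type} [Field K] [Algebra ℂ K] [Module K (Fin N → F3)]
  [IsScalarTower ℂ K (Fin N → F3)] {xb yb : K} {Rn : ℕ → Submodule ℂ K}

theorem DD_add {Λ Λ' Λ'' : Submodule K (Fin N → F3)} (h : IsLat Λ) (h' : IsLat Λ') (h'' : IsLat Λ'')
    (h1 : Λ' ≤ Λ) (h2 : Λ'' ≤ Λ') (n : ℕ) : DD n Λ Λ'' = DD n Λ Λ' + DD n Λ' Λ'' := by
  have _ := h'
  have := h.finite_quot h'' n
  exact as3_add (FL Λ n) (FL Λ' n) (FL Λ'' n) (fun u hu => ⟨h1 hu.1, hu.2⟩)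
    (fun u hu => ⟨h2 hu.1, hu.2⟩)

theorem as3_inM_succ (n : ℕ) (u : Fin N → F3) : InM (n + 1) ((xv 2)⁻¹ • u) ↔ InM n u := by
  refine forall_congr' fun i => ?_
  rw [Pi.smul_apply, smul_eq_mul, pow_succ, mul_assoc, mul_inv_cancel_left₀ (xv_ne_zero 2)]

theorem AData.DD_tL (hA : AData K xb yb Rn N) (Λ Λ' : Submodule K (Fin N → F3)) (n : ℕ) :
    DD n (tL Λ) (tL Λ') = DD (n + 1) Λ Λ' := by
  let g : (Fin N → F3) →ₗ[ℂ] (Fin N → F3) := DistribSMul.toLinearMap ℂ _ (xv 2)⁻¹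
  have hg : ∀ (L : Submodule K (Fin N → F3)) u, g u ∈ FL L (n + 1) ↔ u ∈ FL (tL L) n := by
    intro L u
    show ((xv 2)⁻¹ • u ∈ L ∧ InM (n + 1) ((xv 2)⁻¹ • u)) ↔ (u ∈ tL L ∧ InM n u)
    rw [hA.mem_tL, as3_inM_succ]
  have hm : (FL (tL Λ) n).map g = FL Λ (n + 1) := by
    ext u
    constructor
    · rintro ⟨w, hw, rfl⟩
      exact (hg Λ w).2 hw
    · intro hu
      have e : g (xv 2 • u) = u := by
        show (xv 2)⁻¹ • xv 2 • u = u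
        rw [inv_smul_smul₀ (xv_ne_zero 2)]
      exact ⟨xv 2 • u, (hg Λ _).1 (by rwa [e]), e⟩
  unfold DD
  rw [as3_finrank _ _ ((FL Λ' (n + 1)).mkQ ∘ₗ g), Submodule.map_comp, hm,
    ← as3_finrank _ (FL Λ' (n + 1)) _ (fun u _ => by simp)]
  intro u _
  rw [LinearMap.comp_apply, Submodule.mkQ_apply, Submodule.Quotient.mk_eq_zero, hg]

/-- for a subspace `W` of `U ⧸ t Λ`, with `Λ_W = Λ ⊓ comap W` -/
theorem AData.finrank_EL_inf (hA : AData K xb yb Rn N) {Λ : Submodule K (Fin N → F3)} (h : IsLat Λ)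
    (W : Submodule K ((Fin N → F3) ⧸ tL Λ)) (n : ℕ) :
    Module.finrank ℂ (EL Λ n ⊓ W.restrictScalars ℂ : Submodule ℂ _) =
      DD n (Λ ⊓ W.comap (tL Λ).mkQ) (tL Λ) := by
  have _ := hA
  have _ := h
  have e : (EL Λ n ⊓ W.restrictScalars ℂ : Submodule ℂ _) =
      (FL (Λ ⊓ W.comap (tL Λ).mkQ) n).map ((tL Λ).mkQ.restrictScalars ℂ) := by
    ext v
    constructor
    · rintro ⟨⟨u, hu, rfl⟩, hv⟩
      exact ⟨u, ⟨⟨hu.1, hv⟩, hu.2⟩, rfl⟩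
    · rintro ⟨u, hu, rfl⟩
      exact ⟨⟨u, ⟨hu.1.1, hu.2⟩, rfl⟩, hu.1.2⟩
  unfold DD
  rw [e, as3_finrank _ _ ((tL Λ).mkQ.restrictScalars ℂ)]
  intro u hu
  rw [LinearMap.restrictScalars_apply, Submodule.mkQ_apply, Submodule.Quotient.mk_eq_zero]
  exact ⟨fun h => ⟨h, hu.2⟩, fun h => h.1⟩

theorem AData.as3_main (hA : AData K xb yb Rn N) {e : ℕ} {κ : ℚ} (main : RMainProp K xb yb Rn e κ)
    {Λ : Submodule K (Fin N → F3)} (h : IsLat Λ) :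
    ∃ (s : Submodule K ((Fin N → F3) ⧸ tL Λ) → ℕ) (γ χ : Submodule K ((Fin N → F3) ⧸ tL Λ) → ℤ),
      (∀ W, ∃ n1 : ℕ, ∀ n, n1 ≤ n → (DD n (Λ ⊓ W.comap (tL Λ).mkQ) (tL Λ) : ℤ)
          = s W * e * (n : ℤ) ^ 2 + γ W * n + χ W) ∧
      ((∀ W, (s ⊤ : ℤ) * γ W - s W * γ ⊤ ≤ e * s W * (s ⊤ - s W)) → 0 < s ⊤ →
        (4 * s ⊤ * e * χ ⊤ - γ ⊤ ^ 2 : ℚ) ≤ (s ⊤ : ℚ) ^ 2 * e ^ 2 - 4 * (s ⊤ : ℚ) ^ 2 * e * κ) := by
  simp only [← hA.finrank_EL_inf h]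
  refine main _ (EL Λ) (fun n => ?_) ?_ ?_
  · have := h.finite_quot (hA.isLat_tL h).1 n
    refine (as3_equiv (FL Λ n) (FL (tL Λ) n) ((tL Λ).mkQ.restrictScalars ℂ) ?_).some.finiteDimensional
    intro u hu
    rw [LinearMap.restrictScalars_apply, Submodule.mkQ_apply, Submodule.Quotient.mk_eq_zero]
    exact ⟨fun h => ⟨h, hu.2⟩, fun h => h.1⟩
  · rintro n k τ hτ _ ⟨u, hu, rfl⟩
    refine ⟨τ • u, ⟨Λ.smul_mem τ hu.1, fun i => ?_⟩, by simp⟩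
    have h0 : InM 0 ((xv 2 ^ n) • u) := fun i => by simpa using hu.2 i
    obtain ⟨a, ha⟩ := hA.hR k τ hτ _ h0 i
    refine ⟨a, ?_⟩
    rw [← ha, hA.comm, Pi.smul_apply (xv 2 ^ n), smul_eq_mul]
    ring
  · obtain ⟨n0, hn0⟩ := artin_rees Λ.toAddSubgroup h.smul (fun i u hu => by
      fin_cases i
      · show (xv 0 / xv 2) • u ∈ Λ
        rw [← hA.hx]; exact Λ.smul_mem _ hu
      · show (xv 1 / xv 2) • u ∈ Λ
        rw [← hA.hy]; exact Λ.smul_mem _ hu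
      · show (xv 2 / xv 2) • u ∈ Λ
        rw [div_self (xv_ne_zero 2), one_smul]; exact hu) h.le
    refine ⟨n0, ?_⟩
    rintro n hn _ ⟨u, hu, rfl⟩
    obtain ⟨w, hw, hu'⟩ := hn0 n hn u hu.1 hu.2
    refine ⟨_, ⟨w 2, hw 2, rfl⟩, _, ⟨w 0, hw 0, rfl⟩, _, ⟨w 1, hw 1, rfl⟩, ?_⟩
    rw [hu', Fin.sum_univ_three, ← hA.hx, ← hA.hy, div_self (xv_ne_zero 2), one_smul]
    simp only [LinearMap.restrictScalars_apply, map_add, map_smul]
    abel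

/-- Among all lattices take one that minimises the integer `8 N c₀ - 4 c₁² ≥ -N²` (`energy_lower`; the polynomial
`DD n Λ (t Λ) = s e n² + c₁ n + c₀` comes from `main` applied to `EL Λ`, and `2 s e = N`).  For `Λ' = Λ ⊓ comap W`:
`DD n Λ' (tΛ') = DD n Λ' (tΛ) + DD (n+1) Λ Λ'` and `DD n Λ Λ' = DD n Λ (tΛ) - DD n Λ' (tΛ)`, so `c₁' = c₁ + 2 (r - s) e`,
`c₀' = c₀ + (r - s) e + c₁ - γ`, and minimality gives `r γ - s c₁ ≤ e s (r - s)`.  Then `main` gives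
`-r² e² ≤ 4 r e c₀ - c₁² ≤ r² e² - 4 r² e κ`, against `e / 2 < κ`. -/
theorem AData.false (hA : AData K xb yb Rn N) (hN : 0 < N) {e : ℕ} (he : 0 < e) {κ : ℚ}
    (hκ : (e : ℚ) / 2 < κ) (main : RMainProp K xb yb Rn e κ) : False := by
  have htop : ∀ Λ : Submodule K (Fin N → F3),
      Λ ⊓ (⊤ : Submodule K ((Fin N → F3) ⧸ tL Λ)).comap (tL Λ).mkQ = Λ := fun Λ => by simp
  obtain ⟨m, ⟨Λ, hΛ, A, c1, c0, n1, hp, rfl⟩, hmin⟩ := Int.exists_least_of_bdd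
    (P := fun m => ∃ Λ : Submodule K (Fin N → F3), IsLat Λ ∧ ∃ (A c1 c0 : ℤ) (n1 : ℕ),
      (∀ n, n1 ≤ n → (DD n Λ (tL Λ) : ℤ) = A * (n : ℤ) ^ 2 + c1 * n + c0) ∧
        m = 8 * N * c0 - 4 * c1 ^ 2)
    ⟨-(N : ℤ) ^ 2, by
      rintro _ ⟨Λ, hΛ, A, c1, c0, n1, hp, rfl⟩
      exact (hA.energy_lower hN hΛ hp).2⟩
    (by
      obtain ⟨Λ, hΛ⟩ := hA.exists_lat hN
      obtain ⟨s, γ, χ, h1, -⟩ := hA.as3_main main hΛ
      obtain ⟨n1, h1⟩ := h1 ⊤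
      rw [htop] at h1
      exact ⟨_, Λ, hΛ, _, _, _, n1, h1, rfl⟩)
  obtain ⟨hAN, hlow⟩ := hA.energy_lower hN hΛ hp
  obtain ⟨s, γ, χ, h1, h2⟩ := hA.as3_main main hΛ
  obtain ⟨n2, ht⟩ := h1 ⊤
  rw [htop] at ht
  obtain ⟨rfl, rfl, rfl⟩ := as3_poly (n1 := max n1 n2) fun n hn =>
    (hp n (le_of_max_le_left hn)).symm.trans (ht n (le_of_max_le_right hn))
  have he' : (0 : ℤ) < e := by exact_mod_cast he
  have hr : 0 < s ⊤ := by
    rcases Nat.eq_zero_or_pos (s ⊤) with h0 | h0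
    · rw [h0] at hAN
      simp only [Nat.cast_zero, zero_mul, mul_zero] at hAN
      omega
    · exact h0
  have hst : ∀ W, (s ⊤ : ℤ) * γ W - s W * γ ⊤ ≤ e * s W * (s ⊤ - s W) := by
    intro W
    obtain ⟨n3, hW⟩ := h1 W
    set Λ' := Λ ⊓ W.comap (tL Λ).mkQ with hΛ'd
    obtain ⟨ht1, ht2⟩ := hA.isLat_tL hΛ
    have l1 : tL Λ ≤ Λ' := le_inf ht2 fun u hu => by
      rw [Submodule.mem_comap, Submodule.mkQ_apply, (Submodule.Quotient.mk_eq_zero _).2 hu]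
      exact W.zero_mem
    have l2 : Λ' ≤ Λ := inf_le_left
    have hΛ' : IsLat Λ' := hA.isLat_of_between hΛ l1 l2
    have l3 : tL Λ' ≤ tL Λ := Submodule.span_mono (Set.image_mono l2)
    have := hmin _ ⟨Λ', hΛ', s ⊤ * e, γ ⊤ + 2 * (s ⊤ - s W) * e,
      χ ⊤ + (s ⊤ - s W) * e + γ ⊤ - γ W, max n1 n3, fun n hn => by
        have e1 := DD_add hΛ' ht1 (hA.isLat_tL hΛ').1 l1 l3 n
        have e2 := DD_add hΛ hΛ' ht1 l2 l1 (n + 1)
        rw [hA.DD_tL] at e1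
        have e3 := hp (n + 1) (by have := le_of_max_le_left hn; omega)
        have e4 := hW (n + 1) (by have := le_of_max_le_right hn; omega)
        have e5 := hW n (le_of_max_le_right hn)
        rw [e2] at e3
        rw [e1]
        push_cast at e3 e4 ⊢
        linear_combination e3 - e4 + e5, rfl⟩
    rw [← hAN] at this
    refine le_of_mul_le_mul_left ?_ he'
    linarith
  have h3 := h2 hst hr
  rw [← hAN] at hlow
  have h4 : (-(2 * ((s ⊤ : ℚ) * e)) ^ 2 : ℚ) ≤ 8 * (2 * ((s ⊤ : ℚ) * e)) * χ ⊤ - 4 * (γ ⊤ : ℚ) ^ 2 := by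
    exact_mod_cast hlow
  have h5 : (0 : ℚ) < (s ⊤ : ℚ) ^ 2 * e := by positivity
  have h6 := mul_lt_mul_of_pos_left hκ h5
  linarith

end

end Crest.Agent.R169
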