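import Crest.Agent.R169.GamB

/-! # From semistable sheaves to all sheaves (Harder–Narasimhan induction) -/

set_option autoImplicit false
set_option linter.unusedSectionVars false

namespace Crest.Agent.R169

noncomputable section

variable {K : Type} [Field K] [Algebra K0 K] [Algebra ℂ K] [IsScalarTower ℂ K0 K] {S : Surf K}

/-- Bogomolov's inequality, as a hypothesis -/
def BogProp (S : Surf K) (κ : ℚ) : Prop :=
  ∀ (V : Type) [AddCommGroup V] [Module K V] [Module ℂ V] [IsScalarTower ℂ K V] (M : Pre V),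
    IsSheaf S M → SemiSt K M → 0 < Module.finrank K V →
    ((Module.finrank K V : ℚ) * Module.finrank K0 K * chi K M : ℚ) ≤
      pc K M * qc K M - (Module.finrank K V : ℚ) ^ 2 * Module.finrank K0 K * κ

theorem hn_max_slope {ι : Type} (p : ι → ℤ) (d : ι → ℕ) (r : ℕ) (C : ℤ) (hp : ∀ i, p i ≤ C)
    (hd : ∀ i, d i ≤ r) (i0 : ι) (h0 : 0 < d i0) :
    ∃ i, 0 < d i ∧ ∀ j, 0 < d j → (p j : ℚ) / d j ≤ p i / d i := by
  have hf : (0 : ℚ) < r.factorial := by exact_mod_cast r.factorial_pos
  have hint : ∀ i, 0 < d i → ∃ n : ℤ, (n : ℚ) = p i / d i * r.factorial := by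
    intro i hi
    obtain ⟨k, hk⟩ := Nat.dvd_factorial hi (hd i)
    refine ⟨p i * k, ?_⟩
    have : (d i : ℚ) ≠ 0 := by positivity
    rw [hk]; push_cast; field_simp
  obtain ⟨n, ⟨i, hi, hn⟩, hmax⟩ := Int.exists_greatest_of_bdd
    (P := fun n => ∃ i, 0 < d i ∧ (n : ℚ) = p i / d i * r.factorial)
    ⟨max C 0 * r.factorial, by
      rintro n ⟨i, hi, hn⟩
      have h1 : (1 : ℚ) ≤ d i := by exact_mod_cast hi
      have h2 : (p i : ℚ) ≤ (max C 0 : ℤ) := by exact_mod_cast (hp i).trans (le_max_left _ _)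
      have h3 : (0 : ℚ) ≤ (max C 0 : ℤ) := by exact_mod_cast le_max_right _ _
      have h4 : (p i : ℚ) / d i ≤ (max C 0 : ℤ) := by
        rw [div_le_iff₀ (by linarith)]; nlinarith
      have : (n : ℚ) ≤ ((max C 0 * r.factorial : ℤ) : ℚ) := by
        rw [hn, Int.cast_mul, Int.cast_natCast]
        exact mul_le_mul_of_nonneg_right h4 hf.le
      exact_mod_cast this⟩
    (by obtain ⟨n, hn⟩ := hint i0 h0; exact ⟨n, i0, h0, hn⟩)
  refine ⟨i, hi, fun j hj => ?_⟩
  obtain ⟨m, hm⟩ := hint j hj
  have : (m : ℚ) ≤ n := by exact_mod_cast hmax m ⟨j, hj, hm⟩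
  rw [hm, hn] at this
  exact le_of_mul_le_mul_right this hf

section
variable {V : Type} [AddCommGroup V] [Module K V] [Module ℂ V] [IsScalarTower ℂ K V]

theorem hn_HP_top (M : Pre V) : HP K (pull (⊤ : Submodule K V).subtype M) = HP K M :=
  HP_pull_equiv (Submodule.topEquiv : (⊤ : Submodule K V) ≃ₗ[K] V) M

theorem hn_HP_sub (M : Pre V) (W : Submodule K V) (W' : Submodule K W) :
    HP K (pull W'.subtype (pull W.subtype M)) = HP K (pull (W'.map W.subtype).subtype M) := by
  rw [← HP_pull_equiv (Submodule.equivSubtypeMap W W') (pull (W'.map W.subtype).subtype M)]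
  rfl

theorem hn_HP_zero (M : Pre V) [FiniteDimensional K V] (W : Submodule K V)
    (h : Module.finrank K W = 0) : HP K (pull W.subtype M) = 0 := by
  have : Subsingleton W := Module.finrank_zero_iff.1 h
  exact HP_of_subsingleton _

theorem hn_HP_quot {M : Pre V} (hM : IsSheaf S M) (W : Submodule K V) (U : Submodule K (V ⧸ W))
    (a b : ℤ) : HP K (pull (U.comap W.mkQ).subtype M) a b =
      HP K (pull W.subtype M) a b + HP K (pull U.subtype (push W.mkQ M)) a b := by
  have hle : W ≤ U.comap W.mkQ := fun v hv => by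
    simp [(Submodule.Quotient.mk_eq_zero W).2 hv]
  let π : U.comap W.mkQ →ₗ[K] U := (W.mkQ.domRestrict _).codRestrict U fun x => x.2
  have hπ : Function.Surjective π := by
    rintro ⟨x, hx⟩
    obtain ⟨v, rfl⟩ := W.mkQ_surjective x
    exact ⟨⟨v, hx⟩, rfl⟩
  have hex : LinearMap.range (Submodule.inclusion hle) = LinearMap.ker π := by
    ext ⟨v, hv⟩
    simp only [LinearMap.mem_range, LinearMap.mem_ker]
    constructor
    · rintro ⟨w, hw⟩
      apply Subtype.ext
      have : v = w := (congrArg Subtype.val hw).symm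
      subst this
      exact (Submodule.Quotient.mk_eq_zero W).2 w.2
    · intro h
      exact ⟨⟨v, (Submodule.Quotient.mk_eq_zero W).1 (congrArg Subtype.val h)⟩, rfl⟩
  rw [(hM.pull (U.comap W.mkQ).injective_subtype).HP_exact (Submodule.inclusion_injective hle) hπ
    hex]
  have e : push π (pull (U.comap W.mkQ).subtype M) = pull U.subtype (push W.mkQ M) := by
    funext c
    ext ⟨x, hx⟩
    constructor
    · rintro ⟨w, hw, e⟩
      exact ⟨w, hw, congrArg Subtype.val e⟩
    · rintro ⟨v, hv, e⟩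
      have e' : W.mkQ v = x := e
      subst e'
      exact ⟨⟨v, hx⟩, hv, rfl⟩
  rw [e]
  rfl

theorem hn_finrank_comap [FiniteDimensional K V] (W : Submodule K V) (U : Submodule K (V ⧸ W)) :
    Module.finrank K (U.comap W.mkQ) = Module.finrank K W + Module.finrank K U := by
  have hle : W ≤ U.comap W.mkQ := fun v hv => by
    simp [(Submodule.Quotient.mk_eq_zero W).2 hv]
  let π : U.comap W.mkQ →ₗ[K] U := (W.mkQ.domRestrict _).codRestrict U fun x => x.2
  have hπ : Function.Surjective π := by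
    rintro ⟨x, hx⟩
    obtain ⟨v, rfl⟩ := W.mkQ_surjective x
    exact ⟨⟨v, hx⟩, rfl⟩
  have hex : LinearMap.range (Submodule.inclusion hle) = LinearMap.ker π := by
    ext ⟨v, hv⟩
    simp only [LinearMap.mem_range, LinearMap.mem_ker]
    constructor
    · rintro ⟨w, hw⟩
      apply Subtype.ext
      have : v = w := (congrArg Subtype.val hw).symm
      subst this
      exact (Submodule.Quotient.mk_eq_zero W).2 w.2
    · intro h
      exact ⟨⟨v, (Submodule.Quotient.mk_eq_zero W).1 (congrArg Subtype.val h)⟩, rfl⟩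
  have h1 := π.finrank_range_add_finrank_ker
  rw [LinearMap.range_eq_top.2 hπ, finrank_top, ← hex,
    LinearMap.finrank_range_of_inj (Submodule.inclusion_injective hle)] at h1
  omega

end

theorem hn_claim {κ : ℚ} (hB : BogProp S κ) (α β : ℚ) (r : ℕ) :
    ∀ (V : Type) [AddCommGroup V] [Module K V] [Module ℂ V] [IsScalarTower ℂ K V] (M : Pre V),
      IsSheaf S M → Module.finrank K V = r → ∀ (A : ℚ) (ω : ℕ → ℚ),
      (∀ W : Submodule K V, (pc K (pull W.subtype M) : ℚ) ≤ (A + α) * Module.finrank K W) →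
      (∀ W : Submodule K V, (pc K (pull W.subtype M) + qc K (pull W.subtype M) : ℚ)
        - (α + β) * Module.finrank K W ≤ ω (Module.finrank K W)) →
      (pc K M + qc K M : ℚ) - (α + β) * r = ω r →
      (∀ s t, s + t ≤ r → |ω (s + t) - ω s| ≤ Module.finrank K0 K * t) →
      (Module.finrank K0 K * chi K M + r * Module.finrank K0 K * κ - α * qc K M - β * pc K M
        + r * α * β : ℚ) ≤ r * (Module.finrank K0 K : ℚ) ^ 2 / 4 + A * ω 0 := by
  induction r using Nat.strong_induction_on with
  | _ r ih =>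
  intro V _ _ _ _ M hM hr A ω hA hC hT hL
  have := hM.finiteDimensional
  set e : ℚ := (Module.finrank K0 K : ℚ) with he
  rcases Nat.eq_zero_or_pos r with rfl | hpos
  · have : Subsingleton V := Module.finrank_zero_iff.1 hr
    have h0 := HP_of_subsingleton (K := K) M
    simp only [pc, qc, chi, h0, Pi.zero_apply] at hT ⊢
    simp only [sub_self, Int.cast_zero, Nat.cast_zero, mul_zero, add_zero] at hT
    simp [← hT]
  obtain ⟨C, hCb⟩ := hM.pc_bdd
  obtain ⟨W, hW, hmax⟩ := hn_max_slope (fun W : Submodule K V => pc K (pull W.subtype M))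
    (fun W => Module.finrank K W) r C hCb (fun W => hr ▸ W.finrank_le) ⊤
    (by simpa [finrank_top, hr] using hpos)
  set r₁ := Module.finrank K W with hr₁
  set M₁ := pull W.subtype M with hM₁
  have hr₁' : (0 : ℚ) < r₁ := by exact_mod_cast hW
  set a : ℚ := pc K M₁ / r₁ - α with ha
  have hp₁ : (pc K M₁ : ℚ) = (a + α) * r₁ := by rw [ha]; field_simp; ring
  have hall : ∀ U : Submodule K V,
      (pc K (pull U.subtype M) : ℚ) ≤ (a + α) * Module.finrank K U := by
    intro U
    rcases Nat.eq_zero_or_pos (Module.finrank K U) with h | h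
    · simp [pc, hn_HP_zero M U h, h]
    · have h' : (0 : ℚ) < Module.finrank K U := by exact_mod_cast h
      have := hmax U h
      rw [div_le_iff₀ h'] at this
      simpa [ha] using this
  have haA : a ≤ A := by
    have := hA W
    rw [← hM₁, ← hr₁, hp₁] at this
    have := le_of_mul_le_mul_right this hr₁'
    linarith
  have hs : SemiSt K M₁ := by
    intro U
    have h1 := hall (U.map W.subtype)
    rw [Submodule.finrank_map_subtype_eq] at h1
    have h2 : pc K (pull U.subtype M₁) = pc K (pull (U.map W.subtype).subtype M) := by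
      simp only [pc, hM₁, hn_HP_sub]
    have : ((r₁ : ℚ) * pc K (pull U.subtype M₁)) ≤ (Module.finrank K U : ℚ) * pc K M₁ := by
      rw [h2, hp₁]; nlinarith
    exact_mod_cast this
  have hb := hB W M₁ (hM.pull W.injective_subtype) hs hW
  rw [← hr₁, ← he] at hb
  set M₂ := push W.mkQ M with hM₂
  have hM₂' : IsSheaf S M₂ := hM.push W.mkQ_surjective
  have hrk : Module.finrank K (V ⧸ W) + r₁ = r := by rw [← hr]; exact W.finrank_quotient_add_finrank
  set r₂ := Module.finrank K (V ⧸ W) with hr₂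
  have hex : ∀ a b, HP K M a b = HP K M₁ a b + HP K M₂ a b := fun a b =>
    hM.HP_exact W.injective_subtype W.mkQ_surjective (by simp) a b
  have hp : (pc K M : ℚ) = pc K M₁ + pc K M₂ := by simp only [pc, hex]; push_cast; ring
  have hq : (qc K M : ℚ) = qc K M₁ + qc K M₂ := by simp only [qc, hex]; push_cast; ring
  have hc : (chi K M : ℚ) = chi K M₁ + chi K M₂ := by simp only [chi, hex]; push_cast; ring
  have hpU : ∀ U : Submodule K (V ⧸ W), (pc K (pull (U.comap W.mkQ).subtype M) : ℚ) =
      pc K M₁ + pc K (pull U.subtype M₂) := fun U => by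
    simp only [pc, hn_HP_quot hM, hM₁, hM₂]; push_cast; ring
  have hqU : ∀ U : Submodule K (V ⧸ W), (qc K (pull (U.comap W.mkQ).subtype M) : ℚ) =
      qc K M₁ + qc K (pull U.subtype M₂) := fun U => by
    simp only [qc, hn_HP_quot hM, hM₁, hM₂]; push_cast; ring
  set C₁ : ℚ := pc K M₁ + qc K M₁ - (α + β) * r₁ with hC₁
  have hrq : (r : ℚ) = r₂ + r₁ := by rw [← hrk]; push_cast; ring
  have h2 := ih r₂ (by omega) (V ⧸ W) M₂ hM₂' rfl a (fun s => ω (r₁ + s) - C₁)
    (fun U => by
      have := hall (U.comap W.mkQ)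
      rw [hpU, hn_finrank_comap, ← hr₁, hp₁] at this
      push_cast at this
      linarith)
    (fun U => by
      have := hC (U.comap W.mkQ)
      rw [hpU, hqU, hn_finrank_comap, ← hr₁] at this
      push_cast at this
      linarith)
    (by
      rw [add_comm r₁, hrk, ← hT, hp, hq, hrq, hC₁]; ring)
    (fun s t hst => by
      have := hL (r₁ + s) t (by omega)
      rw [add_assoc] at this
      simpa using this)
  simp only [add_zero] at h2
  have hω0 : 0 ≤ ω 0 := by
    have := hC ⊥
    simpa [pc, qc, hn_HP_zero M ⊥ (finrank_bot K V)] using this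
  have hL1 := hL 0 r₁ (by omega)
  rw [zero_add] at hL1
  have hΦ : e * chi K M₁ + r₁ * e * κ - α * qc K M₁ - β * pc K M₁ + r₁ * α * β ≤
      a * C₁ - r₁ * a ^ 2 := by
    refine le_of_mul_le_mul_left ?_ hr₁'
    rw [hC₁]
    rw [hp₁] at hb ⊢
    nlinarith
  have h3 : a * (ω r₁ - ω 0) ≤ |a| * (e * r₁) :=
    (le_abs_self _).trans (by rw [abs_mul]; exact mul_le_mul_of_nonneg_left hL1 (abs_nonneg _))
  have h4 : |a| * (e * r₁) ≤ r₁ * a ^ 2 + r₁ * e ^ 2 / 4 := by
    rw [← sq_abs a]; nlinarith [mul_nonneg hr₁'.le (sq_nonneg (|a| - e / 2))]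
  have h5 := mul_le_mul_of_nonneg_right haA hω0
  rw [hp, hq, hc, hrq]
  linarith

/-- Induction on the rank.  Fix `α β : ℚ`, put `Φ(M) = e χ + r e κ - α q - β p + r α β` (additive) and
`C(W) = p_W + q_W - (α + β) dim W`.  Claim: if `p_W ≤ (A + α) dim W` and `C(W) ≤ ω (dim W)` for all `W`,
`C(⊤) = ω r`, and `|ω s - ω s'| ≤ e |s - s'|` for `s, s' ≤ r`, then `Φ(M) ≤ r e² / 4 + A * ω 0`.
Step: take `W₁ ≠ 0` of maximal slope `α + a₁` (`pc_bdd`); `pull W₁.subtype M` is semistable, so
`Φ ≤ r₁ a₁ b₁ = a₁ C₁ - r₁ a₁²`; apply the claim to `push W₁.mkQ M` with `A = a₁`, `ω' s = ω (r₁ + s) - C₁`.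
Finally `α = p / r`, `β = q / r`, `ω s = e s (r - s) / r`. -/
theorem hn_bound {κ : ℚ} (hB : BogProp S κ) (V : Type) [AddCommGroup V] [Module K V] [Module ℂ V]
    [IsScalarTower ℂ K V] (M : Pre V) (hM : IsSheaf S M) (hr : 0 < Module.finrank K V)
    (h : ∀ W : Submodule K V,
      (Module.finrank K V : ℤ) * (pc K (pull W.subtype M) + qc K (pull W.subtype M))
        - Module.finrank K W * (pc K M + qc K M) ≤
      Module.finrank K0 K * Module.finrank K W * ((Module.finrank K V : ℤ) - Module.finrank K W)) :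
    (4 * Module.finrank K V * Module.finrank K0 K * chi K M - (pc K M + qc K M : ℤ) ^ 2 : ℚ) ≤
      (Module.finrank K V : ℚ) ^ 2 * (Module.finrank K0 K : ℚ) ^ 2
        - 4 * (Module.finrank K V : ℚ) ^ 2 * Module.finrank K0 K * κ := by
  have := hM.finiteDimensional
  set r := Module.finrank K V with hr'
  set e := Module.finrank K0 K with he
  have r0 : (0 : ℚ) < r := by exact_mod_cast hr
  have e0 : (0 : ℚ) ≤ e := Nat.cast_nonneg _
  obtain ⟨C, hC⟩ := hM.pc_bdd
  have key := hn_claim hB (pc K M / r) (qc K M / r) r V M hM rfl ((max C 0 : ℤ) - pc K M / r)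
    (fun s => e * s * (r - s) / r)
    (fun W => by
      rcases Nat.eq_zero_or_pos (Module.finrank K W) with h | h
      · simp [pc, hn_HP_zero M W h, h]
      · have h1 : (1 : ℚ) ≤ Module.finrank K W := by exact_mod_cast h
        have h2 : (pc K (pull W.subtype M) : ℚ) ≤ (max C 0 : ℤ) := by
          exact_mod_cast (hC W).trans (le_max_left _ _)
        have h3 : (0 : ℚ) ≤ (max C 0 : ℤ) := by exact_mod_cast le_max_right _ _
        rw [sub_add_cancel]
        nlinarith)
    (fun W => by
      have h1 : ((r : ℚ) * (pc K (pull W.subtype M) + qc K (pull W.subtype M))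
          - Module.finrank K W * (pc K M + qc K M)) ≤
          e * Module.finrank K W * ((r : ℚ) - Module.finrank K W) := by exact_mod_cast h W
      rw [le_div_iff₀ r0]
      refine le_of_eq_of_le ?_ h1
      field_simp)
    (by field_simp; ring)
    (fun s t hst => by
      have h1 : (s : ℚ) + t ≤ r := by exact_mod_cast hst
      have s0 : (0 : ℚ) ≤ s := Nat.cast_nonneg _
      have t0 : (0 : ℚ) ≤ t := Nat.cast_nonneg _
      have h2 : (e : ℚ) * (s + t : ℕ) * (r - (s + t : ℕ)) / r - e * s * (r - s) / r =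
          e * t * ((r - 2 * s - t) / r) := by push_cast; field_simp; ring
      have h3 : |((r : ℚ) - 2 * s - t) / r| ≤ 1 := by
        rw [abs_div, abs_of_pos r0, div_le_one r0, abs_le]
        constructor <;> linarith
      rw [h2, abs_mul, abs_of_nonneg (mul_nonneg e0 t0)]
      exact mul_le_of_le_one_right (mul_nonneg e0 t0) h3)
  rw [← he] at key
  have k2 := mul_le_mul_of_nonneg_left key r0.le
  have k3 : (r : ℚ) * (e * chi K M + r * e * κ - pc K M / r * qc K M - qc K M / r * pc K M
      + r * (pc K M / r) * (qc K M / r)) = r * e * chi K M + r ^ 2 * e * κ - pc K M * qc K M := by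
    field_simp; ring
  rw [k3] at k2
  simp only [Nat.cast_zero, mul_zero, zero_mul, zero_div, add_zero] at k2
  push_cast
  nlinarith [sq_nonneg ((pc K M : ℚ) - qc K M)]

end

end Crest.Agent.R169
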