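import Mathlib

/-! # Numerics: Bogomolov's inequality and the Hodge index theorem from an upper bound for `χ` -/

set_option autoImplicit false

namespace Crest.Agent.R169

/-- sum over the line bundles of a filtration -/
def avg {G : Type} [CommGroup G] {r : ℕ} (L : Fin r → G) (φ : G → ℤ) : G → ℤ :=
  fun y => ∑ i, φ (L i * y)

section aux
variable {G : Type} [CommGroup G]

theorem num_add_one {f : G → ℤ} (h : ∀ x y, f (x * y) = f x + f y) : f 1 = 0 := by
  have := h 1 1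
  rw [mul_one] at this
  omega

theorem num_add_inv {f : G → ℤ} (h : ∀ x y, f (x * y) = f x + f y) (x : G) : f x⁻¹ = - f x := by
  have := h x x⁻¹
  rw [mul_inv_cancel, num_add_one h] at this
  omega

theorem num_add_pow {f : G → ℤ} (h : ∀ x y, f (x * y) = f x + f y) (x : G) (n : ℕ) :
    f (x ^ n) = n * f x := by
  induction n with
  | zero => simp [num_add_one h]
  | succ n ih => rw [pow_succ, h, ih]; push_cast; ring

theorem num_add_prod {f : G → ℤ} (h : ∀ x y, f (x * y) = f x + f y) {J : Type} (s : Finset J)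
    (L : J → G) : f (∏ i ∈ s, L i) = ∑ i ∈ s, f (L i) := by
  classical
  induction s using Finset.induction_on with
  | empty => simp [num_add_one h]
  | insert a s ha ih => rw [Finset.prod_insert ha, Finset.sum_insert ha, h, ih]

theorem num_avg_quad {r : ℕ} (L : Fin r → G) (φ : G → ℤ) (β : G → G → ℤ)
    (hβ : ∀ x y z, β x (y * z) = β x y + β x z) (hβ' : ∀ z x y, β (x * y) z = β x z + β y z)
    (hφ : ∀ x y, φ (x * y) = φ x + φ y - φ 1 + β x y) (m : ℕ) (y : G) :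
    2 * (r : ℤ) ^ 2 * (avg L)^[m] φ y = (r : ℤ) ^ m * (2 * (r : ℤ) ^ 2 * φ y +
      2 * m * r * ((∑ i, φ (L i)) - r * φ 1 + β (∏ i, L i) y) +
      m * (m - 1) * β (∏ i, L i) (∏ i, L i)) := by
  induction m generalizing y with
  | zero => simp
  | succ m ih =>
    rw [Function.iterate_succ_apply']
    show 2 * (r : ℤ) ^ 2 * ∑ i, (avg L)^[m] φ (L i * y) = _
    rw [Finset.mul_sum]
    simp only [ih, hφ, hβ]
    have h1 : ∑ i, β (L i) y = β (∏ i, L i) y :=
      (num_add_prod (f := fun x => β x y) (hβ' y) _ _).symm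
    have h2 : ∑ i, β (∏ i, L i) (L i) = β (∏ i, L i) (∏ i, L i) :=
      (num_add_prod (f := fun x => β (∏ i, L i) x) (hβ _) _ _).symm
    rw [← Finset.mul_sum]
    simp only [Finset.sum_add_distrib, Finset.sum_sub_distrib, ← Finset.mul_sum, Finset.sum_const,
      Finset.card_univ, Fintype.card_fin, nsmul_eq_mul, h1, h2]
    push_cast
    ring

theorem num_avg_le {r : ℕ} (L : Fin r → G) (φ ψ : G → ℤ) (K c : ℤ)
    (h : ∀ y, K * φ y ≤ c + ψ y) (m : ℕ) (y : G) :
    K * (avg L)^[m] φ y ≤ (r : ℤ) ^ m * c + (avg L)^[m] ψ y := by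
  induction m generalizing y with
  | zero => simpa using h y
  | succ m ih =>
    rw [Function.iterate_succ_apply', Function.iterate_succ_apply']
    show K * ∑ i, (avg L)^[m] φ (L i * y) ≤ _ + ∑ i, (avg L)^[m] ψ (L i * y)
    rw [Finset.mul_sum]
    refine (Finset.sum_le_sum fun i _ => ih (L i * y)).trans (le_of_eq ?_)
    simp only [Finset.sum_add_distrib, Finset.sum_const, Finset.card_univ, Fintype.card_fin,
      nsmul_eq_mul]
    ring

theorem num_lin_le {a c : ℤ} (h : ∀ n : ℕ, n * a ≤ c) : a ≤ 0 := by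
  by_contra ha
  have h1 := h (c.toNat + 1)
  have h2 : c ≤ c.toNat := Int.self_le_toNat c
  push_cast at h1
  nlinarith

theorem num_quad_le {a b c : ℤ} (h : ∀ n : ℕ, (n : ℤ) ^ 2 * a + n * b ≤ c) : a ≤ 0 := by
  by_contra ha
  have h1 := h (c.toNat + (-b).toNat + 1)
  have h2 : c ≤ c.toNat := Int.self_le_toNat c
  have h3 : -b ≤ (-b).toNat := Int.self_le_toNat _
  have h4 : (0 : ℤ) ≤ c.toNat := Int.natCast_nonneg _
  have h5 : (0 : ℤ) ≤ (-b).toNat := Int.natCast_nonneg _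
  push_cast at h1
  generalize ((c.toNat : ℕ) : ℤ) = u at *
  generalize (((-b).toNat : ℕ) : ℤ) = v at *
  have h6 : (u + v + 1) ^ 2 * 1 ≤ (u + v + 1) ^ 2 * a := by gcongr; omega
  have h7 : (u + v + 1) * (-v) ≤ (u + v + 1) * b := by gcongr; omega
  nlinarith

end aux

/-- Let `B x y = χ (x y) - χ x - χ y + χ 1` (biadditive by `hB`), `ℓ x = 2 χ x - 2 χ 1 - B x x` (additive).
Serre duality gives `ℓ x = - B x ω` and `2 p 1 = - B (F 1 0) ω`, `2 q 1 = - B (F 0 1) ω`;
`B x (F a b) = (p x - p 1) a + (q x - q 1) b`.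
For a quadratic `φ y = c + λ y + Q y y / 2`:
`(avg L)^[m] φ y = r^m φ y + m r^(m-1) (λ Π + Q Π y + S / 2) + C(m,2) r^(m-2) Q Π Π`, `S = ∑ Q (L i) (L i)`, `Π = ∏ L i`.
* `hK` with `(t + e)⁺ ≤ e + η t² + 1 / (4 η)`, `t = q z - q 1` (whose square is a quadratic function of `z` with
  average `O(n)`), `n → ∞`, `η → 0`, gives `r S - B Π Π ≤ 2 r δ`.
* `hK1` for the powers of `x = η^e * F (-Q) (-P)` gives `B x x ≤ 0`, i.e. `e B η η ≤ 2 P Q`, where
  `η = Π² ω⁻ʳ`, `P = B η (F 1 0) = 2 ∑ p (L i)`, `Q = B η (F 0 1) = 2 ∑ q (L i)`.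
* `∑ χ (L i) - δ = r χ 1 + S / 2 - B Π ω / 2 - δ`. -/
theorem num_bogomolov {G : Type} [CommGroup G] (χ p q : G → ℤ) (F : ℤ → ℤ → G) (e : ℕ) (he : 0 < e)
    (hF : ∀ a b a' b', F (a + a') (b + b') = F a b * F a' b')
    (hχ : ∀ x a b, χ (x * F a b) = e * a * b + p x * a + q x * b + χ x)
    (hB : ∀ x y w, χ (x * y * w) - χ (x * w) - χ (y * w) + χ w = χ (x * y) - χ x - χ y + χ 1)
    (ω : G) (hω : ∀ x, χ (x⁻¹ * ω) = χ x) (b1 : ℕ)
    (hK1 : ∀ x, p x = p 1 → χ (x * F 0 b1) ≤ (b1 + 1) * ((q x - q 1 + e).toNat : ℤ))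
    (r : ℕ) (hr : 0 < r) (L : Fin r → G) (δ : ℤ)
    (hK : ∀ n : ℕ, (avg L)^[r * n] χ (((∏ i, L i) ^ n)⁻¹ * F 0 b1)
        - ((r * n : ℕ) : ℤ) * (r : ℤ) ^ (r * n - 1) * δ ≤
      (b1 + 1) * (avg L)^[r * n] (fun y => ((q y - q 1 + e).toNat : ℤ)) (((∏ i, L i) ^ n)⁻¹)) :
    ((r * e * (∑ i, χ (L i) - δ) : ℤ) : ℚ) ≤ ((∑ i, p (L i) : ℤ) : ℚ) * ((∑ i, q (L i) : ℤ) : ℚ)
      - (r : ℚ) ^ 2 * e * (((χ (ω * ω) - χ ω - χ ω + χ 1 : ℤ) : ℚ) / 8 - χ 1) := by
  -- the bilinear form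
  obtain ⟨B, hBd⟩ : ∃ B : G → G → ℤ, ∀ x y, B x y = χ (x * y) - χ x - χ y + χ 1 :=
    ⟨_, fun _ _ => rfl⟩
  have hχm : ∀ x y, χ (x * y) = χ x + χ y - χ 1 + B x y := fun x y => by rw [hBd]; ring
  have Bs : ∀ x y, B x y = B y x := fun x y => by rw [hBd, hBd, mul_comm]; ring
  have Bl : ∀ z x y, B (x * y) z = B x z + B y z := fun z x y => by
    have := hB x z y
    rw [mul_right_comm x z y, mul_comm z y] at this
    rw [hBd, hBd, hBd]; linarith
  have Br : ∀ x y z, B x (y * z) = B x y + B x z := fun x y z => by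
    rw [Bs, Bl, Bs y, Bs z]
  have Bil : ∀ x y, B x⁻¹ y = - B x y := fun x y => num_add_inv (f := fun x => B x y) (Bl y) x
  have Bir : ∀ x y, B x y⁻¹ = - B x y := fun x y => num_add_inv (f := B x) (Br x) y
  have Bpl : ∀ x y (n : ℕ), B (x ^ n) y = n * B x y := fun x y n =>
    num_add_pow (f := fun x => B x y) (Bl y) x n
  have Bpr : ∀ x y (n : ℕ), B x (y ^ n) = n * B x y := fun x y n => num_add_pow (f := B x) (Br x) y n
  -- Riemann–Roch
  have hω1 : χ ω = χ 1 := by simpa using hω 1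
  have RR : ∀ x, 2 * χ x = 2 * χ 1 - B x ω + B x x := fun x => by
    have h1 := hω x
    have h2 := hχm x x⁻¹
    rw [hχm, Bil, hω1] at h1
    rw [mul_inv_cancel, Bir] at h2
    linarith
  have hF1 : ∀ a b, χ (F a b) = e * a * b + p 1 * a + q 1 * b + χ 1 := fun a b => by
    simpa using hχ 1 a b
  have BF : ∀ x a b, B x (F a b) = (p x - p 1) * a + (q x - q 1) * b := fun x a b => by
    rw [hBd, hχ, hF1]; ring
  have BFF : ∀ a b a' b', B (F a b) (F a' b') = e * (a * b' + a' * b) := fun a b a' b' => by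
    rw [hBd, ← hF, hF1, hF1, hF1]; ring
  have hp : ∀ x, p x = p 1 + B x (F 1 0) := fun x => by rw [BF]; ring
  have hq : ∀ x, q x = q 1 + B x (F 0 1) := fun x => by rw [BF]; ring
  have BF' : ∀ x a b, B x (F a b) = B x (F 1 0) * a + B x (F 0 1) * b := fun x a b => by
    rw [BF, BF, BF]; ring
  have hpω : B ω (F 1 0) = - 2 * p 1 := by
    have := RR (F 1 0)
    rw [hF1, BFF, Bs] at this
    linarith
  have hqω : B ω (F 0 1) = - 2 * q 1 := by
    have := RR (F 0 1)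
    rw [hF1, BFF, Bs] at this
    linarith
  -- Hodge index
  have Hodge : ∀ η, e * B η η ≤ 2 * B η (F 1 0) * B η (F 0 1) := fun η => by
    set P := B η (F 1 0) with hP
    set Q := B η (F 0 1) with hQ
    set x := η ^ e * F (-Q) (-P) with hx
    have hxP : B x (F 1 0) = 0 := by rw [hx, Bl, Bpl, BFF, ← hP]; ring
    have hxQ : B x (F 0 1) = 0 := by rw [hx, Bl, Bpl, BFF, ← hQ]; ring
    have hxx : B x x = e * (e * B η η - 2 * P * Q) := by
      rw [hx, Bl, Br, Br, Bpl, Bpr, Bpl, Bs (F _ _) (η ^ e), Bpl, BFF, BF', ← hP, ← hQ]; ring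
    have hle : B x x ≤ 0 := by
      refine num_quad_le (b := - B x ω) (c := 2 * ((b1 + 1) * e - q 1 * b1 - χ 1)) fun n => ?_
      have h1 := hK1 (x ^ n) (by rw [hp, Bpl, hxP]; ring)
      have h2 : q (x ^ n) = q 1 := by rw [hq, Bpl, hxQ]; ring
      have h3 := RR (x ^ n)
      rw [Bpl, Bpl, Bpr] at h3
      rw [hχ, h2, sub_self, zero_add, Int.toNat_natCast] at h1
      nlinarith
    rw [hxx] at hle
    have he' : (0 : ℤ) < e := by exact_mod_cast he
    nlinarith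
  set Pi := ∏ i, L i with hPi
  set S := ∑ i, B (L i) (L i) with hS
  have hr' : (0 : ℤ) < r := by exact_mod_cast hr
  have hsum : ∀ y, ∑ i, B (L i) y = B Pi y := fun y =>
    (num_add_prod (f := fun x => B x y) (Bl y) _ _).symm
  have hχsum : 2 * ∑ i, χ (L i) = 2 * r * χ 1 - B Pi ω + S := by
    rw [Finset.mul_sum]
    simp only [RR (L _), Finset.sum_add_distrib, Finset.sum_sub_distrib, Finset.sum_const,
      Finset.card_univ, Fintype.card_fin, nsmul_eq_mul, hsum]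
    ring
  have hpsum : ∑ i, p (L i) = r * p 1 + B Pi (F 1 0) := by
    rw [Finset.sum_congr rfl fun i _ => hp (L i)]
    simp only [Finset.sum_add_distrib, Finset.sum_const,
      Finset.card_univ, Fintype.card_fin, nsmul_eq_mul, hsum]
  have hqsum : ∑ i, q (L i) = r * q 1 + B Pi (F 0 1) := by
    rw [Finset.sum_congr rfl fun i _ => hq (L i)]
    simp only [Finset.sum_add_distrib, Finset.sum_const,
      Finset.card_univ, Fintype.card_fin, nsmul_eq_mul, hsum]
  -- Bogomolov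
  have Bog : r * S - B Pi Pi - 2 * r * δ ≤ 0 := by
    set D := r * S - B Pi Pi - 2 * r * δ with hD
    set A := ∑ i, B (L i) (F 0 1) ^ 2 with hA
    have hA0 : 0 ≤ A := Finset.sum_nonneg fun i _ => sq_nonneg _
    set K : ℤ := 2 * (b1 + 1) * r * A + 1 with hKd
    have hK0 : 0 < K := by positivity
    have key : ∀ n : ℕ, n * (r * (K * D - 2 * (b1 + 1) * r * A)) ≤
        (b1 + 1) * (2 * r ^ 2 * (K * e + K ^ 2)) - K * r ^ 2 * (2 * χ 1 + 2 * b1 * q 1) := by
      intro n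
      have h0 := hK n
      have h1 := num_avg_quad L χ B Br Bl hχm (r * n) ((Pi ^ n)⁻¹ * F 0 b1)
      have h2 := num_avg_quad L (fun y => B y (F 0 1) ^ 2)
        (fun x y => 2 * B x (F 0 1) * B y (F 0 1)) (fun x y z => by rw [Bl]; ring)
        (fun x y z => by rw [Bl]; ring)
        (fun x y => by
          rw [Bl, num_add_one (f := fun x => B x (F 0 1)) (Bl _)]; ring) (r * n) (Pi ^ n)⁻¹
      have h3 := num_avg_le L (fun y => ((q y - q 1 + e).toNat : ℤ)) (fun y => B y (F 0 1) ^ 2)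
        K (K * e + K ^ 2) (fun y => by
          have h4 : q y - q 1 = B y (F 0 1) := by rw [hq y]; ring
          rw [h4]
          have he' : (0 : ℤ) < e := by exact_mod_cast he
          rcases le_total (B y (F 0 1) + e) 0 with h5 | h5
          · rw [Int.toNat_of_nonpos h5]; simp only [Nat.cast_zero, mul_zero]; positivity
          · rw [Int.toNat_of_nonneg h5]; nlinarith [sq_nonneg (B y (F 0 1) - K)]) (r * n) (Pi ^ n)⁻¹
      have h4 : (r : ℤ) * (((r * n : ℕ) : ℤ) * (r : ℤ) ^ (r * n - 1)) =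
          ((r * n : ℕ) : ℤ) * (r : ℤ) ^ (r * n) := by
        generalize r * n = m
        cases m with
        | zero => simp
        | succ m => simp only [Nat.add_sub_cancel]; ring
      rw [← hPi] at h1 h2
      have h5 := RR (Pi ^ n)⁻¹
      rw [hχ, hq (Pi ^ n)⁻¹, Br, BF' Pi] at h1
      simp only [Bil, Bir, Bpl, Bpr, num_add_one (f := fun x => B x (F 0 1)) (Bl _)] at h1 h2 h5
      rw [← hA] at h2
      generalize (avg L)^[r * n] χ ((Pi ^ n)⁻¹ * F 0 b1) = X at h0 h1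
      generalize (avg L)^[r * n] (fun y => ((q y - q 1 + e).toNat : ℤ)) (Pi ^ n)⁻¹ = Y at h0 h3
      generalize (avg L)^[r * n] (fun y => B y (F 0 1) ^ 2) (Pi ^ n)⁻¹ = Z at h2 h3
      generalize ((r : ℤ) ^ (r * n - 1)) = R' at h0 h4
      have hR : (0 : ℤ) < (r : ℤ) ^ (r * n) := by positivity
      generalize ((r : ℤ) ^ (r * n)) = R at h1 h2 h3 h4 hR
      push_cast at h0 h1 h2 h4
      have e1 : 2 * (r : ℤ) ^ 2 * (X - r * n * R' * δ) =
          R * (r ^ 2 * (2 * χ 1 + 2 * b1 * q 1) + n * r * D) := by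
        rw [hD]
        linear_combination h1 + R * (r : ℤ) ^ 2 * h5 + R * (r : ℤ) ^ 2 * n * hχsum
          - 2 * r * δ * h4
      have e2 : 2 * (r : ℤ) ^ 2 * Z ≤ R * (2 * r ^ 2 * n * A) := by
        have : 0 ≤ R * (2 * r * n * B Pi (F 0 1) ^ 2) := by positivity
        nlinarith
      have e3 : K * (2 * (r : ℤ) ^ 2 * (X - r * n * R' * δ)) ≤
          (b1 + 1) * (2 * (r : ℤ) ^ 2 * (K * Y)) := by
        have : K * (2 * (r : ℤ) ^ 2) * (X - r * n * R' * δ) ≤
            K * (2 * (r : ℤ) ^ 2) * ((b1 + 1) * Y) := by gcongr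
        linarith
      have e4 : (b1 + 1) * (2 * (r : ℤ) ^ 2 * (K * Y)) ≤
          (b1 + 1) * (2 * (r : ℤ) ^ 2 * (R * (K * e + K ^ 2)) + R * (2 * r ^ 2 * n * A)) := by
        gcongr
        have : 2 * (r : ℤ) ^ 2 * (K * Y) ≤ 2 * (r : ℤ) ^ 2 * (R * (K * e + K ^ 2) + Z) := by gcongr
        linarith
      rw [e1] at e3
      refine le_of_mul_le_mul_left ?_ hR
      linarith
    have h6 := num_lin_le key
    have h7 : K * D - 2 * (b1 + 1) * r * A ≤ 0 := by
      by_contra hc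
      have := mul_pos hr' (not_le.1 hc)
      linarith
    by_contra hc
    have : K * 1 ≤ K * D := by gcongr; omega
    linarith
  have H := Hodge (Pi ^ 2 * (ω ^ r)⁻¹)
  simp only [Bl, Br, Bil, Bir, Bpl, Bpr, hpω, hqω, Bs ω Pi] at H
  rw [← hBd, hpsum, hqsum]
  have he' : (0 : ℤ) < e := by exact_mod_cast he
  have fin : 8 * (r * e * (∑ i, χ (L i) - δ)) ≤
      8 * ((r * p 1 + B Pi (F 1 0)) * (r * q 1 + B Pi (F 0 1))) -
        (r : ℤ) ^ 2 * e * (B ω ω - 8 * χ 1) := by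
    have := mul_le_mul_of_nonneg_left Bog he'.le
    push_cast at H
    linear_combination (4 * r * e : ℤ) * hχsum + H + 4 * this
  have fin' : ((8 * (r * e * (∑ i, χ (L i) - δ)) : ℤ) : ℚ) ≤
      ((8 * ((r * p 1 + B Pi (F 1 0)) * (r * q 1 + B Pi (F 0 1))) -
        (r : ℤ) ^ 2 * e * (B ω ω - 8 * χ 1) : ℤ) : ℚ) := by exact_mod_cast fin
  push_cast at fin' ⊢
  linarith

end Crest.Agent.R169
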