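import Crest.Agent.R169.GamB

/-! # Sections on the generic fibre of the second projection -/

set_option autoImplicit false
set_option linter.unusedSectionVars false

namespace Crest.Agent.R169

noncomputable section

variable {K : Type} [Field K] [Algebra K0 K] [Algebra ℂ K] [IsScalarTower ℂ K0 K] {S : Surf K}
variable {V : Type} [AddCommGroup V] [Module K V] [Module ℂ V] [IsScalarTower ℂ K V]
variable {W : Type} [AddCommGroup W] [Module K W] [Module ℂ W] [IsScalarTower ℂ K W]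
variable {U : Type} [AddCommGroup U] [Module K U] [Module ℂ U] [IsScalarTower ℂ K U]

/-! ### the generic fibre of the second projection -/

open Polynomial in
theorem gc_adjoin_frac {k E : Type} [Field k] [Field E] [Algebra k E] (x : E)
    (f : IntermediateField.adjoin k {x}) : ∃ p q : k[X],
    aeval (IntermediateField.AdjoinSimple.gen k x) q ≠ 0 ∧
      f * aeval (IntermediateField.AdjoinSimple.gen k x) q
        = aeval (IntermediateField.AdjoinSimple.gen k x) p := by
  obtain ⟨r, s, h⟩ := (IntermediateField.mem_adjoin_simple_iff k (f : E)).1 f.2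
  have hc : ∀ p : k[X], ((aeval (IntermediateField.AdjoinSimple.gen k x) p :
      IntermediateField.adjoin k {x}) : E) = aeval x p := fun p =>
    (aeval_algHom_apply (IntermediateField.adjoin k {x}).val
      (IntermediateField.AdjoinSimple.gen k x) p).symm
  by_cases hs : aeval x s = 0
  · refine ⟨0, 1, by simp, ?_⟩
    have : f = 0 := Subtype.ext (by rw [h, hs, div_zero]; rfl)
    simp [this]
  · refine ⟨r, s, fun h0 => hs ?_, Subtype.ext ?_⟩
    · rw [← hc, h0]; rfl
    · rw [MulMemClass.coe_mul, hc, hc, h, div_mul_cancel₀ _ hs]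

variable (K) in
/-- sections of `M(a)` on the generic fibre of the second projection -/
def gcU (M : Pre V) (a : ℤ) : Submodule (k2 K) V :=
  Submodule.span (k2 K) (⋃ b : ℤ, (Gam K M a b : Set V))

omit [IsScalarTower ℂ K0 K] in
theorem gc_mem_U {M : Pre V} {a b : ℤ} {v : V} (hv : v ∈ Gam K M a b) : v ∈ gcU K M a :=
  Submodule.subset_span (Set.mem_iUnion.2 ⟨b, hv⟩)

omit [IsScalarTower ℂ K0 K] in
open Polynomial in
theorem gc_mem_U_of_smul {M : Pre V} {a b : ℤ} {v : V} {q : ℂ[X]} (hq : aeval (mu K) q ≠ 0)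
    (hv : aeval (mu K) q • v ∈ Gam K M a b) : v ∈ gcU K M a := by
  have hm : (aeval (mu K) q)⁻¹ ∈ k2 K :=
    (IntermediateField.mem_adjoin_simple_iff ℂ _).2 ⟨1, q, by simp⟩
  have := (gcU K M a).smul_mem ⟨_, hm⟩ (gc_mem_U hv)
  rwa [IntermediateField.smul_def, inv_smul_smul₀ hq] at this

open Polynomial in
theorem IsSheaf.gc_common {M : Pre V} (hM : IsSheaf S M) {a b b' : ℤ} {v w : V} {q q' : ℂ[X]}
    (hv : aeval (mu K) q • v ∈ Gam K M a b) (hw : aeval (mu K) q' • w ∈ Gam K M a b') :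
    ∃ b'', aeval (mu K) (q * q') • v ∈ Gam K M a b'' ∧ aeval (mu K) (q * q') • w ∈ Gam K M a b'' := by
  have h1 := (hM.isFam2 a).aeval_mul hv q'
  have h2 := (hM.isFam2 a).aeval_mul hw q
  refine ⟨max (b + q'.natDegree) (b' + q.natDegree), ?_, ?_⟩
  · rw [map_mul, mul_comm, mul_smul]
    exact hM.Gam_mono le_rfl (le_max_left _ _) h1
  · rw [map_mul, mul_smul]
    exact hM.Gam_mono le_rfl (le_max_right _ _) h2

open Polynomial in
theorem IsSheaf.gc_exists {M : Pre V} (hM : IsSheaf S M) {a : ℤ} {v : V} (hv : v ∈ gcU K M a) :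
    ∃ (q : ℂ[X]) (b : ℤ), aeval (mu K) q ≠ 0 ∧ aeval (mu K) q • v ∈ Gam K M a b := by
  induction hv using Submodule.span_induction with
  | mem v hv =>
    obtain ⟨b, hb⟩ := Set.mem_iUnion.1 hv
    exact ⟨1, b, by simp, by simpa using hb⟩
  | zero => exact ⟨1, 0, by simp, by simp⟩
  | add v w _ _ hv hw =>
    obtain ⟨q, b, hq, hv⟩ := hv
    obtain ⟨q', b', hq', hw⟩ := hw
    obtain ⟨b'', h1, h2⟩ := hM.gc_common hv hw
    refine ⟨q * q', b'', by rw [map_mul]; exact mul_ne_zero hq hq', ?_⟩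
    rw [smul_add]
    exact add_mem h1 h2
  | smul f v _ hv =>
    obtain ⟨q, b, hq, hv⟩ := hv
    obtain ⟨r, s, h⟩ := (IntermediateField.mem_adjoin_simple_iff ℂ (f : K)).1 f.2
    by_cases hs : aeval (mu K) s = 0
    · refine ⟨1, 0, by simp, ?_⟩
      rw [IntermediateField.smul_def, h, hs, div_zero]
      simp
    · refine ⟨q * s, b + r.natDegree, by rw [map_mul]; exact mul_ne_zero hq hs, ?_⟩
      have h1 := (hM.isFam2 a).aeval_mul hv r
      rw [IntermediateField.smul_def, h, smul_smul, map_mul, mul_assoc, mul_div_cancel₀ _ hs,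
        mul_comm, mul_smul]
      exact h1

omit [IsScalarTower ℂ K0 K] in
theorem gc_map_Gam {M : Pre V} {N : Pre W} (f : V →ₗ[K] W) (h : ∀ c, ∀ v ∈ M c, f v ∈ N c) {a b : ℤ}
    {v : V} (hv : v ∈ Gam K M a b) : f v ∈ Gam K N a b := by
  rw [mem_Gam] at hv ⊢
  intro c
  rw [← map_smul]
  exact h c _ (hv c)

omit [IsScalarTower ℂ K0 K] in
theorem gc_map_U {M : Pre V} {N : Pre W} (f : V →ₗ[K] W) (h : ∀ c, ∀ v ∈ M c, f v ∈ N c) (a : ℤ) :
    (gcU K M a).map (f.restrictScalars (k2 K)) ≤ gcU K N a := by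
  rw [Submodule.map_le_iff_le_comap, gcU, Submodule.span_le]
  intro v hv
  obtain ⟨b, hb⟩ := Set.mem_iUnion.1 hv
  exact gc_mem_U (gc_map_Gam f h hb)

omit [IsScalarTower ℂ K0 K] in
theorem gc_rank_le {M : Pre V} {N : Pre W} (f : V →ₗ[K] W) (hf : Function.Injective f)
    (h : ∀ c, ∀ v ∈ M c, f v ∈ N c) (a : ℤ) :
    Module.rank (k2 K) (gcU K M a) ≤ Module.rank (k2 K) (gcU K N a) := by
  rw [(Submodule.equivMapOfInjective (f.restrictScalars (k2 K)) hf (gcU K M a)).rank_eq]
  exact Submodule.rank_mono (gc_map_U f h a)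

theorem Rho2Le.mono {M N : Pre V} (h : ∀ c, M c ≤ N c) {n : ℕ} (hN : Rho2Le K N n) :
    Rho2Le K M n :=
  (gc_rank_le (LinearMap.id : V →ₗ[K] V) Function.injective_id (fun c _ hv => h c hv) 0).trans hN

theorem Rho2Le.of_push_equiv (f : V ≃ₗ[K] W) {M : Pre V} {n : ℕ}
    (h : Rho2Le K (push f.toLinearMap M) n) : Rho2Le K M n :=
  (gc_rank_le (N := push f.toLinearMap M) f.toLinearMap f.injective
    (fun _ v hv => ⟨v, hv, rfl⟩) 0).trans h

/-- subadditivity: an element of the `ℂ(μ)`-span has a multiple by a polynomial in `μ` in some `Gam K M 0 b` -/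
theorem IsSheaf.rho2_exact {M : Pre V} (hM : IsSheaf S M) {i : W →ₗ[K] V} {π : V →ₗ[K] U}
    (hi : Function.Injective i) (hex : LinearMap.range i = LinearMap.ker π) {n n' : ℕ}
    (h : Rho2Le K (R169.pull i M) n) (h' : Rho2Le K (R169.push π M) n') : Rho2Le K M (n + n') := by
  let φ : gcU K M 0 →ₗ[k2 K] U := (π.restrictScalars (k2 K)).domRestrict (gcU K M 0)
  have h1 : Module.rank (k2 K) (LinearMap.range φ) ≤ n' := by
    refine le_trans (Submodule.rank_mono ?_) h'
    rw [LinearMap.range_domRestrict]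
    exact gc_map_U (N := R169.push π M) π (fun _ v hv => ⟨v, hv, rfl⟩) 0
  have h2 : Module.rank (k2 K) (LinearMap.ker φ) ≤ n := by
    refine le_trans ?_ h
    rw [(Submodule.equivMapOfInjective (gcU K M 0).subtype Subtype.val_injective
      (LinearMap.ker φ)).rank_eq]
    refine le_trans (Submodule.rank_mono ?_)
      (rank_map_le (i.restrictScalars (k2 K)) (gcU K (R169.pull i M) 0))
    rintro _ ⟨⟨v, hv⟩, hv0, rfl⟩
    have hv1 : v ∈ LinearMap.ker π := hv0
    rw [← hex] at hv1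
    obtain ⟨w, rfl⟩ := hv1
    obtain ⟨q, b, hq, hb⟩ := hM.gc_exists hv
    refine ⟨w, gc_mem_U_of_smul (b := b) hq ?_, rfl⟩
    rw [mem_Gam] at hb ⊢
    intro c
    have := hb c
    rwa [← map_smul, ← map_smul] at this
  change Module.rank (k2 K) (gcU K M 0) ≤ _
  rw [← LinearMap.rank_range_add_rank_ker φ, add_comm, Nat.cast_add]
  exact add_le_add h2 h1

theorem IsSheaf.finrank_Gam_succ_le {M : Pre V} (hM : IsSheaf S M) {n : ℕ} (h : Rho2Le K M n) (b : ℤ) :
    Module.finrank ℂ (Gam K M 0 (b + 1)) ≤ Module.finrank ℂ (Gam K M 0 b) + n := by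
  have hF : IsFam (IntermediateField.AdjoinSimple.gen ℂ (mu K)) (fun b => Gam K M 0 b) :=
    ⟨(hM.isFam2 0).mono, (hM.isFam2 0).mul, (hM.isFam2 0).sat⟩
  have : IsScalarTower ℂ (k2 K) V := ⟨fun a f v => smul_assoc a (f : K) v⟩
  refine hF.finrank_succ_le (gc_adjoin_frac (mu K)) (fun b => hM.Gam_finite 0 b) b n ?_
  refine le_trans (Submodule.rank_mono (Submodule.span_mono ?_)) h
  exact Set.subset_iUnion (fun b : ℤ => (Gam K M 0 b : Set V)) (b + 1)

theorem IsSheaf.gc_isFam {M : Pre V} (hM : IsSheaf S M) : IsFam (lam K) (gcU K M) where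
  mono a v hv := by
    obtain ⟨q, b, hq, hb⟩ := hM.gc_exists hv
    exact gc_mem_U_of_smul hq ((hM.isFam1 b).mono a hb)
  mul a v hv := by
    obtain ⟨q, b, hq, hb⟩ := hM.gc_exists hv
    refine gc_mem_U_of_smul (b := b) hq ?_
    rw [smul_comm]
    exact (hM.isFam1 b).mul a _ hb
  sat a v hv hv' := by
    obtain ⟨q, b, hq, hb⟩ := hM.gc_exists hv
    obtain ⟨q', b', hq', hb'⟩ := hM.gc_exists hv'
    obtain ⟨b'', h1, h2⟩ := hM.gc_common hb hb'
    refine gc_mem_U_of_smul (q := q * q') (b := b'') (by rw [map_mul]; exact mul_ne_zero hq hq') ?_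
    rw [smul_comm] at h2
    exact (hM.isFam1 b'').sat a _ h1 h2

theorem IsSheaf.gc_rank_succ {L : Pre K} (hL : IsSheaf S L) (a : ℤ) :
    Module.rank (k2 K) (gcU K L (a + 1)) ≤ Module.rank (k2 K) (gcU K L a) + Module.finrank K0 K := by
  have hF : IsFam (IntermediateField.AdjoinSimple.gen (k2 K) (lam K)) (gcU K L) :=
    ⟨hL.gc_isFam.mono, hL.gc_isFam.mul, hL.gc_isFam.sat⟩
  refine (hF.rank_succ_le (gc_adjoin_frac (lam K)) a).trans (add_le_add le_rfl ?_)
  have := S.finiteDimensional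
  rw [Module.finrank_eq_rank, ← finrank_adjoin_k2 K]
  exact Submodule.rank_le _

theorem IsSheaf.gc_nonneg {L : Pre K} (hL : IsSheaf S L) {a b : ℤ} {s : K} (hs : s ∈ Gam K L a b)
    (hs0 : s ≠ 0) : 0 ≤ Module.finrank K0 K * a + (qc K L - qc K (OO S)) := by
  have hT := (isSheaf_OO S).twist (-a) (-b)
  have hle : ∀ c, R169.scal s (R169.twist K (OO S) (-a) (-b) c) ≤ L c := by
    intro c v hv
    have h1 : (tau K c (-a) (-b))⁻¹ • s⁻¹ • v ∈ S.R c := hv
    have h2 := hL.smul_mem c h1 (mem_Gam.1 hs c)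
    have h3 := tau_ne_zero K c a b
    convert h2 using 1
    simp only [tau_neg, inv_inv, smul_eq_mul]
    field_simp
  have h := ((hT.scal hs0).pc_mono hL hle).2
  have hO := (isSheaf_OO S).HP_eq
  rw [qc, HP_scal hs0, (isSheaf_OO S).HP_twist, (isSheaf_OO S).HP_twist, hO, hO,
    Module.finrank_self, one_mul] at h
  linarith

/-- Rank one bound.  `U a = span_{ℂ(μ)} ⋃ b, Γ(a,b)` is a saturated family for `λ` over `ℂ(μ)`, whose
dimension grows by at most `e` in each step (`IsFam.rank_succ_le` with `F = ℂ(μ)(λ)`), and `U a = 0` when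
`e a + q(L) - q(O) < 0`: a nonzero section `s` gives `s • O(-a,-b) ≤ L`, compare with `pc_mono`. -/
theorem IsSheaf.rho2_rank_one {L : Pre K} (hL : IsSheaf S L) :
    Rho2Le K L (qc K L - qc K (OO S) + Module.finrank K0 K).toNat := by
  have := S.finiteDimensional
  have he : 0 < (Module.finrank K0 K : ℤ) := by exact_mod_cast Module.finrank_pos
  have hbot : ∀ a : ℤ, Module.finrank K0 K * a + (qc K L - qc K (OO S)) < 0 → gcU K L a = ⊥ := by
    intro a ha
    rw [gcU, Submodule.span_eq_bot]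
    intro s hs
    obtain ⟨b, hb⟩ := Set.mem_iUnion.1 hs
    by_contra hs0
    exact absurd (hL.gc_nonneg hb hs0) (not_le.2 ha)
  have hind : ∀ (j : ℕ) (a : ℤ), gcU K L a = ⊥ →
      Module.rank (k2 K) (gcU K L (a + j)) ≤ (j * Module.finrank K0 K : ℕ) := by
    intro j a ha
    induction j with
    | zero =>
      rw [Nat.cast_zero, add_zero, ha]
      simp
    | succ j ih =>
      rw [Nat.cast_succ, ← add_assoc, add_mul, one_mul, Nat.cast_add]
      exact (hL.gc_rank_succ _).trans (add_le_add ih le_rfl)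
  change Module.rank (k2 K) (gcU K L 0) ≤ _
  generalize qc K L - qc K (OO S) = D at hbot ⊢
  generalize Module.finrank K0 K = e at he hbot hind ⊢
  have h1 := Int.emod_add_mul_ediv D e
  have h2 := Int.emod_nonneg D he.ne'
  have h3 := Int.emod_lt_of_pos D he
  by_cases hD0 : D < 0
  · rw [hbot 0 (by simpa using hD0)]
    simp
  · have h4 : 0 ≤ D / e := Int.ediv_nonneg (not_lt.1 hD0) he.le
    obtain ⟨j, hj⟩ := Int.eq_ofNat_of_zero_le h4
    have h5 := hind (j + 1) (-(j + 1 : ℕ)) (hbot _ (by push_cast; rw [hj] at h1; nlinarith))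
    rw [neg_add_cancel] at h5
    refine h5.trans ?_
    rw [Nat.cast_le]
    rw [hj] at h1
    have : (((j + 1) * e : ℕ) : ℤ) ≤ D + e := by push_cast; nlinarith
    omega

end

end Crest.Agent.R169
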