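import Crest.Agent.R169.LAS
import Crest.Agent.R169.GamC

/-! # Sections that generate at finitely many primes; colength of tensor products -/

set_option autoImplicit false

namespace Crest.Agent.R169

noncomputable section

/-- Linear algebra over the infinite field `ℂ`: choose `s j` one at a time outside finitely many proper
subspaces (`Submodule.iUnion_ssubset_of_forall_ne_top_of_card_lt` or similar). -/
theorem exists_simult_basis {G : Type} [AddCommGroup G] [Module ℂ G] {T : Type} [Finite T]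
    (κ : T → Type) [∀ i, Field (κ i)] [∀ i, Algebra ℂ (κ i)] (r : ℕ)
    (ψ : ∀ i, G →ₗ[ℂ] (Fin r → κ i))
    (h : ∀ i, Submodule.span (κ i) (Set.range (ψ i)) = ⊤) :
    ∃ s : Fin r → G, ∀ i, (Matrix.of fun j l => ψ i (s j) l).det ≠ 0 := by
  classical
  have key : ∀ k : ℕ, k ≤ r → ∃ s : Fin k → G, ∀ i, LinearIndependent (κ i) (fun j => ψ i (s j)) := by
    intro k
    induction k with
    | zero => exact fun _ => ⟨fun _ => 0, fun i => linearIndependent_empty_type⟩
    | succ k ih =>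
      intro hk
      obtain ⟨s, hs⟩ := ih (by omega)
      obtain ⟨x, hx⟩ := Submodule.exists_forall_notMem_of_forall_ne_top (K := ℂ)
        (fun i => ((Submodule.span (κ i) (Set.range fun j => ψ i (s j))).restrictScalars ℂ).comap (ψ i))
        (fun i hi => by
          have h1 : Submodule.span (κ i) (Set.range fun j => ψ i (s j)) = ⊤ := by
            rw [eq_top_iff, ← h i, Submodule.span_le]
            rintro _ ⟨y, rfl⟩
            have : y ∈ ((Submodule.span (κ i) (Set.range fun j => ψ i (s j))).restrictScalars ℂ).comap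
              (ψ i) := by rw [hi]; trivial
            exact this
          have h2 := finrank_span_eq_card (hs i)
          rw [h1, finrank_top] at h2
          simp at h2
          omega)
      refine ⟨Fin.cons x s, fun i => ?_⟩
      have h1 := (hs i).finCons (x := ψ i x) (hx i)
      have h2 : (fun j : Fin (k + 1) => ψ i ((Fin.cons x s : Fin (k + 1) → G) j)) =
          (Fin.cons (ψ i x) (fun j => ψ i (s j)) : Fin (k + 1) → Fin r → κ i) := by
        funext j
        refine Fin.cases ?_ (fun j => ?_) j <;> simp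
      rw [h2]
      exact h1
  obtain ⟨s, hs⟩ := key r le_rfl
  refine ⟨s, fun i => ?_⟩
  have : IsUnit (Matrix.of fun j l => ψ i (s j) l) :=
    Matrix.linearIndependent_rows_iff_isUnit.1 (hs i)
  exact ((Matrix.isUnit_iff_isUnit_det _).1 this).ne_zero

/-- Cramer's rule -/
theorem gen_cramer {R F : Type} [CommRing R] [CommRing F] (φ : R →+* F) {r : ℕ}
    (A : Matrix (Fin r) (Fin r) R) (x : Fin r → F) (y : Fin r → R)
    (h : ∀ l, ∑ j, x j * φ (A j l) = φ (y l)) (j : Fin r) :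
    φ A.det * x j = φ (∑ m, y m * A.adjugate m j) := by
  have hxy : Matrix.vecMul x (φ.mapMatrix A) = fun l => φ (y l) := funext h
  have h2 : Matrix.vecMul (Matrix.vecMul x (φ.mapMatrix A)) (φ.mapMatrix A.adjugate) =
      φ A.det • x := by
    rw [Matrix.vecMul_vecMul, ← map_mul, Matrix.mul_adjugate]
    funext l
    simp [Matrix.vecMul, dotProduct, Matrix.one_apply, Matrix.map_apply, apply_ite φ, mul_comm]
  have h3 := congrFun h2 j
  rw [hxy] at h3
  rw [map_sum]
  simp only [map_mul]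
  exact h3.symm

variable {K : Type} [Field K] [Algebra K0 K] [Algebra ℂ K] [IsScalarTower ℂ K0 K] {S : Surf K}
variable {V : Type} [AddCommGroup V] [Module K V] [Module ℂ V] [IsScalarTower ℂ K V]

/-- the coordinates of a section of `H(d,d)` in a local basis, reduced at a prime -/
def genPsi {H : Pre V} {r : ℕ} (c : Chart) (d : ℤ) (β : Module.Basis (Fin r) K V) (g : S.R c)
    (hβ : ∀ v ∈ H c, ∀ j, (g : K) * β.repr v j ∈ S.R c) :
    Gam K H d d →ₗ[ℂ] (Fin r → S.R c) where
  toFun s := fun l => ⟨(g : K) * β.repr ((tau K c d d)⁻¹ • (s : V)) l, hβ _ (mem_Gam.1 s.2 c) l⟩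
  map_add' s t := by
    funext l
    apply Subtype.ext
    simp [mul_add]
  map_smul' a s := by
    funext l
    apply Subtype.ext
    have : (a • (s : V)) = (algebraMap ℂ K a) • (s : V) := (algebraMap_smul K a (s : V)).symm
    change (g : K) * β.repr ((tau K c d d)⁻¹ • (a • (s : V))) l =
      a • ((g : K) * β.repr ((tau K c d d)⁻¹ • (s : V)) l)
    rw [this, Algebra.smul_def]
    simp only [map_smul, Finsupp.smul_apply, smul_eq_mul]
    ring

theorem genPsi_coe {H : Pre V} {r : ℕ} (c : Chart) (d : ℤ) (β : Module.Basis (Fin r) K V) (g : S.R c)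
    (hβ : ∀ v ∈ H c, ∀ j, (g : K) * β.repr v j ∈ S.R c) (s : Gam K H d d) (l : Fin r) :
    ((genPsi c d β g hβ s l : S.R c) : K) = (g : K) * ((tau K c d d)⁻¹ * β.repr (s : V) l) := by
  simp [genPsi]

/-- A locally free sheaf contains `O(-d,-d)^r` with equality at finitely many given primes, for every large `d`.
(Add the prime `⊥` to the family to get a basis.  For a prime `𝔭 ≤ 𝔪` use a local basis at `𝔪` and the residue
field `Ideal.ResidueField 𝔭`, or the fraction field of `R c ⧸ 𝔭`.) -/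
theorem LocFree.exists_gen {H : Pre V} (hH : IsSheaf S H) (hl : LocFree S H)
    (𝔓 : ∀ c, Set (Ideal (S.R c))) (hfin : ∀ c, (𝔓 c).Finite) (hpr : ∀ c, ∀ 𝔭 ∈ 𝔓 c, 𝔭.IsPrime) :
    ∃ d0 : ℤ, ∀ d, d0 ≤ d → ∃ b : Module.Basis (Fin (Module.finrank K V)) K V,
      (∀ j, b j ∈ Gam K H d d) ∧ ∀ c, ∀ 𝔭 ∈ 𝔓 c, ∃ g : S.R c, g ∉ 𝔭 ∧
        ∀ v ∈ H c, ∀ j, (g : K) * (tau K c d d * b.repr v j) ∈ S.R c := by
  classical
  set r := Module.finrank K V with hr
  let T : Type := Σ c : Chart, {𝔭 : Ideal (S.R c) // 𝔭 ∈ insert ⊥ (𝔓 c)}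
  have hT1 : ∀ c, Finite {𝔭 : Ideal (S.R c) // 𝔭 ∈ insert ⊥ (𝔓 c)} := fun c =>
    ((hfin c).insert ⊥).to_subtype
  have hT : Finite T := inferInstance
  have hp : ∀ i : T, (i.2.1).IsPrime := by
    rintro ⟨c, 𝔭, h𝔭⟩
    rcases h𝔭 with rfl | h𝔭
    · exact Ideal.isPrime_bot
    · exact hpr c 𝔭 h𝔭
  have hloc : ∀ i : T, ∃ (β : Module.Basis (Fin r) K V) (g : S.R i.1), g ∉ i.2.1 ∧
      (∀ j, β j ∈ H i.1) ∧ ∀ v ∈ H i.1, ∀ j, (g : K) * β.repr v j ∈ S.R i.1 := by
    intro i
    obtain ⟨𝔪, h𝔪, hle⟩ := Ideal.exists_le_maximal i.2.1 (hp i).ne_top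
    obtain ⟨β, g, hg, h1, h2⟩ := hl i.1 𝔪 h𝔪
    exact ⟨β, g, fun h => hg (hle h), h1, h2⟩
  choose β g hg hβ1 hβ2 using hloc
  have hext : ∀ z : T × Fin r, ∃ n : ℕ, ∀ a b : ℤ, n ≤ a → n ≤ b →
      tau K z.1.1 a b • β z.1 z.2 ∈ Gam K H a b := fun z => hH.tau_smul_mem_Gam z.1.1 (hβ1 z.1 z.2)
  choose n hn using hext
  obtain ⟨N, hN⟩ := (Set.finite_range n).bddAbove
  refine ⟨N, fun d hd => ?_⟩
  have hn' : ∀ i j, tau K i.1 d d • β i j ∈ Gam K H d d := fun i j => by
    have : (n (i, j) : ℤ) ≤ d := le_trans (by exact_mod_cast hN ⟨(i, j), rfl⟩) hd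
    exact hn (i, j) d d this this
  let κ : T → Type := fun i => (i.2.1).ResidueField
  let ψ0 : ∀ i : T, Gam K H d d →ₗ[ℂ] (Fin r → S.R i.1) := fun i =>
    genPsi i.1 d (β i) (g i) (hβ2 i)
  let ψ : ∀ i : T, Gam K H d d →ₗ[ℂ] (Fin r → κ i) := fun i =>
    LinearMap.pi fun l => (IsScalarTower.toAlgHom ℂ (S.R i.1) (κ i)).toLinearMap ∘ₗ
      LinearMap.proj l ∘ₗ ψ0 i
  have hψ : ∀ i s l, ψ i s l = algebraMap (S.R i.1) (κ i) (ψ0 i s l) := fun i s l => rfl
  obtain ⟨s, hs⟩ := exists_simult_basis κ r ψ (fun i => by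
    rw [eq_top_iff, ← (Pi.basisFun (κ i) (Fin r)).span_eq, Submodule.span_le]
    rintro _ ⟨j, rfl⟩
    have hg0 : algebraMap (S.R i.1) (κ i) (g i) ≠ 0 := by
      rw [Ne, Ideal.algebraMap_residueField_eq_zero]
      exact hg i
    have h1 : ψ i ⟨_, hn' i j⟩ = algebraMap (S.R i.1) (κ i) (g i) • Pi.basisFun (κ i) (Fin r) j := by
      funext l
      have h2 : ψ0 i ⟨_, hn' i j⟩ l = if j = l then g i else 0 := by
        apply Subtype.ext
        rw [genPsi_coe]
        have := tau_ne_zero K i.1 d d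
        by_cases hjl : j = l
        · subst hjl
          simp [this]
        · simp [hjl, Finsupp.single_apply]
      rw [hψ, h2]
      by_cases hjl : j = l
      · subst hjl
        simp
      · simp [hjl, Pi.single_apply, Ne.symm hjl]
    have h3 : Pi.basisFun (κ i) (Fin r) j =
        (algebraMap (S.R i.1) (κ i) (g i))⁻¹ • ψ i ⟨_, hn' i j⟩ := by
      rw [h1, smul_smul, inv_mul_cancel₀ hg0, one_smul]
    rw [h3]
    exact Submodule.smul_mem _ _ (Submodule.subset_span ⟨_, rfl⟩))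
  -- the matrices over the chart rings
  let A : ∀ i : T, Matrix (Fin r) (Fin r) (S.R i.1) := fun i => Matrix.of fun j l => ψ0 i (s j) l
  have hA : ∀ i, (A i).det ∉ i.2.1 := by
    intro i hi
    apply hs i
    have h1 : (Matrix.of fun j l => ψ i (s j) l) = (algebraMap (S.R i.1) (κ i)).mapMatrix (A i) := by
      ext j l
      rfl
    rw [h1, ← RingHom.map_det, Ideal.algebraMap_residueField_eq_zero]
    exact hi
  have hAK : ∀ i j l, ((A i j l : S.R i.1) : K) =
      (g i : K) * ((tau K i.1 d d)⁻¹ * (β i).repr (s j : V) l) := fun i j l =>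
    genPsi_coe i.1 d (β i) (g i) (hβ2 i) (s j) l
  -- `s` is a basis
  have hbas : LinearIndependent K (fun j => (s j : V)) ∧
      Submodule.span K (Set.range fun j => (s j : V)) = ⊤ := by
    let i0 : T := ⟨(false, false), ⊥, Set.mem_insert _ _⟩
    rw [(β i0).is_basis_iff_det, isUnit_iff_ne_zero, Module.Basis.det_apply]
    intro h0
    apply hA i0
    have h1 : (S.R i0.1).val.toRingHom.mapMatrix (A i0) =
        ((g i0 : K) * (tau K i0.1 d d)⁻¹) • ((β i0).toMatrix fun j => (s j : V)).transpose := by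
      ext j l
      simp only [RingHom.mapMatrix_apply, Matrix.map_apply, Matrix.smul_apply,
        Matrix.transpose_apply, Module.Basis.toMatrix_apply, smul_eq_mul]
      rw [mul_assoc, ← hAK]
      rfl
    have h2 : (S.R i0.1).val.toRingHom (A i0).det = 0 := by
      rw [RingHom.map_det, h1, Matrix.det_smul, Matrix.det_transpose, h0, mul_zero]
    have h3 : (A i0).det = 0 := Subtype.ext h2
    rw [h3]
    exact Submodule.zero_mem _
  let b : Module.Basis (Fin r) K V := Module.Basis.mk hbas.1 hbas.2.ge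
  have hb : ∀ j, b j = s j := fun j => by simp [b]
  refine ⟨b, fun j => by rw [hb]; exact (s j).2, fun c 𝔭 h𝔭 => ?_⟩
  let i : T := ⟨c, 𝔭, Set.mem_insert_of_mem _ h𝔭⟩
  refine ⟨(A i).det, hA i, fun v hv j => ?_⟩
  let φ : S.R c →+* K := (S.R c).val.toRingHom
  let x : Fin r → K := fun j => tau K c d d * b.repr v j
  let y : Fin r → S.R c := fun l => ⟨(g i : K) * (β i).repr v l, hβ2 i v hv l⟩
  have hxy : ∀ l, ∑ j, x j * φ (A i j l) = φ (y l) := by
    intro l
    have h1 : (β i).repr v l = ∑ j, b.repr v j * (β i).repr (s j : V) l := by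
      conv_lhs => rw [← b.sum_repr v]
      simp only [map_sum, map_smul, Finsupp.finset_sum_apply, Finsupp.smul_apply, smul_eq_mul, hb]
    change ∑ j, x j * ((A i j l : S.R i.1) : K) = (g i : K) * (β i).repr v l
    rw [h1, Finset.mul_sum]
    refine Finset.sum_congr rfl fun j _ => ?_
    rw [hAK]
    have := tau_ne_zero K c d d
    change tau K c d d * b.repr v j * ((g i : K) * ((tau K c d d)⁻¹ * (β i).repr (s j : V) l)) = _
    field_simp
  have h4 : ((A i).det : K) * (tau K c d d * b.repr v j) = φ (∑ m, y m * (A i).adjugate m j) :=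
    gen_cramer φ (A i) x y hxy j
  rw [h4]
  exact (∑ m, y m * (A i).adjugate m j).2

/-- `N • (⊕ O(-d,-d) b j)` -/
def genF {r : ℕ} (b : Module.Basis (Fin r) K V) (d : ℤ) (N : Pre K) : Pre V :=
  pull b.equivFun.toLinearMap (piP fun _ => twist K N (-d) (-d))

omit [IsScalarTower ℂ K0 K] in
theorem mem_genF {r : ℕ} (b : Module.Basis (Fin r) K V) (d : ℤ) (N : Pre K) (c : Chart) (v : V) :
    v ∈ genF b d N c ↔ ∀ j, tau K c d d * b.repr v j ∈ N c := by
  simp [genF, pull, piP, twist, Submodule.mem_pi, tau_neg]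

theorem isSheaf_genF {r : ℕ} (b : Module.Basis (Fin r) K V) (d : ℤ) {N : Pre K} (hN : IsSheaf S N) :
    IsSheaf S (genF b d N) :=
  (IsSheaf.piP fun _ => hN.twist (-d) (-d)).pull b.equivFun.injective

theorem HP_genF {r : ℕ} (b : Module.Basis (Fin r) K V) (d : ℤ) {N : Pre K} (hN : IsSheaf S N)
    (a a' : ℤ) : HP K (genF b d N) a a' = r * HP K N (-d + a) (-d + a') := by
  rw [genF, HP_pull_equiv, HP_piP (fun _ => hN.twist (-d) (-d))]
  simp [hN.HP_twist]

omit [IsScalarTower ℂ K0 K] in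
theorem genF_le {r : ℕ} (b : Module.Basis (Fin r) K V) (d : ℤ) {H : Pre V}
    (hb : ∀ j, b j ∈ Gam K H d d) (N : Pre K) (c : Chart) :
    genF b d N c ≤ tens (LinearMap.lsmul K V) N H c := by
  intro v hv
  rw [mem_genF] at hv
  rw [← b.sum_repr v]
  refine Submodule.sum_mem _ fun j _ => Submodule.subset_span ⟨_, hv j, _, mem_Gam.1 (hb j) c, ?_⟩
  have := tau_ne_zero K c d d
  simp only [LinearMap.lsmul_apply, smul_smul]
  congr 1
  field_simp

theorem smul_mem_genF {r : ℕ} (b : Module.Basis (Fin r) K V) (d : ℤ) {H : Pre V} {N : Pre K}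
    (hN : IsSheaf S N) (c : Chart) {g : K}
    (hg : ∀ v ∈ H c, ∀ j, g * (tau K c d d * b.repr v j) ∈ S.R c) {v : V}
    (hv : v ∈ tens (LinearMap.lsmul K V) N H c) : g • v ∈ genF b d N c := by
  induction hv using Submodule.span_induction with
  | mem x hx =>
    obtain ⟨y, hy, w, hw, rfl⟩ := hx
    rw [mem_genF]
    intro j
    have := hN.smul_mem c (hg w hw j) hy
    simp only [LinearMap.lsmul_apply, map_smul, Finsupp.smul_apply, smul_eq_mul] at this ⊢
    convert this using 1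
    ring
  | zero => simp
  | add x y _ _ hx hy => rw [smul_add]; exact Submodule.add_mem _ hx hy
  | smul a x _ hx => rw [smul_comm]; exact Submodule.smul_mem _ a hx

omit [Algebra K0 K] [IsScalarTower ℂ K0 K] in
theorem gen_smul_mem_tens {H : Pre V} {I L : Pre K} (c : Chart) {g : K}
    (hg : ∀ x ∈ L c, g • x ∈ I c) {v : V}
    (hv : v ∈ tens (LinearMap.lsmul K V) L H c) : g • v ∈ tens (LinearMap.lsmul K V) I H c := by
  induction hv using Submodule.span_induction with
  | mem x hx =>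
    obtain ⟨y, hy, w, hw, rfl⟩ := hx
    refine Submodule.subset_span ⟨_, hg y hy, w, hw, ?_⟩
    simp [smul_smul]
  | zero => simp
  | add x y _ _ hx hy => rw [smul_add]; exact Submodule.add_mem _ hx hy
  | smul a x _ hx => rw [smul_comm]; exact Submodule.smul_mem _ a hx

/-- finitely many primes contain an ideal of finite codimension -/
theorem gen_finite_primes {R : Type} [CommRing R] [Algebra ℂ R] (𝔞 : Ideal R)
    [FiniteDimensional ℂ (R ⧸ 𝔞)] : {𝔭 : Ideal R | 𝔭.IsPrime ∧ 𝔞 ≤ 𝔭}.Finite := by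
  have : IsArtinianRing (R ⧸ 𝔞) := IsArtinianRing.of_finite ℂ _
  refine ((IsArtinianRing.setOfPred_isPrime_finite (R ⧸ 𝔞)).image
    (Ideal.comap (Ideal.Quotient.mk 𝔞))).subset ?_
  rintro 𝔭 ⟨h𝔭, hle⟩
  refine ⟨𝔭.map (Ideal.Quotient.mk 𝔞), ?_, ?_⟩
  · exact Ideal.map_isPrime_of_surjective Ideal.Quotient.mk_surjective (by rwa [Ideal.mk_ker])
  · rw [Ideal.comap_map_of_surjective _ Ideal.Quotient.mk_surjective, ← RingHom.ker_eq_comap_bot,
      Ideal.mk_ker, sup_eq_left.2 hle]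

/-- (D).  With `F = ⊕ O(-d,-d) b j ≤ H` an isomorphism at the primes over the annihilator `𝔞` of `L ⧸ I`, the
conductor `𝔠` of `H` into `F` satisfies `𝔞 + 𝔠 = R`, so `L F ⊔ I H = L H`, `L F ⊓ I H = I F`; use `HP_modular`,
and `L F ≅ piP (fun _ => twist L (-d) (-d))` via `b.equivFun`. -/
theorem HP_tens_finCol {I L : Pre K} (hI : IsSheaf S I) (hL : IsSheaf S L) (h : FinCol I L) {δ : ℤ}
    (hδ : ∀ a b, HP K L a b = HP K I a b + δ) {H : Pre V} (hH : IsSheaf S H) (hl : LocFree S H)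
    (a b : ℤ) :
    HP K (tens (LinearMap.lsmul K V) L H) a b =
      HP K (tens (LinearMap.lsmul K V) I H) a b + Module.finrank K V * δ := by
  classical
  choose 𝔞 h𝔞fin h𝔞 using fun c => h.exists_ann hI hL c
  obtain ⟨d, hd⟩ := hl.exists_gen hH (fun c => {𝔭 | 𝔭.IsPrime ∧ 𝔞 c ≤ 𝔭})
    (fun c => gen_finite_primes (𝔞 c)) (fun c 𝔭 h𝔭 => h𝔭.1)
  obtain ⟨β, hβ, hloc⟩ := hd d le_rfl
  have hLF := isSheaf_genF β d hL
  have hIF := isSheaf_genF β d hI
  have hIH := hI.tens_lsmul hH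
  -- at a maximal ideal, either `𝔞` or the conductor is the unit ideal
  have hdich : ∀ c (𝔪 : Ideal (S.R c)), 𝔪.IsMaximal → ∃ g : S.R c, g ∉ 𝔪 ∧
      ((∀ x ∈ L c, (g : K) • x ∈ I c) ∨
        ∀ v ∈ H c, ∀ j, (g : K) * (tau K c d d * β.repr v j) ∈ S.R c) := by
    intro c 𝔪 h𝔪
    by_cases hle : 𝔞 c ≤ 𝔪
    · obtain ⟨g, hg, hg'⟩ := hloc c 𝔪 ⟨h𝔪.isPrime, hle⟩
      exact ⟨g, hg, Or.inr hg'⟩
    · obtain ⟨g, hg, hg'⟩ := Set.not_subset.1 hle
      exact ⟨g, hg', Or.inl (h𝔞 c g hg)⟩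
  have hsup : genF β d L ⊔ tens (LinearMap.lsmul K V) I H = tens (LinearMap.lsmul K V) L H := by
    funext c
    apply le_antisymm
    · exact sup_le (genF_le β d hβ L c) (tens_mono _ (fun c => (h c).1) (fun _ => le_rfl) c)
    · intro v hv
      refine S.mem_of_local c _ (fun r hr w hw => (hLF.sup hIH).smul_mem c hr hw) v fun 𝔪 h𝔪 => ?_
      obtain ⟨g, hg, hg' | hg'⟩ := hdich c 𝔪 h𝔪
      · exact ⟨g, hg, Submodule.mem_sup_right (gen_smul_mem_tens c hg' hv)⟩
      · exact ⟨g, hg, Submodule.mem_sup_left (smul_mem_genF β d hL c hg' hv)⟩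
  have hinf : genF β d L ⊓ tens (LinearMap.lsmul K V) I H = genF β d I := by
    funext c
    apply le_antisymm
    · rintro v ⟨hv, hv'⟩
      refine S.mem_of_local c _ (fun r hr w hw => hIF.smul_mem c hr hw) v fun 𝔪 h𝔪 => ?_
      obtain ⟨g, hg, hg' | hg'⟩ := hdich c 𝔪 h𝔪
      · refine ⟨g, hg, (mem_genF β d I c _).2 fun j => ?_⟩
        have := hg' _ ((mem_genF β d L c v).1 hv j)
        simp only [map_smul, Finsupp.smul_apply, smul_eq_mul] at this ⊢
        convert this using 1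
        ring
      · exact ⟨g, hg, smul_mem_genF β d hI c hg' hv'⟩
    · refine le_inf (fun v hv => ?_) (genF_le β d hβ I c)
      rw [mem_genF] at hv ⊢
      exact fun j => (h c).1 (hv j)
  have hmod := hLF.HP_modular hIH a b
  rw [hsup, hinf, HP_genF β d hL, HP_genF β d hI, hδ] at hmod
  linear_combination hmod

end

end Crest.Agent.R169
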