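import Crest.Agent.R169.Pic
import Crest.Agent.R169.Gen

/-! # The intersection form is bilinear -/

set_option autoImplicit false

namespace Crest.Agent.R169

noncomputable section

variable {K : Type} [Field K] [Algebra K0 K] [Algebra ℂ K] [IsScalarTower ℂ K0 K] {S : Surf K}

theorem picq_mul_mem {x y : Pic S} {c : Chart} {a b : K} (ha : a ∈ x.sh c) (hb : b ∈ y.sh c) :
    a * b ∈ (x * y).sh c :=
  Submodule.subset_span ⟨a, ha, b, hb, rfl⟩

theorem picq_mul_le_right {x y : Pic S} (hx : ∀ c, x.sh c ≤ OO S c) (c : Chart) :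
    (x * y).sh c ≤ y.sh c := by
  have h := tens_mono (LinearMap.lsmul K K) hx (fun c => (le_rfl : y.sh c ≤ y.sh c)) c
  rw [tens_lsmul_OO y.isSheaf] at h
  exact h

/-- the ideal of `R c` given by a rank one sheaf -/
def picqIdeal (x : Pic S) (c : Chart) : Ideal (S.R c) where
  carrier := {r | (r : K) ∈ x.sh c}
  add_mem' := fun ha hb => (x.sh c).add_mem ha hb
  zero_mem' := (x.sh c).zero_mem
  smul_mem' := fun r _ hv => x.isSheaf.smul_mem c r.2 hv

theorem mem_picqIdeal {x : Pic S} {c : Chart} {r : S.R c} : r ∈ picqIdeal x c ↔ (r : K) ∈ x.sh c :=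
  Iff.rfl

theorem picqIdeal_ne_bot (x : Pic S) (c : Chart) : picqIdeal x c ≠ ⊥ := by
  obtain ⟨f, hf, h0, h1⟩ := x.isSheaf.frac c 1
  intro h
  have : (⟨f, hf⟩ : S.R c) ∈ picqIdeal x c := by
    rw [mem_picqIdeal]
    simpa using h1
  rw [h, Ideal.mem_bot] at this
  exact h0 (congrArg Subtype.val this)

theorem picq_mem_prin_mul (s : Kˣ) (y : Pic S) (c : Chart) (v : K) :
    v ∈ (prin S s * y).sh c ↔ (s : K)⁻¹ * v ∈ y.sh c := by
  rw [← act_sh, act_prin y.isSheaf]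
  exact Iff.rfl

theorem picq_mem_Ftw_mul (a b : ℤ) (y : Pic S) (c : Chart) (v : K) :
    v ∈ (Ftw S a b * y).sh c ↔ (tau K c a b)⁻¹ * v ∈ y.sh c := by
  rw [← act_sh, act_Ftw y.isSheaf]
  exact Iff.rfl

theorem picq_prin_mul (s t : Kˣ) (y : Pic S) : prin S (s * t) * y = prin S s * (prin S t * y) := by
  apply Pic.ext'
  funext c
  ext v
  rw [picq_mem_prin_mul, picq_mem_prin_mul, picq_mem_prin_mul, Units.val_mul, mul_inv, mul_comm (s : K)⁻¹,
    mul_assoc]

/-- a translate of `y(-d,-d)` is an ideal that avoids finitely many given primes -/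
theorem picq_move (y : Pic S) (𝔓 : ∀ c, Set (Ideal (S.R c))) (hfin : ∀ c, (𝔓 c).Finite)
    (hpr : ∀ c, ∀ 𝔭 ∈ 𝔓 c, 𝔭.IsPrime) :
    ∃ d0 : ℤ, ∀ d, d0 ≤ d → ∃ s : Kˣ,
      (∀ c, (prin S s * (Ftw S (-d) (-d) * y)).sh c ≤ OO S c) ∧
      ∀ c, ∀ 𝔭 ∈ 𝔓 c, ¬ picqIdeal (prin S s * (Ftw S (-d) (-d) * y)) c ≤ 𝔭 := by
  obtain ⟨d0, hd0⟩ := (y⁻¹).locFree.exists_gen (y⁻¹).isSheaf 𝔓 hfin hpr
  refine ⟨d0, fun d hd => ?_⟩
  obtain ⟨b, hb1, hb2⟩ := hd0 d hd
  have h1 : Module.finrank K K = 1 := Module.finrank_self K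
  let j0 : Fin (Module.finrank K K) := ⟨0, by omega⟩
  have hj : ∀ j : Fin (Module.finrank K K), j = j0 := fun j => Fin.ext (by have := j.2; simp only [j0]; omega)
  have hs : b j0 ≠ 0 := b.ne_zero j0
  have hrepr : ∀ v : K, b.repr v j0 * b j0 = v := by
    intro v
    have h := b.sum_repr v
    rw [Finset.sum_eq_single j0 (fun j _ hne => absurd (hj j) hne)
      (fun h => absurd (Finset.mem_univ _) h)] at h
    exact h
  have hmem : ∀ c (v : K), v ∈ (prin S (Units.mk0 (b j0) hs) * (Ftw S (-d) (-d) * y)).sh c ↔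
      tau K c d d * ((b j0)⁻¹ * v) ∈ y.sh c := by
    intro c v
    rw [picq_mem_prin_mul, picq_mem_Ftw_mul, tau_neg, inv_inv, Units.val_mk0]
  refine ⟨Units.mk0 (b j0) hs, ?_, ?_⟩
  · intro c v hv
    rw [hmem] at hv
    have h2 := (Pic.mem_inv_iff y c _).1 (mem_Gam.1 (hb1 j0) c) _ hv
    have h3 : tau K c d d * ((b j0)⁻¹ * v) * ((tau K c d d)⁻¹ • b j0) = v := by
      have := tau_ne_zero K c d d
      rw [smul_eq_mul]
      field_simp
    rw [h3] at h2
    exact h2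
  · intro c 𝔭 h𝔭 hle
    obtain ⟨g, hg, hg2⟩ := hb2 c 𝔭 h𝔭
    apply hg
    apply hle
    rw [mem_picqIdeal, hmem]
    have hone : (1 : K) ∈ (y * y⁻¹).sh c := by
      rw [mul_inv_cancel]
      exact (S.R c).one_mem
    have key : ∀ u ∈ (y * y⁻¹).sh c, tau K c d d * ((b j0)⁻¹ * g) * u ∈ y.sh c := by
      intro u hu
      induction hu using Submodule.span_induction with
      | mem u hu =>
        obtain ⟨z, hz, v, hv, rfl⟩ := hu
        have h4 := y.isSheaf.smul_mem c (hg2 v hv j0) hz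
        have h5 : ((g : K) * (tau K c d d * b.repr v j0)) • z =
            tau K c d d * ((b j0)⁻¹ * g) * (LinearMap.lsmul K K z v) := by
          have h6 : b.repr v j0 = v * (b j0)⁻¹ := by
            rw [eq_mul_inv_iff_mul_eq₀ hs]; exact hrepr v
          rw [h6, LinearMap.lsmul_apply, smul_eq_mul, smul_eq_mul]
          ring
        rw [h5] at h4
        exact h4
      | zero => rw [mul_zero]; exact (y.sh c).zero_mem
      | add u u' _ _ h h' => rw [mul_add]; exact (y.sh c).add_mem h h'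
      | smul r u _ h => rw [mul_smul_comm]; exact (y.sh c).smul_mem r h
    have := key 1 hone
    rwa [mul_one] at this

theorem picq_finCol {x y : Pic S} (hx : ∀ c, x.sh c ≤ OO S c) (hy : ∀ c, y.sh c ≤ OO S c)
    (h : ∀ c, ∀ 𝔭 ∈ (picqIdeal x c).minimalPrimes, ¬ picqIdeal y c ≤ 𝔭) :
    FinCol (x.sh ⊔ y.sh) (OO S) := by
  refine finCol_of_ann (isSheaf_OO S) (fun c => sup_le (hx c) (hy c)) fun c => ?_
  refine ⟨picqIdeal x c ⊔ picqIdeal y c, S.finite_quot c _ _ (picqIdeal_ne_bot x c) (h c), ?_⟩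
  intro g hg v hv
  obtain ⟨a, ha, b, hb, rfl⟩ := Submodule.mem_sup.1 hg
  have h1 : ((a + b : S.R c) : K) • v = v • (a : K) + v • (b : K) := by
    simp only [smul_eq_mul, Subalgebra.coe_add]
    ring
  rw [h1]
  exact Submodule.add_mem_sup (x.isSheaf.smul_mem c hv ha) (y.isSheaf.smul_mem c hv hb)

/-- Coprime invertible ideals: `x ⊓ y = x y`, because `(x ⊓ y) ⧸ x y` is killed by `x ⊔ y`, so has finite
colength, and `x y` is locally free, so `Refl`. -/
theorem inf_eq_mul_of_finCol {x y : Pic S} (hx : ∀ c, x.sh c ≤ OO S c) (hy : ∀ c, y.sh c ≤ OO S c)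
    (h : FinCol (x.sh ⊔ y.sh) (OO S)) : x.sh ⊓ y.sh = (x * y).sh := by
  have hle : ∀ c, (x * y).sh c ≤ (x.sh ⊓ y.sh) c := fun c =>
    le_inf (by rw [mul_comm]; exact picq_mul_le_right hy c) (picq_mul_le_right hx c)
  have hs := x.isSheaf.inf y.isSheaf
  have hfc : FinCol (x * y).sh (x.sh ⊓ y.sh) := by
    refine finCol_of_ann hs hle fun c => ?_
    obtain ⟨I, hI, hI2⟩ := h.exists_ann (x.isSheaf.sup y.isSheaf) (isSheaf_OO S) c
    refine ⟨I, hI, fun g hg v hv => ?_⟩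
    have h1 := hI2 g hg 1 (S.R c).one_mem
    rw [smul_eq_mul, mul_one] at h1
    obtain ⟨a, ha, b, hb, hab⟩ := Submodule.mem_sup.1 h1
    rw [← hab, smul_eq_mul, add_mul, mul_comm b v]
    exact Submodule.add_mem _ (picq_mul_mem ha hv.2) (picq_mul_mem hv.1 hb)
  funext c
  refine le_antisymm ?_ (hle c)
  exact (x * y).locFree.refl (x * y).isSheaf c _ (fun r hr v hv => hs.smul_mem c hr hv) (hle c) (hfc c).2

/-- For coprime invertible ideals the mixed second difference is the colength of `x ⊔ y`, at every base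
point `w` (modular law, `tens_lsmul_inf`, `tens_lsmul_sup`, `HP_tens_finCol` with `H = w`). -/
theorem second_diff_of_finCol {x y : Pic S} (hx : ∀ c, x.sh c ≤ OO S c) (hy : ∀ c, y.sh c ≤ OO S c)
    (h : FinCol (x.sh ⊔ y.sh) (OO S)) (w : Pic S) :
    chiP (x * y * w) - chiP (x * w) - chiP (y * w) + chiP w = chiP (1 : Pic S) - chi K (x.sh ⊔ y.sh) := by
  have hsup := x.isSheaf.sup y.isSheaf
  obtain ⟨δ, -, hδ⟩ := hsup.HP_finCol (isSheaf_OO S) h
  have h1 := HP_tens_finCol hsup (isSheaf_OO S) h hδ w.isSheaf w.locFree 0 0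
  rw [tens_lsmul_OO w.isSheaf, tens_lsmul_sup, Module.finrank_self] at h1
  have h2 := tens_lsmul_inf x.isSheaf y.isSheaf w.isSheaf w.locFree
  rw [inf_eq_mul_of_finCol hx hy h] at h2
  have h3 := (x * w).isSheaf.HP_modular (y * w).isSheaf 0 0
  have h4 := hδ 0 0
  simp only [chiP, chi, Pic.sh_mul, Pic.sh_one] at *
  rw [h2]
  push_cast at h1
  linarith

theorem BB_eq_colength {x y : Pic S} (hx : ∀ c, x.sh c ≤ OO S c) (hy : ∀ c, y.sh c ≤ OO S c)
    (h : FinCol (x.sh ⊔ y.sh) (OO S)) : BB x y = chiP (1 : Pic S) - chi K (x.sh ⊔ y.sh) := by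
  have := second_diff_of_finCol hx hy h 1
  simpa [BB] using this

/-- Moving lemma: given an invertible ideal `x`, every `y` is `prin s * y₁ * y₂⁻¹` with invertible ideals
`y₁`, `y₂` coprime to `x`.  (`LocFree.exists_gen` for `y⁻¹` and for `O`, at the minimal primes of `x`, with the
same degree `d`: `y₁ = s₁ y O(-d,-d)`, `y₂ = s₂ O(-d,-d)`; `Surf.finite_quot`, `finCol_of_ann`.) -/
theorem exists_coprime {x : Pic S} (hx : ∀ c, x.sh c ≤ OO S c) (y : Pic S) :
    ∃ (s : Kˣ) (y₁ y₂ : Pic S), y * y₂ = prin S s * y₁ ∧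
      (∀ c, y₁.sh c ≤ OO S c) ∧ (∀ c, y₂.sh c ≤ OO S c) ∧
      FinCol (x.sh ⊔ y₁.sh) (OO S) ∧ FinCol (x.sh ⊔ y₂.sh) (OO S) := by
  have hfin : ∀ c, ((picqIdeal x c).minimalPrimes).Finite := fun c => by
    haveI := S.R_noeth c
    exact Ideal.finite_minimalPrimes_of_isNoetherianRing _ _
  have hpr : ∀ c, ∀ 𝔭 ∈ (picqIdeal x c).minimalPrimes, 𝔭.IsPrime := fun c 𝔭 h => h.1.1
  obtain ⟨d1, h1⟩ := picq_move y _ hfin hpr
  obtain ⟨d2, h2⟩ := picq_move (1 : Pic S) _ hfin hpr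
  obtain ⟨s1, a1, b1⟩ := h1 (max d1 d2) (le_max_left _ _)
  obtain ⟨s2, a2, b2⟩ := h2 (max d1 d2) (le_max_right _ _)
  refine ⟨s2 * s1⁻¹, _, _, ?_, a1, a2, picq_finCol hx a1 b1, picq_finCol hx a2 b2⟩
  rw [← picq_prin_mul, inv_mul_cancel_right, mul_one, mul_left_comm, mul_comm y]

theorem picq_step {x y y₁ y₂ : Pic S} {s : Kˣ} (h : y * y₂ = prin S s * y₁)
    (h1 : ∃ n : ℤ, ∀ w, chiP (x * y₁ * w) - chiP (x * w) - chiP (y₁ * w) + chiP w = n)
    (h2 : ∃ n : ℤ, ∀ w, chiP (x * y₂ * w) - chiP (x * w) - chiP (y₂ * w) + chiP w = n) :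
    ∃ n : ℤ, ∀ w, chiP (x * y * w) - chiP (x * w) - chiP (y * w) + chiP w = n := by
  obtain ⟨n1, h1⟩ := h1
  obtain ⟨n2, h2⟩ := h2
  refine ⟨n1 - n2, fun w => ?_⟩
  obtain ⟨w, rfl⟩ : ∃ w', w = y₂ * w' := ⟨y₂⁻¹ * w, by rw [mul_inv_cancel_left]⟩
  have e1 : x * y * (y₂ * w) = prin S s * (x * y₁ * w) := by
    rw [mul_assoc x, ← mul_assoc y, h]; simp only [mul_assoc, mul_left_comm]
  have e2 : y * (y₂ * w) = prin S s * (y₁ * w) := by
    rw [← mul_assoc y, h, mul_assoc]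
  rw [e1, e2, chiP_prin_mul, chiP_prin_mul, ← mul_assoc x y₂]
  have := h1 w
  have := h2 w
  linarith

/-- The mixed second difference does not depend on the base point.  The set of `y` (resp. `x`) for which this holds
for all `w` is a subgroup; it contains the principal sheaves and the ideals coprime to `x`. -/
theorem second_diff (x y w : Pic S) :
    chiP (x * y * w) - chiP (x * w) - chiP (y * w) + chiP w = BB x y := by
  have step1 : ∀ x : Pic S, (∀ c, x.sh c ≤ OO S c) →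
      ∃ n : ℤ, ∀ w, chiP (y * x * w) - chiP (y * w) - chiP (x * w) + chiP w = n := by
    intro x hx
    obtain ⟨s, y₁, y₂, h, a1, a2, b1, b2⟩ := exists_coprime hx y
    obtain ⟨n, hn⟩ := picq_step (x := x) h ⟨_, second_diff_of_finCol hx a1 b1⟩
      ⟨_, second_diff_of_finCol hx a2 b2⟩
    refine ⟨n, fun w => ?_⟩
    rw [mul_comm y x]
    have := hn w
    linarith
  obtain ⟨s, x₁, x₂, h, a1, a2, -, -⟩ := exists_coprime (x := (1 : Pic S)) (fun c => le_rfl) x
  obtain ⟨n, hn⟩ := picq_step (x := y) h (step1 x₁ a1) (step1 x₂ a2)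
  have h1 := hn w
  have h2 := hn 1
  simp only [mul_one] at h2
  rw [mul_comm y x] at h1 h2
  simp only [BB]
  linarith

theorem BB_comm (x y : Pic S) : BB x y = BB y x := by
  simp only [BB, mul_comm x y]; ring

theorem BB_mul_left (x y z : Pic S) : BB (x * y) z = BB x z + BB y z := by
  have h := second_diff x z y
  simp only [BB] at h ⊢
  rw [mul_right_comm x y z]
  rw [mul_comm z y] at h
  linarith

theorem BB_mul_right (x y z : Pic S) : BB x (y * z) = BB x y + BB x z := by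
  rw [BB_comm, BB_mul_left, BB_comm y, BB_comm z]

theorem BB_one_left (x : Pic S) : BB 1 x = 0 := by simp [BB]

theorem BB_inv_left (x y : Pic S) : BB x⁻¹ y = -BB x y := by
  have h := BB_mul_left x x⁻¹ y
  rw [mul_inv_cancel, BB_one_left] at h
  linarith

theorem BB_inv_right (x y : Pic S) : BB x y⁻¹ = -BB x y := by
  rw [BB_comm, BB_inv_left, BB_comm]

theorem BB_prin_left (s : Kˣ) (y : Pic S) : BB (prin S s) y = 0 := by
  have h := chiP_prin_mul s (1 : Pic S)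
  rw [mul_one] at h
  simp [BB, chiP_prin_mul, h]

theorem BB_Ftw (x : Pic S) (a b : ℤ) :
    BB x (Ftw S a b) = (pP x - pP (1 : Pic S)) * a + (qP x - qP (1 : Pic S)) * b := by
  have h1 := chiP_mul_Ftw x a b
  have h2 := chiP_mul_Ftw (1 : Pic S) a b
  rw [one_mul] at h2
  simp only [BB]
  rw [h1, h2]
  ring

theorem BB_Ftw_Ftw (a b a' b' : ℤ) :
    BB (Ftw S a b) (Ftw S a' b') = (Module.finrank K0 K : ℤ) * (a * b' + a' * b) := by
  have h1 := chiP_mul_Ftw (1 : Pic S) (a + a') (b + b')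
  have h2 := chiP_mul_Ftw (1 : Pic S) a b
  have h3 := chiP_mul_Ftw (1 : Pic S) a' b'
  rw [one_mul] at h1 h2 h3
  simp only [BB]
  rw [← Ftw_add, h1, h2, h3]
  ring

end

end Crest.Agent.R169
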