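import Crest.Agent.R169.CDefs

/-! # The places of `k(X)` -/

set_option autoImplicit false

namespace Crest.Agent.R169

open Polynomial

noncomputable section

variable {k : Type} [Field k]

/-- an order function on `k[X]` -/
structure PlacesOrd (k : Type) [Field k] where
  m : k[X] → ℤ
  mul : ∀ a b, a ≠ 0 → b ≠ 0 → m (a * b) = m a + m b
  add : ∀ a b, a ≠ 0 → b ≠ 0 → a + b ≠ 0 → min (m a) (m b) ≤ m (a + b)
  const : ∀ c, c ≠ 0 → m (C c) = 0
  unif : ∃ a b, a ≠ 0 ∧ b ≠ 0 ∧ m a - m b = 1

namespace PlacesOrd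

variable (M : PlacesOrd k)

/-- the order on `k(X)` -/
def ord (f : RatFunc k) : ℤ := M.m f.num - M.m f.denom

theorem m_one : M.m 1 = 0 := by simpa using M.const 1 one_ne_zero

theorem ord_div {a b : k[X]} (ha : a ≠ 0) (hb : b ≠ 0) :
    M.ord (algebraMap k[X] (RatFunc k) a / algebraMap k[X] (RatFunc k) b) = M.m a - M.m b := by
  have h0 : algebraMap k[X] (RatFunc k) a / algebraMap k[X] (RatFunc k) b ≠ 0 :=
    div_ne_zero (RatFunc.algebraMap_ne_zero ha) (RatFunc.algebraMap_ne_zero hb)
  have h := congrArg M.m ((RatFunc.num_mul_eq_mul_denom_iff (p := a) hb).2 rfl)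
  rw [M.mul _ _ (RatFunc.num_ne_zero h0) hb, M.mul _ _ ha (RatFunc.denom_ne_zero _)] at h
  rw [ord]
  omega

theorem ord_poly (a : k[X]) : M.ord (algebraMap k[X] (RatFunc k) a) = M.m a := by
  rw [ord, RatFunc.num_algebraMap, RatFunc.denom_algebraMap, M.m_one, sub_zero]

theorem ord_mul {f g : RatFunc k} (hf : f ≠ 0) (hg : g ≠ 0) :
    M.ord (f * g) = M.ord f + M.ord g := by
  have h := congrArg M.m (RatFunc.num_denom_mul f g)
  have a1 := RatFunc.num_ne_zero hf
  have a2 := RatFunc.num_ne_zero hg
  have b1 := RatFunc.denom_ne_zero f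
  have b2 := RatFunc.denom_ne_zero g
  rw [M.mul _ _ (RatFunc.num_ne_zero (mul_ne_zero hf hg)) (mul_ne_zero b1 b2), M.mul _ _ b1 b2,
    M.mul _ _ (mul_ne_zero a1 a2) (RatFunc.denom_ne_zero _), M.mul _ _ a1 a2] at h
  simp only [ord]
  omega

theorem ord_one : M.ord 1 = 0 := by simpa using (M.ord_poly 1).trans M.m_one

theorem ord_inv {f : RatFunc k} (hf : f ≠ 0) : M.ord f⁻¹ = -M.ord f := by
  have := M.ord_mul hf (inv_ne_zero hf)
  rw [mul_inv_cancel₀ hf, M.ord_one] at this
  omega

theorem ord_pow {f : RatFunc k} (hf : f ≠ 0) (n : ℕ) : M.ord (f ^ n) = n * M.ord f := by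
  induction n with
  | zero => simp [M.ord_one]
  | succ n ih => rw [pow_succ, M.ord_mul (pow_ne_zero n hf) hf, ih]; push_cast; ring

theorem ord_add {f g : RatFunc k} (hf : f ≠ 0) (hg : g ≠ 0) (h : f + g ≠ 0) :
    min (M.ord f) (M.ord g) ≤ M.ord (f + g) := by
  have h1 := RatFunc.num_denom_add f g
  have a1 := RatFunc.num_ne_zero hf
  have a2 := RatFunc.num_ne_zero hg
  have b1 := RatFunc.denom_ne_zero f
  have b2 := RatFunc.denom_ne_zero g
  have c0 : f.num * g.denom + f.denom * g.num ≠ 0 := by
    intro e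
    rw [e, zero_mul] at h1
    exact mul_ne_zero (RatFunc.num_ne_zero h) (mul_ne_zero b1 b2) h1
  have h2 := congrArg M.m h1
  have h3 := M.add _ _ (mul_ne_zero a1 b2) (mul_ne_zero b1 a2) c0
  rw [M.mul _ _ (RatFunc.num_ne_zero h) (mul_ne_zero b1 b2), M.mul _ _ b1 b2,
    M.mul _ _ c0 (RatFunc.denom_ne_zero _)] at h2
  rw [M.mul _ _ a1 b2, M.mul _ _ b1 a2] at h3
  simp only [ord]
  omega

/-- the valuation ring -/
def O : Subalgebra k (RatFunc k) where
  carrier := {f | f ≠ 0 → 0 ≤ M.ord f}
  mul_mem' := by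
    intro f g hf hg h
    rw [M.ord_mul (left_ne_zero_of_mul h) (right_ne_zero_of_mul h)]
    exact add_nonneg (hf (left_ne_zero_of_mul h)) (hg (right_ne_zero_of_mul h))
  add_mem' := by
    intro f g hf hg h
    by_cases h1 : f = 0
    · rw [h1, zero_add] at h ⊢; exact hg h
    by_cases h2 : g = 0
    · rw [h2, add_zero] at h ⊢; exact hf h
    exact (le_min (hf h1) (hg h2)).trans (M.ord_add h1 h2 h)
  algebraMap_mem' := by
    intro c h
    rw [IsScalarTower.algebraMap_apply k k[X] (RatFunc k), M.ord_poly, algebraMap_eq, M.const]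
    rintro rfl
    exact h (map_zero _)

theorem mem_O {f : RatFunc k} : f ∈ M.O ↔ (f ≠ 0 → 0 ≤ M.ord f) := Iff.rfl

theorem isUnit_iff {f : M.O} (hf : (f : RatFunc k) ≠ 0) : IsUnit f ↔ M.ord f = 0 := by
  constructor
  · intro h
    obtain ⟨g, hg⟩ := h.exists_right_inv
    have h1 : (f : RatFunc k) * g = 1 := congrArg Subtype.val hg
    have h2 : (g : RatFunc k) ≠ 0 := right_ne_zero_of_mul_eq_one h1
    have h3 := M.ord_mul hf h2
    rw [h1, M.ord_one] at h3
    have := f.2 hf
    have := g.2 h2
    omega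
  · intro h
    exact IsUnit.of_mul_eq_one ⟨(f : RatFunc k)⁻¹, fun _ => by rw [M.ord_inv hf, h]; rfl⟩
      (Subtype.ext (mul_inv_cancel₀ hf))

theorem dvr : IsDiscreteValuationRing M.O := by
  obtain ⟨a, b, ha, hb, hab⟩ := M.unif
  rw [← M.ord_div ha hb] at hab
  have h0 : algebraMap k[X] (RatFunc k) a / algebraMap k[X] (RatFunc k) b ≠ 0 :=
    div_ne_zero (RatFunc.algebraMap_ne_zero ha) (RatFunc.algebraMap_ne_zero hb)
  generalize algebraMap k[X] (RatFunc k) a / algebraMap k[X] (RatFunc k) b = π at hab h0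
  refine IsDiscreteValuationRing.ofHasUnitMulPowIrreducibleFactorization
    ⟨⟨π, fun _ => by omega⟩, ⟨?_, fun f g hfg => ?_⟩, fun {x} hx => ?_⟩
  · rw [M.isUnit_iff h0]
    simp only
    omega
  · have h1 : π = (f : RatFunc k) * g := congrArg Subtype.val hfg
    have h2 : (f : RatFunc k) ≠ 0 := left_ne_zero_of_mul (h1 ▸ h0)
    have h3 : (g : RatFunc k) ≠ 0 := right_ne_zero_of_mul (h1 ▸ h0)
    rw [M.isUnit_iff h2, M.isUnit_iff h3]
    rw [h1, M.ord_mul h2 h3] at hab
    have := f.2 h2
    have := g.2 h3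
    omega
  · have hx' : (x : RatFunc k) ≠ 0 := fun e => hx (Subtype.ext e)
    obtain ⟨n, hn⟩ := Int.eq_ofNat_of_zero_le (x.2 hx')
    have h1 : (π ^ n)⁻¹ * (x : RatFunc k) ≠ 0 := mul_ne_zero (inv_ne_zero (pow_ne_zero n h0)) hx'
    have h2 : M.ord ((π ^ n)⁻¹ * (x : RatFunc k)) = 0 := by
      rw [M.ord_mul (inv_ne_zero (pow_ne_zero n h0)) hx', M.ord_inv (pow_ne_zero n h0),
        M.ord_pow h0, hab, hn]
      ring
    obtain ⟨u, hu⟩ := (M.isUnit_iff (f := ⟨_, fun _ => h2.ge⟩) h1).2 h2
    refine ⟨n, u, Subtype.ext ?_⟩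
    rw [hu]
    simp only [MulMemClass.coe_mul, SubmonoidClass.coe_pow]
    exact mul_inv_cancel_left₀ (pow_ne_zero n h0) _

end PlacesOrd

/-- the index set -/
abbrev PlacesI (k : Type) [Field k] : Type := Option {p : k[X] // p.Monic ∧ Irreducible p}

/-- the order functions -/
def placesM : PlacesI k → PlacesOrd k
  | none =>
    { m := fun a => -(a.natDegree : ℤ)
      mul := fun a b ha hb => by rw [natDegree_mul ha hb]; push_cast; ring
      add := fun a b _ _ _ => by
        have := natDegree_add_le a b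
        omega
      const := fun c _ => by simp
      unif := ⟨1, X, one_ne_zero, X_ne_zero, by simp⟩ }
  | some p =>
    { m := fun a => (multiplicity p.1 a : ℤ)
      mul := fun a b ha hb => by
        rw [multiplicity_mul p.2.2.prime (.of_prime_left p.2.2.prime (mul_ne_zero ha hb))]
        push_cast; rfl
      add := fun a b _ _ h => by
        have := ((FiniteMultiplicity.of_prime_left p.2.2.prime h).pow_dvd_iff_le_multiplicity
          (k := min (multiplicity p.1 a) (multiplicity p.1 b))).1
          (dvd_add (pow_dvd_of_le_multiplicity (min_le_left _ _))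
            (pow_dvd_of_le_multiplicity (min_le_right _ _)))
        omega
      const := fun c hc => by
        rw [multiplicity_of_isUnit_right p.2.2.not_isUnit (isUnit_C.2 hc.isUnit)]; rfl
      unif := ⟨p.1, 1, p.2.2.ne_zero, one_ne_zero, by
        rw [multiplicity_self, multiplicity_of_isUnit_right p.2.2.not_isUnit isUnit_one]; rfl⟩ }

/-- the degree of a place -/
def placesDeg : PlacesI k → ℤ
  | none => 1
  | some p => p.1.natDegree

theorem placesDeg_pos (v : PlacesI k) : 0 < placesDeg v := by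
  cases v with
  | none => exact one_pos
  | some p => exact Int.natCast_pos.2 p.2.2.natDegree_pos

theorem places_fin {a : k[X]} (ha : a ≠ 0) : {v : PlacesI k | (placesM v).m a ≠ 0}.Finite := by
  classical
  have h : {p : {p : k[X] // p.Monic ∧ Irreducible p} | p.1 ∣ a}.Finite :=
    ((UniqueFactorizationMonoid.normalizedFactors a).toFinset.finite_toSet.preimage
      Subtype.val_injective.injOn).subset fun p hp => by
        simp only [Set.mem_preimage, Finset.mem_coe, Multiset.mem_toFinset]
        exact (Polynomial.mem_normalizedFactors_iff ha).2 ⟨p.2.2, p.2.1, hp⟩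
  refine ((h.image some).insert none).subset fun v hv => ?_
  cases v with
  | none => exact Or.inl rfl
  | some p =>
    refine Or.inr ⟨p, ?_, rfl⟩
    by_contra hn
    exact hv (by simp only [placesM]; rw [multiplicity_eq_zero.2 hn]; rfl)

theorem places_fin' {a : k[X]} (ha : a ≠ 0) :
    (Function.support fun v : PlacesI k => placesDeg v * (placesM v).m a).Finite :=
  (places_fin ha).subset fun _ hv => right_ne_zero_of_mul hv

theorem places_prod (a : k[X]) : a ≠ 0 → ∑ᶠ v : PlacesI k, placesDeg v * (placesM v).m a = 0 := by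
  classical
  induction a using WfDvdMonoid.induction_on_irreducible with
  | zero => exact fun h => absurd rfl h
  | unit u hu =>
    intro _
    obtain ⟨c, hc, rfl⟩ := Polynomial.isUnit_iff.1 hu
    simp [PlacesOrd.const _ c hc.ne_zero]
  | mul a q ha hq ih =>
    intro _
    simp only [PlacesOrd.mul _ q a hq.ne_zero ha, mul_add]
    rw [finsum_add_distrib (places_fin' hq.ne_zero) (places_fin' ha), ih ha, add_zero]
    let p₀ : {p : k[X] // p.Monic ∧ Irreducible p} :=
      ⟨q * C q.leadingCoeff⁻¹, monic_mul_leadingCoeff_inv hq.ne_zero,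
        irreducible_mul_leadingCoeff_inv.2 hq⟩
    have hass : Associated q p₀.1 := associated_mul_unit_right _ _
      (isUnit_C.2 (inv_ne_zero (leadingCoeff_ne_zero.2 hq.ne_zero)).isUnit)
    rw [finsum_eq_sum_of_support_subset (s := {none, some p₀})]
    · rw [Finset.sum_pair (by simp)]
      simp only [placesDeg, placesM]
      rw [multiplicity_eq_of_associated_right hass, multiplicity_self,
        natDegree_eq_of_degree_eq (degree_eq_degree_of_associated hass)]
      ring
    · intro v hv
      cases v with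
      | none => simp
      | some p =>
        have h1 : p.1 ∣ q := by
          by_contra hn
          exact hv (by simp only [placesM]; rw [multiplicity_eq_zero.2 hn]; simp)
        have h2 : p = p₀ := Subtype.ext (eq_of_monic_of_associated p.2.1 p₀.2.1
          ((p.2.2.associated_of_dvd hq h1).trans hass))
        simp [h2]

theorem places_denom (p : {p : k[X] // p.Monic ∧ Irreducible p}) {f : RatFunc k}
    (hf : f ∈ (placesM (some p)).O) : ¬ p.1 ∣ f.denom := by
  intro h
  by_cases h0 : f = 0
  · rw [h0, RatFunc.denom_zero] at h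
    exact p.2.2.not_dvd_one h
  have h1 := hf h0
  have h2 : ¬ p.1 ∣ f.num := fun h' =>
    p.2.2.not_isUnit ((RatFunc.isCoprime_num_denom f).isUnit_of_dvd' h' h)
  have h3 := multiplicity_eq_zero.not.2 (not_not.2 h)
  simp only [PlacesOrd.ord, placesM, multiplicity_eq_zero.2 h2] at h1
  omega

theorem places_reflect (p : k[X]) (N : ℕ) (h : p.natDegree ≤ N) :
    aeval (RatFunc.X : RatFunc k)⁻¹ (reflect N p) * RatFunc.X ^ N =
      algebraMap k[X] (RatFunc k) p := by
  let _ : Invertible (RatFunc.X : RatFunc k) := invertibleOfNonzero RatFunc.X_ne_zero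
  rw [← RatFunc.aeval_X_left_eq_algebraMap, aeval_def, aeval_def,
    ← eval₂_reflect_mul_pow _ _ N p h, invOf_eq_inv]

theorem places_inf (f : RatFunc k) : f ∈ (placesM (none : PlacesI k)).O ↔
    ∃ s t : k[X], s.coeff 0 ≠ 0 ∧
      aeval (RatFunc.X : RatFunc k)⁻¹ s * f = aeval (RatFunc.X : RatFunc k)⁻¹ t := by
  have hX : ∀ N : ℕ, (RatFunc.X : RatFunc k) ^ N ≠ 0 := fun N => pow_ne_zero N RatFunc.X_ne_zero
  constructor
  · intro hf
    have h1 : f.num.natDegree ≤ f.denom.natDegree := by
      by_cases h0 : f = 0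
      · simp [h0]
      · have := hf h0
        simp only [PlacesOrd.ord, placesM] at this
        omega
    refine ⟨reflect f.denom.natDegree f.denom, reflect f.denom.natDegree f.num, ?_, ?_⟩
    · simpa using RatFunc.denom_ne_zero f
    · apply mul_right_cancel₀ (hX f.denom.natDegree)
      rw [mul_right_comm, places_reflect _ _ le_rfl, places_reflect _ _ h1, mul_comm,
        ← eq_div_iff (RatFunc.algebraMap_ne_zero (RatFunc.denom_ne_zero f)), RatFunc.num_div_denom]
  · rintro ⟨s, t, hs, h⟩ h0
    set N := max s.natDegree t.natDegree with hN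
    have a1 : (reflect N s).natDegree ≤ N := natDegree_reflect_le.trans (by omega)
    have a2 : (reflect N t).natDegree ≤ N := natDegree_reflect_le.trans (by omega)
    have a3 : (reflect N s).coeff N ≠ 0 := by simpa using hs
    have a4 : reflect N s ≠ 0 := fun e => a3 (by rw [e, coeff_zero])
    have a5 := le_natDegree_of_ne_zero a3
    have b1 := places_reflect _ _ a1
    have b2 := places_reflect _ _ a2
    rw [reflect_reflect] at b1 b2
    have e : f = algebraMap k[X] (RatFunc k) (reflect N t) /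
        algebraMap k[X] (RatFunc k) (reflect N s) := by
      rw [eq_div_iff (RatFunc.algebraMap_ne_zero a4), ← b1, ← b2, ← h]
      ring
    have a6 : reflect N t ≠ 0 := fun e' => h0 (by rw [e, e', map_zero, zero_div])
    rw [e, PlacesOrd.ord_div _ a6 a4]
    simp only [placesM]
    omega

end

/-- For instance `ι = Option {p : k[X] // p.Monic ∧ Irreducible p}`, `O (some p) = {f | ¬ p ∣ f.denom}`,
`nu (some p) f = deg p * (mult_p f.num - mult_p f.denom)`, `O none = {f | f.intDegree ≤ 0}`,
`nu none f = - f.intDegree`; or use `HeightOneSpectrum k[X]` and `FunctionField.inftyValuation`. -/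
theorem exists_placeSys (k : Type) [Field k] : Nonempty (PlaceSys k) := by
  refine ⟨{
    ι := PlacesI k
    inf := none
    O := fun v => (placesM v).O
    nu := fun v f => placesDeg v * (placesM v).ord f
    nu_mul := fun v f g hf hg => by rw [PlacesOrd.ord_mul _ hf hg, mul_add]
    mem_iff := fun v f hf => ?_
    dvr := fun v => (placesM v).dvr
    fin_supp := fun f => ?_
    prod := fun f hf => ?_
    nu_inf_X := by simp [placesDeg, placesM, PlacesOrd.ord]
    poly_mem := fun v hv a => ?_
    loc_fin := fun v hv f hf => ?_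
    loc_inf := places_inf
    glob := fun f hf => ?_
    approx := fun v hv f => ?_ }⟩
  · rw [PlacesOrd.mem_O, mul_nonneg_iff_of_pos_left (placesDeg_pos v)]
    exact ⟨fun h => h hf, fun h _ => h⟩
  · refine ((places_fin (RatFunc.denom_ne_zero f)).insert none).subset fun v hv => ?_
    cases v with
    | none => exact Or.inl rfl
    | some p =>
      refine Or.inr fun h => hv fun _ => ?_
      rw [PlacesOrd.ord, h, sub_zero]
      exact Int.natCast_nonneg _
  · simp only [PlacesOrd.ord, mul_sub]
    rw [finsum_sub_distrib (places_fin' (RatFunc.num_ne_zero hf))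
      (places_fin' (RatFunc.denom_ne_zero f)), places_prod _ (RatFunc.num_ne_zero hf),
      places_prod _ (RatFunc.denom_ne_zero f), sub_self]
  · obtain ⟨p, rfl⟩ := Option.ne_none_iff_exists'.1 hv
    intro _
    rw [PlacesOrd.ord_poly]
    exact Int.natCast_nonneg _
  · obtain ⟨p, rfl⟩ := Option.ne_none_iff_exists'.1 hv
    refine ⟨f.denom, f.num, RatFunc.denom_ne_zero f, ?_, ?_⟩
    · rw [PlacesOrd.ord_poly]
      simp only [placesM, multiplicity_eq_zero.2 (places_denom p hf)]
      simp
    · rw [mul_comm, ← eq_div_iff (RatFunc.algebraMap_ne_zero (RatFunc.denom_ne_zero f)),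
        RatFunc.num_div_denom]
  · have h1 : f.denom = 1 := by
      by_contra hn
      obtain ⟨p, h1, h2, h3⟩ := exists_monic_irreducible_factor f.denom
        fun hu => hn ((RatFunc.monic_denom f).isUnit_iff.1 hu)
      exact places_denom ⟨p, h1, h2⟩ (hf (some ⟨p, h1, h2⟩) (by simp)) h3
    refine ⟨f.num, ?_⟩
    conv_lhs => rw [← RatFunc.num_div_denom f, h1, map_one, div_one]
  · obtain ⟨p, rfl⟩ := Option.ne_none_iff_exists'.1 hv
    obtain ⟨s, h1, h2⟩ := (FiniteMultiplicity.of_prime_left p.2.2.prime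
      (RatFunc.denom_ne_zero f)).exists_eq_pow_mul_and_not_dvd
    have hs : s ≠ 0 := fun e => h2 (e ▸ dvd_zero _)
    refine ⟨s, hs, ?_, fun w hw hw' h0 => ?_⟩
    · rw [PlacesOrd.ord_poly]
      simp only [placesM, multiplicity_eq_zero.2 h2]
      simp
    · obtain ⟨q, rfl⟩ := Option.ne_none_iff_exists'.1 hw
      have hf : f ≠ 0 := right_ne_zero_of_mul h0
      have h3 : ¬ q.1 ∣ p.1 ^ multiplicity p.1 f.denom := fun h => hw' (congrArg some
        (Subtype.ext (eq_of_monic_of_associated q.2.1 p.2.1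
          (q.2.2.associated_of_dvd p.2.2 (q.2.2.prime.dvd_of_dvd_pow h)))))
      rw [PlacesOrd.ord_mul _ (RatFunc.algebraMap_ne_zero hs) hf, PlacesOrd.ord_poly,
        PlacesOrd.ord, h1, PlacesOrd.mul _ _ _ (pow_ne_zero _ p.2.2.ne_zero) hs]
      simp only [placesM, multiplicity_eq_zero.2 h3]
      omega

end Crest.Agent.R169
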