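import Crest.Agent.R169.Pic
import Crest.Agent.R169.Gen

/-! # The filtration principle -/

set_option autoImplicit false

namespace Crest.Agent.R169

noncomputable section

open TensorProduct

variable {K : Type} [Field K] [Algebra K0 K] [Algebra ℂ K] [IsScalarTower ℂ K0 K] {S : Surf K}

/-- Induction on the rank: choose `φ : V → K` nonzero, `W = ker φ`; `I = push φ M`, `L = bidual I` is invertible
with `FinCol I L`; tensor `0 → pull M → M → I → 0` with `H` (`pull_rTensor`, `push_rTensor`, `push_lid`,
`HP_exact`, `rho2_exact`, `HP_tens_finCol`). -/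
theorem exists_pres (r : ℕ) : ∀ (V : Type) [AddCommGroup V] [Module K V] [Module ℂ V]
    [IsScalarTower ℂ K V] (M : Pre V), IsSheaf S M → Module.finrank K V = r →
    ∃ (L : Fin r → Pic S) (δ : ℤ), (∀ a b, HP K M a b = ∑ i, HP K (L i).sh a b - δ) ∧
      ∀ (U : Type) [AddCommGroup U] [Module K U] [Module ℂ U] [IsScalarTower ℂ K U] (H : Pre U),
        IsSheaf S H → LocFree S H →
        (∀ a b, HP K (tens (TensorProduct.mk K V U) M H) a b =
          ∑ i, HP K (act (L i) H) a b - Module.finrank K U * δ) ∧
        ∀ n : Fin r → ℕ, (∀ i, Rho2Le K (act (L i) H) (n i)) →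
          Rho2Le K (tens (TensorProduct.mk K V U) M H) (∑ i, n i) := by
  induction r with
  | zero =>
    intro V _ _ _ _ M hM hr
    have := hM.finiteDimensional
    have : Subsingleton V := Module.finrank_zero_iff.mp hr
    refine ⟨Fin.elim0, 0, fun a b => by simp [HP_of_subsingleton], fun U _ _ _ _ H _ _ =>
      ⟨fun a b => by simp [HP_of_subsingleton], fun n _ => ?_⟩⟩
    unfold Rho2Le
    rw [rank_subsingleton']
    exact zero_le
  | succ r ih =>
    intro V _ _ _ _ M hM hr
    have := hM.finiteDimensional
    have : Nontrivial V := Module.nontrivial_of_finrank_eq_succ hr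
    obtain ⟨v, hv⟩ := exists_ne (0 : V)
    obtain ⟨φ, hφ⟩ := Module.Projective.exists_dual_eq_one K hv
    have hφ0 : φ ≠ 0 := by
      rintro rfl
      simp at hφ
    have hsurj : Function.Surjective φ := fun y => ⟨y • v, by simp [hφ]⟩
    have hW : Module.finrank K (LinearMap.ker φ) = r := by
      have := Module.Dual.finrank_ker_add_one_of_ne_zero hφ0
      omega
    have hinj : Function.Injective (LinearMap.ker φ).subtype := Subtype.val_injective
    obtain ⟨L, δ, h1, h2⟩ := ih (LinearMap.ker φ) (pull (LinearMap.ker φ).subtype M)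
      (hM.pull hinj) hW
    have hI := hM.push hsurj
    obtain ⟨δ0, -, hδ0⟩ := hI.HP_finCol hI.bidual hI.finCol_bidual
    let L0 : Pic S := Pic.mk' _ hI.bidual hI.locFree_bidual
    refine ⟨Fin.cons L0 L, δ + δ0, fun a b => ?_, fun U _ _ _ _ H hH hl => ?_⟩
    · rw [hM.HP_exact hinj hsurj (Submodule.range_subtype _), h1, Fin.sum_univ_succ]
      simp only [Fin.cons_zero, Fin.cons_succ, L0, Pic.sh_mk', hδ0]
      ring
    · obtain ⟨h3, h4⟩ := h2 U H hH hl
      have hT := hM.tens_mk hH
      have hi : Function.Injective ((LinearMap.ker φ).subtype.rTensor U) :=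
        Module.Flat.rTensor_preserves_injective_linearMap _ hinj
      have hπ : Function.Surjective (φ.rTensor U) := LinearMap.rTensor_surjective U hsurj
      have hex : LinearMap.range ((LinearMap.ker φ).subtype.rTensor U)
          = LinearMap.ker (φ.rTensor U) :=
        (LinearMap.exact_iff.mp (rTensor_exact U (LinearMap.exact_subtype_ker_map φ) hsurj)).symm
      refine ⟨fun a b => ?_, fun n hn => ?_⟩
      · have h5 := HP_tens_finCol hI hI.bidual hI.finCol_bidual hδ0 hH hl a b
        rw [hT.HP_exact hi hπ hex, pull_rTensor hinj hM hH hl, push_rTensor, h3,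
          ← HP_push_equiv (TensorProduct.lid K U), push_lid, Fin.sum_univ_succ]
        simp only [Fin.cons_zero, Fin.cons_succ]
        change _ = HP K (tens (LinearMap.lsmul K U) (bidual S (push φ M)) H) a b + _ - _
        rw [h5]
        ring
      · rw [Fin.sum_univ_succ, add_comm]
        refine hT.rho2_exact hi hex ?_ ?_
        · rw [pull_rTensor hinj hM hH hl]
          exact h4 (fun i => n i.succ) fun i => hn i.succ
        · rw [push_rTensor]
          refine Rho2Le.of_push_equiv (TensorProduct.lid K U) ?_
          rw [push_lid]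
          exact Rho2Le.mono (tens_mono _ (fun c => (hI.finCol_bidual c).1) fun _ => le_rfl) (hn 0)

end

end Crest.Agent.R169
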