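import Crest.Agent.R169.SerreAux

/-! # Serre duality for Euler characteristics -/

set_option autoImplicit false

namespace Crest.Agent.R169

noncomputable section

theorem Gam_freeSh_decomp {J : Type} {d : J → ℤ} {b a : ℤ} {n : ℕ} {p : J → K0}
    (hp : p ∈ Gam K0 (freeSh d b) a (b + n)) :
    ∃ p0 ∈ Gam K0 (freeSh d b) a (b + n - 1), ∃ p1 ∈ Gam K0 (freeSh d b) a b,
      p = p0 + mu0 ^ n • p1 := by
  rw [mem_Gam_freeSh] at hp
  simp only [add_sub_cancel_left] at hp
  choose p0 h0 p1 h1 h using fun j => Gam_OO_decomp (hp j)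
  refine ⟨p0, ?_, p1, ?_, funext h⟩
  · rw [mem_Gam_freeSh]
    intro j
    have : b + n - 1 - b = n - 1 := by ring
    rw [this]
    exact h0 j
  · rw [mem_Gam_freeSh]
    intro j
    rw [sub_self]
    exact h1 j

theorem Gam_freeSh_neg {J : Type} {d : J → ℤ} {b a b' : ℤ} (h : b' < b) {p : J → K0}
    (hp : p ∈ Gam K0 (freeSh d b) a b') : p = 0 := by
  rw [mem_Gam_freeSh] at hp
  funext j
  have := hp j
  rwa [Gam_OO_neg (by omega), Submodule.mem_bot] at this

/-- a map out of a split sheaf that sends the generators to sections -/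
theorem linComb_mem_Gam {V : Type} [AddCommGroup V] [Module K0 V] [Module ℂ V] [IsScalarTower ℂ K0 V]
    {M : Pre V} (hM : IsSheaf S0 M) {J : Type} [Fintype J] {d : J → ℤ} {b : ℤ} {w : J → V}
    (hw : ∀ j, w j ∈ Gam K0 M (d j) b) {a b' : ℤ} {p : J → K0}
    (hp : p ∈ Gam K0 (freeSh d b) a b') : ∑ j, p j • w j ∈ Gam K0 M a b' := by
  rw [mem_Gam_freeSh] at hp
  refine Submodule.sum_mem _ fun j _ => ?_
  have := hM.Gam_mul (hp j) (hw j)
  rwa [sub_add_cancel, sub_add_cancel] at this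

theorem linComb_mem_chart {V : Type} [AddCommGroup V] [Module K0 V] [Module ℂ V]
    [IsScalarTower ℂ K0 V] {M : Pre V} (hM : IsSheaf S0 M) {J : Type} [Fintype J] {d : J → ℤ} {b : ℤ}
    {w : J → V} (hw : ∀ j, w j ∈ Gam K0 M (d j) b) {c : Chart} {p : J → K0}
    (hp : p ∈ freeSh d b c) : ∑ j, p j • w j ∈ M c := by
  rw [mem_freeSh] at hp
  refine Submodule.sum_mem _ fun j _ => ?_
  have := hM.smul_mem c (hp j) (mem_Gam.1 (hw j) c)
  rwa [smul_smul, mul_assoc, mul_comm (p j), ← mul_assoc, mul_inv_cancel₀ (tau_ne_zero _ _ _ _),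
    one_mul] at this

/-- Serre duality on `P¹ × P¹`, by a two-term resolution by split sheaves. -/
theorem serre0 {V : Type} [AddCommGroup V] [Module K0 V] [Module ℂ V] [IsScalarTower ℂ K0 V]
    {M : Pre V} (hM : IsSheaf S0 M) (hl : LocFree S0 M) :
    HP K0 (dualP S0 M) (-2) (-2) = chi K0 M := by
  classical
  obtain ⟨b0, -, hgen⟩ := hM.Gam_gen
  obtain ⟨J0, _, w, d, hw, hsp, hun⟩ := exists_split_Gam hM b0
  obtain ⟨J1, _, w', d', hw', hsp', hun'⟩ := exists_split_Gam hM (b0 - 1)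
  have hF0 : IsSheaf S0 (freeSh d b0) := isSheaf_freeSh d b0
  have hF1 : IsSheaf S0 (freeSh d' (b0 + 1)) := isSheaf_freeSh d' (b0 + 1)
  let π : (J0 → K0) →ₗ[K0] V := Fintype.linearCombination K0 w
  have hπ : ∀ p, π p = ∑ j, p j • w j := fun p => Fintype.linearCombination_apply _ _ _
  have hA : ∀ j, ∃ p ∈ Gam K0 (freeSh d b0) (d' j) b0, w' j = π p := fun j => by
    simpa only [hπ] using hsp _ _ (hM.Gam_mono le_rfl (by omega) (hw' j))
  have hB : ∀ j, ∃ p ∈ Gam K0 (freeSh d b0) (d' j) b0, mu0 • w' j = π p := fun j => by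
    have := (hM.isFam2 (d' j)).mul _ _ (hw' j)
    rw [sub_add_cancel] at this
    simpa only [hπ, mu_K0] using hsp _ _ this
  choose α hα hα' using hA
  choose β hβ hβ' using hB
  let col : J1 → J0 → K0 := fun j => mu0 • α j - β j
  have hcol : ∀ j, col j ∈ Gam K0 (freeSh d b0) (d' j) (b0 + 1) := fun j =>
    Submodule.sub_mem _ ((hF0.isFam2 (d' j)).mul _ _ (hα j)) ((hF0.isFam2 (d' j)).mono _ (hβ j))
  let i : (J1 → K0) →ₗ[K0] (J0 → K0) := Fintype.linearCombination K0 col
  have hi : ∀ q, i q = ∑ j, q j • col j := fun q => Fintype.linearCombination_apply _ _ _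
  have hπi : ∀ q, π (i q) = 0 := by
    intro q
    rw [hi, map_sum]
    refine Finset.sum_eq_zero fun j _ => ?_
    simp only [col, map_smul, map_sub, ← hα', ← hβ', sub_self, smul_zero]
  have hiq : ∀ q : J1 → K0, i q = mu0 • ∑ j, q j • α j - ∑ j, q j • β j := by
    intro q
    rw [hi, Finset.smul_sum, ← Finset.sum_sub_distrib]
    refine Finset.sum_congr rfl fun j _ => ?_
    simp only [col, smul_sub, smul_comm (q j) mu0]
  -- shifting between the three split sheaves on `J1`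
  have hshift : ∀ {a : ℤ} {q : J1 → K0} (b b' : ℤ), q ∈ Gam K0 (freeSh d' b) a b →
      q ∈ Gam K0 (freeSh d' b') a b' := by
    intro a q b b' hq
    rw [mem_Gam_freeSh] at hq ⊢
    simpa only [sub_self] using hq
  have hαq : ∀ {a : ℤ} {q : J1 → K0}, q ∈ Gam K0 (freeSh d' b0) a b0 →
      ∑ j, q j • α j ∈ Gam K0 (freeSh d b0) a b0 := fun hq => linComb_mem_Gam hF0 hα hq
  have hβq : ∀ {a : ℤ} {q : J1 → K0}, q ∈ Gam K0 (freeSh d' b0) a b0 →
      ∑ j, q j • β j ∈ Gam K0 (freeSh d b0) a b0 := fun hq => linComb_mem_Gam hF0 hβ hq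
  have hπα : ∀ q : J1 → K0, π (∑ j, q j • α j) = ∑ j, q j • w' j := by
    intro q
    simp only [map_sum, map_smul, ← hα']
  -- the kernel of `π` on sections
  have hker : ∀ (n : ℕ) (a : ℤ), ∀ p ∈ Gam K0 (freeSh d b0) a (b0 + n), π p = 0 →
      ∃ q ∈ Gam K0 (freeSh d' (b0 + 1)) a (b0 + n), i q = p := by
    intro n
    induction n with
    | zero =>
      intro a p hp h0
      rw [Nat.cast_zero, add_zero] at hp
      rw [hun a p hp (by rw [← hπ, h0])]
      exact ⟨0, Submodule.zero_mem _, map_zero _⟩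
    | succ n ih =>
      intro a p hp h0
      obtain ⟨p0, hp0, p1, hp1, rfl⟩ := Gam_freeSh_decomp hp
      have e1 : b0 + ((n + 1 : ℕ) : ℤ) - 1 = b0 + n := by push_cast; ring
      rw [e1] at hp0
      have hy1 : π p1 ∈ Gam K0 M a (b0 - 1 + 1) := by
        rw [sub_add_cancel, hπ]; exact linComb_mem_Gam hM hw hp1
      have hy2 : mu K0 ^ (n + 1) • π p1 ∈ Gam K0 M a (b0 - 1 + (n + 1 : ℕ)) := by
        have e2 : b0 - 1 + ((n + 1 : ℕ) : ℤ) = b0 + n := by push_cast; ring
        have e3 : mu K0 ^ (n + 1) • π p1 = -π p0 := by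
          rw [map_add, map_smul] at h0
          exact eq_neg_of_add_eq_zero_right h0
        rw [e2, e3, hπ]
        exact Submodule.neg_mem _ (linComb_mem_Gam hM hw hp0)
      have hy3 : π p1 ∈ Gam K0 M a (b0 - 1) := (hM.isFam2 a).sat_pow hy1 _ hy2
      obtain ⟨q1, hq1, hq1'⟩ := hsp' a _ hy3
      have hq1a := hshift _ b0 hq1
      have e4 : ∑ j, q1 j • α j = p1 := by
        have := hun a _ (Submodule.sub_mem _ (hαq hq1a) hp1) (by
          rw [← hπ, map_sub, hπα, ← hq1', sub_self])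
        exact sub_eq_zero.1 this
      have hm : p0 + mu0 ^ n • ∑ j, q1 j • β j ∈ Gam K0 (freeSh d b0) a (b0 + n) :=
        Submodule.add_mem _ hp0 ((hF0.isFam2 a).pow_mul (hβq hq1a) n)
      have e5 : p0 + mu0 ^ n • ∑ j, q1 j • β j = p0 + mu0 ^ (n + 1) • p1 - i (mu0 ^ n • q1) := by
        rw [map_smul, hiq, e4, smul_sub, smul_smul, ← pow_succ]
        abel
      obtain ⟨q, hq, hq'⟩ := ih a _ hm (by rw [e5, map_sub, h0, hπi, sub_self])
      refine ⟨q + mu0 ^ n • q1, Submodule.add_mem _ (hF1.Gam_mono le_rfl (by push_cast; omega) hq) ?_, ?_⟩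
      · have := (hF1.isFam2 a).pow_mul (hshift _ (b0 + 1) hq1) n
        have e6 : b0 + 1 + (n : ℤ) = b0 + ((n + 1 : ℕ) : ℤ) := by push_cast; ring
        rwa [e6] at this
      · rw [map_add, hq', e5]
        abel
  -- injectivity of `i`
  have hinj0 : ∀ (n : ℕ) (a : ℤ), ∀ q ∈ Gam K0 (freeSh d' (b0 + 1)) a (b0 + n), i q = 0 → q = 0 := by
    intro n
    induction n with
    | zero =>
      intro a q hq _
      exact Gam_freeSh_neg (by simp) hq
    | succ n ih =>
      intro a q hq h0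
      have e1 : b0 + ((n + 1 : ℕ) : ℤ) = b0 + 1 + n := by push_cast; ring
      rw [e1] at hq
      obtain ⟨q0, hq0, q1, hq1, rfl⟩ := Gam_freeSh_decomp hq
      have e2 : b0 + 1 + (n : ℤ) - 1 = b0 + n := by ring
      rw [e2] at hq0
      have hq1a := hshift _ b0 hq1
      have h1 : ∑ j, q1 j • α j ∈ Gam K0 (freeSh d b0) a (b0 - 1 + 1) := by
        rw [sub_add_cancel]; exact hαq hq1a
      have h2 : mu K0 ^ (n + 1) • ∑ j, q1 j • α j ∈
          Gam K0 (freeSh d b0) a (b0 - 1 + (n + 1 : ℕ)) := by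
        have e3 : b0 - 1 + ((n + 1 : ℕ) : ℤ) = b0 + n := by push_cast; ring
        have e4 : mu K0 ^ (n + 1) • ∑ j, q1 j • α j = mu0 ^ n • ∑ j, q1 j • β j - i q0 := by
          rw [map_add, map_smul, hiq q1, smul_sub, smul_smul, ← pow_succ] at h0
          rw [mu_K0, eq_sub_iff_add_eq, ← sub_eq_zero, ← h0]
          abel
        rw [e3, e4]
        refine Submodule.sub_mem _ ((hF0.isFam2 a).pow_mul (hβq hq1a) n) ?_
        rw [hi]
        exact linComb_mem_Gam hF0 hcol hq0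
      have h3 := Gam_freeSh_neg (by omega) ((hF0.isFam2 a).sat_pow h1 _ h2)
      have h4 : q1 = 0 := hun' a q1 (hshift _ _ hq1) (by rw [← hπα, h3, map_zero])
      subst h4
      rw [smul_zero, add_zero] at h0 ⊢
      exact ih a q0 hq0 h0
  have hlarge : ∀ n : ℕ, ∃ m : ℕ, (n : ℤ) ≤ b0 + m := fun n => ⟨(n - b0).toNat, by omega⟩
  have hinj : Function.Injective i := by
    rw [injective_iff_map_eq_zero]
    intro q hq
    obtain ⟨f, hf, n, hn⟩ := hF1.exists_smul_mem_Gam q
    obtain ⟨m, hm⟩ := hlarge n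
    have := hinj0 m n _ (hn n _ le_rfl hm) (by rw [map_smul, hq, smul_zero])
    exact (smul_eq_zero.1 this).resolve_left hf
  have hsurj0 : ∀ (n : ℕ) (a : ℤ), ∀ v ∈ Gam K0 M a (b0 + n),
      ∃ p ∈ Gam K0 (freeSh d b0) a (b0 + n), π p = v := by
    intro n
    induction n with
    | zero =>
      intro a v hv
      rw [Nat.cast_zero, add_zero] at hv ⊢
      obtain ⟨p, hp, rfl⟩ := hsp a v hv
      exact ⟨p, hp, hπ p⟩
    | succ n ih =>
      intro a v hv
      have e1 : b0 + ((n + 1 : ℕ) : ℤ) = b0 + n + 1 := by push_cast; ring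
      rw [e1] at hv ⊢
      obtain ⟨v0, hv0, v1, hv1, rfl⟩ := hgen a (b0 + n) (by omega) v hv
      obtain ⟨p0, hp0, rfl⟩ := ih a v0 hv0
      obtain ⟨p1, hp1, rfl⟩ := ih a v1 hv1
      exact ⟨p0 + mu K0 • p1, Submodule.add_mem _ ((hF0.isFam2 a).mono _ hp0)
        ((hF0.isFam2 a).mul _ _ hp1), by rw [map_add, map_smul]⟩
  have hsurj : Function.Surjective π := by
    intro v
    obtain ⟨f, hf, n, hn⟩ := hM.exists_smul_mem_Gam v
    obtain ⟨m, hm⟩ := hlarge n
    obtain ⟨p, -, hp⟩ := hsurj0 m n _ (hn n _ le_rfl hm)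
    exact ⟨f⁻¹ • p, by rw [map_smul, hp, smul_smul, inv_mul_cancel₀ hf, one_smul]⟩
  have hex : LinearMap.range i = LinearMap.ker π := by
    apply le_antisymm
    · rintro _ ⟨q, rfl⟩
      exact hπi q
    · intro p hp
      obtain ⟨f, hf, n, hn⟩ := hF0.exists_smul_mem_Gam p
      obtain ⟨m, hm⟩ := hlarge n
      obtain ⟨q, -, hq⟩ := hker m n _ (hn n _ le_rfl hm) (by
        rw [map_smul, LinearMap.mem_ker.1 hp, smul_zero])
      exact ⟨f⁻¹ • q, by rw [map_smul, hq, smul_smul, inv_mul_cancel₀ hf, one_smul]⟩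
  have epush : push π (freeSh d b0) = M := by
    funext c
    apply le_antisymm
    · rintro _ ⟨p, hp, rfl⟩
      show π p ∈ M c
      rw [hπ]
      exact linComb_mem_chart hM hw hp
    · intro v hv
      obtain ⟨n, hn⟩ := hM.tau_smul_mem_Gam c hv
      obtain ⟨m, hm⟩ := hlarge n
      obtain ⟨p, hp, hp'⟩ := hsurj0 m n _ (hn n _ le_rfl hm)
      refine ⟨_, mem_Gam.1 hp c, ?_⟩
      show π _ = v
      rw [map_smul, hp', smul_smul, inv_mul_cancel₀ (tau_ne_zero _ _ _ _), one_smul]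
  have epull : pull i (freeSh d b0) = freeSh d' (b0 + 1) := by
    funext c
    apply le_antisymm
    · intro q hq
      obtain ⟨n, hn⟩ := hF0.tau_smul_mem_Gam c (v := i q) hq
      obtain ⟨m, hm⟩ := hlarge n
      obtain ⟨q', hq', e⟩ := hker m n _ (hn n _ le_rfl hm) (by rw [map_smul, hπi, smul_zero])
      rw [← map_smul] at e
      rw [hinj e] at hq'
      exact mem_of_tau_smul_mem_Gam hq'
    · intro q hq
      show i q ∈ freeSh d b0 c
      rw [hi]
      exact linComb_mem_chart hF0 hcol hq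
  have h1 := HP_dual_exact hF0 hinj hsurj hex (by rw [epush]; exact hl) (-2) (-2)
  have h2 := hF0.HP_exact hinj hsurj hex 0 0
  rw [epush, epull] at h1 h2
  rw [HP_freeSh, HP_freeSh] at h1
  rw [chi]
  linarith

variable {K : Type} [Field K] [Algebra K0 K] [Algebra ℂ K] [IsScalarTower ℂ K0 K] {S : Surf K}

/-- `y ↦ θ (y * ·)` is a `K0`-linear equivalence `K ≃ Dual K0 K` that carries `x⁻¹ ω'` to the `P`-dual of `x`;
`x` is locally free over `P` by `LocFree.toS0`. -/
theorem serre {θ : K →ₗ[K0] K0} {ω' : Pic S} (h : IsDualizing θ ω') (x : Pic S) :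
    chiP (x⁻¹ * (ω' * Ftw S (-2) (-2))) = chiP x := by
  have := S.finiteDimensional
  let φ : K →ₗ[K0] Module.Dual K0 K := (LinearMap.mul K0 K).compr₂ θ
  have hφ : ∀ y z, φ y z = θ (y * z) := fun _ _ => rfl
  have hinj : Function.Injective φ := by
    rw [injective_iff_map_eq_zero]
    intro y hy
    by_contra hy0
    apply h.1
    ext z
    have := LinearMap.congr_fun hy (y⁻¹ * z)
    rwa [hφ, ← mul_assoc, mul_inv_cancel₀ hy0, one_mul] at this
  let e : K ≃ₗ[K0] Module.Dual K0 K :=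
    LinearMap.linearEquivOfInjective φ hinj (Subspace.dual_finrank_eq).symm
  have he : pull e.toLinearMap (dualP S0 x.sh) = (x⁻¹ * ω').sh := by
    funext c
    ext y
    have h1 : y ∈ pull e.toLinearMap (dualP S0 x.sh) c ↔ ∀ z ∈ x.sh c, θ (y * z) ∈ PP K0 c := Iff.rfl
    have h2 : (∀ z ∈ x.sh c, θ (y * z) ∈ PP K0 c) ↔ ∀ z ∈ x.sh c, z * y ∈ ω'.sh c := by
      constructor
      · intro H z hz
        rw [h.2]
        intro r hr
        have := H _ (x.isSheaf.smul_mem c hr hz)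
        rwa [smul_eq_mul, show y * (r * z) = z * y * r by ring] at this
      · intro H z hz
        have := (h.2 c _).1 (H z hz) 1 (S.R c).one_mem
        rwa [mul_one, mul_comm] at this
    rw [h1, h2]
    constructor
    · intro H
      have h3 : (1 : K) ∈ (x⁻¹ * x).sh c := by
        rw [inv_mul_cancel]; exact (S.R c).one_mem
      have h4 : ∀ u ∈ (x⁻¹ * x).sh c, u * y ∈ (x⁻¹ * ω').sh c := by
        intro u hu
        rw [Pic.sh_mul] at hu ⊢
        induction hu using Submodule.span_induction with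
        | mem _ hu =>
          obtain ⟨a, ha, b, hb, rfl⟩ := hu
          exact Submodule.subset_span ⟨a, ha, b * y, H b hb, by simp [mul_assoc]⟩
        | zero => simp
        | add u v _ _ hu hv => rw [add_mul]; exact Submodule.add_mem _ hu hv
        | smul r u _ hu => rw [smul_mul_assoc]; exact Submodule.smul_mem _ r hu
      simpa using h4 1 h3
    · intro H z hz
      have : z * y ∈ (x * (x⁻¹ * ω')).sh c := Submodule.subset_span ⟨z, hz, y, H, rfl⟩
      rwa [mul_inv_cancel_left] at this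
  have h0 := serre0 x.isSheaf.toS0 (x.locFree.toS0 x.isSheaf)
  rw [← HP_pull_equiv e, he, chi, HP_K0 (K := K), HP_K0 (K := K)] at h0
  rw [← mul_assoc, mul_comm _ (Ftw S _ _), chiP, ← act_sh, chi_act_Ftw (Pic.isSheaf _), h0]
  rfl

end

end Crest.Agent.R169
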