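import Crest.Agent.R169.LinkC
import Crest.Agent.R169.Places
import Crest.Agent.R169.PicQ
import Crest.Agent.R169.Serre
import Crest.Agent.R169.Pres
import Crest.Agent.R169.Num
import Crest.Agent.R169.HN

/-! # Bogomolov's inequality -/

set_option autoImplicit false

namespace Crest.Agent.R169

noncomputable section

open TensorProduct

variable {K : Type} [Field K] [Algebra K0 K] [Algebra ℂ K] [IsScalarTower ℂ K0 K] {S : Surf K}

theorem pP_mul (x y : Pic S) : pP (x * y) - pP (1 : Pic S) = (pP x - pP (1 : Pic S)) + (pP y - pP (1 : Pic S)) := by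
  have h := BB_mul_left x y (Ftw S 1 0)
  simp only [BB_Ftw] at h
  linarith

theorem pP_inv (x : Pic S) : pP x⁻¹ - pP (1 : Pic S) = -(pP x - pP (1 : Pic S)) := by
  have h := pP_mul x x⁻¹
  rw [mul_inv_cancel] at h
  linarith

theorem pP_pow (x : Pic S) (n : ℕ) : pP (x ^ n) - pP (1 : Pic S) = n * (pP x - pP (1 : Pic S)) := by
  induction n with
  | zero => simp
  | succ n ih => rw [pow_succ, pP_mul, ih]; push_cast; ring

theorem pP_prod {ι : Type} (s : Finset ι) (L : ι → Pic S) :
    pP (∏ i ∈ s, L i) - pP (1 : Pic S) = ∑ i ∈ s, (pP (L i) - pP (1 : Pic S)) := by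
  classical
  induction s using Finset.induction_on with
  | empty => simp
  | insert a s ha ih => rw [Finset.prod_insert ha, Finset.sum_insert ha, pP_mul, ih]

/-- tensor powers -/
theorem exists_tensor_pow [FiniteDimensional K0 K] (PS : PlaceSys K1) {V : Type} [AddCommGroup V]
    [Module K V] [Module ℂ V] [IsScalarTower ℂ K V] {G : Pre V} (hG : IsSheaf S G) (hl : LocFree S G)
    {r : ℕ} (hr : Module.finrank K V = r) {L : Fin r → Pic S} {δ : ℤ}
    (hpres : ∀ (U : Type) [AddCommGroup U] [Module K U] [Module ℂ U] [IsScalarTower ℂ K U] (H : Pre U),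
        IsSheaf S H → LocFree S H →
        (∀ a b, HP K (tens (TensorProduct.mk K V U) G H) a b =
          ∑ i, HP K (act (L i) H) a b - Module.finrank K U * δ) ∧
        ∀ n : Fin r → ℕ, (∀ i, Rho2Le K (act (L i) H) (n i)) →
          Rho2Le K (tens (TensorProduct.mk K V U) G H) (∑ i, n i))
    {lo hi : ℚ} (hT : CTri PS K G lo hi) (m : ℕ) :
    ∃ (U : Type) (_ : AddCommGroup U) (_ : Module K U) (_ : Module ℂ U) (_ : IsScalarTower ℂ K U)
      (H : Pre U), IsSheaf S H ∧ LocFree S H ∧ Module.finrank K U = r ^ m ∧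
      (∀ y : Pic S, chi K (act y H) = (avg L)^[m] chiP y - (m : ℤ) * (r : ℤ) ^ (m - 1) * δ) ∧
      (∀ y : Pic S, ∃ n : ℕ, (n : ℤ) = (avg L)^[m]
        (fun y => ((qP y - qP (1 : Pic S) + (Module.finrank K0 K : ℕ)).toNat : ℤ)) y ∧
        Rho2Le K (act y H) n) ∧
      (∀ (y : Pic S) (lo' hi' : ℚ), CTri PS K y.sh lo' hi' →
        CTri PS K (act y H) (lo' + m * lo) (hi' + m * hi)) := by
  induction m with
  | zero =>
    have e : ∀ y : Pic S, act y (OO S) = y.sh := fun y => by
      rw [← Pic.sh_one, act_sh, mul_one]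
    refine ⟨K, inferInstance, inferInstance, inferInstance, inferInstance, OO S, isSheaf_OO S,
      locFree_OO S, by simp, fun y => ?_, fun y => ⟨_, rfl, ?_⟩, fun y lo' hi' h => ?_⟩
    · simp [e, chiP]
    · rw [e]
      exact y.isSheaf.rho2_rank_one
    · simpa [e] using h
  | succ m ih =>
    obtain ⟨U, _, _, _, _, H, hH, hlH, hrk, hchi, hrho, htri⟩ := ih
    have := hG.finiteDimensional
    have := hH.finiteDimensional
    refine ⟨V ⊗[K] U, inferInstance, inferInstance, inferInstance, inferInstance,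
      tens (TensorProduct.mk K V U) G H, hG.tens_mk hH, LocFree.tens_mk hG hH hl hlH, ?_,
      fun y => ?_, fun y => ?_, fun y lo' hi' h => ?_⟩
    · rw [Module.finrank_tensorProduct, hr, hrk, pow_succ']
    · rw [act_tens, chi, (hpres U (act y H) (hH.act y) (hlH.act hH y)).1 0 0, hrk,
        Function.iterate_succ_apply']
      have e : ∀ i, HP K (act (L i) (act y H)) 0 0 =
          (avg L)^[m] chiP (L i * y) - (m : ℤ) * (r : ℤ) ^ (m - 1) * δ := fun i => by
        rw [← hchi, act_mul]; rfl
      simp only [e, Finset.sum_sub_distrib, Finset.sum_const, Finset.card_univ, Fintype.card_fin,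
        nsmul_eq_mul, avg, Nat.add_sub_cancel]
      push_cast
      rcases m with _ | m
      · simp
      · simp only [Nat.add_sub_cancel]
        push_cast
        ring
    · choose n hn hn' using hrho
      refine ⟨∑ i, n (L i * y), ?_, ?_⟩
      · rw [Function.iterate_succ_apply']
        push_cast
        simp only [hn, avg]
      · rw [act_tens]
        refine (hpres U (act y H) (hH.act y) (hlH.act hH y)).2 _ fun i => ?_
        rw [← act_mul]
        exact hn' _
    · rw [act_tens]
      have := hT.tens_mk PS (htri y lo' hi' h)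
      refine this.mono PS (le_of_eq ?_) (le_of_eq ?_) <;> push_cast <;> ring

theorem bogomolov {θ : K →ₗ[K0] K0} {ω' : Pic S} (h : IsDualizing θ ω') :
    BogProp S (kappa (ω' * Ftw S (-2) (-2))) := by
  intro V _ _ _ _ M hM hs hr
  have := S.finiteDimensional
  obtain ⟨PS⟩ := exists_placeSys K1
  obtain ⟨b1, hb1⟩ := key_bound PS S
  have he : 0 < Module.finrank K0 K := Module.finrank_pos
  have hG := hM.bidual
  have hlG := hM.locFree_bidual
  have hfc := hM.finCol_bidual
  set G := bidual S M with hGdef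
  obtain ⟨δ0, hδ0, hHP⟩ := hM.HP_finCol hG hfc
  have hp : pc K G = pc K M := by simp only [pc, hHP]; ring
  have hq : qc K G = qc K M := by simp only [qc, hHP]; ring
  have hc : chi K G = chi K M + δ0 := by simp only [chi, hHP]
  have hsG : SemiSt K G := by
    intro W
    obtain ⟨δ1, -, h1⟩ := (hM.pull W.injective_subtype).HP_finCol (hG.pull W.injective_subtype)
      (hfc.pull W.injective_subtype)
    have : pc K (pull W.subtype G) = pc K (pull W.subtype M) := by simp only [pc, h1]; ring
    rw [this, hp]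
    exact hs W
  set r := Module.finrank K V with hrdef
  set e := Module.finrank K0 K with hedef
  obtain ⟨L, δ, hL, hpres⟩ := exists_pres r V G hG rfl
  have hpL : pc K G = ∑ i, pP (L i) := by
    simp only [pc, hL, pP, Finset.sum_sub_distrib]; ring
  have hqL : qc K G = ∑ i, qP (L i) := by
    simp only [qc, hL, qP, Finset.sum_sub_distrib]; ring
  have hcL : chi K G = ∑ i, chiP (L i) - δ := by
    simp only [chi, hL, chiP]
  have hr' : (0 : ℚ) < r := by exact_mod_cast hr
  have he' : (0 : ℚ) < e := by exact_mod_cast he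
  -- rank one sheaves on the generic fibre
  have hone : ∀ (x : Pic S) (ε : ℚ), 0 < ε →
      CTri PS K x.sh ((pP x - pP (1 : Pic S) : ℤ) / e - ε) ((pP x - pP (1 : Pic S) : ℤ) / e + ε) := by
    intro x ε hε
    have := x.isSheaf.cTri_of_semiSt PS (semiSt_rank_one x.sh) (by simp) hε
    simpa [pP, Pic.sh_one] using this
  have hnum := num_bogomolov (G := Pic S) chiP pP qP (Ftw S) e he Ftw_add chiP_mul_Ftw
    second_diff (ω' * Ftw S (-2) (-2)) (serre h) b1 ?_ r hr L δ ?_
  · rw [← hpL, ← hqL, ← hcL, hp, hq, hc] at hnum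
    have hδ0' : (0 : ℚ) ≤ δ0 := by exact_mod_cast hδ0
    simp only [kappa, BB]
    push_cast at hnum ⊢
    nlinarith [mul_nonneg (mul_pos hr' he').le hδ0']
  · intro x hx
    have h1 := hone x (1 / 2) (by norm_num)
    have := hb1 K x.sh x.isSheaf _ _ h1 (by rw [hx]; norm_num) (by rw [hx]; norm_num) _
      x.isSheaf.rho2_rank_one
    rw [← chi_act_Ftw x.isSheaf, act_sh, mul_comm] at this
    exact this
  · intro n
    set ε : ℚ := 1 / (2 * ((r * n : ℕ) + 1)) with hε
    have hε0 : 0 < ε := by positivity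
    have hT := hG.cTri_of_semiSt PS hsG hr hε0
    obtain ⟨U, _, _, _, _, H, hH, hlH, -, hchi, hrho, htri⟩ :=
      exists_tensor_pow PS hG hlG rfl hpres hT (r * n)
    set y : Pic S := ((∏ i, L i) ^ n)⁻¹ with hy
    obtain ⟨k, hk, hk'⟩ := hrho y
    have hpy : pP y - pP (1 : Pic S) = -(n * (pc K G - r * pc K (OO S))) := by
      rw [hy, pP_inv, pP_pow, pP_prod, Finset.sum_sub_distrib, ← hpL]
      simp [pP, Pic.sh_one]
    have h2 := htri y _ _ (hone y ε hε0)
    have hεn : ((r * n : ℕ) + 1 : ℚ) * ε = 1 / 2 := by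
      rw [hε]; field_simp
    have hmu : ((pP y - pP (1 : Pic S) : ℤ) : ℚ) / e + (r * n : ℕ) *
        ((pc K G - r * pc K (OO S) : ℚ) / (r * e)) = 0 := by
      rw [hpy]; push_cast; field_simp; ring
    have := hb1 U (act y H) (hH.act y) _ _ h2 (by nlinarith) (by nlinarith) k hk'
    rw [← chi_act_Ftw (hH.act y), ← act_mul, hchi, hk, mul_comm (Ftw S 0 b1)] at this
    exact this

end

end Crest.Agent.R169
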