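import Crest.Agent.R169.Defs

/-!
# Row 169: definitions for the curve theory (adelic vector bundles)

`PlaceSys k` describes the places of `k(X)`.  `AdSys L` is an abstract "adelic system" on a field `L`:
subrings `I v` (Bezout, fraction field `L`) and normalised additive valuations-like functions `ν v`
with a product formula.  A vector bundle is a family of invertible matrices `g v`, whose columns
span the local lattices `Lat v (g v)`.
-/

set_option autoImplicit false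

namespace Crest.Agent.R169

noncomputable section

open Polynomial Matrix

/-- The places of `k(X)`; `nu v` is the order at `v` times the degree of `v`. -/
structure PlaceSys (k : Type) [Field k] where
  ι : Type
  inf : ι
  O : ι → Subalgebra k (RatFunc k)
  nu : ι → RatFunc k → ℤ
  nu_mul : ∀ v f g, f ≠ 0 → g ≠ 0 → nu v (f * g) = nu v f + nu v g
  mem_iff : ∀ v f, f ≠ 0 → (f ∈ O v ↔ 0 ≤ nu v f)
  dvr : ∀ v, IsDiscreteValuationRing (O v)
  fin_supp : ∀ f, {v | f ∉ O v}.Finite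
  prod : ∀ f, f ≠ 0 → ∑ᶠ v, nu v f = 0
  nu_inf_X : nu inf RatFunc.X = -1
  poly_mem : ∀ v, v ≠ inf → ∀ p : k[X], algebraMap k[X] (RatFunc k) p ∈ O v
  loc_fin : ∀ v, v ≠ inf → ∀ f ∈ O v, ∃ s t : k[X], s ≠ 0 ∧ nu v (algebraMap k[X] (RatFunc k) s) = 0 ∧
    algebraMap k[X] (RatFunc k) s * f = algebraMap k[X] (RatFunc k) t
  loc_inf : ∀ f, f ∈ O inf ↔ ∃ s t : k[X], s.coeff 0 ≠ 0 ∧
    aeval (RatFunc.X : RatFunc k)⁻¹ s * f = aeval (RatFunc.X : RatFunc k)⁻¹ t
  glob : ∀ f, (∀ v, v ≠ inf → f ∈ O v) → ∃ p : k[X], f = algebraMap k[X] (RatFunc k) p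
  approx : ∀ v, v ≠ inf → ∀ f, ∃ s : k[X], s ≠ 0 ∧ nu v (algebraMap k[X] (RatFunc k) s) = 0 ∧
    ∀ w, w ≠ inf → w ≠ v → algebraMap k[X] (RatFunc k) s * f ∈ O w

/-- An abstract adelic system on a field `L`. -/
structure AdSys (L : Type) [Field L] where
  ι : Type
  I : ι → Subring L
  ν : ι → L → ℚ
  ν_mul : ∀ v x y, x ≠ 0 → y ≠ 0 → ν v (x * y) = ν v x + ν v y
  ν_nonneg : ∀ v x, x ≠ 0 → x ∈ I v → 0 ≤ ν v x
  fin_supp : ∀ x, {v | x ∉ I v}.Finite
  prod : ∀ x, x ≠ 0 → ∑ᶠ v, ν v x = 0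
  bezout : ∀ v (x y : L), ∃ g a b x' y' : L, a ∈ I v ∧ b ∈ I v ∧ x' ∈ I v ∧ y' ∈ I v ∧
    g = a * x + b * y ∧ x = g * x' ∧ y = g * y'

namespace AdSys

variable {L : Type} [Field L] (A : AdSys L)

/-- the lattice spanned by the columns of `g` at the place `v` -/
def Lat {n m : Type} [Fintype m] (v : A.ι) (g : Matrix n m L) : Set (n → L) :=
  {x | ∃ y : m → L, (∀ i, y i ∈ A.I v) ∧ x = g *ᵥ y}

def IsIdele (c : A.ι → L) : Prop :=
  (∀ v, c v ≠ 0) ∧ {v | c v ∉ A.I v ∨ (c v)⁻¹ ∉ A.I v}.Finite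

/-- normalised degree of the line bundle with local generators `c v` -/
def deg (c : A.ι → L) : ℚ := -∑ᶠ v, A.ν v (c v)

variable {n : Type} [Fintype n] [DecidableEq n]

structure IsBun (g : A.ι → Matrix n n L) : Prop where
  det_ne : ∀ v, (g v).det ≠ 0
  ae : {v | A.Lat v (g v) ≠ A.Lat v (1 : Matrix n n L)}.Finite

/-- normalised degree of a bundle -/
def D (g : A.ι → Matrix n n L) : ℚ := A.deg (fun v => (g v).det)

/-- every line subsheaf has degree at most `t` -/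
def Bd (g : A.ι → Matrix n n L) (t : ℚ) : Prop :=
  ∀ x : n → L, x ≠ 0 → ∀ c : A.ι → L, A.IsIdele c → (∀ v, c v • x ∈ A.Lat v (g v)) → A.deg c ≤ t

/-- there is a flag all of whose line quotients have degree in `[lo, hi]` -/
def Tri (g : A.ι → Matrix n n L) (lo hi : ℚ) : Prop :=
  ∃ (h : Matrix n n L) (t : A.ι → Matrix n n L) (ρ : n → ℕ), h.det ≠ 0 ∧
    (∀ v, A.Lat v (g v) = A.Lat v (h * t v)) ∧ (∀ v i j, t v i j ≠ 0 → i = j ∨ ρ i < ρ j) ∧
    ∀ i, lo ≤ A.deg (fun v => t v i i) ∧ A.deg (fun v => t v i i) ≤ hi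

/-- every subbundle has slope at most `μ` -/
def SemiAd (g : A.ι → Matrix n n L) (μ : ℚ) : Prop :=
  ∀ (s : ℕ) (w : Matrix n (Fin s) L) (t : A.ι → Matrix (Fin s) (Fin s) L),
    Function.Injective w.mulVec → A.IsBun t →
    (∀ v z, w *ᵥ z ∈ A.Lat v (g v) ↔ z ∈ A.Lat v (t v)) → A.D t ≤ s * μ

/-- Riemann's inequality, for bundles defined over a finitely generated subfield -/
def RR : Prop :=
  ∀ T : Finset L, ∃ γ : ℚ, ∀ (m : ℕ) (g : A.ι → Matrix (Fin m) (Fin m) L), A.IsBun g →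
    (∀ v i j, g v i j ∈ Subfield.closure (T : Set L)) → m * γ < A.D g →
    ∃ x : Fin m → L, x ≠ 0 ∧ ∀ v, x ∈ A.Lat v (g v)

/-- there is a line bundle of degree one with finitely many distinct local generators -/
def HasOne : Prop := ∃ u : A.ι → L, A.IsIdele u ∧ A.deg u = 1 ∧ (Set.range u).Finite

end AdSys

namespace PlaceSys

variable {k : Type} [Field k] (PS : PlaceSys k) (L : Type) [Field L] [Algebra (RatFunc k) L]

/-- the integral closure of `O v` in `L` -/
def I (v : PS.ι) : Subring L := (integralClosure (PS.O v) L).toSubring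

/-- normalised order of the norm -/
def nuL (v : PS.ι) (x : L) : ℚ :=
  (PS.nu v ((minpoly (RatFunc k) x).coeff 0) : ℚ) / ((minpoly (RatFunc k) x).natDegree : ℚ)

end PlaceSys

end

end Crest.Agent.R169
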