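import Mathlib

/-! # Maximal Cohen–Macaulay modules are free over the base -/

set_option autoImplicit false

namespace Crest.Agent.R169

open IsLocalRing RingTheory.Sequence

open Pointwise in
theorem cm_ann_quot {B : Type} [CommRing B] (M : Type) [AddCommGroup M] [Module B M] (x : B)
    (xs : List B) : Module.annihilator B M ⊔ Ideal.ofList (x :: xs) ≤
      Module.annihilator B (QuotSMulTop x M) ⊔ Ideal.ofList xs := by
  rw [Ideal.ofList_cons]
  refine sup_le (le_sup_of_le_left ?_) (sup_le (le_sup_of_le_left ?_) le_sup_right)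
  · exact (x • (⊤ : Submodule B M)).mkQ.annihilator_le_of_surjective (Submodule.mkQ_surjective _)
  · rw [Ideal.span_singleton_le_iff_mem, Module.mem_annihilator]
    intro m
    obtain ⟨m, rfl⟩ := Submodule.mkQ_surjective _ m
    rw [← map_smul, Submodule.mkQ_apply, Submodule.Quotient.mk_eq_zero]
    exact Submodule.smul_mem_pointwise_smul _ _ _ trivial

theorem cm_dim_le {B : Type} [CommRing B] [IsNoetherianRing B] [IsLocalRing B] (xs : List B) :
    ∀ (N : Type) [AddCommGroup N] [Module B N] [Module.Finite B N],
      (∀ x ∈ xs, x ∈ maximalIdeal B) →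
      maximalIdeal B ≤ (Module.annihilator B N ⊔ Ideal.ofList xs).radical →
      Module.supportDim B N ≤ (xs.length : ℕ) := by
  induction xs with
  | nil =>
    intro N _ _ _ _ h
    have : Subsingleton (Module.support B N) := by
      have key : ∀ p ∈ Module.support B N, p.asIdeal = maximalIdeal B := by
        intro p hp
        rw [Module.support_eq_zeroLocus, PrimeSpectrum.mem_zeroLocus, SetLike.coe_subset_coe] at hp
        refine le_antisymm (le_maximalIdeal p.2.ne_top) (h.trans ?_)
        rw [Ideal.ofList_nil, sup_bot_eq]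
        exact p.2.radical_le_iff.2 hp
      exact ⟨fun p q => Subtype.ext (PrimeSpectrum.ext ((key _ p.2).trans (key _ q.2).symm))⟩
    exact Order.krullDim_nonpos_of_subsingleton
  | cons x xs ih =>
    intro N _ _ _ hx h
    have h1 := Module.supportDim_le_supportDim_quotSMulTop_succ (M := N) (hx x List.mem_cons_self)
    have h2 := ih (QuotSMulTop x N) (fun y hy => hx y (List.mem_cons_of_mem _ hy))
      (h.trans (Ideal.radical_mono (cm_ann_quot N x xs)))
    refine h1.trans ?_
    rw [List.length_cons, Nat.cast_add, Nat.cast_one]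
    gcongr

open Pointwise in
theorem cm_le_dim {B : Type} [CommRing B] [IsNoetherianRing B] [IsLocalRing B] (rs : List B) :
    ∀ (M N : Type) [AddCommGroup M] [Module B M] [Module.Finite B M] [AddCommGroup N] [Module B N]
      [Nontrivial N] (f : N →ₗ[B] M), Function.Injective f → (∀ r ∈ rs, r ∈ maximalIdeal B) →
      IsWeaklyRegular M rs → ((rs.length : ℕ) : WithBot ℕ∞) ≤ Module.supportDim B N := by
  induction rs with
  | nil =>
    intro M N _ _ _ _ _ _ f _ _ _
    have : Nonempty (Module.support B N) := Module.nonempty_support_of_nontrivial.to_subtype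
    exact Order.krullDim_nonneg
  | cons r rs ih =>
    intro M N _ _ _ _ _ _ f hf hr h
    rw [isWeaklyRegular_cons_iff] at h
    obtain ⟨N', ⟨hN1, k, hk⟩, hmax⟩ := set_has_maximal_iff_noetherian.2 (inferInstance : IsNoetherian B M)
      {N' : Submodule B M | LinearMap.range f ≤ N' ∧ ∃ k : ℕ, ∀ m ∈ N', r ^ k • m ∈ LinearMap.range f}
      ⟨LinearMap.range f, le_rfl, 0, fun m hm => by simpa using hm⟩
    have hsat : ∀ m, r • m ∈ N' → m ∈ N' := by
      intro m hm
      by_contra hm'
      refine hmax (N' ⊔ Submodule.span B {m}) ⟨hN1.trans le_sup_left, k + 1, fun y hy => ?_⟩ ?_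
      · obtain ⟨a, ha, b, hb, rfl⟩ := Submodule.mem_sup.1 hy
        obtain ⟨c, rfl⟩ := Submodule.mem_span_singleton.1 hb
        rw [pow_succ, mul_smul]
        apply hk
        rw [smul_add, smul_comm r c m]
        exact N'.add_mem (N'.smul_mem _ ha) (N'.smul_mem _ hm)
      · refine lt_of_le_of_ne le_sup_left fun e => hm' ?_
        rw [e]
        exact Submodule.mem_sup_right (Submodule.mem_span_singleton_self m)
    have : Nontrivial N' := by
      obtain ⟨a, ha⟩ := exists_ne (0 : N)
      refine ⟨⟨⟨f a, hN1 ⟨a, rfl⟩⟩, 0, fun e => ha (hf ?_)⟩⟩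
      rw [map_zero]
      exact congrArg Subtype.val e
    have hrm := hr r List.mem_cons_self
    have := nontrivial_quotSMulTop_of_mem_maximalIdeal N' hrm
    have h1 := ih (QuotSMulTop r M) (QuotSMulTop r N') (QuotSMulTop.map r N'.subtype) (by
      rw [injective_iff_map_eq_zero]
      intro a ha
      obtain ⟨a, rfl⟩ := Submodule.Quotient.mk_surjective _ a
      rw [QuotSMulTop.map_apply_mk, Submodule.Quotient.mk_eq_zero,
        Submodule.mem_smul_pointwise_iff_exists] at ha
      obtain ⟨b, -, hb⟩ := ha
      have hb' : r • b = a.1 := hb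
      rw [Submodule.Quotient.mk_eq_zero, Submodule.mem_smul_pointwise_iff_exists]
      exact ⟨⟨b, hsat b (by rw [hb']; exact a.2)⟩, trivial, Subtype.ext hb'⟩)
      (fun y hy => hr y (List.mem_cons_of_mem _ hy)) h.2
    have hreg : IsSMulRegular N' r := fun a b e => Subtype.ext (h.1 (congrArg Subtype.val e))
    have h2 := Module.supportDim_quotSMulTop_succ_eq_supportDim hreg hrm
    have h3 : Module.supportDim B N' ≤ Module.supportDim B N := by
      refine Module.supportDim_le_of_injective ((LinearEquiv.ofInjective f hf).symm.toLinearMap.comp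
        (LinearMap.codRestrict _ (r ^ k • N'.subtype) fun m => hk m m.2)) ?_
      refine (LinearEquiv.ofInjective f hf).symm.injective.comp fun a b e => ?_
      exact Subtype.ext (h.1.pow k (congrArg Subtype.val e))
    refine le_trans ?_ h3
    rw [← h2, List.length_cons, Nat.cast_add, Nat.cast_one]
    gcongr

open CategoryTheory Abelian Limits in
theorem cm_rees {B : Type} [CommRing B] [IsNoetherianRing B] [IsLocalRing B] (n : ℕ)
    (M : Type) [AddCommGroup M] [Module B M] [Module.Finite B M] (rs : List B)
    (hl : rs.length = n + 1) (hr : ∀ r ∈ rs, r ∈ maximalIdeal B) (h : IsRegular M rs) {x : B}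
    (hxm : x ∈ maximalIdeal B) (hx : IsSMulRegular M x) :
    ∃ rs' : List B, rs'.length = n ∧ (∀ r ∈ rs', r ∈ maximalIdeal B) ∧
      IsRegular (QuotSMulTop x M) rs' := by
  have := h.nontrivial
  have := nontrivial_quotSMulTop_of_mem_maximalIdeal M hxm
  have suppQ : Module.support B (B ⧸ maximalIdeal B) = PrimeSpectrum.zeroLocus (maximalIdeal B) := by
    rw [Module.support_eq_zeroLocus, Ideal.annihilator_quotient]
  have h_ext := ModuleCat.subsingleton_ext_of_exists_isRegular (maximalIdeal B)
    (ModuleCat.of B (B ⧸ maximalIdeal B)) suppQ.subset (ModuleCat.of B M)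
    (Submodule.top_ne_ideal_smul_of_le_jacobson_annihilator (maximalIdeal_le_jacobson _)).symm.lt_top
    rs hr h
  refine ModuleCat.exists_isRegular_of_exists_subsingleton_ext (maximalIdeal B) n
    (ModuleCat.of B (QuotSMulTop x M))
    (Submodule.top_ne_ideal_smul_of_le_jacobson_annihilator (maximalIdeal_le_jacobson _)).symm.lt_top
    (ModuleCat.of B (B ⧸ maximalIdeal B)) suppQ fun i hi => ?_
  have zero1 := AddCommGrpCat.isZero_of_iff_subsingleton.mpr (h_ext i (by omega))
  have zero2 := AddCommGrpCat.isZero_of_iff_subsingleton.mpr (h_ext (i + 1) (by omega))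
  exact AddCommGrpCat.subsingleton_of_isZero <| ShortComplex.Exact.isZero_of_both_zeros
    ((Ext.covariant_sequence_exact₃' (ModuleCat.of B (B ⧸ maximalIdeal B))
      (IsSMulRegular.smulShortComplex_shortExact (M := ModuleCat.of B M) hx)) i (i + 1) rfl)
    (zero1.eq_zero_of_src _) (zero2.eq_zero_of_tgt _)

/-- Systems of parameters of a module of depth `n` are regular.  Plan: induction on `n`.
(α) for `𝔭 ∈ Ass M`, a regular sequence in `𝔪` has length `≤ dim B ⧸ 𝔭` (induction: choose `m` killed by `𝔭` and not in `r₁ M`,
a maximal cyclic submodule; then `𝔭 + (r₁)` lies in an associated prime of `M ⧸ r₁ M`).  If `x₁ ∈ 𝔭 ∈ Ass M` then `𝔪` is the radical of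
`𝔭 + (x₂, …, xₙ)`, so `dim B ⧸ 𝔭 ≤ n - 1`.  So `x₁` is regular.
(β) `M ⧸ x₁ M` has a regular sequence of length `n - 1` in `𝔪` (Rees: `ModuleCat.exists_isRegular_tfae` and the long exact `Ext` sequence, see
`Mathlib/RingTheory/Depth/Rees.lean`, or an elementary exchange argument). -/
theorem isWeaklyRegular_of_sop {B : Type} [CommRing B] [IsNoetherianRing B] [IsLocalRing B] (n : ℕ) :
    ∀ (M : Type) [AddCommGroup M] [Module B M] [Module.Finite B M] (rs xs : List B),
      rs.length = n → xs.length = n → (∀ r ∈ rs, r ∈ maximalIdeal B) → (∀ x ∈ xs, x ∈ maximalIdeal B) →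
      IsRegular M rs → maximalIdeal B ≤ (Module.annihilator B M ⊔ Ideal.ofList xs).radical →
      IsWeaklyRegular M xs := by
  induction n with
  | zero =>
    intro M _ _ _ rs xs _ hx _ _ _ _
    rw [List.length_eq_zero_iff.1 hx]
    exact IsWeaklyRegular.nil B M
  | succ n ih =>
    intro M _ _ _ rs xs hr hx hrm hxm hreg hrad
    match xs, hx with
    | x :: xs, hx =>
      have hx' : xs.length = n := by simpa using hx
      have hxm' : ∀ y ∈ xs, y ∈ maximalIdeal B := fun y hy => hxm y (List.mem_cons_of_mem _ hy)
      have h1 : IsSMulRegular M x := by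
        by_contra hc
        let K : Submodule B M := LinearMap.ker (x • LinearMap.id)
        have : Nontrivial K := by
          rw [Submodule.nontrivial_iff_ne_bot]
          intro e
          exact hc (LinearMap.ker_eq_bot.1 e)
        have h2 := cm_le_dim rs M K K.subtype K.injective_subtype hrm hreg.1
        have h3 := cm_dim_le xs K hxm' (hrad.trans (Ideal.radical_mono (by
          rw [Ideal.ofList_cons]
          refine sup_le (le_sup_of_le_left ?_) (sup_le (le_sup_of_le_left ?_) le_sup_right)
          · exact K.subtype.annihilator_le_of_injective K.injective_subtype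
          · rw [Ideal.span_singleton_le_iff_mem, Module.mem_annihilator]
            intro m
            exact Subtype.ext m.2)))
        have h4 := h2.trans h3
        rw [hr, hx'] at h4
        have : n + 1 ≤ n := by exact_mod_cast h4
        omega
      obtain ⟨rs', l1, l2, l3⟩ := cm_rees n M rs hr hrm hreg (hxm x List.mem_cons_self) h1
      rw [isWeaklyRegular_cons_iff]
      exact ⟨h1, ih _ rs' xs l1 hx' l2 hxm' l3
        (hrad.trans (Ideal.radical_mono (cm_ann_quot M x xs)))⟩

/-- If the maximal ideal is generated by an `M`-regular sequence then `M` is free: for a minimal presentation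
`0 → Z → F → M → 0` one has `Z ⊓ (x₁, …, x_j) F = (x₁, …, x_j) Z`, so `Z = 𝔪 Z`. -/
theorem free_of_isWeaklyRegular {A : Type} [CommRing A] [IsNoetherianRing A] [IsLocalRing A]
    (M : Type) [AddCommGroup M] [Module A M] [Module.Finite A M] (xs : List A)
    (hx : maximalIdeal A = Ideal.ofList xs) (h : IsWeaklyRegular M xs) : Module.Free A M := by
  induction hn : xs.length generalizing A M xs with
  | zero =>
    rw [List.length_eq_zero_iff.1 hn, Ideal.ofList_nil] at hx
    have hf : IsField A := IsLocalRing.isField_iff_maximalIdeal_eq.2 hx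
    let _ := hf.toField
    infer_instance
  | succ n ih =>
    match xs, hn with
    | x :: xs, hn =>
      have hxm : x ∈ maximalIdeal A := by
        rw [hx, Ideal.ofList_cons]
        exact Ideal.mem_sup_left (Ideal.mem_span_singleton_self x)
      rw [isWeaklyRegular_cons_iff'] at h
      have : Nontrivial (A ⧸ Ideal.span {x}) := Ideal.Quotient.nontrivial_iff.2 (by
        rw [Ne, Ideal.span_singleton_eq_top]; exact hxm)
      have : IsLocalRing (A ⧸ Ideal.span {x}) :=
        IsLocalRing.of_surjective' (Ideal.Quotient.mk _) Ideal.Quotient.mk_surjective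
      have : Module.Finite (A ⧸ Ideal.span {x}) (QuotSMulTop x M) :=
        Module.Finite.of_restrictScalars_finite A _ _
      have : Module.FinitePresentation A M := Module.finitePresentation_of_finite A M
      refine (Module.free_quotSMulTop_iff_free A M (maximalIdeal_le_jacobson _ hxm) h.1).1 ?_
      refine ih (QuotSMulTop x M) _ ?_ h.2 (by simpa using hn)
      rw [← IsLocalRing.map_maximalIdeal_of_surjective (Ideal.Quotient.mk (Ideal.span {x}))
        Ideal.Quotient.mk_surjective, hx, Ideal.ofList_cons, Ideal.map_sup, Ideal.map_quotient_self,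
        bot_sup_eq, Ideal.map_ofList]

theorem free_of_mcm {A B : Type} [CommRing A] [IsNoetherianRing A] [IsLocalRing A] [CommRing B]
    [IsLocalRing B] [Algebra A B] [Module.Finite A B] [IsLocalHom (algebraMap A B)]
    (xs : List A) (hx : maximalIdeal A = Ideal.ofList xs)
    (M : Type) [AddCommGroup M] [Module B M] [Module.Finite B M] [Module A M] [IsScalarTower A B M]
    (rs : List B) (hl : rs.length = xs.length) (hrs : ∀ r ∈ rs, r ∈ maximalIdeal B)
    (h : IsRegular M rs) : Module.Free A M := by
  have : IsNoetherianRing B := Algebra.FiniteType.isNoetherianRing A B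
  have : Module.Finite A M := Module.Finite.trans B M
  refine free_of_isWeaklyRegular M xs hx ((isWeaklyRegular_map_algebraMap_iff B M xs).1 ?_)
  refine isWeaklyRegular_of_sop xs.length M rs _ hl (by simp) hrs (fun y hy => ?_) h ?_
  · obtain ⟨x, hx', rfl⟩ := List.mem_map.1 hy
    apply map_nonunit (algebraMap A B) x
    rw [hx]
    exact Ideal.subset_span hx'
  · refine le_trans ?_ (Ideal.radical_mono le_sup_right)
    rw [Ideal.radical_eq_sInf]
    refine le_sInf fun P ⟨h1, h2⟩ => ?_
    rw [← Ideal.map_ofList, ← hx, Ideal.map_le_iff_le_comap] at h1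
    have h3 : (P.comap (algebraMap A B)).IsMaximal := by
      rw [← (maximalIdeal.isMaximal A).eq_of_le (Ideal.comap_ne_top _ h2.ne_top) h1]
      infer_instance
    exact (eq_maximalIdeal (Ideal.isMaximal_of_isIntegral_of_isMaximal_comap P h3)).ge

end Crest.Agent.R169
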