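import Crest.Agent.R169.YDefs
import Crest.Agent.R169.PicQ

/-! # Double covers: the surface structure and the pullback -/

set_option autoImplicit false

namespace Crest.Agent.R169

noncomputable section

/-- regularity of `B = A[w]`, `w² = s`, at a prime `𝔪'` -/
theorem dc_reg_alg {A B : Type} [CommRing A] [CommRing B] [Algebra ℂ A] (ρ : A →+* B)
    (𝔪' : Ideal B) (h𝔪' : 𝔪'.IsPrime) (w : B) (s g : A) (hw : w ^ 2 = ρ s) (hg : g ∉ 𝔪'.comap ρ)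
    (hz : ∀ z, ∃ α β, ρ g * z = ρ α + ρ β * w)
    (hres : ∃ a : ℂ, s - algebraMap ℂ A a ∈ 𝔪'.comap ρ)
    (hreg : ∃ s₀ ∈ 𝔪'.comap ρ, ∃ t₀ ∈ 𝔪'.comap ρ, ∀ x ∈ 𝔪'.comap ρ, ∃ g ∉ 𝔪'.comap ρ,
      g * x ∈ Ideal.span {s₀, t₀})
    (h : s ∉ 𝔪'.comap ρ ∨ ∃ t ∈ 𝔪'.comap ρ, LocGen (𝔪'.comap ρ) s t) :
    ∃ s ∈ 𝔪', ∃ t ∈ 𝔪', ∀ x ∈ 𝔪', ∃ g ∉ 𝔪', g * x ∈ Ideal.span {s, t} := by
  have hmul : ∀ {x y : B}, x ∉ 𝔪' → y ∉ 𝔪' → x * y ∉ 𝔪' := fun hx hy hxy =>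
    (h𝔪'.mem_or_mem hxy).elim hx hy
  by_cases hs : s ∈ 𝔪'.comap ρ
  · obtain ⟨t, ht, hst⟩ := h.resolve_left (not_not.2 hs)
    have hw' : w ∈ 𝔪' := h𝔪'.mem_of_pow_mem 2 (hw ▸ hs)
    refine ⟨w, hw', ρ t, ht, fun z hz' => ?_⟩
    obtain ⟨α, β, hαβ⟩ := hz z
    have hα : α ∈ 𝔪'.comap ρ := by
      have h1 : ρ α = ρ g * z - ρ β * w := by rw [hαβ]; ring
      rw [Ideal.mem_comap, h1]
      exact 𝔪'.sub_mem (𝔪'.mul_mem_left _ hz') (𝔪'.mul_mem_left _ hw')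
    obtain ⟨g₁, hg₁, h1⟩ := hst α hα
    obtain ⟨p, q, hpq⟩ := Ideal.mem_span_pair.1 h1
    refine ⟨ρ g₁ * ρ g, hmul hg₁ hg, Ideal.mem_span_pair.2 ⟨ρ p * w + ρ g₁ * ρ β, ρ q, ?_⟩⟩
    have h2 := congrArg ρ hpq
    simp only [map_add, map_mul, ← hw] at h2
    linear_combination h2 - ρ g₁ * hαβ
  · obtain ⟨a₀, ha₀⟩ := hres
    obtain ⟨a₁, rfl⟩ := IsAlgClosed.exists_pow_nat_eq a₀ (n := 2) (by norm_num)
    have hex : ∃ a : ℂ, s - algebraMap ℂ A a ^ 2 ∈ 𝔪'.comap ρ ∧ w - ρ (algebraMap ℂ A a) ∈ 𝔪' := by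
      rw [map_pow] at ha₀
      have h1 : (w - ρ (algebraMap ℂ A a₁)) * (w - ρ (algebraMap ℂ A (-a₁))) ∈ 𝔪' := by
        have h2 : (w - ρ (algebraMap ℂ A a₁)) * (w - ρ (algebraMap ℂ A (-a₁))) =
            ρ (s - algebraMap ℂ A a₁ ^ 2) := by
          simp only [map_neg, map_sub, map_pow, ← hw]
          ring
        rw [h2]
        exact ha₀
      rcases h𝔪'.mem_or_mem h1 with h2 | h2
      · exact ⟨a₁, ha₀, h2⟩
      · exact ⟨-a₁, by rwa [map_neg, neg_sq], h2⟩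
    obtain ⟨a, ha, hwa⟩ := hex
    have ha0 : a ≠ 0 := by
      rintro rfl
      simp only [map_zero, ne_eq, OfNat.ofNat_ne_zero, not_false_eq_true, zero_pow, sub_zero] at ha
      exact hs ha
    have hwa' : w + ρ (algebraMap ℂ A a) ∉ 𝔪' := by
      intro h1
      have h2 := 𝔪'.mul_mem_left (ρ (algebraMap ℂ A (2 * a)⁻¹)) (𝔪'.sub_mem h1 hwa)
      have h3 : ρ (algebraMap ℂ A (2 * a)⁻¹) *
          (w + ρ (algebraMap ℂ A a) - (w - ρ (algebraMap ℂ A a))) = 1 := by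
        have h4 : w + ρ (algebraMap ℂ A a) - (w - ρ (algebraMap ℂ A a)) =
            ρ (algebraMap ℂ A (2 * a)) := by
          rw [two_mul, map_add, map_add]
          ring
        rw [h4, ← map_mul, ← map_mul, inv_mul_cancel₀ (mul_ne_zero two_ne_zero ha0), map_one,
          map_one]
      rw [h3] at h2
      exact h𝔪'.ne_top ((Ideal.eq_top_iff_one _).2 h2)
    obtain ⟨s₀, hs₀, t₀, ht₀, hst⟩ := hreg
    refine ⟨ρ s₀, hs₀, ρ t₀, ht₀, fun z hz' => ?_⟩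
    obtain ⟨α, β, hαβ⟩ := hz z
    have hα : α + β * algebraMap ℂ A a ∈ 𝔪'.comap ρ := by
      have h1 : ρ (α + β * algebraMap ℂ A a) = ρ g * z - ρ β * (w - ρ (algebraMap ℂ A a)) := by
        rw [hαβ, map_add, map_mul]; ring
      rw [Ideal.mem_comap, h1]
      exact 𝔪'.sub_mem (𝔪'.mul_mem_left _ hz') (𝔪'.mul_mem_left _ hwa)
    obtain ⟨g₁, hg₁, h1⟩ := hst _ hα
    obtain ⟨g₂, hg₂, h2⟩ := hst _ ha
    obtain ⟨p, q, hpq⟩ := Ideal.mem_span_pair.1 h1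
    obtain ⟨p', q', hpq'⟩ := Ideal.mem_span_pair.1 h2
    refine ⟨ρ g₁ * ρ g₂ * (w + ρ (algebraMap ℂ A a)) * ρ g, hmul (hmul (hmul hg₁ hg₂) hwa') hg,
      Ideal.mem_span_pair.2 ⟨ρ g₂ * (w + ρ (algebraMap ℂ A a)) * ρ p + ρ g₁ * ρ β * ρ p',
        ρ g₂ * (w + ρ (algebraMap ℂ A a)) * ρ q + ρ g₁ * ρ β * ρ q', ?_⟩⟩
    have h3 := congrArg ρ hpq
    have h4 := congrArg ρ hpq'
    simp only [map_add, map_mul, map_sub, map_pow, ← hw] at h3 h4
    linear_combination ρ g₂ * (w + ρ (algebraMap ℂ A a)) * h3 + ρ g₁ * ρ β * h4 -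
      ρ g₁ * ρ g₂ * (w + ρ (algebraMap ℂ A a)) * hαβ

variable {K : Type} [Field K] [Algebra K0 K] [Algebra ℂ K] [IsScalarTower ℂ K0 K] {S : Surf K}

theorem dc_mul_mem {x y : Pic S} {c : Chart} {a b : K} (ha : a ∈ x.sh c) (hb : b ∈ y.sh c) :
    a * b ∈ (x * y).sh c :=
  Submodule.subset_span ⟨a, ha, b, hb, rfl⟩

theorem dc_ind {V : Type} [AddCommGroup V] [Module ℂ V] {x y : Pic S} {c : Chart} (f : K →ₗ[ℂ] V)
    (N : Submodule ℂ V) (h : ∀ a ∈ x.sh c, ∀ b ∈ y.sh c, f (a * b) ∈ N) {v : K}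
    (hv : v ∈ (x * y).sh c) : f v ∈ N := by
  have h1 : (x * y).sh c ≤ N.comap f := by
    refine Submodule.span_le.2 ?_
    rintro _ ⟨a, ha, b, hb, rfl⟩
    exact h a ha b hb
  exact h1 hv

theorem dc_R_mul {x : Pic S} {c : Chart} {r a : K} (hr : r ∈ S.R c) (ha : a ∈ x.sh c) :
    r * a ∈ x.sh c := x.isSheaf.smul_mem c hr ha

theorem dc_psi_mem {J : Pic S} {Ψ : K} (hJ : ∀ c, ∀ x ∈ J.sh c, ∀ y ∈ J.sh c, Ψ * x * y ∈ S.R c)
    {x : Pic S} {c : Chart} {v : K} (hv : v ∈ (x * J * J).sh c) : Ψ * v ∈ x.sh c := by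
  refine dc_ind (LinearMap.mulLeft ℂ Ψ) (x.sh c) (fun u hu j hj => ?_) hv
  have h1 := dc_ind (LinearMap.mulLeft ℂ (Ψ * j)) (x.sh c) (fun a ha j' hj' => by
    have h2 := dc_R_mul (hJ c j hj j' hj') ha
    rw [LinearMap.mulLeft_apply]
    convert h2 using 1
    ring) hu
  rw [LinearMap.mulLeft_apply] at h1 ⊢
  convert h1 using 1
  ring

/-- the field `K(w)`, `w² = Ψ` -/
abbrev DC (Ψ : K) : Type := QuadraticAlgebra K Ψ 0

variable {Ψ : K} [Fact (∀ r : K, r ^ 2 ≠ Ψ + 0 * r)]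

variable (Ψ) in
/-- `A ⊕ w B` -/
def dcP (A B : Pre K) : Pre (DC Ψ) := fun c =>
  { carrier := {z | z.re ∈ A c ∧ z.im ∈ B c}
    add_mem' := fun ha hb => ⟨(A c).add_mem ha.1 hb.1, (B c).add_mem ha.2 hb.2⟩
    zero_mem' := ⟨(A c).zero_mem, (B c).zero_mem⟩
    smul_mem' := fun r _ hz => ⟨(A c).smul_mem r hz.1, (B c).smul_mem r hz.2⟩ }

omit [Algebra K0 K] [IsScalarTower ℂ K0 K] [Fact (∀ r : K, r ^ 2 ≠ Ψ + 0 * r)] in
theorem mem_dcP {A B : Pre K} {c : Chart} {z : DC Ψ} :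
    z ∈ dcP Ψ A B c ↔ z.re ∈ A c ∧ z.im ∈ B c := Iff.rfl

omit [Algebra ℂ K] [IsScalarTower ℂ K0 K] in
theorem dc_tau (c : Chart) (a b : ℤ) : tau (DC Ψ) c a b = algebraMap K (DC Ψ) (tau K c a b) := by
  rw [tau_map (DC Ψ), tau_map K]
  rfl

theorem dc_PP {c : Chart} {f : K} (hf : f ∈ PP K c) : algebraMap K (DC Ψ) f ∈ PP (DC Ψ) c := by
  obtain ⟨y, hy, rfl⟩ := (mem_PP_iff K c f).1 hf
  exact (mem_PP_iff (DC Ψ) c _).2 ⟨y, hy, rfl⟩

omit [Algebra K0 K] [Algebra ℂ K] [IsScalarTower ℂ K0 K] [Fact (∀ r : K, r ^ 2 ≠ Ψ + 0 * r)] in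
theorem dc_map_mul_re (f : K) (z : DC Ψ) : (algebraMap K (DC Ψ) f * z).re = f * z.re := by simp

omit [Algebra K0 K] [Algebra ℂ K] [IsScalarTower ℂ K0 K] [Fact (∀ r : K, r ^ 2 ≠ Ψ + 0 * r)] in
theorem dc_map_mul_im (f : K) (z : DC Ψ) : (algebraMap K (DC Ψ) f * z).im = f * z.im := by simp

theorem dcP_fg {A B : Pre K} (hA : IsSheaf S A) (hB : IsSheaf S B) (c : Chart) :
    ∃ s : Finset (DC Ψ), (∀ x ∈ s, x ∈ dcP Ψ A B c) ∧ ∀ T : Subalgebra ℂ (DC Ψ), PP (DC Ψ) c ≤ T →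
      ∀ v ∈ dcP Ψ A B c, v ∈ Submodule.span T (s : Set (DC Ψ)) := by
  classical
  obtain ⟨sA, hsA⟩ := hA.toS0.fg c
  obtain ⟨sB, hsB⟩ := hB.toS0.fg c
  refine ⟨sA.image (fun x => ⟨x, 0⟩) ∪ sB.image (fun y => ⟨0, y⟩), fun x hx => ?_,
    fun T hT v hv => ?_⟩
  · rcases Finset.mem_union.1 hx with h | h
    · obtain ⟨y, hy, rfl⟩ := Finset.mem_image.1 h
      exact ⟨(hsA y).2 (Submodule.subset_span hy), (B c).zero_mem⟩
    · obtain ⟨y, hy, rfl⟩ := Finset.mem_image.1 h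
      exact ⟨(A c).zero_mem, (hsB y).2 (Submodule.subset_span hy)⟩
  · have key : ∀ (u : DC Ψ) (s₀ : Finset K) (N : Submodule T (DC Ψ)),
        (∀ y ∈ s₀, algebraMap K (DC Ψ) y * u ∈ N) →
        ∀ y ∈ Submodule.span (S0.R c) (s₀ : Set K), algebraMap K (DC Ψ) y * u ∈ N := by
      intro u s₀ N h y hy
      induction hy using Submodule.span_induction with
      | mem y hy => exact h y hy
      | zero => simp
      | add y y' _ _ h1 h2 =>
        rw [map_add, add_mul]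
        exact N.add_mem h1 h2
      | smul p y _ h1 =>
        have hp : algebraMap K0 (DC Ψ) p ∈ T := hT ((mem_PP_iff (DC Ψ) c _).2 ⟨p, p.2, rfl⟩)
        have h2 := N.smul_mem ⟨_, hp⟩ h1
        convert h2 using 1
        rw [Subalgebra.smul_def, Subalgebra.smul_def, Algebra.smul_def, map_mul, smul_eq_mul,
          mul_assoc]
        rfl
    have h1 : v = algebraMap K (DC Ψ) v.re * 1 + algebraMap K (DC Ψ) v.im * ⟨0, 1⟩ := by
      ext <;> simp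
    rw [h1]
    refine Submodule.add_mem _ (key _ sA _ (fun y hy => Submodule.subset_span ?_) _ ((hsA _).1 hv.1))
      (key _ sB _ (fun y hy => Submodule.subset_span ?_) _ ((hsB _).1 hv.2))
    · refine Finset.mem_coe.2 (Finset.mem_union_left _ (Finset.mem_image.2 ⟨y, hy, ?_⟩))
      ext <;> simp
    · refine Finset.mem_coe.2 (Finset.mem_union_right _ (Finset.mem_image.2 ⟨y, hy, ?_⟩))
      ext <;> simp

theorem dcP_frac {A B : Pre K} (hA : IsSheaf S A) (hB : IsSheaf S B) (c : Chart) (z : DC Ψ) :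
    ∃ f ∈ PP (DC Ψ) c, f ≠ 0 ∧ f * z ∈ dcP Ψ A B c := by
  obtain ⟨f, hf, hf0, h1⟩ := hA.frac' c z.re
  obtain ⟨g, hg, hg0, h2⟩ := hB.frac' c z.im
  refine ⟨algebraMap K (DC Ψ) (f * g), dc_PP ((PP K c).mul_mem hf hg),
    (map_ne_zero _).2 (mul_ne_zero hf0 hg0), ?_, ?_⟩
  · rw [dc_map_mul_re]
    have h3 := hA.smul_mem c (S.P_le c hg) h1
    rw [smul_eq_mul, smul_eq_mul] at h3
    convert h3 using 1
    ring
  · rw [dc_map_mul_im]
    have h3 := hB.smul_mem c (S.P_le c hf) h2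
    rw [smul_eq_mul, smul_eq_mul] at h3
    convert h3 using 1
    ring

theorem dcP_compat {A B : Pre K} (hA : IsSheaf S A) (hB : IsSheaf S B) (c c' : Chart) {z : DC Ψ}
    (hz : z ∈ dcP Ψ A B c) :
    ∃ n : ℕ, ((tau (DC Ψ) c' n n)⁻¹ * tau (DC Ψ) c n n) * z ∈ dcP Ψ A B c' := by
  obtain ⟨n, hn⟩ := hA.compat' c hz.1
  obtain ⟨m, hm⟩ := hB.compat' c hz.2
  refine ⟨n + m, ?_⟩
  rw [dc_tau, dc_tau, ← map_inv₀, ← map_mul]
  refine ⟨?_, ?_⟩
  · rw [dc_map_mul_re]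
    exact hn c' _ _ (by push_cast; omega) (by push_cast; omega)
  · rw [dc_map_mul_im]
    exact hm c' _ _ (by push_cast; omega) (by push_cast; omega)

omit [IsScalarTower ℂ K0 K] in
theorem dc_Gam {A B : Pre K} (a b : ℤ) (z : DC Ψ) :
    z ∈ Gam (DC Ψ) (dcP Ψ A B) a b ↔ z.re ∈ Gam K A a b ∧ z.im ∈ Gam K B a b := by
  simp only [mem_Gam, dc_tau, ← map_inv₀, smul_eq_mul, mem_dcP, dc_map_mul_re, dc_map_mul_im,
    forall_and]

theorem dc_HP {A B : Pre K} (hA : IsSheaf S A) (hB : IsSheaf S B) :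
    HP (DC Ψ) (dcP Ψ A B) = fun a b => HP K A a b + HP K B a b := by
  obtain ⟨⟨n, p, q, χ, h1⟩, a0, h2⟩ := hA.isHP
  obtain ⟨⟨n', p', q', χ', h1'⟩, a0', h2'⟩ := hB.isHP
  refine IsHP.HP_eq ⟨⟨n + n', p + p', q + q', χ + χ', fun a b => by
    beta_reduce; rw [h1, h1']; ring⟩,
    max a0 a0', fun a b ha hb => ?_⟩
  have := hA.Gam_finite a b
  have := hB.Gam_finite a b
  let e : Gam (DC Ψ) (dcP Ψ A B) a b ≃ₗ[ℂ] Gam K A a b × Gam K B a b :=
    { toFun := fun z => (⟨z.1.re, ((dc_Gam a b z.1).1 z.2).1⟩, ⟨z.1.im, ((dc_Gam a b z.1).1 z.2).2⟩)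
      invFun := fun p => ⟨⟨p.1.1, p.2.1⟩, (dc_Gam a b _).2 ⟨p.1.2, p.2.2⟩⟩
      map_add' := fun _ _ => rfl
      map_smul' := fun _ _ => rfl
      left_inv := fun _ => rfl
      right_inv := fun _ => rfl }
  rw [e.finrank_eq, Module.finrank_prod, Nat.cast_add,
    h2 a b (le_of_max_le_left ha) (le_of_max_le_left hb),
    h2' a b (le_of_max_le_right ha) (le_of_max_le_right hb)]

/-! ### the surface -/

section surf

variable {J : Pic S} (hJ : ∀ c, ∀ x ∈ J.sh c, ∀ y ∈ J.sh c, Ψ * x * y ∈ S.R c)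

/-- the chart rings of the double cover -/
def dcR (c : Chart) : Subalgebra ℂ (DC Ψ) where
  carrier := {z | z.re ∈ S.R c ∧ z.im ∈ J.sh c}
  mul_mem' := by
    intro z u hz hu
    refine ⟨?_, ?_⟩
    · rw [QuadraticAlgebra.re_mul]
      exact (S.R c).add_mem ((S.R c).mul_mem hz.1 hu.1) (hJ c _ hz.2 _ hu.2)
    · rw [QuadraticAlgebra.im_mul, zero_mul, zero_mul, add_zero, mul_comm z.im]
      exact (J.sh c).add_mem (dc_R_mul hz.1 hu.2) (dc_R_mul hu.1 hz.2)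
  add_mem' := fun ha hb => ⟨(S.R c).add_mem ha.1 hb.1, (J.sh c).add_mem ha.2 hb.2⟩
  algebraMap_mem' := fun r => ⟨(S.R c).algebraMap_mem r, (J.sh c).zero_mem⟩

theorem mem_dcR {c : Chart} {z : DC Ψ} : z ∈ dcR hJ c ↔ z.re ∈ S.R c ∧ z.im ∈ J.sh c := Iff.rfl

theorem dcR_P_le (c : Chart) : PP (DC Ψ) c ≤ dcR hJ c := by
  intro x hx
  obtain ⟨y, hy, rfl⟩ := (mem_PP_iff (DC Ψ) c x).1 hx
  exact ⟨S.P_le c ((mem_PP_iff K c _).2 ⟨y, hy, rfl⟩), (J.sh c).zero_mem⟩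

/-- the inclusion of chart rings -/
def dcRho (c : Chart) : S.R c →+* dcR hJ c where
  toFun r := ⟨algebraMap K (DC Ψ) r, r.2, (J.sh c).zero_mem⟩
  map_one' := Subtype.ext (map_one (algebraMap K (DC Ψ)))
  map_mul' x y := Subtype.ext (map_mul (algebraMap K (DC Ψ)) (x : K) y)
  map_zero' := Subtype.ext (map_zero (algebraMap K (DC Ψ)))
  map_add' x y := Subtype.ext (map_add (algebraMap K (DC Ψ)) (x : K) y)

theorem coe_dcRho (c : Chart) (r : S.R c) : (dcRho hJ c r : DC Ψ) = algebraMap K (DC Ψ) r := rfl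

theorem dcRho_isIntegral (c : Chart) : (dcRho hJ c).IsIntegral := by
  intro z
  let a : S.R c := ⟨2 * z.1.re, (S.R c).mul_mem (ofNat_mem (S.R c) 2) z.2.1⟩
  let b : S.R c := ⟨z.1.re * z.1.re - Ψ * z.1.im * z.1.im,
    (S.R c).sub_mem ((S.R c).mul_mem z.2.1 z.2.1) (hJ c _ z.2.2 _ z.2.2)⟩
  refine ⟨Polynomial.X ^ 2 + (Polynomial.C (-a) * Polynomial.X + Polynomial.C b), ?_, ?_⟩
  · refine Polynomial.monic_X_pow_add ?_
    exact Polynomial.degree_linear_lt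
  · simp only [Polynomial.eval₂_add, Polynomial.eval₂_mul, Polynomial.eval₂_C, Polynomial.eval₂_X,
      Polynomial.eval₂_X_pow]
    apply Subtype.ext
    simp only [Subalgebra.coe_add, Subalgebra.coe_mul, coe_dcRho,
      Subalgebra.coe_neg, Subalgebra.coe_zero, a, b, sq]
    ext
    · simp only [QuadraticAlgebra.re_add, QuadraticAlgebra.re_mul, QuadraticAlgebra.algebraMap_re,
        QuadraticAlgebra.algebraMap_im, QuadraticAlgebra.re_zero]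
      ring
    · simp only [QuadraticAlgebra.im_add, QuadraticAlgebra.im_mul, QuadraticAlgebra.algebraMap_re,
        QuadraticAlgebra.algebraMap_im, QuadraticAlgebra.im_zero]
      ring

theorem dcR_reg (hreg : BranchReg S J.sh Ψ) (c : Chart) (𝔪 : Ideal (dcR hJ c)) (h : 𝔪.IsMaximal) :
    ∃ s ∈ 𝔪, ∃ t ∈ 𝔪, ∀ x ∈ 𝔪, ∃ g ∉ 𝔪, g * x ∈ Ideal.span {s, t} := by
  have hm : (𝔪.comap (dcRho hJ c)).IsMaximal :=
    Ideal.isMaximal_comap_of_isIntegral_of_isMaximal' _ (dcRho_isIntegral hJ c) 𝔪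
  obtain ⟨j, hj, hj0, ⟨g, hg, hgj⟩, s, hs, hst⟩ := hreg c _ hm
  refine dc_reg_alg (dcRho hJ c) 𝔪 h.isPrime ⟨⟨0, j⟩, (S.R c).zero_mem, hj⟩ s g ?_ hg
    (fun z => ⟨g * ⟨z.1.re, z.2.1⟩, ⟨g * (z.1.im / j), hgj _ z.2.2⟩, ?_⟩) (S.residue c _ hm s)
    (S.reg c _ hm) hst
  · apply Subtype.ext
    simp only [coe_dcRho, sq, Subalgebra.coe_mul, hs]
    ext
    · simp only [QuadraticAlgebra.re_mul, QuadraticAlgebra.algebraMap_re]
      ring
    · simp only [QuadraticAlgebra.im_mul, QuadraticAlgebra.algebraMap_im]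
      ring
  · apply Subtype.ext
    simp only [Subalgebra.coe_add, coe_dcRho, Subalgebra.coe_mul]
    ext
    · simp only [QuadraticAlgebra.re_add, QuadraticAlgebra.re_mul, QuadraticAlgebra.algebraMap_re,
        QuadraticAlgebra.algebraMap_im]
      ring
    · simp only [QuadraticAlgebra.im_add, QuadraticAlgebra.im_mul, QuadraticAlgebra.algebraMap_re,
        QuadraticAlgebra.algebraMap_im]
      field_simp
      ring

variable (hreg : BranchReg S J.sh Ψ)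

/-- the double cover -/
def dcS : Surf (DC Ψ) where
  R := dcR hJ
  P_le := dcR_P_le hJ
  fin c := by
    obtain ⟨s, hs, h⟩ := dcP_fg (Ψ := Ψ) (isSheaf_OO S) J.isSheaf c
    refine ⟨s, fun x => ⟨fun hx => h _ le_rfl x hx, fun hx => ?_⟩⟩
    induction hx using Submodule.span_induction with
    | mem y hy => exact hs y hy
    | zero => exact (dcR hJ c).zero_mem
    | add y y' _ _ h1 h2 => exact (dcR hJ c).add_mem h1 h2
    | smul p y _ h1 => exact (dcR hJ c).mul_mem (dcR_P_le hJ c p.2) h1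
  frac c x := dcP_frac (isSheaf_OO S) J.isSheaf c x
  compat c c' _ hx := dcP_compat (isSheaf_OO S) J.isSheaf c c' hx
  reg := dcR_reg hJ hreg

omit [Fact (∀ r : K, r ^ 2 ≠ Ψ + 0 * r)] in
include hJ in
theorem dc_pull_mul {x y : Pic S} {c : Chart} {z u : DC Ψ} (hz : z ∈ dcP Ψ x.sh (x * J).sh c)
    (hu : u ∈ dcP Ψ y.sh (y * J).sh c) : z * u ∈ dcP Ψ (x * y).sh (x * y * J).sh c := by
  refine ⟨?_, ?_⟩
  · rw [QuadraticAlgebra.re_mul, mul_assoc]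
    refine Submodule.add_mem _ (dc_mul_mem hz.1 hu.1) (dc_psi_mem hJ ?_)
    have h1 := dc_mul_mem hz.2 hu.2
    rwa [show x * J * (y * J) = x * y * J * J by simp only [mul_assoc, mul_left_comm]] at h1
  · rw [QuadraticAlgebra.im_mul, zero_mul, zero_mul, add_zero]
    refine Submodule.add_mem _ ?_ ?_
    · have h1 := dc_mul_mem hz.1 hu.2
      rwa [← mul_assoc] at h1
    · have h1 := dc_mul_mem hz.2 hu.1
      rwa [mul_right_comm] at h1

theorem dc_OO : OO (dcS hJ hreg) = dcP Ψ (1 : Pic S).sh (1 * J).sh := by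
  rw [one_mul]
  rfl

theorem dc_isSheaf (x : Pic S) : IsSheaf (dcS hJ hreg) (dcP Ψ x.sh (x * J).sh) := by
  have hmul : ∀ c, ∀ r ∈ dcR hJ c, ∀ z ∈ dcP Ψ x.sh (x * J).sh c,
      r * z ∈ dcP Ψ x.sh (x * J).sh c := by
    intro c r hr z hz
    have h1 : r ∈ dcP Ψ (1 : Pic S).sh (1 * J).sh c := by
      rw [one_mul]
      exact hr
    have h2 := dc_pull_mul hJ h1 hz
    rwa [one_mul] at h2
  refine ⟨fun c => ?_, fun c v => ?_, fun c c' v hv => dcP_compat x.isSheaf (x * J).isSheaf c c' hv⟩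
  · obtain ⟨s, hs, h⟩ := dcP_fg (Ψ := Ψ) x.isSheaf (x * J).isSheaf c
    refine ⟨s, fun v => ⟨fun hv => h _ (dcR_P_le hJ c) v hv, fun hv => ?_⟩⟩
    induction hv using Submodule.span_induction with
    | mem y hy => exact hs y hy
    | zero => exact Submodule.zero_mem _
    | add y y' _ _ h1 h2 => exact Submodule.add_mem _ h1 h2
    | smul p y _ h1 => exact hmul c p p.2 y h1
  · obtain ⟨f, hf, h0, h1⟩ := dcP_frac (Ψ := Ψ) x.isSheaf (x * J).isSheaf c v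
    exact ⟨f, dcR_P_le hJ c hf, h0, h1⟩

/-- the pullback, with values in the monoid of rank one sheaves -/
def dcPull0 : Pic S →* ShK (dcS hJ hreg) where
  toFun x := ⟨dcP Ψ x.sh (x * J).sh, dc_isSheaf hJ hreg x⟩
  map_one' := Subtype.ext (dc_OO hJ hreg).symm
  map_mul' x y := by
    apply Subtype.ext
    funext c
    change dcP Ψ (x * y).sh (x * y * J).sh c = Submodule.span ℂ _
    refine le_antisymm (fun z hz => ?_) (Submodule.span_le.2 ?_)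
    · have h1 : z = (⟨z.re, 0⟩ : DC Ψ) + ⟨0, z.im⟩ := by ext <;> simp
      rw [h1]
      let f₁ : K →ₗ[ℂ] DC Ψ :=
        { toFun := fun v => ⟨v, 0⟩
          map_add' := fun _ _ => by ext <;> simp
          map_smul' := fun _ _ => by ext <;> simp }
      let f₂ : K →ₗ[ℂ] DC Ψ :=
        { toFun := fun v => ⟨0, v⟩
          map_add' := fun _ _ => by ext <;> simp
          map_smul' := fun _ _ => by ext <;> simp }
      refine Submodule.add_mem _ (dc_ind f₁ _ (fun a ha b hb => Submodule.subset_span ?_) hz.1)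
        (dc_ind (x := x) (y := y * J) f₂ _ (fun a ha b hb => Submodule.subset_span ?_)
          (by rw [← mul_assoc]; exact hz.2))
      · refine ⟨⟨a, 0⟩, ⟨ha, Submodule.zero_mem _⟩, ⟨b, 0⟩, ⟨hb, Submodule.zero_mem _⟩, ?_⟩
        change (⟨a, 0⟩ : DC Ψ) * ⟨b, 0⟩ = ⟨a * b, 0⟩
        ext <;> simp
      · refine ⟨⟨a, 0⟩, ⟨ha, Submodule.zero_mem _⟩, ⟨0, b⟩, ⟨Submodule.zero_mem _, hb⟩, ?_⟩
        change (⟨a, 0⟩ : DC Ψ) * ⟨0, b⟩ = ⟨0, a * b⟩
        ext <;> simp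
    · rintro _ ⟨z, hz, u, hu, rfl⟩
      exact dc_pull_mul hJ hz hu

/-- the pullback -/
def dcPull : Pic S →* Pic (dcS hJ hreg) := (dcPull0 hJ hreg).toHomUnits

theorem dcPull_sh (x : Pic S) : (dcPull hJ hreg x).sh = dcP Ψ x.sh (x * J).sh := rfl

theorem dcPull_Ftw (a b : ℤ) : dcPull hJ hreg (Ftw S a b) = Ftw (dcS hJ hreg) a b := by
  apply Pic.ext'
  rw [dcPull_sh, ← act_sh, act_Ftw J.isSheaf]
  funext c
  ext z
  change ((tau K c a b)⁻¹ • z.re ∈ S.R c ∧ (tau K c a b)⁻¹ • z.im ∈ J.sh c) ↔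
    (tau (DC Ψ) c a b)⁻¹ • z ∈ dcR hJ c
  rw [dc_tau, ← map_inv₀, smul_eq_mul, smul_eq_mul, smul_eq_mul, mem_dcR, dc_map_mul_re,
    dc_map_mul_im]

theorem chiP_dcPull (x : Pic S) : chiP (dcPull hJ hreg x) = chiP x + chiP (x * J) := by
  rw [chiP, dcPull_sh, chi, dc_HP x.isSheaf (x * J).isSheaf]
  rfl

theorem BB_dcPull (x y : Pic S) : BB (dcPull hJ hreg x) (dcPull hJ hreg y) = 2 * BB x y := by
  have h := second_diff x y J
  rw [BB, ← map_mul, ← map_one (dcPull hJ hreg), chiP_dcPull, chiP_dcPull, chiP_dcPull,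
    chiP_dcPull, one_mul]
  rw [BB] at h ⊢
  linarith

theorem dc_isDualizing {θ : K →ₗ[K0] K0} {ω' : Pic S} (h : IsDualizing θ ω') :
    IsDualizing (θ ∘ₗ (QuadraticAlgebra.imₗ Ψ 0).restrictScalars K0)
      (dcPull hJ hreg (J⁻¹ * ω')) := by
  refine ⟨fun h0 => h.1 ?_, fun c z => ?_⟩
  · ext y
    exact LinearMap.congr_fun h0 ⟨0, y⟩
  · have h1 : J⁻¹ * ω' * J = ω' := by rw [mul_right_comm, inv_mul_cancel, one_mul]
    rw [dcPull_sh, h1, mem_dcP]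
    change _ ↔ ∀ r ∈ dcR hJ c, θ (z * r).im ∈ PP K0 c
    constructor
    · rintro ⟨h2, h3⟩ r hr
      rw [QuadraticAlgebra.im_mul, zero_mul, zero_mul, add_zero, map_add]
      refine (PP K0 c).add_mem ?_ ((h.2 c _).1 h3 _ hr.1)
      have h4 := dc_mul_mem h2 hr.2
      rw [h1] at h4
      have h5 := (h.2 c _).1 h4 1 (S.R c).one_mem
      rwa [mul_one] at h5
    · intro h2
      refine ⟨?_, (h.2 c _).2 fun r hr => ?_⟩
      · have h3 : ∀ j ∈ J.sh c, z.re * j ∈ ω'.sh c := by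
          intro j hj
          refine (h.2 c _).2 fun r hr => ?_
          have h4 := h2 ⟨0, r * j⟩ ⟨(S.R c).zero_mem, dc_R_mul hr hj⟩
          rw [QuadraticAlgebra.im_mul, zero_mul, zero_mul, add_zero, mul_zero, add_zero] at h4
          convert h4 using 2
          ring
        have h4 : (1 : K) ∈ (J⁻¹ * J).sh c := by
          rw [inv_mul_cancel]
          exact (S.R c).one_mem
        have h5 := dc_ind (LinearMap.mulLeft ℂ z.re) ((J⁻¹ * ω').sh c) (fun a ha j hj => by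
          rw [LinearMap.mulLeft_apply, mul_left_comm]
          exact dc_mul_mem ha (h3 j hj)) h4
        rwa [LinearMap.mulLeft_apply, mul_one] at h5
      · have h4 := h2 ⟨r, 0⟩ ⟨hr, (J.sh c).zero_mem⟩
        rwa [QuadraticAlgebra.im_mul, zero_mul, zero_mul, add_zero, mul_zero, zero_add] at h4

end surf

end

end Crest.Agent.R169
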