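import Crest.Agent.R169.YDefs
import Crest.Agent.R169.PicQ
import Crest.Agent.R169.Serre
import Crest.Agent.R169.DCoverAux

/-! # Double covers -/

set_option autoImplicit false

namespace Crest.Agent.R169

noncomputable section

variable {K : Type} [Field K] [Algebra K0 K] [Algebra ℂ K] [IsScalarTower ℂ K0 K] {S : Surf K}

/-- `K' = K(w)`, `w² = Ψ`; `R' c = {x + w y | x ∈ R c, y ∈ J c}`.  The pullback `π* M c = {x + w y | x ∈ M c, y ∈ (M J) c}` is a
monoid homomorphism `Pic S → Pic S'` with `π* (F a b) = F a b` and `χ(π* x) = χ(x) + χ(x J)`; `θ' (x + w y) = θ y` has dualizing sheaf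
`π* (J⁻¹ ω')`.  Then `BB (π* x) (π* x) = 2 BB x x` (`second_diff`), `2 χ J = 2 χ 1 + BB J J - BB J ω` (`serre`), and the formula follows.
Regularity at a maximal ideal `𝔪'` over `𝔪`, with `w' = w j`, `w'² = s`: if `s ∉ 𝔪` and `a` is the residue of `w'`, then
`(w' - a)(w' + a) ∈ 𝔪`, `w' + a ∉ 𝔪'`, so the parameters of `𝔪` generate `𝔪'` locally; if `s ∈ 𝔪` then `(w', t)` do. -/
theorem exists_double_cover {θ : K →ₗ[K0] K0} {ω' : Pic S} (h : IsDualizing θ ω') (J : Pic S) (Ψ : K)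
    (hΨ : ¬ IsSquare Ψ) (hJ : ∀ c, ∀ x ∈ J.sh c, ∀ y ∈ J.sh c, Ψ * x * y ∈ S.R c)
    (hreg : BranchReg S J.sh Ψ) :
    ∃ (K' : Type) (_ : Field K') (_ : Algebra K0 K') (_ : Algebra ℂ K') (_ : IsScalarTower ℂ K0 K')
      (S' : Surf K') (θ' : K' →ₗ[K0] K0) (ω'' : Pic S'), IsDualizing θ' ω'' ∧
      Module.finrank K0 K' = 2 * Module.finrank K0 K ∧
      kappa (ω'' * Ftw S' (-2) (-2)) = 2 * kappa (ω' * Ftw S (-2) (-2)) - (BB J J : ℚ) / 4 := by
  have : Fact (∀ r : K, r ^ 2 ≠ Ψ + 0 * r) := ⟨fun r hr => hΨ ⟨r, by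
    rw [zero_mul, add_zero] at hr
    rw [← hr, sq]⟩⟩
  refine ⟨DC Ψ, inferInstance, inferInstance, inferInstance, inferInstance, dcS hJ hreg, _, _,
    dc_isDualizing hJ hreg h, ?_, ?_⟩
  · rw [← Module.finrank_mul_finrank K0 K (DC Ψ), QuadraticAlgebra.finrank_eq_two, mul_comm]
  · rw [← dcPull_Ftw hJ hreg, ← map_mul, mul_assoc]
    have h1 := serre h J
    have h2 := serre h 1
    rw [inv_one, one_mul] at h2
    generalize ω' * Ftw S (-2) (-2) = ω at h1 h2 ⊢
    have h3 : BB J⁻¹ ω = -BB J ω := BB_inv_left J ω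
    have h4 : BB J J⁻¹ = -BB J J := BB_inv_right J J
    have h5 : 2 * chiP J = 2 * chiP (1 : Pic S) + BB J J - BB J ω := by
      rw [BB] at h3 h4
      rw [mul_inv_cancel] at h4
      linarith
    have h6 : BB (J⁻¹ * ω) (J⁻¹ * ω) = BB J J - 2 * BB J ω + BB ω ω := by
      rw [BB_mul_left, BB_mul_right, BB_mul_right, BB_inv_left, BB_inv_left, BB_inv_right,
        BB_inv_right, BB_comm ω J]
      ring
    have h7 : chiP (1 : Pic (dcS hJ hreg)) = chiP (1 : Pic S) + chiP J := by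
      rw [← map_one (dcPull hJ hreg), chiP_dcPull, one_mul]
    have h5' : (2 * chiP J : ℚ) = 2 * chiP (1 : Pic S) + BB J J - BB J ω := by exact_mod_cast h5
    rw [kappa, kappa, BB_dcPull, h6, h7]
    push_cast
    linarith

end

end Crest.Agent.R169
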