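import Mathlib

/-!
# Row 169: basic definitions

`K0 = ℂ(λ, μ)` is the function field of `P¹ × P¹`.  A *surface* is a finite extension `K / K0` with four
chart rings `R c ⊆ K` (finite over the chart rings `PP c` of `P¹ × P¹`), regular of dimension two.
A *sheaf* (torsion free, coherent) is a family of four finitely generated `R c`-submodules of a
`K`-vector space `V`, compatible on overlaps.  `Gam K M a b` is the space of sections of `M(a,b)`
(everything is dehomogenised: `u₂ = v₂ = 1`, `u₁ = λ`, `v₁ = μ`).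
-/

set_option autoImplicit false

namespace Crest.Agent.R169

noncomputable section

/-- `ℂ(λ)` -/
abbrev K1 : Type := RatFunc ℂ
/-- `ℂ(λ)(μ)` -/
abbrev K0 : Type := RatFunc K1

/-! shortcut instances (avoid the `maxSynthPendingDepth` limit) -/
instance instDomK1 : IsDomain K1 := inferInstance
instance instDomK0 : IsDomain K0 := inferInstance
instance instCharZeroK1 : CharZero K1 := inferInstance
instance instCharZeroK0 : CharZero K0 := inferInstance

/-! prefer the scalar actions that come from the algebra structures -/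
instance (priority := 2000) instSMulCK1 : SMul ℂ K1 := Algebra.toSMul
instance (priority := 2000) instSMulCK0 : SMul ℂ K0 := Algebra.toSMul
instance (priority := 2000) instSMulK1K0 : SMul K1 K0 := Algebra.toSMul
instance instTowerCK1K0 : IsScalarTower ℂ K1 K0 := RatFunc.instIsScalarTowerOfIsDomainOfPolynomial ℂ K1 K1

def lam0 : K0 := algebraMap K1 K0 RatFunc.X
def mu0 : K0 := RatFunc.X

/-- the four affine charts; `false` is the finite chart, `true` the chart at infinity -/
abbrev Chart : Type := Bool × Bool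

/-- affine coordinate in the chart `i` -/
def co {K : Type} [Field K] (x : K) (i : Bool) : K := if i then x⁻¹ else x
/-- the homogeneous coordinate that does not vanish in the chart `i` -/
def hu {K : Type} [Field K] (x : K) (i : Bool) : K := if i then x else 1

section
variable (K : Type) [Field K] [Algebra K0 K]

def lam : K := algebraMap K0 K lam0
def mu : K := algebraMap K0 K mu0
/-- local generator of `O(a,b)` in the chart `c` -/
def tau (c : Chart) (a b : ℤ) : K := hu (lam K) c.1 ^ a * hu (mu K) c.2 ^ b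

variable [Algebra ℂ K]

/-- chart rings of `P¹ × P¹`, inside `K` -/
def PP (c : Chart) : Subalgebra ℂ K := Algebra.adjoin ℂ {co (lam K) c.1, co (mu K) c.2}

/-- A smooth projective surface with a finite map to `P¹ × P¹`. -/
structure Surf where
  R : Chart → Subalgebra ℂ K
  P_le : ∀ c, PP K c ≤ R c
  fin : ∀ c, ∃ s : Finset K, ∀ x, x ∈ R c ↔ x ∈ Submodule.span (PP K c) (s : Set K)
  frac : ∀ c (x : K), ∃ f ∈ PP K c, f ≠ 0 ∧ f * x ∈ R c
  compat : ∀ c c' (x : K), x ∈ R c → ∃ n : ℕ, ((tau K c' n n)⁻¹ * tau K c n n) * x ∈ R c'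
  reg : ∀ c (𝔪 : Ideal (R c)), 𝔪.IsMaximal → ∃ s ∈ 𝔪, ∃ t ∈ 𝔪,
    ∀ x ∈ 𝔪, ∃ g ∉ 𝔪, g * x ∈ Ideal.span {s, t}

/-- the field `ℂ(μ)` inside `K` -/
abbrev k2 : IntermediateField ℂ K := IntermediateField.adjoin ℂ {mu K}

end

/-- four subspaces, one for each chart -/
abbrev Pre (V : Type) [AddCommGroup V] [Module ℂ V] : Type := Chart → Submodule ℂ V

section
variable {K : Type} [Field K] [Algebra ℂ K]
variable {V : Type} [AddCommGroup V] [Module K V] [Module ℂ V] [IsScalarTower ℂ K V]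
variable {W : Type} [AddCommGroup W] [Module K W] [Module ℂ W] [IsScalarTower ℂ K W]
variable {U : Type} [AddCommGroup U] [Module K U] [Module ℂ U] [IsScalarTower ℂ K U]

/-- `y • N` for `y ≠ 0` -/
def scal (y : K) (N : Submodule ℂ V) : Submodule ℂ V where
  carrier := {v | y⁻¹ • v ∈ N}
  add_mem' := by
    intro a b ha hb
    simp only [Set.mem_ofPred_eq, smul_add] at *
    exact N.add_mem ha hb
  zero_mem' := by simp
  smul_mem' := by
    intro c v hv
    simp only [Set.mem_ofPred_eq] at *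
    rw [smul_comm]
    exact N.smul_mem c hv

@[simp] theorem mem_scal {y : K} {N : Submodule ℂ V} {v : V} : v ∈ scal y N ↔ y⁻¹ • v ∈ N := Iff.rfl

/-- inverse image along a `K`-linear map -/
def pull (f : W →ₗ[K] V) (M : Pre V) : Pre W := fun c => (M c).comap (f.restrictScalars ℂ)

/-- image along a `K`-linear map -/
def push (f : V →ₗ[K] W) (M : Pre V) : Pre W := fun c => (M c).map (f.restrictScalars ℂ)

/-- product along a bilinear map (tensor product, `L • H`, `L * L'`) -/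
def tens (β : V →ₗ[K] W →ₗ[K] U) (M : Pre V) (N : Pre W) : Pre U :=
  fun c => Submodule.span ℂ (Set.image2 (fun x y => β x y) (M c : Set V) (N c : Set W))

/-- direct sum of copies -/
def piP {ι : Type} (M : ι → Pre V) : Pre (ι → V) :=
  fun c => Submodule.pi Set.univ (fun i => M i c)

/-- `M ≤ M'` with finite colength in every chart -/
def FinCol (M M' : Pre V) : Prop :=
  ∀ c, M c ≤ M' c ∧ ∃ s : Finset V, M' c ≤ M c ⊔ Submodule.span ℂ (s : Set V)

variable [Algebra K0 K]

variable (K) in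
/-- sections of `M(a,b)` -/
def Gam (M : Pre V) (a b : ℤ) : Submodule ℂ V := ⨅ c, scal (tau K c a b) (M c)

theorem mem_Gam {M : Pre V} {a b : ℤ} {v : V} :
    v ∈ Gam K M a b ↔ ∀ c, (tau K c a b)⁻¹ • v ∈ M c := by
  simp [Gam, Submodule.mem_iInf]

variable (K) in
/-- `M(a,b)` -/
def twist (M : Pre V) (a b : ℤ) : Pre V := fun c => scal (tau K c a b) (M c)

/-- a function `n a b + p a + q b + χ` -/
def IsBil (f : ℤ → ℤ → ℤ) : Prop := ∃ n p q χ : ℤ, ∀ a b, f a b = n * a * b + p * a + q * b + χ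

variable (K) in
def IsHP (M : Pre V) (f : ℤ → ℤ → ℤ) : Prop :=
  IsBil f ∧ ∃ a0 : ℤ, ∀ a b, a0 ≤ a → a0 ≤ b → (Module.finrank ℂ (Gam K M a b) : ℤ) = f a b

variable (K) in
open Classical in
/-- the Hilbert polynomial -/
def HP (M : Pre V) : ℤ → ℤ → ℤ := if h : ∃ f, IsHP K M f then h.choose else 0

variable (K) in
def chi (M : Pre V) : ℤ := HP K M 0 0
variable (K) in
def pc (M : Pre V) : ℤ := HP K M 1 0 - HP K M 0 0
variable (K) in
def qc (M : Pre V) : ℤ := HP K M 0 1 - HP K M 0 0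

variable (K) in
/-- semistable on the generic fibre of the first projection -/
def SemiSt (M : Pre V) : Prop :=
  ∀ W : Submodule K V,
    (Module.finrank K V : ℤ) * pc K (pull W.subtype M) ≤ (Module.finrank K W : ℤ) * pc K M

variable (K) in
/-- the sections of `M` on the generic fibre of the second projection have dimension `≤ n` -/
def Rho2Le (M : Pre V) (n : ℕ) : Prop :=
  Module.rank (k2 K) (Submodule.span (k2 K) (⋃ b : ℤ, (Gam K M 0 b : Set V))) ≤ n

variable (S : Surf K)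

structure IsSheaf (M : Pre V) : Prop where
  fg : ∀ c, ∃ s : Finset V, ∀ v, v ∈ M c ↔ v ∈ Submodule.span (S.R c) (s : Set V)
  frac : ∀ c (v : V), ∃ f ∈ S.R c, f ≠ 0 ∧ f • v ∈ M c
  compat : ∀ c c' (v : V), v ∈ M c → ∃ n : ℕ, ((tau K c' n n)⁻¹ * tau K c n n) • v ∈ M c'

/-- the structure sheaf -/
def OO : Pre K := fun c => Subalgebra.toSubmodule (S.R c)

/-- the sheaf generated by global sections `s` of degree `(a,b)` -/
def genSh (s : Set V) (a b : ℤ) : Pre V :=
  fun c => scal (tau K c a b)⁻¹ ((Submodule.span (S.R c) s).restrictScalars ℂ)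

/-- the dual sheaf -/
def dualP (M : Pre V) : Pre (Module.Dual K V) := fun c =>
  { carrier := {φ | ∀ x ∈ M c, φ x ∈ S.R c}
    add_mem' := fun ha hb x hx => (S.R c).add_mem (ha x hx) (hb x hx)
    zero_mem' := fun _ _ => (S.R c).zero_mem
    smul_mem' := fun r _ hφ x hx => (S.R c).smul_mem (hφ x hx) r }

/-- the reflexive hull, inside `V` -/
def bidual (M : Pre V) : Pre V := fun c =>
  { carrier := {v | ∀ φ : Module.Dual K V, (∀ x ∈ M c, φ x ∈ S.R c) → φ v ∈ S.R c}
    add_mem' := by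
      intro a b ha hb φ hφ
      rw [map_add]
      exact (S.R c).add_mem (ha φ hφ) (hb φ hφ)
    zero_mem' := by
      intro φ _
      rw [map_zero]
      exact (S.R c).zero_mem
    smul_mem' := by
      intro r v hv φ hφ
      rw [LinearMap.map_smul_of_tower]
      exact (S.R c).smul_mem (hv φ hφ) r }

/-- locally free -/
def LocFree (M : Pre V) : Prop :=
  ∀ c (𝔪 : Ideal (S.R c)), 𝔪.IsMaximal →
    ∃ (b : Module.Basis (Fin (Module.finrank K V)) K V) (g : S.R c), g ∉ 𝔪 ∧ (∀ j, b j ∈ M c) ∧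
      ∀ v ∈ M c, ∀ j, (g : K) * b.repr v j ∈ S.R c

/-- no proper overmodule of finite colength -/
def Refl (M : Pre V) : Prop :=
  ∀ c (N : Submodule ℂ V), (∀ r ∈ S.R c, ∀ v ∈ N, r • v ∈ N) → M c ≤ N →
    (∃ s : Finset V, N ≤ M c ⊔ Submodule.span ℂ (s : Set V)) → N ≤ M c

end

/-! ### one- and two-variable families -/

/-- a saturated family for the variable `x`: sections of the twists of a bundle on `P¹_k` -/
structure IsFam {k F V : Type} [Field k] [Field F] [AddCommGroup V] [Module k V] [Module F V]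
    (x : F) (M : ℤ → Submodule k V) : Prop where
  mono : ∀ a, M a ≤ M (a + 1)
  mul : ∀ a, ∀ v ∈ M a, x • v ∈ M (a + 1)
  sat : ∀ a, ∀ v ∈ M (a + 1), x • v ∈ M (a + 1) → v ∈ M a

/-- a bigraded `ℂ[u₁,u₂,v₁,v₂]`-module, `u₁ = x`, `v₁ = y`, `u₂ = v₂ = 1` -/
def FamClosed {K V : Type} [Field K] [AddCommGroup V] [Module K V] [Module ℂ V]
    (x y : K) (M : ℤ → ℤ → Submodule ℂ V) : Prop :=
  ∀ a b, ∀ v ∈ M a b, v ∈ M (a + 1) b ∧ x • v ∈ M (a + 1) b ∧ v ∈ M a (b + 1) ∧ y • v ∈ M a (b + 1)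

/-- finite generation of a bigraded family -/
def FamFG {K V : Type} [Field K] [AddCommGroup V] [Module K V] [Module ℂ V]
    (x y : K) (M : ℤ → ℤ → Submodule ℂ V) : Prop :=
  ∃ s : Finset (ℤ × ℤ × V), (∀ z ∈ s, z.2.2 ∈ M z.1 z.2.1) ∧ ∀ a b, M a b ≤ Submodule.span ℂ
    {w | ∃ z ∈ s, ∃ i j : ℕ, z.1 + i ≤ a ∧ z.2.1 + j ≤ b ∧ w = (x ^ i * y ^ j) • z.2.2}

/-- The interface between the surface side and the power series side. -/
def RMainProp (K : Type) [Field K] [Algebra ℂ K] (xb yb : K) (Rn : ℕ → Submodule ℂ K) (e : ℕ)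
    (κ : ℚ) : Prop :=
  ∀ (V : Type) [AddCommGroup V] [Module K V] [Module ℂ V] [IsScalarTower ℂ K V]
    (E : ℕ → Submodule ℂ V), (∀ n, FiniteDimensional ℂ (E n)) →
    (∀ n k, ∀ τ ∈ Rn k, ∀ v ∈ E n, τ • v ∈ E (n + k)) →
    (∃ n0, ∀ n, n0 ≤ n → ∀ v ∈ E (n + 1), ∃ v0 ∈ E n, ∃ v1 ∈ E n, ∃ v2 ∈ E n,
      v = v0 + xb • v1 + yb • v2) →
    ∃ (s : Submodule K V → ℕ) (γ χ : Submodule K V → ℤ),
      (∀ W, ∃ n1 : ℕ, ∀ n, n1 ≤ n →
        (Module.finrank ℂ (E n ⊓ W.restrictScalars ℂ : Submodule ℂ V) : ℤ)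
          = s W * e * (n : ℤ) ^ 2 + γ W * n + χ W) ∧
      ((∀ W, (s ⊤ : ℤ) * γ W - s W * γ ⊤ ≤ e * s W * (s ⊤ - s W)) → 0 < s ⊤ →
        (4 * s ⊤ * e * χ ⊤ - γ ⊤ ^ 2 : ℚ) ≤ (s ⊤ : ℚ) ^ 2 * e ^ 2 - 4 * (s ⊤ : ℚ) ^ 2 * e * κ)

/-- power series in three variables -/
abbrev A3 : Type := MvPowerSeries (Fin 3) ℂ
/-- polynomials in three variables -/
abbrev P3 : Type := MvPolynomial (Fin 3) ℂ

end

end Crest.Agent.R169
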