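import Crest.Agent.R169.ASide1

/-! # Dimensions; normality of the power series ring; finite domains over it -/

set_option autoImplicit false

namespace Crest.Agent.R169

open IsLocalRing

/-- lying over, going up, incomparability -/
theorem ringKrullDim_eq_of_isIntegral (A B : Type) [CommRing A] [CommRing B] [Algebra A B]
    [Algebra.IsIntegral A B] (h : Function.Injective (algebraMap A B)) :
    ringKrullDim B = ringKrullDim A := by
  apply le_antisymm
  · refine Order.krullDim_le_of_strictMono (PrimeSpectrum.comap (algebraMap A B)) ?_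
    intro P Q hPQ
    have hPQ' : P.asIdeal < Q.asIdeal := hPQ
    exact Ideal.IsIntegral.comap_lt_comap (R := A) hPQ'
  · refine iSup_le fun l => ?_
    obtain ⟨Q, -, hQ, hQ'⟩ := Ideal.exists_ideal_over_prime_of_isIntegral
      (RelSeries.head l).asIdeal (⊥ : Ideal B) (by
        intro x hx
        have hx0 : algebraMap A B x = 0 := by simpa using hx
        have : x = 0 := h (by simpa using hx0)
        rw [this]
        exact Submodule.zero_mem _)
    have : Q.LiesOver (RelSeries.head l).asIdeal := ⟨hQ'.symm⟩
    obtain ⟨L, hL, -, -⟩ := Ideal.exists_ltSeries_of_hasGoingUp l Q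
    rw [← hL]
    exact Order.LTSeries.length_le_krullDim L

theorem ringKrullDim_P3 : ringKrullDim P3 = 3 := by
  rw [MvPolynomial.ringKrullDim_of_isNoetherianRing, ringKrullDim_eq_zero_of_field]
  simp

/-- the origin -/
noncomputable def origin : Ideal P3 := RingHom.ker (MvPolynomial.constantCoeff : P3 →+* ℂ)

instance origin_isMaximal : origin.IsMaximal :=
  RingHom.ker_isMaximal_of_surjective _ (fun c => ⟨MvPolynomial.C c, by simp⟩)

theorem origin_eq : origin = Ideal.span (Set.range (MvPolynomial.X : Fin 3 → P3)) := by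
  ext p
  have h := MvPolynomial.mem_pow_idealOfVars_iff' (σ := Fin 3) (R := ℂ) 1 p
  rw [pow_one] at h
  change _ ↔ p ∈ MvPolynomial.idealOfVars (Fin 3) ℂ
  rw [h, origin, RingHom.mem_ker, MvPolynomial.constantCoeff_eq]
  constructor
  · intro h0 x hx
    have : x = 0 := by
      rw [Nat.lt_one_iff] at hx
      exact (Finsupp.degree_eq_zero_iff x).mp hx
    rw [this]
    exact h0
  · intro h0
    exact h0 0 (by simp)

/-- kill the first `k` variables -/
noncomputable def dimKill (k : ℕ) : P3 →ₐ[ℂ] P3 :=
  MvPolynomial.aeval (fun i : Fin 3 => if (i : ℕ) < k then 0 else MvPolynomial.X i)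

theorem dimKill_comp (k : ℕ) : (dimKill (k + 1)).comp (dimKill k) = dimKill (k + 1) := by
  apply MvPolynomial.algHom_ext
  intro i
  simp only [dimKill, AlgHom.comp_apply, MvPolynomial.aeval_X]
  by_cases h : (i : ℕ) < k
  · rw [if_pos h, if_pos (by omega), map_zero]
  · rw [if_neg h, MvPolynomial.aeval_X]

/-- the prime ideal generated by the first `k` variables -/
noncomputable def dimPrime (k : ℕ) : PrimeSpectrum P3 :=
  ⟨RingHom.ker (dimKill k), RingHom.ker_isPrime _⟩

theorem dimPrime_lt (k : Fin 3) : dimPrime k < dimPrime (k + 1) := by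
  change RingHom.ker (dimKill k) < RingHom.ker (dimKill (k + 1))
  refine lt_of_le_of_ne ?_ ?_
  · intro p hp
    rw [RingHom.mem_ker] at hp ⊢
    rw [← dimKill_comp, AlgHom.comp_apply, hp, map_zero]
  · intro h
    have h1 : (MvPolynomial.X k : P3) ∈ RingHom.ker (dimKill (k + 1)) := by
      rw [RingHom.mem_ker]
      simp [dimKill]
    rw [← h, RingHom.mem_ker] at h1
    simp [dimKill] at h1

theorem dimPrime_le : dimPrime 3 ≤ (⟨origin, inferInstance⟩ : PrimeSpectrum P3) := by
  change RingHom.ker (dimKill 3) ≤ origin
  intro p hp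
  rw [RingHom.mem_ker] at hp
  have h : (MvPolynomial.constantCoeff : P3 →+* ℂ).comp (dimKill 3 : P3 →+* P3) =
      MvPolynomial.constantCoeff := by
    apply MvPolynomial.ringHom_ext
    · intro c
      simp [dimKill]
    · intro i
      simp [dimKill]
  rw [origin, RingHom.mem_ker, ← h, RingHom.comp_apply]
  change MvPolynomial.constantCoeff (dimKill 3 p) = 0
  rw [hp, map_zero]

theorem ringKrullDim_loc_origin : ringKrullDim (Localization.AtPrime origin) = 3 := by
  rw [IsLocalization.AtPrime.ringKrullDim_eq_height origin (Localization.AtPrime origin)]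
  apply le_antisymm
  · rw [← ringKrullDim_P3]
    exact Ideal.height_le_ringKrullDim_of_isPrime
  · let l : LTSeries (PrimeSpectrum P3) :=
      ⟨3, fun i => dimPrime i, fun i => by simpa using dimPrime_lt i⟩
    have h := Order.length_le_height (p := l) (x := ⟨origin, inferInstance⟩) dimPrime_le
    rw [← PrimeSpectrum.height_eq_orderHeight] at h
    change ((3 : ℕ∞) : WithBot ℕ∞) ≤ _
    exact WithBot.coe_le_coe.mpr h

theorem le_ringKrullDim_mvPowerSeries (n : ℕ) :
    (n : WithBot ℕ∞) ≤ ringKrullDim (MvPowerSeries (Fin n) ℂ) := by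
  induction n with
  | zero => simpa using ringKrullDim_nonneg_of_nontrivial
  | succ n ih =>
    rw [ringKrullDim_eq_of_ringEquiv (MvPowerSeries.finSuccEquiv ℂ n).toRingEquiv]
    refine le_trans ?_ ringKrullDim_succ_le_ringKrullDim_powerseries
    push_cast
    gcongr

theorem ringKrullDim_A3 : ringKrullDim A3 = 3 := by
  apply le_antisymm
  · refine le_trans (ringKrullDim_le_spanFinrank_maximalIdeal A3) ?_
    rw [maximalIdeal_A3]
    have h : (Ideal.span (Set.range (MvPowerSeries.X : Fin 3 → A3))).spanFinrank ≤ 3 := by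
      refine le_trans (Submodule.spanFinrank_span_le_ncard_of_finite (Set.finite_range _)) ?_
      rw [← Set.image_univ]
      refine le_trans (Set.ncard_image_le) ?_
      simp
    exact_mod_cast h
  · exact_mod_cast le_ringKrullDim_mvPowerSeries 3

end Crest.Agent.R169
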