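import Crest.Agent.R169.ASide1

/-! # Normality of the power series ring; finite domains over it -/

set_option autoImplicit false

namespace Crest.Agent.R169

open IsLocalRing

section ini

open MvPowerSeries

/-- the initial form -/
noncomputable def psnIni (f : A3) : P3 := truncTotal (f.order.toNat + 1) f

theorem psnIni_coe (f : A3) : ((psnIni f : P3) : A3) = homogeneousComponent f.order.toNat f := by
  ext d
  rw [MvPolynomial.coeff_coe, psnIni, coeff_truncTotal_eq_ite, coeff_homogeneousComponent]
  by_cases h1 : d.degree = f.order.toNat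
  · rw [if_pos h1, if_pos (by omega)]
  · rw [if_neg h1]
    split_ifs with h2
    · refine coeff_of_lt_order (lt_of_lt_of_le ?_ (ENat.natCast_toNat_le_self _))
      exact_mod_cast (by omega : d.degree < f.order.toNat)
    · rfl

theorem psnIni_zero : psnIni 0 = 0 := by simp [psnIni]

theorem psnIni_ne_zero {f : A3} (hf : f ≠ 0) : psnIni f ≠ 0 := by
  intro h
  have := psnIni_coe f
  rw [h, MvPolynomial.coe_zero] at this
  exact homogeneousComponent_of_order (ne_zero_iff_order_finite.1 hf) this.symm

theorem psnIni_mul (f g : A3) : psnIni (f * g) = psnIni f * psnIni g := by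
  by_cases hf : f = 0
  · simp [hf, psnIni_zero]
  by_cases hg : g = 0
  · simp [hg, psnIni_zero]
  apply MvPolynomial.coe_injective
  have h1 := ne_zero_iff_order_finite.1 hf
  have h2 := ne_zero_iff_order_finite.1 hg
  have h3 : (f * g).order.toNat = f.order.toNat + g.order.toNat := by
    rw [order_mul, ← h1, ← h2, ← Nat.cast_add, ENat.toNat_natCast, ENat.toNat_natCast, ENat.toNat_natCast]
  simp only [MvPolynomial.coe_mul, psnIni_coe, h3]
  exact homogeneousComponent_mul_of_le_order h1.le h2.le

theorem psnIni_one : psnIni 1 = 1 := by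
  have h := psnIni_mul 1 1
  rw [mul_one] at h
  exact (mul_eq_left₀ (psnIni_ne_zero one_ne_zero)).1 h.symm

theorem psnIni_pow (f : A3) (n : ℕ) : psnIni (f ^ n) = psnIni f ^ n := by
  induction n with
  | zero => simp [psnIni_one]
  | succ n ih => rw [pow_succ, psnIni_mul, ih, pow_succ]

theorem psn_order_sub_ini (f : A3) :
    ((f.order.toNat + 1 : ℕ) : ℕ∞) ≤ (f - (psnIni f : A3)).order := by
  refine nat_le_order fun d hd => ?_
  rw [map_sub, MvPolynomial.coeff_coe, psnIni, coeff_truncTotal _ hd, sub_self]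

theorem psn_order_ini (f : A3) : ((psnIni f : P3) : A3).order = f.order := by
  by_cases hf : f = 0
  · simp [hf, psnIni_zero]
  have h1 := ne_zero_iff_order_finite.1 hf
  have h2 : f.order < (f - (psnIni f : A3)).order := by
    refine lt_of_lt_of_le ?_ (psn_order_sub_ini f)
    conv_lhs => rw [← h1]
    exact_mod_cast Nat.lt_succ_self _
  have h3 : ((psnIni f : P3) : A3) = f + -(f - (psnIni f : A3)) := by ring
  rw [h3, order_add_of_order_ne (by rw [order_neg]; exact h2.ne), order_neg]
  exact min_eq_left h2.le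

theorem psnIni_ini (f : A3) : psnIni ((psnIni f : P3) : A3) = psnIni f := by
  apply MvPolynomial.coe_injective
  rw [psnIni_coe ((psnIni f : P3) : A3), psn_order_ini, psnIni_coe]
  exact (isHomogeneous_iff_eq_homogeneousComponent.1 (isHomogeneous_homogeneousComponent _ _)).symm

theorem psn_order_sub {f g : A3} (h : psnIni f = psnIni g) :
    ((f.order.toNat + 1 : ℕ) : ℕ∞) ≤ (f - g).order := by
  have h1 : f.order = g.order := by rw [← psn_order_ini f, h, psn_order_ini]
  have h2 : f - g = (f - (psnIni f : A3)) + -(g - (psnIni g : A3)) := by rw [h]; ring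
  rw [h2]
  refine le_trans (le_min (psn_order_sub_ini f) ?_) min_order_le_add
  rw [order_neg, h1]
  exact psn_order_sub_ini g

theorem psn_dvd_of_pow {b r d : P3} (hb : b ≠ 0) (hd : d ≠ 0) (h : ∀ n, b ^ n ∣ d * r ^ n) :
    b ∣ r := by
  have hb' : algebraMap P3 (FractionRing P3) b ≠ 0 := by simpa using hb
  have h1 : IsAlmostIntegral P3
      (algebraMap P3 (FractionRing P3) r / algebraMap P3 (FractionRing P3) b) := by
    refine ⟨d, mem_nonZeroDivisors_of_ne_zero hd, fun n => ?_⟩
    obtain ⟨c, hc⟩ := h n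
    refine ⟨c, ?_⟩
    have := congrArg (algebraMap P3 (FractionRing P3)) hc
    simp only [map_mul, map_pow] at this
    rw [Algebra.smul_def, div_pow, ← mul_div_assoc, this, mul_div_cancel_left₀ _ (pow_ne_zero _ hb')]
  obtain ⟨q, hq⟩ := IsIntegrallyClosed.isIntegral_iff.1 h1.isIntegral
  refine ⟨q, IsFractionRing.injective P3 (FractionRing P3) ?_⟩
  rw [map_mul, hq, mul_div_cancel₀ _ hb']

theorem psn_step {b r : A3} (hb : b ≠ 0)
    (h : IsIntegral A3 (algebraMap A3 F3 r / algebraMap A3 F3 b)) :
    ∃ c : A3, ((r.order.toNat + 1 : ℕ) : ℕ∞) ≤ (r - b * c).order := by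
  have hb' : algebraMap A3 F3 b ≠ 0 := by simpa using hb
  obtain ⟨d, hd, h1⟩ := h.isAlmostIntegral
  have h2 : ∀ n, psnIni b ^ n ∣ psnIni d * psnIni r ^ n := fun n => by
    obtain ⟨c, hc⟩ := h1 n
    have : d * r ^ n = b ^ n * c := by
      apply IsFractionRing.injective A3 F3
      simp only [map_mul, map_pow]
      rw [hc, Algebra.smul_def, div_pow]
      field_simp
    refine ⟨psnIni c, ?_⟩
    rw [← psnIni_pow, ← psnIni_pow, ← psnIni_mul, ← psnIni_mul, this]
  obtain ⟨q, hq⟩ := psn_dvd_of_pow (psnIni_ne_zero hb)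
    (psnIni_ne_zero (nonZeroDivisors.ne_zero hd)) h2
  refine ⟨q, psn_order_sub ?_⟩
  rw [← psnIni_ini r, hq, MvPolynomial.coe_mul, psnIni_mul, psnIni_mul, psnIni_ini]

theorem psn_approx {a b : A3} (hb : b ≠ 0)
    (h : IsIntegral A3 (algebraMap A3 F3 a / algebraMap A3 F3 b)) (j : ℕ) :
    ∃ c : A3, (j : ℕ∞) ≤ (a - b * c).order := by
  have hb' : algebraMap A3 F3 b ≠ 0 := by simpa using hb
  induction j with
  | zero => exact ⟨0, by simp⟩
  | succ j ih =>
    obtain ⟨c, hc⟩ := ih
    by_cases hr : a - b * c = 0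
    · exact ⟨c, by simp [hr]⟩
    have h1 : IsIntegral A3 (algebraMap A3 F3 (a - b * c) / algebraMap A3 F3 b) := by
      have : algebraMap A3 F3 (a - b * c) / algebraMap A3 F3 b =
          algebraMap A3 F3 a / algebraMap A3 F3 b - algebraMap A3 F3 c := by
        rw [map_sub, map_mul]
        field_simp
      rw [this]
      exact h.sub isIntegral_algebraMap
    obtain ⟨c', hc'⟩ := psn_step hb h1
    refine ⟨c + c', ?_⟩
    rw [show a - b * (c + c') = a - b * c - b * c' by ring]
    refine le_trans ?_ hc'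
    rw [← ne_zero_iff_order_finite.1 hr] at hc
    exact_mod_cast Nat.succ_le_succ (by exact_mod_cast hc)

end ini

/-- Matsumura 17.10.  Let `a / b` be integral, so `d aⁿ ∈ (bⁿ)` for some `d ≠ 0` and all `n`.  Show `a ∈ (b) + 𝔪^j` for all `j`: if
`a = b c + r` with `r ≠ 0` of order `j`, then `r / b` is almost integral, so for the initial forms `in(b)ⁿ ∣ in(d) in(r)ⁿ` in the
UFD `P3`, hence `in(b) ∣ in(r)` and the order of `r` can be increased.  Krull's intersection theorem in `A3 ⧸ (b)`. -/
theorem isIntegrallyClosed_A3 : IsIntegrallyClosed A3 := by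
  refine (isIntegrallyClosed_iff F3).2 fun {x} hx => ?_
  obtain ⟨a, b, hb, rfl⟩ := IsFractionRing.div_surjective (A := A3) x
  have hb0 : b ≠ 0 := nonZeroDivisors.ne_zero hb
  have hb' : algebraMap A3 F3 b ≠ 0 := by simpa using hb0
  have h1 : Ideal.Quotient.mk (Ideal.span {b}) a = 0 := by
    refine IsHausdorff.haus (I := maximalIdeal A3) (M := A3 ⧸ Ideal.span {b}) inferInstance _
      fun n => ?_
    obtain ⟨c, hc⟩ := psn_approx hb0 hx n
    rw [SModEq.zero]
    have h2 : Ideal.Quotient.mk (Ideal.span {b}) a =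
        (a - b * c) • (1 : A3 ⧸ Ideal.span {b}) := by
      change _ = Ideal.Quotient.mk (Ideal.span {b}) ((a - b * c) * 1)
      rw [mul_one, Ideal.Quotient.eq]
      exact Ideal.mem_span_singleton'.2 ⟨c, by ring⟩
    rw [h2]
    exact Submodule.smul_mem_smul ((mem_maximalIdeal_pow_iff n _).2 hc) Submodule.mem_top
  obtain ⟨c, hc⟩ := Ideal.mem_span_singleton'.1 (Ideal.Quotient.eq_zero_iff_mem.1 h1)
  exact ⟨c, by rw [← hc, map_mul, mul_div_cancel_right₀ _ hb']⟩

theorem psn_precomplete_of_finite {A M : Type} [CommRing A] (I : Ideal A) [IsPrecomplete I A]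
    [AddCommGroup M] [Module A M] [Module.Finite A M] : IsPrecomplete I M := by
  rw [← AdicCompletion.of_surjective_iff]
  intro x
  obtain ⟨t, rfl⟩ := AdicCompletion.ofTensorProduct_surjective_of_finite I M x
  induction t with
  | zero => exact ⟨0, by simp⟩
  | add s t hs ht =>
    obtain ⟨u, hu⟩ := hs
    obtain ⟨v, hv⟩ := ht
    exact ⟨u + v, by rw [map_add, map_add, hu, hv]⟩
  | tmul r m =>
    obtain ⟨a, rfl⟩ := AdicCompletion.of_surjective I A r
    refine ⟨a • m, ?_⟩
    rw [AdicCompletion.ofTensorProduct_tmul, map_smul]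
    rfl

theorem psn_precomplete_of_pow_le {R : Type} [CommRing R] {I J : Ideal R} [h : IsPrecomplete J R]
    (h1 : J ≤ I) {k : ℕ} (h2 : I ^ k ≤ J) : IsPrecomplete I R := by
  refine ⟨fun f hf => ?_⟩
  obtain ⟨L, hL⟩ := h.prec (f := fun n => f ((k + 1) * n)) fun {m n} hmn => by
    refine SModEq.mono (Submodule.smul_mono_left ?_) (hf (Nat.mul_le_mul_left _ hmn))
    rw [pow_mul]
    exact Ideal.pow_right_mono ((Ideal.pow_le_pow_right (Nat.le_succ k)).trans h2) m
  refine ⟨L, fun n => (hf (Nat.le_mul_of_pos_left n (Nat.succ_pos k))).trans ?_⟩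
  exact SModEq.mono (Submodule.smul_mono_left (Ideal.pow_right_mono h1 n)) (hL n)

theorem psn_isLocalRing {R : Type} [CommRing R] [IsDomain R] (J : Ideal R) [IsAdicComplete J R]
    [IsArtinianRing (R ⧸ J)] : IsLocalRing R := by
  have hH : HenselianRing R J := inferInstance
  have : IsLocalHom (Ideal.Quotient.mk J) := isLocalHom_of_le_jacobson_bot J hH.jac
  refine IsLocalRing.of_isUnit_or_isUnit_one_sub_self fun x => ?_
  obtain ⟨n, y, hy⟩ := IsArtinian.exists_pow_succ_smul_dvd (Ideal.Quotient.mk J x) (1 : R ⧸ J)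
  simp only [smul_eq_mul, mul_one, Nat.succ_eq_add_one] at hy
  have h1 : ∀ k, Ideal.Quotient.mk J x ^ (n + k) * y ^ k = Ideal.Quotient.mk J x ^ n := by
    intro k
    induction k with
    | zero => simp
    | succ k ih =>
      calc Ideal.Quotient.mk J x ^ (n + (k + 1)) * y ^ (k + 1)
          = (Ideal.Quotient.mk J x ^ (n + 1) * y) * (Ideal.Quotient.mk J x ^ k * y ^ k) := by ring
        _ = Ideal.Quotient.mk J x ^ (n + k) * y ^ k := by rw [hy]; ring
        _ = _ := ih
  obtain ⟨e, he⟩ := Ideal.Quotient.mk_surjective (Ideal.Quotient.mk J x ^ n * y ^ n)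
  have h2 : Ideal.Quotient.mk J e * Ideal.Quotient.mk J e = Ideal.Quotient.mk J e := by
    rw [he]
    calc _ = (Ideal.Quotient.mk J x ^ (n + n) * y ^ n) * y ^ n := by ring
      _ = _ := by rw [h1]
  have hm : (Polynomial.X ^ 2 - Polynomial.X : Polynomial R).Monic :=
    Polynomial.monic_X_pow_sub (by rw [Polynomial.degree_X]; norm_num)
  obtain ⟨a, ha, hae⟩ := hH.is_henselian _ hm e (by
      rw [← Ideal.Quotient.eq_zero_iff_mem]
      simp [sq, h2]) (by
      refine IsUnit.of_mul_eq_one (2 * Ideal.Quotient.mk J e - 1) ?_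
      have : (Ideal.Quotient.mk J) (Polynomial.eval e (Polynomial.derivative
          (Polynomial.X ^ 2 - Polynomial.X : Polynomial R))) = 2 * Ideal.Quotient.mk J e - 1 := by
        simp
        norm_num
      rw [this]
      linear_combination 4 * h2)
  have h3 : a * (a - 1) = 0 := by
    have := ha.eq_zero
    simp only [Polynomial.eval_sub, Polynomial.eval_pow, Polynomial.eval_X] at this
    linear_combination this
  have h4 : Ideal.Quotient.mk J a = Ideal.Quotient.mk J x ^ n * y ^ n := by
    rw [← he, Ideal.Quotient.eq]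
    exact hae
  rcases mul_eq_zero.1 h3 with h | h
  · right
    have h5 : IsNilpotent (Ideal.Quotient.mk J x) := by
      refine ⟨n, ?_⟩
      rw [h, map_zero] at h4
      rw [← h1 n, pow_add, mul_assoc, ← h4, mul_zero]
    refine IsUnit.of_map (Ideal.Quotient.mk J) _ ?_
    rw [map_sub, map_one]
    exact h5.isUnit_one_sub
  · rw [sub_eq_zero.1 h, map_one] at h4
    rcases Nat.eq_zero_or_pos n with rfl | hn
    · left
      refine IsUnit.of_map (Ideal.Quotient.mk J) _ (IsUnit.of_mul_eq_one y ?_)
      simpa using hy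
    · left
      refine IsUnit.of_map (Ideal.Quotient.mk J) _ ?_
      exact (isUnit_pow_iff hn.ne').1 (IsUnit.of_mul_eq_one _ h4.symm)

/-- a finite domain over the complete local ring `A3` is a complete local ring with residue field `ℂ` -/
theorem finite_domain_A3 (R : Type) [CommRing R] [IsDomain R] [Algebra A3 R] [Module.Finite A3 R]
    [Algebra ℂ R] [IsScalarTower ℂ A3 R] (h : Function.Injective (algebraMap A3 R)) :
    ∃ _ : IsLocalRing R, IsLocalHom (algebraMap A3 R) ∧ IsAdicComplete (maximalIdeal R) R ∧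
      Function.Bijective (algebraMap ℂ (ResidueField R)) := by
  have : FaithfulSMul A3 R := (faithfulSMul_iff_algebraMap_injective A3 R).2 h
  have : IsNoetherianRing R := Algebra.FiniteType.isNoetherianRing A3 R
  have h1 : IsAdicComplete (maximalIdeal A3) A3 := by
    rw [maximalIdeal_A3]
    infer_instance
  have h2 : IsPrecomplete (maximalIdeal A3) R := psn_precomplete_of_finite _
  have h3 : IsAdicComplete (maximalIdeal A3) R := {}
  set J : Ideal R := (maximalIdeal A3).map (algebraMap A3 R) with hJ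
  have h4 : IsAdicComplete J R := (IsAdicComplete.map_algebraMap_iff _ _).2 h3
  have h5 : IsArtinianRing (R ⧸ J) := by
    let := Ideal.Quotient.field (maximalIdeal A3)
    exact IsArtinianRing.of_finite (A3 ⧸ maximalIdeal A3) (R ⧸ J)
  have h6 : IsLocalRing R := psn_isLocalRing J
  have h7 : IsLocalHom (algebraMap A3 R) := inferInstance
  have hJle : J ≤ maximalIdeal R := Ideal.map_le_iff_le_comap.2 fun a ha =>
    map_nonunit (algebraMap A3 R) a ha
  refine ⟨h6, h7, ?_, ?_⟩
  · have h8 : maximalIdeal R ≤ J.radical := by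
      rw [Ideal.radical_eq_sInf, le_sInf_iff]
      rintro P ⟨hP1, hP2⟩
      have h9 : (P.comap (algebraMap A3 R)).IsMaximal := by
        have : maximalIdeal A3 = P.comap (algebraMap A3 R) :=
          (maximalIdeal.isMaximal A3).eq_of_le (Ideal.comap_ne_top _ hP2.ne_top)
            (Ideal.map_le_iff_le_comap.1 hP1)
        rw [← this]
        infer_instance
      exact (eq_maximalIdeal (Ideal.isMaximal_of_isIntegral_of_isMaximal_comap P h9)).ge
    obtain ⟨k, hk⟩ := Ideal.exists_pow_le_of_le_radical_of_fg h8 (IsNoetherian.noetherian _)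
    have := psn_precomplete_of_pow_le hJle hk
    exact {}
  · have h8 : (residue R).comp (algebraMap A3 R) =
        (algebraMap ℂ (ResidueField R)).comp MvPowerSeries.constantCoeff := by
      ext a
      have h9 : a - algebraMap ℂ A3 (MvPowerSeries.constantCoeff a) ∈ maximalIdeal A3 := by
        rw [mem_maximalIdeal, mem_nonunits_iff, MvPowerSeries.isUnit_iff_constantCoeff]
        simp [MvPowerSeries.algebraMap_apply]
      have h10 := map_nonunit (algebraMap A3 R) _ h9
      rw [← residue_eq_zero_iff, map_sub, map_sub, sub_eq_zero,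
        ← IsScalarTower.algebraMap_apply] at h10
      exact h10
    have : Algebra.IsIntegral ℂ (ResidueField R) := ⟨fun x => by
      obtain ⟨y, rfl⟩ := residue_surjective x
      obtain ⟨p, hp, hy⟩ := Algebra.IsIntegral.isIntegral (R := A3) y
      refine ⟨p.map MvPowerSeries.constantCoeff, hp.map _, ?_⟩
      rw [Polynomial.eval₂_map, ← h8, ← Polynomial.hom_eval₂, hy, map_zero]⟩
    exact IsAlgClosed.algebraMap_bijective_of_isIntegral

end Crest.Agent.R169
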