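import Crest.Agent.R169.TDefs
import Crest.Agent.R169.CM
import Crest.Agent.R169.Dim
import Crest.Agent.R169.PSN

/-! # From the key ring to the complete normal domain -/

set_option autoImplicit false

namespace Crest.Agent.R169

/-- a finite domain over `P ⊆ A` maps to a finite normal domain over `A` -/
theorem fin56_exists_ring {P T A : Type} [CommRing P] [IsDomain P] [CommRing T] [IsDomain T]
    [CommRing A] [IsDomain A] [IsIntegrallyClosed A] [IsNoetherianRing A] [CharZero A]
    (F Ω : Type) [Field F] [Algebra A F] [IsFractionRing A F] [Field Ω] [Algebra F Ω] [Algebra A Ω]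
    [IsScalarTower A F Ω] [IsAlgClosed Ω]
    [Algebra P T] [Module.Finite P T] (hPT : Function.Injective (algebraMap P T))
    (c : P →+* A) (hc : Function.Injective c) :
    ∃ (R : Type) (_ : CommRing R) (_ : IsDomain R) (_ : Algebra A R) (φ : T →+* R),
      Module.Finite A R ∧ IsIntegrallyClosed R ∧ Function.Injective (algebraMap A R) ∧
      ∀ p, φ (algebraMap P T p) = algebraMap A R (c p) := by
  classical
  have hAΩ : Function.Injective (algebraMap A Ω) := by
    rw [IsScalarTower.algebraMap_eq A F Ω]
    exact (algebraMap F Ω).injective.comp (IsFractionRing.injective A F)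
  let _ : Algebra P A := c.toAlgebra
  let _ : Algebra P Ω := ((algebraMap A Ω).comp c).toAlgebra
  have : IsScalarTower P A Ω := IsScalarTower.of_algebraMap_eq fun _ => rfl
  have : FaithfulSMul P T := (faithfulSMul_iff_algebraMap_injective P T).2 hPT
  have : FaithfulSMul P Ω := (faithfulSMul_iff_algebraMap_injective P Ω).2 (hAΩ.comp hc)
  let f : T →ₐ[P] Ω := IsAlgClosed.lift
  have hint : ∀ t, IsIntegral A (f t) := fun t =>
    ((Algebra.IsIntegral.isIntegral (R := P) t).map f).tower_top
  obtain ⟨s, hs⟩ := Module.Finite.fg_top (R := P) (M := T)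
  let L : IntermediateField F Ω := IntermediateField.adjoin F (f '' (s : Set T))
  have : Finite (f '' (s : Set T)) := (s.finite_toSet.image f).to_subtype
  have : FiniteDimensional F L := IntermediateField.finiteDimensional_adjoin (by
    rintro _ ⟨t, -, rfl⟩
    exact (hint t).tower_top)
  have hL : ∀ t, f t ∈ L := by
    intro t
    have ht : t ∈ Submodule.span P (s : Set T) := hs ▸ Submodule.mem_top
    induction ht using Submodule.span_induction with
    | mem x hx => exact IntermediateField.subset_adjoin _ _ ⟨x, hx, rfl⟩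
    | zero => rw [map_zero]; exact L.zero_mem
    | add x y _ _ hx hy => rw [map_add]; exact L.add_mem hx hy
    | smul a x _ hx =>
      rw [map_smul, Algebra.smul_def]
      refine L.mul_mem ?_ hx
      rw [IsScalarTower.algebraMap_apply P A Ω, IsScalarTower.algebraMap_apply A F Ω]
      exact L.algebraMap_mem _
  have : CharZero F := charZero_of_injective_algebraMap (IsFractionRing.injective A F)
  have hAL : Function.Injective (algebraMap A L) := by
    rw [IsScalarTower.algebraMap_eq A F L]
    exact (algebraMap F L).injective.comp (IsFractionRing.injective A F)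
  let g : T →+* L := (f : T →+* Ω).codRestrict L hL
  have hg : ∀ t, g t ∈ integralClosure A L := by
    intro t
    have : IsIntegral A (L.val.restrictScalars A (g t)) := hint t
    exact (isIntegral_algHom_iff _ Subtype.val_injective).1 this
  refine ⟨integralClosure A L, inferInstance, inferInstance, inferInstance,
    g.codRestrict (integralClosure A L) hg, IsIntegralClosure.finite A F L _, ?_, ?_, ?_⟩
  · exact integralClosure.isIntegrallyClosedOfFiniteExtension F
  · intro a b e
    exact hAL (congrArg Subtype.val e)
  · intro p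
    refine Subtype.ext (Subtype.ext ?_)
    exact f.commutes p

/-- `T` embeds over `P3` in the algebraic closure of `F3` (`IsAlgClosed.lift`); `L = F3(T)` is finite over `F3`; `R` is the integral
closure of `A3` in `L` (`IsIntegralClosure.finite`, `isIntegrallyClosed_A3`, `finite_domain_A3`, `ringKrullDim_eq_of_isIntegral`).  A maximal
Cohen–Macaulay `R`-module is free over `A3` (`free_of_mcm`, `maximalIdeal_A3`), of rank `N > 0`; `T → R` gives the representation. -/
theorem s0256_of_key {T : Type} [CommRing T] [Algebra ℂ T] {𝒜 : ℕ → Submodule ℂ T} {j : P3 →ₐ[ℂ] T}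
    (h : KeyRing T 𝒜 j) :
    ∃ (R : Type) (_ : CommRing R) (_ : IsLocalRing R) (_ : Algebra ℂ R),
      IsDomain R ∧ IsNoetherianRing R ∧ IsIntegrallyClosed R ∧
      IsAdicComplete (IsLocalRing.maximalIdeal R) R ∧ ringKrullDim R = 3 ∧
      Function.Bijective (algebraMap ℂ (IsLocalRing.ResidueField R)) ∧
      ∀ (M : Type) [AddCommGroup M] [Module R M], Module.Finite R M → Nontrivial M →
        ∀ rs : List R, rs.length = 3 → (∀ r ∈ rs, r ∈ IsLocalRing.maximalIdeal R) →
          ¬ RingTheory.Sequence.IsRegular M rs := by
  classical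
  have := h.dom
  have : IsDomain A3 := NoZeroDivisors.to_isDomain A3
  have := isIntegrallyClosed_A3
  let _ : Algebra P3 T := j.toRingHom.toAlgebra
  have : Module.Finite P3 T := h.fin
  have : CharZero A3 := charZero_of_injective_algebraMap (algebraMap ℂ A3).injective
  obtain ⟨R, _, _, _, φ, hfin, hic, hinj, hφ⟩ := fin56_exists_ring (P := P3) (T := T) (A := A3)
    F3 (AlgebraicClosure F3) h.inj
    (MvPolynomial.coeToMvPowerSeries.ringHom) (MvPolynomial.coe_injective _ _)
  let _ : Algebra ℂ R := ((algebraMap A3 R).comp (algebraMap ℂ A3)).toAlgebra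
  have : IsScalarTower ℂ A3 R := IsScalarTower.of_algebraMap_eq fun _ => rfl
  obtain ⟨_, hloc, hcomp, hbij⟩ := finite_domain_A3 R hinj
  refine ⟨R, inferInstance, inferInstance, inferInstance, inferInstance,
    Algebra.FiniteType.isNoetherianRing A3 R, hic, hcomp, ?_, hbij, ?_⟩
  · rw [ringKrullDim_eq_of_isIntegral A3 R hinj, ringKrullDim_A3]
  intro M _ _ hM hnt rs hl hrs hreg
  let _ : Module A3 M := Module.compHom M (algebraMap A3 R)
  have : IsScalarTower A3 R M := ⟨fun a r m => by
    rw [Algebra.smul_def, mul_smul]; rfl⟩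
  have hx : IsLocalRing.maximalIdeal A3 =
      Ideal.ofList [MvPowerSeries.X 0, MvPowerSeries.X 1, MvPowerSeries.X 2] := by
    rw [maximalIdeal_A3, Ideal.ofList]
    congr 1
    ext a
    simp only [Set.mem_range, List.mem_cons, List.not_mem_nil, or_false, Set.mem_ofPred_eq]
    constructor
    · rintro ⟨i, rfl⟩
      fin_cases i <;> simp
    · rintro (rfl | rfl | rfl) <;> exact ⟨_, rfl⟩
  have : Module.Free A3 M := free_of_mcm (A := A3) (B := R) _ hx M rs hl hrs hreg
  have : Module.Finite A3 M := Module.Finite.trans R M
  let b := Module.finBasis A3 M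
  have hN : 0 < Module.finrank A3 M := Module.finrank_pos
  let ψ : R →ₐ[A3] Matrix (Fin (Module.finrank A3 M)) (Fin (Module.finrank A3 M)) A3 :=
    (LinearMap.toMatrixAlgEquiv b).toAlgHom.comp (Algebra.lsmul A3 A3 M)
  refine h.no_rep _ hN ((ψ : R →+* _).comp φ) fun p => ?_
  have e : φ (j p) = algebraMap A3 R (p : A3) := hφ p
  rw [RingHom.comp_apply, e, RingHom.coe_coe, ψ.commutes]
  rfl

end Crest.Agent.R169
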