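import Crest.Agent.R169.TDefs
import Crest.Agent.R169.CM
import Crest.Agent.R169.Dim

/-! # From the key ring to the localisation at the irrelevant ideal -/

set_option autoImplicit false

namespace Crest.Agent.R169

section aux
variable {T : Type} [CommRing T] [Algebra ℂ T] {𝒜 : ℕ → Submodule ℂ T} [GradedAlgebra 𝒜]
  {j : P3 →ₐ[ℂ] T}

theorem fin57_bijective (h : KeyRing T 𝒜 j) :
    Function.Bijective (algebraMap ℂ (T ⧸ (HomogeneousIdeal.irrelevant 𝒜).toIdeal)) := by
  haveI := h.dom
  have hne : (HomogeneousIdeal.irrelevant 𝒜).toIdeal ≠ ⊤ := by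
    rw [HomogeneousIdeal.toIdeal_irrelevant]
    exact RingHom.ker_ne_top _
  haveI : Nontrivial (T ⧸ (HomogeneousIdeal.irrelevant 𝒜).toIdeal) :=
    Ideal.Quotient.nontrivial_iff.2 hne
  refine ⟨RingHom.injective _, fun x => ?_⟩
  obtain ⟨t, rfl⟩ := Ideal.Quotient.mk_surjective x
  obtain ⟨c, hc⟩ := h.deg_zero (DirectSum.decompose 𝒜 t 0 : T) (DirectSum.decompose 𝒜 t 0).2
  refine ⟨c, ?_⟩
  rw [← Ideal.Quotient.mk_algebraMap, Ideal.Quotient.eq, ← hc,
    HomogeneousIdeal.toIdeal_irrelevant, RingHom.mem_ker, map_sub,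
    GradedRing.projZeroRingHom_apply, GradedRing.projZeroRingHom_apply,
    DirectSum.decompose_of_mem_same 𝒜 (DirectSum.decompose 𝒜 t 0).2, sub_self]

theorem fin57_isMaximal (h : KeyRing T 𝒜 j) : (HomogeneousIdeal.irrelevant 𝒜).toIdeal.IsMaximal :=
  Ideal.Quotient.maximal_of_isField _
    ((RingEquiv.ofBijective _ (fin57_bijective h)).symm.toMulEquiv.isField (Field.toIsField ℂ))

theorem fin57_map_origin : origin.map j = Ideal.span (Set.range fun i => j (MvPolynomial.X i)) := by
  rw [origin_eq, Ideal.map_span, ← Set.range_comp]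
  rfl

theorem fin57_map_le (h : KeyRing T 𝒜 j) :
    origin.map j ≤ (HomogeneousIdeal.irrelevant 𝒜).toIdeal := by
  rw [fin57_map_origin, Ideal.span_le]
  rintro _ ⟨i, rfl⟩
  exact HomogeneousIdeal.mem_irrelevant_of_mem 𝒜 one_pos (h.deg_one i)

/-- a homogeneous element of positive degree is nilpotent modulo the origin -/
theorem fin57_mem_radical (h : KeyRing T 𝒜 j) {d : ℕ} (hd : 0 < d) {t : T} (ht : t ∈ 𝒜 d) :
    t ∈ (origin.map j).radical := by
  have hI : (origin.map j).IsHomogeneous 𝒜 := by
    rw [fin57_map_origin]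
    refine Ideal.homogeneous_span 𝒜 _ ?_
    rintro _ ⟨i, rfl⟩
    exact ⟨1, h.deg_one i⟩
  obtain ⟨f, hf, hft⟩ := h.fin.to_isIntegral t
  rw [hf.as_sum, Polynomial.eval₂_add, Polynomial.eval₂_X_pow, Polynomial.eval₂_finset_sum] at hft
  simp only [Polynomial.eval₂_mul, Polynomial.eval₂_C, Polynomial.eval₂_X_pow] at hft
  have h1 : t ^ f.natDegree + ∑ i ∈ Finset.range f.natDegree,
      MvPolynomial.constantCoeff (f.coeff i) • t ^ i ∈ origin.map j := by
    rw [← sub_zero (_ + _), ← hft, add_sub_add_left_eq_sub, ← Finset.sum_sub_distrib]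
    refine Ideal.sum_mem _ fun i _ => ?_
    rw [Algebra.smul_def, ← sub_mul, ← j.commutes]
    refine Ideal.mul_mem_right _ _ ?_
    change j _ - j _ ∈ _
    rw [← map_sub]
    apply Ideal.mem_map_of_mem
    simp [origin, RingHom.mem_ker]
  have h2 := (hI.mem_iff 𝒜).1 h1 (f.natDegree * d)
  have hpow : ∀ i, t ^ i ∈ 𝒜 (i * d) := fun i => by
    simpa using SetLike.pow_mem_graded i ht
  change GradedRing.proj 𝒜 _ _ ∈ _ at h2
  rw [map_add, map_sum, Finset.sum_eq_zero, add_zero, GradedRing.proj_apply,
    DirectSum.decompose_of_mem_same 𝒜 (hpow _)] at h2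
  · exact ⟨_, h2⟩
  · intro i hi
    rw [GradedRing.proj_apply]
    refine DirectSum.decompose_of_mem_ne 𝒜 (Submodule.smul_mem _ _ (hpow i)) ?_
    have := Finset.mem_range.1 hi
    exact (Nat.mul_lt_mul_of_pos_right this hd).ne

theorem fin57_le_radical (h : KeyRing T 𝒜 j) :
    (HomogeneousIdeal.irrelevant 𝒜).toIdeal ≤ (origin.map j).radical := by
  rw [HomogeneousIdeal.irrelevant_eq_span, Ideal.span_le]
  intro t ht
  simp only [Set.mem_iUnion] at ht
  obtain ⟨d, hd, ht⟩ := ht
  exact fin57_mem_radical h hd ht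

end aux

/-- the map from the local ring of the origin to power series -/
noncomputable def fin57_toA3 : Localization.AtPrime origin →+* A3 :=
  IsLocalization.lift (M := origin.primeCompl) (g := MvPolynomial.coeToMvPowerSeries.ringHom)
    (fun y => by
      have hy : MvPolynomial.constantCoeff (y : P3) ≠ 0 := y.2
      rw [MvPowerSeries.isUnit_iff_constantCoeff, MvPolynomial.coeToMvPowerSeries.ringHom_apply,
        ← MvPowerSeries.coeff_zero_eq_constantCoeff_apply, MvPolynomial.coeff_coe]
      exact hy.isUnit)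

theorem fin57_toA3_algebraMap (p : P3) : fin57_toA3 (algebraMap _ _ p) = (p : A3) :=
  IsLocalization.lift_eq _ _

theorem fin57_maximalIdeal : IsLocalRing.maximalIdeal (Localization.AtPrime origin) =
    Ideal.ofList (List.ofFn fun i : Fin 3 =>
      algebraMap P3 (Localization.AtPrime origin) (MvPolynomial.X i)) := by
  rw [← Localization.AtPrime.map_eq_maximalIdeal]
  have : (origin.map (algebraMap P3 (Localization.AtPrime origin))) =
      (Ideal.span (Set.range (MvPolynomial.X : Fin 3 → P3))).map
        (algebraMap P3 (Localization.AtPrime origin)) := by rw [← origin_eq]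
  rw [this, Ideal.map_span, ← Set.range_comp, Ideal.ofList]
  congr 1
  ext x
  simp only [Set.mem_range, Function.comp_apply, Set.mem_setOf_eq, List.mem_ofFn]

/-- a nontrivial module which is finite free over the base gives a matrix representation -/
theorem fin57_rep {A B : Type} [CommRing A] [Nontrivial A] [CommRing B] [Algebra A B] (M : Type)
    [AddCommGroup M] [Module B M] [Module A M] [IsScalarTower A B M] [Module.Finite A M]
    [Module.Free A M] [Nontrivial M] :
    ∃ N : ℕ, 0 < N ∧ Nonempty (B →ₐ[A] Matrix (Fin N) (Fin N) A) := by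
  refine ⟨Module.finrank A M, ?_, ⟨?_⟩⟩
  · rw [Module.finrank_pos_iff_of_free]
    infer_instance
  · exact (LinearMap.toMatrixAlgEquiv (Module.finBasis A M)).toAlgHom.comp (Algebra.lsmul A A M)

/-- The irrelevant ideal `𝔪` is the kernel of `T → 𝒜 0 = ℂ`.  It is the only prime over the origin (a homogeneous element of positive degree
satisfies an integral equation whose lower coefficients may be taken homogeneous of positive degree).  So every `s ∉ 𝔪` divides an element of
`j (P3 ∖ origin)` (going up), and `T_𝔪` is finite over `P3` localised at the origin, injective and local.  Then `free_of_mcm`; map the matrices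
along `Localization.AtPrime origin → A3`. -/
theorem s0257_of_key {T : Type} [CommRing T] [Algebra ℂ T] {𝒜 : ℕ → Submodule ℂ T} [GradedAlgebra 𝒜]
    {j : P3 →ₐ[ℂ] T} (h : KeyRing T 𝒜 j) :
    ∃ (_ : (HomogeneousIdeal.irrelevant 𝒜).toIdeal.IsMaximal),
      Algebra.FiniteType ℂ T ∧ IsDomain T ∧ ringKrullDim T = 3 ∧
      Function.Bijective (algebraMap ℂ (T ⧸ (HomogeneousIdeal.irrelevant 𝒜).toIdeal)) ∧
      ringKrullDim (Localization.AtPrime (HomogeneousIdeal.irrelevant 𝒜).toIdeal) = 3 ∧
      ∀ (M : Type) [AddCommGroup M]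
        [Module (Localization.AtPrime (HomogeneousIdeal.irrelevant 𝒜).toIdeal) M],
        Module.Finite (Localization.AtPrime (HomogeneousIdeal.irrelevant 𝒜).toIdeal) M → Nontrivial M →
        ∀ rs : List (Localization.AtPrime (HomogeneousIdeal.irrelevant 𝒜).toIdeal), rs.length = 3 →
          (∀ r ∈ rs, r ∈ IsLocalRing.maximalIdeal
            (Localization.AtPrime (HomogeneousIdeal.irrelevant 𝒜).toIdeal)) →
          ¬ RingTheory.Sequence.IsRegular M rs := by
  haveI := h.dom
  haveI hmax := fin57_isMaximal h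
  letI : Algebra P3 T := j.toRingHom.toAlgebra
  haveI : Module.Finite P3 T := h.fin
  haveI : IsScalarTower ℂ P3 T := IsScalarTower.of_algebraMap_eq fun c => (j.commutes c).symm
  have hinj : Function.Injective (algebraMap P3 T) := h.inj
  haveI : FaithfulSMul P3 T := (faithfulSMul_iff_algebraMap_injective P3 T).2 hinj
  set 𝔪 := (HomogeneousIdeal.irrelevant 𝒜).toIdeal with h𝔪
  haveI hlo : 𝔪.LiesOver origin := ⟨origin_isMaximal.eq_of_le (Ideal.IsPrime.under P3 𝔪).ne_top
    (Ideal.map_le_iff_le_comap.1 (fin57_map_le h))⟩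
  have hq : origin.primesOver T = {𝔪} := by
    ext Q
    constructor
    · rintro ⟨hQ, hQ'⟩
      have h1 : origin.map j ≤ Q := Ideal.map_le_iff_le_comap.2 hQ'.over.le
      exact (hmax.eq_of_le hQ.ne_top ((fin57_le_radical h).trans (hQ.radical_le_iff.2 h1))).symm
    · rintro rfl
      exact ⟨hmax.isPrime, hlo⟩
  letI := Localization.AtPrime.algebraOfLiesOver origin 𝔪
  haveI := Localization.finite_of_primesOver_eq_singleton hq
  have hinj' : Function.Injective
      (algebraMap (Localization.AtPrime origin) (Localization.AtPrime 𝔪)) :=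
    Localization.localRingHom_injective_of_primesOver_eq_singleton hq
  haveI : IsLocalHom (algebraMap (Localization.AtPrime origin) (Localization.AtPrime 𝔪)) :=
    Localization.isLocalHom_localRingHom _ _ _ _
  refine ⟨hmax, Algebra.FiniteType.trans (S := P3) inferInstance inferInstance, h.dom, ?_,
    fin57_bijective h, ?_, ?_⟩
  · rw [ringKrullDim_eq_of_isIntegral P3 T hinj, ringKrullDim_P3]
  · rw [ringKrullDim_eq_of_isIntegral _ _ hinj', ringKrullDim_loc_origin]
  · intro M _ _ hM hM' rs hl hrs hreg
    letI : Module (Localization.AtPrime origin) M :=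
      Module.compHom M (algebraMap (Localization.AtPrime origin) (Localization.AtPrime 𝔪))
    haveI : IsScalarTower (Localization.AtPrime origin) (Localization.AtPrime 𝔪) M :=
      IsScalarTower.of_algebraMap_smul fun _ _ => rfl
    haveI : Module.Finite (Localization.AtPrime origin) M :=
      Module.Finite.trans (Localization.AtPrime 𝔪) M
    haveI := free_of_mcm _ fin57_maximalIdeal M rs (by simpa using hl) hrs hreg
    obtain ⟨N, hN, ⟨ρ⟩⟩ := fin57_rep (A := Localization.AtPrime origin)
      (B := Localization.AtPrime 𝔪) M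
    refine h.no_rep N hN (fin57_toA3.mapMatrix.comp
      (ρ.toRingHom.comp (algebraMap T (Localization.AtPrime 𝔪)))) fun p => ?_
    have e : algebraMap T (Localization.AtPrime 𝔪) (j p) =
        algebraMap (Localization.AtPrime origin) (Localization.AtPrime 𝔪) (algebraMap P3 _ p) :=
      (Localization.localRingHom_to_map origin 𝔪 (algebraMap P3 T) _ p).symm
    rw [RingHom.comp_apply, RingHom.comp_apply, e, AlgHom.toRingHom_eq_coe, RingHom.coe_coe,
      ρ.commutes, ← fin57_toA3_algebraMap]
    ext a b
    by_cases hab : a = b <;> simp [Matrix.algebraMap_eq_diagonal, Matrix.diagonal_apply, hab]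

end Crest.Agent.R169
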