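import Crest.Agent.R169.Defs

/-! # Auxiliary lemmas for `GamA`: closed families, elementary arithmetic -/

set_option autoImplicit false

namespace Crest.Agent.R169

noncomputable section

section Fam

variable {K V : Type} [Field K] [AddCommGroup V] [Module K V] [Module ℂ V] {x y : K}
  {N : ℤ → ℤ → Submodule ℂ V}

theorem FamClosed.mono_nat (hN : FamClosed x y N) {a b : ℤ} {v : V} (hv : v ∈ N a b) (i j : ℕ) :
    v ∈ N (a + i) (b + j) := by
  have h1 : v ∈ N (a + i) b := by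
    induction i with
    | zero => simpa using hv
    | succ i ih =>
      have := (hN _ _ _ ih).1
      rwa [add_assoc, ← Nat.cast_add_one] at this
  induction j with
  | zero => simpa using h1
  | succ j ih =>
    have := (hN _ _ _ ih).2.2.1
    rwa [add_assoc, ← Nat.cast_add_one] at this

theorem FamClosed.mono_le (hN : FamClosed x y N) {a b a' b' : ℤ} (ha : a ≤ a') (hb : b ≤ b') :
    N a b ≤ N a' b' := by
  intro v hv
  have := hN.mono_nat hv (a' - a).toNat (b' - b).toNat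
  rwa [Int.toNat_of_nonneg (by omega), Int.toNat_of_nonneg (by omega), add_sub_cancel,
    add_sub_cancel] at this

theorem FamClosed.pow_smul (hN : FamClosed x y N) {a b : ℤ} {v : V} (hv : v ∈ N a b) (i j : ℕ) :
    (x ^ i * y ^ j) • v ∈ N (a + i) (b + j) := by
  have h1 : y ^ j • v ∈ N a (b + j) := by
    induction j with
    | zero => simpa using hv
    | succ j ih =>
      have := (hN _ _ _ ih).2.2.2
      rwa [add_assoc, ← Nat.cast_add_one, smul_smul, ← pow_succ'] at this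
  rw [mul_smul]
  induction i with
  | zero => simpa using h1
  | succ i ih =>
    have := (hN _ _ _ ih).2.1
    rwa [add_assoc, ← Nat.cast_add_one, smul_smul, ← pow_succ'] at this

theorem FamClosed.pow_smul_le (hN : FamClosed x y N) {a b a' b' : ℤ} {v : V} (hv : v ∈ N a b)
    {i j : ℕ} (hi : a + i ≤ a') (hj : b + j ≤ b') : (x ^ i * y ^ j) • v ∈ N a' b' :=
  hN.mono_le hi hj (hN.pow_smul hv i j)

/-- the family generated by `s` -/
def genFam (x y : K) (s : Finset (ℤ × ℤ × V)) (a b : ℤ) : Submodule ℂ V :=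
  Submodule.span ℂ
    {w | ∃ z ∈ s, ∃ i j : ℕ, z.1 + i ≤ a ∧ z.2.1 + j ≤ b ∧ w = (x ^ i * y ^ j) • z.2.2}

theorem genFam_fg (x y : K) (s : Finset (ℤ × ℤ × V)) : FamFG x y (genFam x y s) :=
  ⟨s, fun z hz => Submodule.subset_span ⟨z, hz, 0, 0, by simp, by simp, by simp⟩,
    fun _ _ => le_rfl⟩

theorem genFam_closed [Algebra ℂ K] [IsScalarTower ℂ K V] (x y : K) (s : Finset (ℤ × ℤ × V)) :
    FamClosed x y (genFam x y s) := by
  have key : ∀ (r : K) (a b a' b' : ℤ),
      (∀ z ∈ s, ∀ i j : ℕ, z.1 + i ≤ a → z.2.1 + j ≤ b → ∃ i' j' : ℕ, z.1 + i' ≤ a' ∧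
        z.2.1 + j' ≤ b' ∧ r * (x ^ i * y ^ j) = x ^ i' * y ^ j') →
      ∀ v ∈ genFam x y s a b, r • v ∈ genFam x y s a' b' := by
    intro r a b a' b' h v hv
    induction hv using Submodule.span_induction with
    | mem w hw =>
      obtain ⟨z, hz, i, j, hi, hj, rfl⟩ := hw
      obtain ⟨i', j', hi', hj', he⟩ := h z hz i j hi hj
      exact Submodule.subset_span ⟨z, hz, i', j', hi', hj', by rw [smul_smul, he]⟩
    | zero => simp
    | add u w _ _ hu hw => rw [smul_add]; exact Submodule.add_mem _ hu hw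
    | smul c u _ hu => rw [smul_comm]; exact Submodule.smul_mem _ _ hu
  intro a b v hv
  refine ⟨?_, ?_, ?_, ?_⟩
  · simpa using key 1 a b (a + 1) b (fun z _ i j hi hj => ⟨i, j, by omega, hj, one_mul _⟩) v hv
  · exact key x a b (a + 1) b
      (fun z _ i j hi hj => ⟨i + 1, j, by push_cast; omega, hj, by ring⟩) v hv
  · simpa using key 1 a b a (b + 1) (fun z _ i j hi hj => ⟨i, j, hi, by omega, one_mul _⟩) v hv
  · exact key y a b a (b + 1)
      (fun z _ i j hi hj => ⟨i, j + 1, hi, by push_cast; omega, by ring⟩) v hv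

/-- a finitely generated closed family is generated by `1, x` (resp. `1, y`) in large degrees -/
theorem FamFG.gen [Algebra ℂ K] [IsScalarTower ℂ K V] (hN : FamClosed x y N) (hfg : FamFG x y N) :
    ∃ a0 : ℤ,
    (∀ a b, a0 ≤ a → ∀ v ∈ N (a + 1) b, ∃ v0 ∈ N a b, ∃ v1 ∈ N a b, v = v0 + x • v1) ∧
    (∀ a b, a0 ≤ b → ∀ v ∈ N a (b + 1), ∃ v0 ∈ N a b, ∃ v1 ∈ N a b, v = v0 + y • v1) := by
  obtain ⟨s, hs, hle⟩ := hfg
  obtain ⟨a0, ha0⟩ := (s.finite_toSet.image fun z => max z.1 z.2.1).bddAbove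
  have hz : ∀ z ∈ s, z.1 ≤ a0 ∧ z.2.1 ≤ a0 := fun z hz => max_le_iff.1 (ha0 ⟨z, hz, rfl⟩)
  have key : ∀ (r : K) (P : Submodule ℂ V) (T : Set V),
      (∀ w ∈ T, ∃ v0 ∈ P, ∃ v1 ∈ P, w = v0 + r • v1) →
      ∀ v ∈ Submodule.span ℂ T, ∃ v0 ∈ P, ∃ v1 ∈ P, v = v0 + r • v1 := by
    intro r P T h v hv
    induction hv using Submodule.span_induction with
    | mem w hw => exact h w hw
    | zero => exact ⟨0, P.zero_mem, 0, P.zero_mem, by simp⟩
    | add u w _ _ hu hw =>
      obtain ⟨u0, hu0, u1, hu1, rfl⟩ := hu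
      obtain ⟨w0, hw0, w1, hw1, rfl⟩ := hw
      exact ⟨u0 + w0, P.add_mem hu0 hw0, u1 + w1, P.add_mem hu1 hw1, by rw [smul_add]; abel⟩
    | smul c u _ hu =>
      obtain ⟨u0, hu0, u1, hu1, rfl⟩ := hu
      exact ⟨c • u0, P.smul_mem c hu0, c • u1, P.smul_mem c hu1, by rw [smul_add, smul_comm c r]⟩
  refine ⟨a0, fun a b ha v hv => key x _ _ ?_ v (hle _ _ hv),
    fun a b hb v hv => key y _ _ ?_ v (hle _ _ hv)⟩
  · rintro _ ⟨z, hzs, i, j, hi, hj, rfl⟩
    rcases i with _ | i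
    · exact ⟨_, hN.pow_smul_le (i := 0) (hs z hzs) (by have := (hz z hzs).1; omega) hj, 0,
        Submodule.zero_mem _, by simp⟩
    · refine ⟨0, Submodule.zero_mem _, _,
        hN.pow_smul_le (i := i) (hs z hzs) (by push_cast at hi; omega) hj, ?_⟩
      rw [zero_add, smul_smul]; congr 1; ring
  · rintro _ ⟨z, hzs, i, j, hi, hj, rfl⟩
    rcases j with _ | j
    · exact ⟨_, hN.pow_smul_le (j := 0) (hs z hzs) hi (by have := (hz z hzs).2; omega), 0,
        Submodule.zero_mem _, by simp⟩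
    · refine ⟨0, Submodule.zero_mem _, _,
        hN.pow_smul_le (j := j) (hs z hzs) hi (by push_cast at hj; omega), ?_⟩
      rw [zero_add, smul_smul]; congr 1; ring

end Fam

/-! ### arithmetic -/

theorem affine_of_second_diff {g : ℤ → ℤ} {a0 : ℤ}
    (h : ∀ a, a0 ≤ a → 2 * g (a + 1) = g a + g (a + 2)) (a : ℤ) (ha : a0 ≤ a) :
    g a = g a0 + (a - a0) * (g (a0 + 1) - g a0) := by
  have key : ∀ a, a0 ≤ a → g (a + 1) - g a = g (a0 + 1) - g a0 ∧
      g a = g a0 + (a - a0) * (g (a0 + 1) - g a0) := by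
    intro a ha
    induction a, ha using Int.leInduction with
    | base => simp
    | succ a ha ih =>
      have h1 := h a ha
      have h2 : a + 1 + 1 = a + 2 := by ring
      rw [h2]
      constructor
      · linarith [ih.1]
      · linarith [ih.1, ih.2]
  exact (key a ha).2

theorem nonneg_of_convex {g : ℤ → ℤ} {a0 : ℤ} (h : ∀ a, 2 * g (a + 1) ≤ g a + g (a + 2))
    (h0 : ∀ a, a0 ≤ a → g a = 0) (a : ℤ) : 0 ≤ g a := by
  have key : ∀ a, a ≤ a0 → 0 ≤ g (a + 1) ∧ g (a + 1) ≤ g a := by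
    intro a ha
    induction a, ha using Int.leInductionDown with
    | base => simp [h0 a0 le_rfl, h0 (a0 + 1) (by omega)]
    | pred a ha ih =>
      have h1 := h (a - 1)
      have h2 : a - 1 + 1 = a := by ring
      have h3 : a - 1 + 2 = a + 1 := by ring
      rw [h2, h3] at h1
      rw [h2]
      constructor <;> linarith [ih.1, ih.2]
  rcases le_total a a0 with ha | ha
  · exact (key a ha).1.trans (key a ha).2
  · exact (h0 a ha).ge

theorem lead_nonneg {N P X a0 : ℤ} (h : ∀ a, a0 ≤ a → 0 ≤ N * a ^ 2 + P * a + X) : 0 ≤ N := by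
  by_contra hN
  have hN' : N ≤ -1 := by omega
  set a : ℤ := max a0 (|P| + |X| + 1) with ha
  have h1 : |P| + |X| + 1 ≤ a := le_max_right _ _
  have h2 := h a (le_max_left _ _)
  have hP := le_abs_self P
  have hX := le_abs_self X
  have hP0 := abs_nonneg P
  have hX0 := abs_nonneg X
  have ha1 : 1 ≤ a := by linarith
  have h3 : N * a ^ 2 ≤ -a ^ 2 := by nlinarith [sq_nonneg a]
  have h4 : P * a ≤ |P| * a := by nlinarith
  have h5 : (|P| + |X| + 1) * a ≤ a * a := by nlinarith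
  have h6 : |X| ≤ |X| * a := by nlinarith
  nlinarith

end

end Crest.Agent.R169
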