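import Crest.Agent.R169.Defs

/-! # Noetherian lemma for bigraded families -/

set_option autoImplicit false

namespace Crest.Agent.R169

theorem nl_noeth {A : Type} [Ring A] [Algebra ℂ A] (T : Set A) (hT : T.Finite)
    (hc : ∀ a ∈ T, ∀ b ∈ T, a * b = b * a) : IsNoetherianRing (Algebra.adjoin ℂ T) := by
  have h := Algebra.isMulCommutative_adjoin ℂ hc
  let _ : CommRing (Algebra.adjoin ℂ T) :=
    { (inferInstance : Ring (Algebra.adjoin ℂ T)) with mul_comm := h.is_comm.comm }
  have : Algebra.FiniteType ℂ (Algebra.adjoin ℂ T) :=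
    (Subalgebra.fg_iff_finiteType _).1 ⟨hT.toFinset, by simp⟩
  exact Algebra.FiniteType.isNoetherianRing ℂ _

/-- Hilbert basis theorem for finitely many commuting operators. -/
theorem nl_abs {F : Type} [AddCommGroup F] [Module ℂ F] (T : Set (Module.End ℂ F)) (hT : T.Finite)
    (hc : ∀ a ∈ T, ∀ b ∈ T, a * b = b * a) (s : Set F) (hs : s.Finite) (B : Set F)
    (hB : ∀ W : Submodule ℂ F, (∀ t ∈ T, ∀ w ∈ W, t w ∈ W) → s ⊆ W → B ⊆ W) :
    ∃ B0 : Finset F, (B0 : Set F) ⊆ B ∧
      ∀ W : Submodule ℂ F, (∀ t ∈ T, ∀ w ∈ W, t w ∈ W) → (B0 : Set F) ⊆ W → B ⊆ W := by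
  have := nl_noeth T hT hc
  have h1 : B ⊆ Submodule.span (Algebra.adjoin ℂ T) s :=
    hB ((Submodule.span (Algebra.adjoin ℂ T) s).restrictScalars ℂ)
      (fun t ht w hw => (Submodule.span (Algebra.adjoin ℂ T) s).smul_mem
        ⟨t, Algebra.subset_adjoin ht⟩ hw) Submodule.subset_span
  have h2 : (Submodule.span (Algebra.adjoin ℂ T) B).FG :=
    (Submodule.fg_span hs).of_le (Submodule.span_le.2 h1)
  obtain ⟨B0, h3, h4⟩ := (Submodule.fg_span_iff_fg_span_finset_subset B).1 h2
  refine ⟨B0, h3, fun W hW hB0 => ?_⟩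
  have h5 : ∀ t ∈ Algebra.adjoin ℂ T, ∀ w ∈ W, t w ∈ W := by
    intro t ht
    induction ht using Algebra.adjoin_induction with
    | mem t ht => exact hW t ht
    | algebraMap r => exact fun w hw => W.smul_mem r hw
    | add a b _ _ ha hb => exact fun w hw => W.add_mem (ha w hw) (hb w hw)
    | mul a b _ _ ha hb => exact fun w hw => ha _ (hb w hw)
  let W' : Submodule (Algebra.adjoin ℂ T) F :=
    { carrier := W
      add_mem' := W.add_mem
      zero_mem' := W.zero_mem
      smul_mem' := fun t w hw => h5 t.1 t.2 w hw }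
  have h6 : Submodule.span (Algebra.adjoin ℂ T) (B0 : Set F) ≤ W' := Submodule.span_le.2 hB0
  rw [← h4] at h6
  exact Submodule.subset_span.trans h6

section shift
variable {K V : Type} [Field K] [Algebra ℂ K] [AddCommGroup V] [Module K V] [Module ℂ V]
  [IsScalarTower ℂ K V]

/-- shift the degree by `e` and multiply by `c` -/
noncomputable def nlShift (V : Type) [AddCommGroup V] [Module K V] [Module ℂ V]
    [IsScalarTower ℂ K V] (e : ℤ × ℤ) (c : K) : Module.End ℂ ((ℤ × ℤ) →₀ V) :=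
  (c • Finsupp.lmapDomain V K (fun d => d + e)).restrictScalars ℂ

theorem nlShift_single (e d : ℤ × ℤ) (c : K) (v : V) :
    nlShift V e c (Finsupp.single d v) = Finsupp.single (d + e) (c • v) := by
  simp [nlShift]

theorem nlShift_apply (e d : ℤ × ℤ) (c : K) (f : (ℤ × ℤ) →₀ V) :
    nlShift V e c f (d + e) = c • f d := by
  simp only [nlShift, LinearMap.restrictScalars_apply, LinearMap.smul_apply,
    Finsupp.lmapDomain_apply, Finsupp.smul_apply]
  rw [Finsupp.mapDomain_apply (add_left_injective e)]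

theorem nlShift_comm (e e' : ℤ × ℤ) (c c' : K) :
    nlShift V e c * nlShift V e' c' = nlShift V e' c' * nlShift V e c := by
  refine Finsupp.lhom_ext fun d v => ?_
  simp only [Module.End.mul_apply, nlShift_single]
  rw [add_right_comm, smul_comm]

theorem nl_iter {W : Submodule ℂ ((ℤ × ℤ) →₀ V)} {e : ℤ × ℤ} {c : K}
    (h : ∀ w ∈ W, nlShift V e c w ∈ W) (d : ℤ × ℤ) (v : V) (hv : Finsupp.single d v ∈ W) (n : ℕ) :
    Finsupp.single (d + n • e) (c ^ n • v) ∈ W := by
  induction n with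
  | zero => simpa using hv
  | succ n ih =>
    have := h _ ih
    rwa [nlShift_single, smul_smul, ← pow_succ', add_assoc, ← succ_nsmul] at this

end shift

/-- A subfamily of a finitely generated family is finitely generated.
Plan: `(ℤ × ℤ) →₀ V` is a module over `MvPolynomial (Fin 4) ℂ` (the variables act by shifting the degree by
`(1,0),(1,0),(0,1),(0,1)` and multiplying by `1, x, 1, y`; e.g. via `AddMonoidAlgebra.lift K _ (ℤ × ℤ)` into
`Module.End K _` and `Module.compHom` along `MvPolynomial.aeval` into the commutative ring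
`AddMonoidAlgebra K (ℤ × ℤ)`).  A closed family `M` gives the submodule `{f | ∀ d, f d ∈ M d.1 d.2}`; `FamFG`
says it is f.g.; Hilbert basis theorem; take the homogeneous components of finitely many generators. -/
theorem FamFG.of_le {K V : Type} [Field K] [Algebra ℂ K] [AddCommGroup V] [Module K V] [Module ℂ V]
    [IsScalarTower ℂ K V] {x y : K} {M N : ℤ → ℤ → Submodule ℂ V}
    (hM : FamClosed x y M) (hN : FamClosed x y N) (hle : ∀ a b, N a b ≤ M a b) (hfg : FamFG x y M) :
    FamFG x y N := by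
  classical
  have _ := hM
  have _ := hN
  obtain ⟨s, -, hs⟩ := hfg
  obtain ⟨B0, h1, h2⟩ := nl_abs
    {nlShift V (1, 0) x, nlShift V (1, 0) (1 : K), nlShift V (0, 1) y, nlShift V (0, 1) (1 : K)}
    (Set.toFinite _)
    (by
      intro a ha b hb
      simp only [Set.mem_insert_iff, Set.mem_singleton_iff] at ha hb
      rcases ha with rfl | rfl | rfl | rfl <;> rcases hb with rfl | rfl | rfl | rfl <;>
        exact nlShift_comm _ _ _ _)
    ((fun z : ℤ × ℤ × V => Finsupp.single (z.1, z.2.1) z.2.2) '' s) (s.finite_toSet.image _)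
    {f | ∃ z : ℤ × ℤ × V, z.2.2 ∈ N z.1 z.2.1 ∧ Finsupp.single (z.1, z.2.1) z.2.2 = f}
    (by
      rintro W hW hsW _ ⟨⟨a, b, v⟩, hv, rfl⟩
      have h3 : Submodule.span ℂ {w | ∃ z ∈ s, ∃ i j : ℕ, z.1 + i ≤ a ∧ z.2.1 + j ≤ b ∧
          w = (x ^ i * y ^ j) • z.2.2} ≤ W.comap (Finsupp.lsingle (a, b)) := by
        refine Submodule.span_le.2 ?_
        rintro _ ⟨z, hz, i, j, hi, hj, rfl⟩
        obtain ⟨k, hk⟩ := Int.le.dest hi
        obtain ⟨l, hl⟩ := Int.le.dest hj
        have a0 := hsW ⟨z, hz, rfl⟩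
        have a1 := nl_iter (hW _ (by simp : nlShift V (0, 1) y ∈ _)) _ _ a0 j
        have a2 := nl_iter (hW _ (by simp : nlShift V (0, 1) (1 : K) ∈ _)) _ _ a1 l
        have a3 := nl_iter (hW _ (by simp : nlShift V (1, 0) x ∈ _)) _ _ a2 i
        have a4 := nl_iter (hW _ (by simp : nlShift V (1, 0) (1 : K) ∈ _)) _ _ a3 k
        have e : ((z.1, z.2.1) : ℤ × ℤ) + j • (0, 1) + l • (0, 1) + i • (1, 0) + k • (1, 0)
            = (a, b) := by
          rw [← hk, ← hl]; simp
        rw [e, one_pow, one_pow, one_smul, one_smul, smul_smul] at a4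
        exact a4
      exact h3 (hs a b (hle a b hv)))
  replace h1 : ∀ f ∈ B0, ∃ z : ℤ × ℤ × V, z.2.2 ∈ N z.1 z.2.1 ∧
      Finsupp.single (z.1, z.2.1) z.2.2 = f := fun f hf => h1 hf
  choose! g hg1 hg2 using h1
  set G : ℤ → ℤ → Submodule ℂ V := fun a b => Submodule.span ℂ
    {w | ∃ z ∈ B0.image g, ∃ i j : ℕ, z.1 + i ≤ a ∧ z.2.1 + j ≤ b ∧ w = (x ^ i * y ^ j) • z.2.2}
    with hG
  have hstep : ∀ (e : ℤ × ℤ) (p q : ℕ), (p : ℤ) ≤ e.1 → (q : ℤ) ≤ e.2 → ∀ a b, ∀ v ∈ G a b,
      (x ^ p * y ^ q) • v ∈ G (a + e.1) (b + e.2) := by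
    intro e p q hp hq a b v hv
    have h3 : G a b ≤ (G (a + e.1) (b + e.2)).comap
        (((x ^ p * y ^ q) • LinearMap.id : V →ₗ[K] V).restrictScalars ℂ) := by
      refine Submodule.span_le.2 ?_
      rintro _ ⟨z, hz, i, j, hi, hj, rfl⟩
      refine Submodule.subset_span ⟨z, hz, p + i, q + j, by push_cast; omega, by push_cast; omega, ?_⟩
      simp only [LinearMap.restrictScalars_apply, LinearMap.smul_apply, LinearMap.id_apply, smul_smul]
      congr 1
      ring
    exact h3 hv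
  let W : Submodule ℂ ((ℤ × ℤ) →₀ V) :=
    { carrier := {f | ∀ d : ℤ × ℤ, f d ∈ G d.1 d.2}
      add_mem' := fun ha hb d => (G _ _).add_mem (ha d) (hb d)
      zero_mem' := fun d => (G _ _).zero_mem
      smul_mem' := fun c f hf d => (G _ _).smul_mem c (hf d) }
  have hW : ∀ (e : ℤ × ℤ) (p q : ℕ), (p : ℤ) ≤ e.1 → (q : ℤ) ≤ e.2 → ∀ w ∈ W,
      nlShift V e (x ^ p * y ^ q) w ∈ W := by
    intro e p q hp hq w hw d
    obtain ⟨d, rfl⟩ : ∃ d', d = d' + e := ⟨d - e, by simp⟩
    rw [nlShift_apply]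
    exact hstep e p q hp hq _ _ _ (hw d)
  refine ⟨B0.image g, fun z hz => ?_, fun a b v hv => ?_⟩
  · obtain ⟨f, hf, rfl⟩ := Finset.mem_image.1 hz
    exact hg1 f hf
  · have h3 := h2 W (by
      intro t ht
      simp only [Set.mem_insert_iff, Set.mem_singleton_iff] at ht
      rcases ht with rfl | rfl | rfl | rfl
      · simpa using hW (1, 0) 1 0 (by simp) (by simp)
      · simpa using hW (1, 0) 0 0 (by simp) (by simp)
      · simpa using hW (0, 1) 0 1 (by simp) (by simp)
      · simpa using hW (0, 1) 0 0 (by simp) (by simp)) (by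
      intro f hf d
      rw [← hg2 f hf, Finsupp.single_apply]
      split_ifs with hd
      · subst hd
        exact Submodule.subset_span ⟨g f, Finset.mem_image_of_mem g hf, 0, 0, by simp, by simp,
          by simp⟩
      · exact (G _ _).zero_mem) ⟨(a, b, v), hv, rfl⟩ (a, b)
    rw [Finsupp.single_eq_same] at h3
    exact h3

end Crest.Agent.R169
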