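import Crest.Agent.R169.Ops2
import Crest.Agent.R169.NL
import Crest.Agent.R169.BG
import Crest.Agent.R169.GamAAux

/-! # Global sections: finite generation and existence of the Hilbert polynomial -/

set_option autoImplicit false

namespace Crest.Agent.R169

noncomputable section

variable {K : Type} [Field K] [Algebra K0 K] [Algebra ℂ K] [IsScalarTower ℂ K0 K] {S : Surf K}
variable {V : Type} [AddCommGroup V] [Module K V] [Module ℂ V] [IsScalarTower ℂ K V]

theorem IsSheaf.Gam_mul_aux {M : Pre V} (hM : IsSheaf S M) {a b a' b' : ℤ} {r : K}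
    (hr : ∀ c, (tau K c a b)⁻¹ * r ∈ S.R c) {v : V} (hv : v ∈ Gam K M a' b') :
    r • v ∈ Gam K M (a + a') (b + b') := by
  rw [mem_Gam] at hv ⊢
  intro c
  have := hM.smul_mem c (hr c) (hv c)
  rw [smul_smul] at this
  rw [smul_smul, tau_add]
  convert this using 2
  rw [mul_inv]; ring

theorem IsSheaf.Gam_mono_aux {M : Pre V} (hM : IsSheaf S M) {a b a' b' : ℤ} {i j : ℕ}
    (ha : a + i ≤ a') (hb : b + j ≤ b') {v : V} (hv : v ∈ Gam K M a b) :
    (lam K ^ i * mu K ^ j) • v ∈ Gam K M a' b' := by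
  have := hM.Gam_mul_aux (a := a' - a) (b := b' - b) (r := lam K ^ i * mu K ^ j)
    (fun c => S.P_le c (tau_inv_mul_mem K c (by omega) (by omega))) hv
  simpa using this

theorem IsSheaf.isFam1 {M : Pre V} (hM : IsSheaf S M) (b : ℤ) :
    IsFam (lam K) (fun a => Gam K M a b) := by
  refine ⟨fun a v hv => ?_, fun a v hv => ?_, fun a v hv hv' => ?_⟩
  · simpa using hM.Gam_mono_aux (i := 0) (j := 0) (a' := a + 1) (b' := b) (by omega) (by omega) hv
  · simpa using hM.Gam_mono_aux (i := 1) (j := 0) (a' := a + 1) (b' := b) (by omega) (by omega) hv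
  · rw [mem_Gam] at hv hv' ⊢
    rintro ⟨c1, c2⟩
    cases c1 with
    | false =>
      have := hv (false, c2)
      simpa [tau, hu] using this
    | true =>
      have := hv' (true, c2)
      rw [smul_smul] at this
      convert this using 2
      have h1 := lam_ne_zero K
      simp only [tau, hu, if_true]
      rw [zpow_add_one₀ h1]
      field_simp

theorem IsSheaf.isFam2 {M : Pre V} (hM : IsSheaf S M) (a : ℤ) :
    IsFam (mu K) (fun b => Gam K M a b) := by
  refine ⟨fun b v hv => ?_, fun b v hv => ?_, fun b v hv hv' => ?_⟩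
  · simpa using hM.Gam_mono_aux (i := 0) (j := 0) (a' := a) (b' := b + 1) (by omega) (by omega) hv
  · simpa using hM.Gam_mono_aux (i := 0) (j := 1) (a' := a) (b' := b + 1) (by omega) (by omega) hv
  · rw [mem_Gam] at hv hv' ⊢
    rintro ⟨c1, c2⟩
    cases c2 with
    | false =>
      have := hv (c1, false)
      simpa [tau, hu] using this
    | true =>
      have := hv' (c1, true)
      rw [smul_smul] at this
      convert this using 2
      have h1 := mu_ne_zero K
      simp only [tau, hu, if_true]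
      rw [zpow_add_one₀ h1]
      field_simp

theorem IsSheaf.famClosed {M : Pre V} (hM : IsSheaf S M) : FamClosed (lam K) (mu K) (Gam K M) := by
  intro a b v hv
  exact ⟨(hM.isFam1 b).mono a hv, (hM.isFam1 b).mul a v hv, (hM.isFam2 a).mono b hv,
    (hM.isFam2 a).mul b v hv⟩

theorem IsSheaf.Gam_mono {M : Pre V} (hM : IsSheaf S M) {a b a' b' : ℤ} (ha : a ≤ a') (hb : b ≤ b') :
    Gam K M a b ≤ Gam K M a' b' :=
  hM.famClosed.mono_le ha hb

theorem IsSheaf.Gam_mul {M : Pre V} (hM : IsSheaf S M) {a b a' b' : ℤ} {r : K}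
    (hr : r ∈ Gam K (OO S) a b) {v : V} (hv : v ∈ Gam K M a' b') :
    r • v ∈ Gam K M (a + a') (b + b') :=
  hM.Gam_mul_aux (fun c => mem_Gam.1 hr c) hv

/-- every local section extends to a global section of a twist -/
theorem IsSheaf.tau_smul_mem_Gam {M : Pre V} (hM : IsSheaf S M) (c : Chart) {v : V} (hv : v ∈ M c) :
    ∃ n : ℕ, ∀ a b : ℤ, n ≤ a → n ≤ b → tau K c a b • v ∈ Gam K M a b := by
  obtain ⟨n, hn⟩ := hM.compat' c hv
  refine ⟨n, fun a b ha hb => mem_Gam.2 fun c' => ?_⟩
  rw [smul_smul]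
  exact hn c' a b ha hb

/-- Sandwich between free sheaves on `P¹ × P¹`.  Plan: make `V` a `K0`-space by `Module.compHom`, use
`IsSheaf.toS0`, `K0_denom` for the coordinates of the finitely many generators, and `frac'`. -/
theorem IsSheaf.sandwich [Module K0 V] [IsScalarTower K0 K V] [IsScalarTower ℂ K0 V] {M : Pre V}
    (hM : IsSheaf S M) {ι : Type} [Fintype ι] (b : Module.Basis ι K0 V) :
    ∃ (f f' : K0) (d : ℕ), f ≠ 0 ∧ f' ≠ 0 ∧
      (∀ a a' : ℤ, ∀ v ∈ Gam K M a a', ∀ i, f * b.repr v i ∈ Gam K0 (OO S0) (a + d) (a' + d)) ∧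
      (∀ a a' : ℤ, ∀ i, ∀ y ∈ Gam K0 (OO S0) (a - d) (a' - d), (f' * y) • b i ∈ Gam K M a a') := by
  classical
  have h0 : IsSheaf S0 M := hM.toS0
  simp only [← Gam_K0 (K := K)]
  choose s hs using h0.fg
  obtain ⟨f, d, hf, hfd⟩ := K0_denom
    (Finset.univ.biUnion fun c => (s c ×ˢ (Finset.univ : Finset ι)).image fun z => b.repr z.1 z.2)
  choose g hg hg0 hgM using fun i => h0.frac (false, false) (b i)
  have hprod : ∀ i, (∏ j, g j) • b i ∈ M (false, false) := by
    intro i
    rw [← Finset.prod_erase_mul _ _ (Finset.mem_univ i), mul_smul]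
    exact h0.smul_mem _ (Subalgebra.prod_mem _ fun j _ => hg j) (hgM i)
  choose n hn using fun i => h0.tau_smul_mem_Gam (false, false) (hprod i)
  refine ⟨f, ∏ j, g j, max d (Finset.univ.sup n), hf, Finset.prod_ne_zero_iff.2 fun j _ => hg0 j,
    fun a a' v hv i => ?_, fun a a' i y hy => ?_⟩
  · refine (isSheaf_OO S0).Gam_mono (a := a + d) (b := a' + d)
      (by push_cast; omega) (by push_cast; omega) (mem_Gam.2 fun c => ?_)
    have key : ∀ w ∈ Submodule.span (S0.R c) (s c : Set V),
        (tau K0 c d d)⁻¹ * (f * b.repr w i) ∈ S0.R c := by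
      intro w hw
      induction hw using Submodule.span_induction with
      | mem w hw =>
        refine (hfd c).2 _ (Finset.mem_biUnion.2 ⟨c, Finset.mem_univ _, ?_⟩)
        exact Finset.mem_image.2 ⟨(w, i), Finset.mem_product.2 ⟨hw, Finset.mem_univ _⟩, rfl⟩
      | zero => simp
      | add u w _ _ hu hw =>
        rw [map_add, Finsupp.add_apply, mul_add, mul_add]
        exact Subalgebra.add_mem _ hu hw
      | smul r u _ hu =>
        rw [Subalgebra.smul_def, map_smul, Finsupp.smul_apply, smul_eq_mul]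
        have := Subalgebra.mul_mem _ r.2 hu
        convert this using 1
        ring
    have := key _ ((hs c _).1 (mem_Gam.1 hv c))
    rw [map_smul, Finsupp.smul_apply, smul_eq_mul] at this
    change _ ∈ S0.R c
    rw [smul_eq_mul, tau_add, mul_inv]
    convert this using 1
    ring
  · have h1 : n i ≤ max d (Finset.univ.sup n) :=
      le_max_of_le_right (Finset.le_sup (f := n) (Finset.mem_univ i))
    have h2 := hn i (max d (Finset.univ.sup n) : ℕ) (max d (Finset.univ.sup n) : ℕ)
      (by exact_mod_cast h1) (by exact_mod_cast h1)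
    rw [tau_ff, one_smul] at h2
    have h3 := h0.Gam_mul hy h2
    rw [sub_add_cancel, sub_add_cancel, smul_smul, mul_comm] at h3
    exact h3

theorem finrank_pi_Gam_S0 (ι : Type) [Fintype ι] (a b : ℤ) :
    FiniteDimensional ℂ (ι → Gam K0 (OO S0) a b) ∧
      Module.finrank ℂ (ι → Gam K0 (OO S0) a b) =
        Fintype.card ι * ((a + 1).toNat * (b + 1).toNat) := by
  obtain ⟨h1, h2⟩ := finrank_Gam_S0 a b
  refine ⟨inferInstance, ?_⟩
  rw [Module.finrank_pi_fintype, Finset.sum_const, h2, Finset.card_univ, smul_eq_mul]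

/-- dimension bounds from `sandwich` -/
theorem IsSheaf.finrank_bounds {M : Pre V} (hM : IsSheaf S M) : ∃ d : ℕ, ∀ a a' : ℤ,
    FiniteDimensional ℂ (Gam K M a a') ∧
    Module.finrank ℂ (Gam K M a a') ≤ Module.finrank K V * Module.finrank K0 K *
      ((a + d + 1).toNat * (a' + d + 1).toNat) ∧
    Module.finrank K V * Module.finrank K0 K * ((a - d + 1).toNat * (a' - d + 1).toNat) ≤
      Module.finrank ℂ (Gam K M a a') := by
  classical
  let _ : Module K0 V := Module.compHom V (algebraMap K0 K)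
  have : IsScalarTower K0 K V := IsScalarTower.of_algebraMap_smul fun _ _ => rfl
  have : IsScalarTower ℂ K0 V := IsScalarTower.of_algebraMap_smul fun r v => by
    change algebraMap K0 K (algebraMap ℂ K0 r) • v = r • v
    rw [← IsScalarTower.algebraMap_apply, algebraMap_smul]
  have : FiniteDimensional K0 V := hM.toS0.finiteDimensional
  have hr : Module.finrank K V * Module.finrank K0 K = Fintype.card (Fin (Module.finrank K0 V)) := by
    rw [Fintype.card_fin, mul_comm, Module.finrank_mul_finrank]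
  set b := Module.finBasis K0 V
  obtain ⟨f, f', d, hf, hf', h1, h2⟩ := hM.sandwich b
  refine ⟨d, fun a a' => ?_⟩
  obtain ⟨hu1, hu2⟩ := finrank_pi_Gam_S0 (Fin (Module.finrank K0 V)) (a + d) (a' + d)
  obtain ⟨hl1, hl2⟩ := finrank_pi_Gam_S0 (Fin (Module.finrank K0 V)) (a - d) (a' - d)
  let φ : Gam K M a a' →ₗ[ℂ] (Fin (Module.finrank K0 V) → Gam K0 (OO S0) (a + d) (a' + d)) :=
    { toFun := fun v i => ⟨f * b.repr v i, h1 a a' v v.2 i⟩
      map_add' := fun u w => by
        funext i
        apply Subtype.ext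
        simp [mul_add]
      map_smul' := fun c u => by
        funext i
        apply Subtype.ext
        simp only [Submodule.coe_smul, RingHom.id_apply, Pi.smul_apply]
        rw [← algebraMap_smul K0 c (u : V), map_smul, Finsupp.smul_apply, smul_eq_mul,
          Algebra.smul_def]
        ring }
  have hφ : Function.Injective φ := by
    rw [injective_iff_map_eq_zero]
    intro v hv
    apply Subtype.ext
    apply b.repr.injective
    ext i
    have := congrArg Subtype.val (congrFun hv i)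
    simpa [φ, hf] using this
  let ψ : (Fin (Module.finrank K0 V) → Gam K0 (OO S0) (a - d) (a' - d)) →ₗ[ℂ] Gam K M a a' :=
    { toFun := fun y => ⟨∑ i, (f' * y i) • b i,
        Submodule.sum_mem _ fun i _ => h2 a a' i (y i) (y i).2⟩
      map_add' := fun u w => by
        apply Subtype.ext
        simp [mul_add, add_smul, Finset.sum_add_distrib]
      map_smul' := fun c u => by
        apply Subtype.ext
        simp only [Submodule.coe_smul, RingHom.id_apply, Pi.smul_apply, Finset.smul_sum]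
        refine Finset.sum_congr rfl fun i _ => ?_
        rw [← smul_assoc, mul_smul_comm] }
  have hψ : Function.Injective ψ := by
    rw [injective_iff_map_eq_zero]
    intro y hy
    have h3 : ∑ i, (f' * y i) • b i = 0 := congrArg Subtype.val hy
    have h4 := Fintype.linearIndependent_iff.1 b.linearIndependent _ h3
    funext i
    apply Subtype.ext
    simpa [hf'] using h4 i
  have : FiniteDimensional ℂ (Gam K M a a') := FiniteDimensional.of_injective φ hφ
  refine ⟨this, ?_, ?_⟩
  · rw [hr, ← hu2]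
    exact LinearMap.finrank_le_finrank_of_injective hφ
  · rw [hr, ← hl2]
    exact LinearMap.finrank_le_finrank_of_injective hψ

theorem IsSheaf.Gam_finite {M : Pre V} (hM : IsSheaf S M) (a b : ℤ) :
    FiniteDimensional ℂ (Gam K M a b) := by
  obtain ⟨d, hd⟩ := hM.finrank_bounds
  exact (hd a b).1

theorem IsSheaf.Gam_eq_bot {M : Pre V} (hM : IsSheaf S M) :
    ∃ a0 : ℤ, ∀ a b, a ≤ a0 ∨ b ≤ a0 → Gam K M a b = ⊥ := by
  obtain ⟨d, hd⟩ := hM.finrank_bounds
  refine ⟨-d - 1, fun a b hab => ?_⟩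
  obtain ⟨h1, h2, -⟩ := hd a b
  have h3 : (a + d + 1).toNat * (b + d + 1).toNat = 0 := by
    rcases hab with h | h
    · rw [Int.toNat_eq_zero.2 (by omega : a + d + 1 ≤ 0), zero_mul]
    · rw [Int.toNat_eq_zero.2 (by omega : b + d + 1 ≤ 0), mul_zero]
  rw [h3, mul_zero, Nat.le_zero] at h2
  exact Submodule.finrank_eq_zero.1 h2

/-- from `sandwich`, `Gam_S0` and the Noetherian lemma -/
theorem IsSheaf.Gam_fg {M : Pre V} (hM : IsSheaf S M) : FamFG (lam K) (mu K) (Gam K M) := by
  classical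
  let _ : Module K0 V := Module.compHom V (algebraMap K0 K)
  have : IsScalarTower K0 K V := IsScalarTower.of_algebraMap_smul fun _ _ => rfl
  have : IsScalarTower ℂ K0 V := IsScalarTower.of_algebraMap_smul fun r v => by
    change algebraMap K0 K (algebraMap ℂ K0 r) • v = r • v
    rw [← IsScalarTower.algebraMap_apply, algebraMap_smul]
  have : FiniteDimensional K0 V := hM.toS0.finiteDimensional
  set b := Module.finBasis K0 V
  obtain ⟨f, f', d, hf, hf', h1, -⟩ := hM.sandwich b
  set s : Finset (ℤ × ℤ × V) := Finset.univ.image fun i => (-(d : ℤ), -(d : ℤ), f⁻¹ • b i)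
  refine FamFG.of_le (genFam_closed _ _ s) hM.famClosed (fun a a' v hv => ?_) (genFam_fg _ _ s)
  have key : ∀ i, ∀ y ∈ Gam K0 (OO S0) (a + d) (a' + d),
      y • f⁻¹ • b i ∈ genFam (lam K) (mu K) s a a' := by
    intro i y hy
    rw [Gam_S0] at hy
    induction hy using Submodule.span_induction with
    | mem w hw =>
      obtain ⟨p, q, hp, hq, rfl⟩ := hw
      refine Submodule.subset_span ⟨(-(d : ℤ), -(d : ℤ), f⁻¹ • b i),
        Finset.mem_image.2 ⟨i, Finset.mem_univ _, rfl⟩, p, q, by dsimp only; omega,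
        by dsimp only; omega, ?_⟩
      rw [← algebraMap_smul K (lam0 ^ p * mu0 ^ q), map_mul, map_pow, map_pow]
      rfl
    | zero => simp
    | add u w _ _ hu hw => rw [add_smul]; exact Submodule.add_mem _ hu hw
    | smul c u _ hu => rw [smul_assoc]; exact Submodule.smul_mem _ _ hu
  rw [← b.sum_repr v]
  refine Submodule.sum_mem _ fun i _ => ?_
  have := key i _ (h1 a a' v hv i)
  rwa [smul_smul, mul_right_comm, mul_inv_cancel₀ hf, one_mul] at this

/-- a closed subfamily with the same charts agrees with `Gam` in large degrees -/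
theorem IsSheaf.eq_Gam_of_charts {M : Pre V} (hM : IsSheaf S M) {N : ℤ → ℤ → Submodule ℂ V}
    (hN : FamClosed (lam K) (mu K) N) (hle : ∀ a b, N a b ≤ Gam K M a b)
    (hc : ∀ c, ∀ v ∈ M c, ∃ n : ℕ, tau K c n n • v ∈ N n n) :
    ∃ a0 : ℤ, ∀ a b, a0 ≤ a → a0 ≤ b → N a b = Gam K M a b := by
  obtain ⟨s, hs, hgen⟩ := hM.Gam_fg
  have key : ∀ z ∈ s, ∃ a0 : ℤ, ∀ a b, a0 ≤ a → a0 ≤ b → ∀ i j : ℕ, z.1 + i ≤ a → z.2.1 + j ≤ b →
      (lam K ^ i * mu K ^ j) • z.2.2 ∈ N a b := by
    rintro ⟨p, q, v⟩ hz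
    choose n hn using fun c => hc c _ (mem_Gam.1 (hs _ hz) c)
    dsimp only at hn ⊢
    obtain ⟨m, hm⟩ := (Set.finite_range n).bddAbove
    have hm' : ∀ c, n c ≤ m := fun c => hm ⟨c, rfl⟩
    refine ⟨2 * m + |p| + |q|, fun a b ha hb i j hi hj => ?_⟩
    have hp := neg_abs_le p
    have hq := neg_abs_le q
    have hp0 := abs_nonneg p
    have hq0 := abs_nonneg q
    have hl := lam_ne_zero K
    have hu' := mu_ne_zero K
    -- choose the chart
    have one : ∀ (x : K), x ≠ 0 → ∀ (p a : ℤ) (i : ℕ), p + i ≤ a → 2 * m - p ≤ a →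
        ∃ e : Bool, ∀ k : ℕ, k ≤ m → ∃ i' : ℕ, (k : ℤ) + i' ≤ a ∧
          x ^ i = x ^ i' * (hu x e ^ (k : ℤ) * (hu x e ^ p)⁻¹) := by
      intro x hx p a i hi ha
      by_cases h : (m : ℤ) ≤ p + i
      · refine ⟨true, fun k hk => ⟨(p + i - k).toNat, by omega, ?_⟩⟩
        simp only [hu, if_true]
        rw [← zpow_natCast, ← zpow_natCast, ← zpow_neg, ← zpow_add₀ hx, ← zpow_add₀ hx]
        congr 1
        omega
      · exact ⟨false, fun k hk => ⟨i, by omega, by simp [hu]⟩⟩
    obtain ⟨e1, h1⟩ := one (lam K) hl p a i hi (by omega)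
    obtain ⟨e2, h2⟩ := one (mu K) hu' q b j hj (by omega)
    obtain ⟨i', hi', hei⟩ := h1 _ (hm' (e1, e2))
    obtain ⟨j', hj', hej⟩ := h2 _ (hm' (e1, e2))
    have := hN.pow_smul_le (hn (e1, e2)) hi' hj'
    rw [smul_smul, smul_smul] at this
    convert this using 2
    rw [hei, hej]
    simp only [tau, mul_inv]
    ring
  choose! a0 ha0 using key
  obtain ⟨A, hA⟩ := (s.finite_toSet.image a0).bddAbove
  refine ⟨A, fun a b ha hb => le_antisymm (hle a b) ((hgen a b).trans (Submodule.span_le.2 ?_))⟩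
  rintro _ ⟨z, hz, i, j, hi, hj, rfl⟩
  have : a0 z ≤ A := hA ⟨z, hz, rfl⟩
  exact ha0 z hz a b (this.trans ha) (this.trans hb) i j hi hj

theorem IsSheaf.Gam_gen {M : Pre V} (hM : IsSheaf S M) : ∃ a0 : ℤ,
    (∀ a b, a0 ≤ a → ∀ v ∈ Gam K M (a + 1) b, ∃ v0 ∈ Gam K M a b, ∃ v1 ∈ Gam K M a b,
      v = v0 + lam K • v1) ∧
    (∀ a b, a0 ≤ b → ∀ v ∈ Gam K M a (b + 1), ∃ v0 ∈ Gam K M a b, ∃ v1 ∈ Gam K M a b,
      v = v0 + mu K • v1) :=
  FamFG.gen hM.famClosed hM.Gam_fg

/-- two functions `n a b + p a + q b + χ` that agree for large arguments agree -/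
theorem IsBil.ext {f g : ℤ → ℤ → ℤ} (hf : IsBil f) (hg : IsBil g) {a0 : ℤ}
    (h : ∀ a b, a0 ≤ a → a0 ≤ b → f a b = g a b) : f = g := by
  obtain ⟨n, p, q, χ, hf⟩ := hf
  obtain ⟨n', p', q', χ', hg⟩ := hg
  have h00 := h a0 a0 le_rfl le_rfl
  have h10 := h (a0 + 1) a0 (by omega) le_rfl
  have h01 := h a0 (a0 + 1) le_rfl (by omega)
  have h11 := h (a0 + 1) (a0 + 1) (by omega) (by omega)
  rw [hf, hg] at h00 h10 h01 h11
  have hn : n = n' := by linear_combination h11 - h10 - h01 + h00
  subst hn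
  have hp : p = p' := by linear_combination h10 - h00
  have hq : q = q' := by linear_combination h01 - h00
  subst hp hq
  have hχ : χ = χ' := by linear_combination h00
  subst hχ
  funext a b
  rw [hf, hg]

theorem IsHP.HP_eq {M : Pre V} {f : ℤ → ℤ → ℤ} (h : IsHP K M f) : HP K M = f := by
  have hex : ∃ f, IsHP K M f := ⟨f, h⟩
  rw [HP, dif_pos hex]
  obtain ⟨h1, a1, h1'⟩ := hex.choose_spec
  obtain ⟨h2, a2, h2'⟩ := h
  exact h1.ext h2 (a0 := max a1 a2) fun a b ha hb => by
    rw [← h1' a b (le_of_max_le_left ha) (le_of_max_le_left hb),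
      h2' a b (le_of_max_le_right ha) (le_of_max_le_right hb)]

/-- second differences vanish in large degrees (`IsFam.linear`, `Gam_gen`) -/
theorem IsSheaf.isHP {M : Pre V} (hM : IsSheaf S M) : IsHP K M (HP K M) := by
  suffices hex : ∃ f, IsHP K M f by
    obtain ⟨f, hf⟩ := hex
    rwa [hf.HP_eq]
  obtain ⟨a0, g1, g2⟩ := hM.Gam_gen
  set h : ℤ → ℤ → ℤ := fun a b => (Module.finrank ℂ (Gam K M a b) : ℤ) with hh
  have l1 : ∀ b a, a0 ≤ a → h a b = h a0 b + (a - a0) * (h (a0 + 1) b - h a0 b) := by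
    intro b
    refine affine_of_second_diff (g := fun a => h a b) fun a ha => ?_
    have := (hM.isFam1 b).linear (fun a => hM.Gam_finite a b) a fun v hv =>
      g1 (a + 1) b (by omega) v (by rwa [add_assoc])
    simp only [hh]
    exact_mod_cast this
  have l2 : ∀ a b, a0 ≤ b → h a b = h a a0 + (b - a0) * (h a (a0 + 1) - h a a0) := by
    intro a
    refine affine_of_second_diff (g := fun b => h a b) fun b hb => ?_
    have := (hM.isFam2 a).linear (fun b => hM.Gam_finite a b) b fun v hv =>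
      g2 a (b + 1) (by omega) v (by rwa [add_assoc])
    simp only [hh]
    exact_mod_cast this
  set h00 := h a0 a0
  set h10 := h (a0 + 1) a0
  set h01 := h a0 (a0 + 1)
  set h11 := h (a0 + 1) (a0 + 1)
  refine ⟨fun a b => h00 + (a - a0) * (h10 - h00) + (b - a0) * (h01 - h00) +
    (a - a0) * (b - a0) * (h11 - h10 - h01 + h00),
    ⟨h11 - h10 - h01 + h00, h10 - h00 - a0 * (h11 - h10 - h01 + h00),
      h01 - h00 - a0 * (h11 - h10 - h01 + h00),
      h00 - a0 * (h10 - h00) - a0 * (h01 - h00) + a0 * a0 * (h11 - h10 - h01 + h00),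
      fun a b => by ring⟩, a0, fun a b ha hb => ?_⟩
  change h a b = _
  rw [l1 b a ha, l2 a0 b hb, l2 (a0 + 1) b hb]
  ring

/-- the leading coefficient, from `sandwich` -/
theorem IsSheaf.HP_eq {M : Pre V} (hM : IsSheaf S M) (a b : ℤ) :
    HP K M a b = (Module.finrank K V * Module.finrank K0 K : ℕ) * a * b + pc K M * a + qc K M * b
      + chi K M := by
  obtain ⟨⟨n, p, q, χ, hf⟩, a0, h0⟩ := hM.isHP
  obtain ⟨d, hd⟩ := hM.finrank_bounds
  set r : ℕ := Module.finrank K V * Module.finrank K0 K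
  have hn : n = r := by
    have up : 0 ≤ (r : ℤ) - n := by
      refine lead_nonneg (P := 2 * r * (d + 1) - (p + q)) (X := r * (d + 1) ^ 2 - χ)
        (a0 := max a0 0) fun a ha => ?_
      have h1 := (hd a a).2.1
      have h2 := h0 a a (le_of_max_le_left ha) (le_of_max_le_left ha)
      have h3 : 0 ≤ a := le_of_max_le_right ha
      have h4 : (Module.finrank ℂ (Gam K M a a) : ℤ) ≤
          r * (((a + d + 1).toNat : ℤ) * ((a + d + 1).toNat : ℤ)) := by exact_mod_cast h1
      rw [Int.toNat_of_nonneg (by omega), h2, hf] at h4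
      linarith
    have lo : 0 ≤ n - (r : ℤ) := by
      refine lead_nonneg (P := (p + q) - 2 * r * (1 - d)) (X := χ - r * (1 - d) ^ 2)
        (a0 := max a0 d) fun a ha => ?_
      have h1 := (hd a a).2.2
      have h2 := h0 a a (le_of_max_le_left ha) (le_of_max_le_left ha)
      have h3 : (d : ℤ) ≤ a := le_of_max_le_right ha
      have h4 : r * (((a - d + 1).toNat : ℤ) * ((a - d + 1).toNat : ℤ)) ≤
          (Module.finrank ℂ (Gam K M a a) : ℤ) := by exact_mod_cast h1
      rw [Int.toNat_of_nonneg (by omega), h2, hf] at h4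
      linarith
    omega
  simp only [pc, qc, chi, hf, hn]
  ring

/-- for `a` large and every `b`, `dim Γ(a,b) ≥ HP(a,b)` (convexity in `b`) -/
theorem IsSheaf.HP_le_finrank {M : Pre V} (hM : IsSheaf S M) : ∃ a0 : ℤ, ∀ a b, a0 ≤ a →
    HP K M a b ≤ (Module.finrank ℂ (Gam K M a b) : ℤ) := by
  obtain ⟨⟨n, p, q, χ, hf⟩, a0, h0⟩ := hM.isHP
  refine ⟨a0, fun a b ha => ?_⟩
  have := nonneg_of_convex (g := fun b => (Module.finrank ℂ (Gam K M a b) : ℤ) - HP K M a b)
    (a0 := a0) (fun b => ?_) (fun b hb => sub_eq_zero.2 (h0 a b ha hb)) b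
  · linarith
  · have h1 := (hM.isFam2 a).convex (fun b => hM.Gam_finite a b) b
    have h2 : 2 * (Module.finrank ℂ (Gam K M a (b + 1)) : ℤ) ≤
        Module.finrank ℂ (Gam K M a b) + Module.finrank ℂ (Gam K M a (b + 2)) := by
      exact_mod_cast h1
    simp only [hf]
    linarith

end

end Crest.Agent.R169
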