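import Crest.Agent.R169.GamA

/-! # Properties of the Hilbert polynomial -/

set_option autoImplicit false
set_option linter.unusedSectionVars false

namespace Crest.Agent.R169

noncomputable section

variable {K : Type} [Field K] [Algebra K0 K] [Algebra ℂ K] [IsScalarTower ℂ K0 K] {S : Surf K}
variable {V : Type} [AddCommGroup V] [Module K V] [Module ℂ V] [IsScalarTower ℂ K V]
variable {W : Type} [AddCommGroup W] [Module K W] [Module ℂ W] [IsScalarTower ℂ K W]
variable {U : Type} [AddCommGroup U] [Module K U] [Module ℂ U] [IsScalarTower ℂ K U]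

theorem Gam_twist (M : Pre V) (a b a' b' : ℤ) :
    Gam K (twist K M a b) a' b' = Gam K M (a + a') (b + b') := by
  ext v
  simp only [mem_Gam, twist, mem_scal, tau_add, mul_inv, mul_smul]

theorem gamB_HP_congr {M : Pre V} {N : Pre W}
    (h : ∀ a b, Module.finrank ℂ (Gam K M a b) = Module.finrank ℂ (Gam K N a b)) :
    HP K M = HP K N := by
  have h1 : ∀ f, IsHP K M f ↔ IsHP K N f := fun f => by simp only [IsHP, h]
  by_cases h2 : ∃ f, IsHP K M f
  · obtain ⟨f, hf⟩ := h2
    rw [hf.HP_eq, ((h1 f).1 hf).HP_eq]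
  · unfold HP
    rw [dif_neg h2, dif_neg fun ⟨f, hf⟩ => h2 ⟨f, (h1 f).2 hf⟩]

theorem gamB_bil_add {f g : ℤ → ℤ → ℤ} (hf : IsBil f) (hg : IsBil g) :
    IsBil fun a b => f a b + g a b := by
  obtain ⟨n, p, q, χ, h⟩ := hf
  obtain ⟨n', p', q', χ', h'⟩ := hg
  exact ⟨n + n', p + p', q + q', χ + χ', fun a b => by simp only [h, h']; ring⟩

theorem gamB_bil_sum {ι : Type} (s : Finset ι) {f : ι → ℤ → ℤ → ℤ} (hf : ∀ i, IsBil (f i)) :
    IsBil fun a b => ∑ i ∈ s, f i a b := by
  classical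
  induction s using Finset.induction_on with
  | empty => exact ⟨0, 0, 0, 0, fun a b => by simp⟩
  | insert i s hi ih =>
    simp only [Finset.sum_insert hi]
    exact gamB_bil_add (hf i) ih

theorem gamB_slope_nonneg {p c a0 : ℤ} (h : ∀ a, a0 ≤ a → 0 ≤ p * a + c) : 0 ≤ p := by
  by_contra hp
  have h1 := h (max a0 (|c| + 1)) (le_max_left _ _)
  have h2 : |c| + 1 ≤ max a0 (|c| + 1) := le_max_right _ _
  have h3 := le_abs_self c
  have h4 := abs_nonneg c
  nlinarith

theorem gamB_rank_nullity {X Y : Type} [AddCommGroup X] [Module ℂ X] [AddCommGroup Y] [Module ℂ Y]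
    (N : Submodule ℂ X) [FiniteDimensional ℂ N] (φ : X →ₗ[ℂ] Y) :
    Module.finrank ℂ N = Module.finrank ℂ (LinearMap.ker φ ⊓ N : Submodule ℂ X)
      + Module.finrank ℂ (N.map φ) := by
  rw [← (φ.domRestrict N).finrank_range_add_finrank_ker, LinearMap.range_domRestrict,
    LinearMap.ker_domRestrict, ← Submodule.finrank_map_subtype_eq, Submodule.map_comap_subtype,
    inf_comm, add_comm]

theorem IsSheaf.HP_twist {M : Pre V} (hM : IsSheaf S M) (a b a' b' : ℤ) :
    HP K (R169.twist K M a b) a' b' = HP K M (a + a') (b + b') := by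
  obtain ⟨⟨n, p, q, χ, h⟩, a0, h0⟩ := hM.isHP
  have : IsHP K (R169.twist K M a b) fun a' b' => HP K M (a + a') (b + b') := by
    refine ⟨⟨n, n * b + p, n * a + q, n * a * b + p * a + q * b + χ, fun a' b' => ?_⟩,
      max (a0 - a) (a0 - b), fun a' b' ha hb => ?_⟩
    · simp only [h]; ring
    · rw [Gam_twist]
      exact h0 _ _ (by have := le_max_left (a0 - a) (a0 - b); omega)
        (by have := le_max_right (a0 - a) (a0 - b); omega)
  rw [this.HP_eq]

theorem Gam_pull (f : W →ₗ[K] V) (M : Pre V) (a b : ℤ) :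
    Gam K (pull f M) a b = (Gam K M a b).comap (f.restrictScalars ℂ) := by
  ext v
  simp [mem_Gam, pull]

theorem Gam_inf (M N : Pre V) (a b : ℤ) : Gam K (M ⊓ N) a b = Gam K M a b ⊓ Gam K N a b := by
  ext v
  simp [mem_Gam, forall_and]

theorem gamB_pull_equiv (f : W ≃ₗ[K] V) (M : Pre V) : HP K (pull f.toLinearMap M) = HP K M := by
  refine gamB_HP_congr fun a b => ?_
  rw [Gam_pull]
  have : (Gam K M a b).comap (f.toLinearMap.restrictScalars ℂ)
      = (Gam K M a b).map (f.restrictScalars ℂ).symm.toLinearMap :=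
    Submodule.comap_equiv_eq_map_symm (f.restrictScalars ℂ) _
  rw [this, LinearEquiv.finrank_map_eq]

theorem HP_push_equiv (f : V ≃ₗ[K] W) (M : Pre V) : HP K (push f.toLinearMap M) = HP K M := by
  have : push f.toLinearMap M = pull f.symm.toLinearMap M := by
    funext c
    exact Submodule.map_equiv_eq_comap_symm (f.restrictScalars ℂ) _
  rw [this, gamB_pull_equiv]

theorem HP_pull_equiv (f : W ≃ₗ[K] V) (M : Pre V) : HP K (pull f.toLinearMap M) = HP K M := by
  exact gamB_pull_equiv f M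

theorem HP_scal {y : K} (hy : y ≠ 0) (M : Pre V) : HP K (fun c => scal y (M c)) = HP K M := by
  exact gamB_pull_equiv (LinearEquiv.smulOfNeZero K V y⁻¹ (inv_ne_zero hy)) M

/-- a product of subspaces -/
def gamB_piEquiv {ι : Type} (N : ι → Submodule ℂ V) :
    Submodule.pi Set.univ N ≃ₗ[ℂ] (∀ i, N i) where
  toFun v i := ⟨v.1 i, v.2 i (Set.mem_univ i)⟩
  invFun w := ⟨fun i => (w i).1, fun i _ => (w i).2⟩
  map_add' _ _ := rfl
  map_smul' _ _ := rfl
  left_inv _ := rfl
  right_inv _ := rfl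

theorem HP_piP {ι : Type} [Fintype ι] {M : ι → Pre V} (hM : ∀ i, IsSheaf S (M i)) (a b : ℤ) :
    HP K (piP M) a b = ∑ i, HP K (M i) a b := by
  choose a0 h0 using fun i => (hM i).isHP.2
  obtain ⟨A, hA⟩ := (Set.finite_range a0).bddAbove
  have : IsHP K (piP M) fun a b => ∑ i, HP K (M i) a b := by
    refine ⟨gamB_bil_sum _ fun i => (hM i).isHP.1, A, fun a b ha hb => ?_⟩
    have h1 : Gam K (piP M) a b = Submodule.pi Set.univ fun i => Gam K (M i) a b := by
      ext v
      simp only [mem_Gam, piP, Submodule.mem_pi, Set.mem_univ, true_imp_iff, Pi.smul_apply]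
      exact forall_comm
    have := fun i => (hM i).Gam_finite a b
    rw [h1, (gamB_piEquiv _).finrank_eq, Module.finrank_pi_fintype, Nat.cast_sum]
    exact Finset.sum_congr rfl fun i _ =>
      h0 i a b ((hA ⟨i, rfl⟩).trans ha) ((hA ⟨i, rfl⟩).trans hb)
  rw [this.HP_eq]

/-- sections surject onto the sections of a quotient in large degrees (`eq_Gam_of_charts`) -/
theorem IsSheaf.Gam_push {M : Pre V} (hM : IsSheaf S M) {f : V →ₗ[K] W} (hf : Function.Surjective f) :
    ∃ a0 : ℤ, ∀ a b, a0 ≤ a → a0 ≤ b →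
      (Gam K M a b).map (f.restrictScalars ℂ) = Gam K (R169.push f M) a b := by
  refine (hM.push hf).eq_Gam_of_charts (N := fun a b => (Gam K M a b).map (f.restrictScalars ℂ))
    ?_ ?_ ?_
  · rintro a b _ ⟨v, hv, rfl⟩
    obtain ⟨h1, h2, h3, h4⟩ := hM.famClosed a b v hv
    exact ⟨⟨v, h1, rfl⟩, ⟨_, h2, by simp⟩, ⟨v, h3, rfl⟩, ⟨_, h4, by simp⟩⟩
  · rintro a b _ ⟨v, hv, rfl⟩
    exact mem_Gam.2 fun c => ⟨_, mem_Gam.1 hv c, by simp⟩
  · rintro c _ ⟨v, hv, rfl⟩
    obtain ⟨n, hn⟩ := hM.tau_smul_mem_Gam c hv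
    exact ⟨n, _, hn n n le_rfl le_rfl, by simp⟩

/-- additivity in short exact sequences -/
theorem IsSheaf.HP_exact {M : Pre V} (hM : IsSheaf S M) {i : W →ₗ[K] V} {π : V →ₗ[K] U}
    (hi : Function.Injective i) (hπ : Function.Surjective π)
    (hex : LinearMap.range i = LinearMap.ker π) (a b : ℤ) :
    HP K M a b = HP K (R169.pull i M) a b + HP K (R169.push π M) a b := by
  obtain ⟨h1, a1, h1'⟩ := hM.isHP
  obtain ⟨h2, a2, h2'⟩ := (hM.pull hi).isHP
  obtain ⟨h3, a3, h3'⟩ := (hM.push hπ).isHP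
  obtain ⟨a4, h4⟩ := hM.Gam_push hπ
  have key := h1.ext (gamB_bil_add h2 h3) (a0 := max (max a1 a2) (max a3 a4)) fun a b ha hb => by
    simp only [max_le_iff] at ha hb
    have := hM.Gam_finite a b
    rw [← h1' a b ha.1.1 hb.1.1, ← h2' a b ha.1.2 hb.1.2, ← h3' a b ha.2.1 hb.2.1,
      ← h4 a b ha.2.2 hb.2.2, gamB_rank_nullity (Gam K M a b) (π.restrictScalars ℂ), Gam_pull,
      (Submodule.equivMapOfInjective (i.restrictScalars ℂ) hi _).finrank_eq,
      Submodule.map_comap_eq]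
    have e : LinearMap.range (i.restrictScalars ℂ) = LinearMap.ker (π.restrictScalars ℂ) := by
      ext v
      exact SetLike.ext_iff.1 hex v
    rw [e, Nat.cast_add]
  exact congrFun (congrFun key a) b

theorem IsSheaf.HP_modular {M N : Pre V} (hM : IsSheaf S M) (hN : IsSheaf S N) (a b : ℤ) :
    HP K (M ⊔ N) a b + HP K (M ⊓ N) a b = HP K M a b + HP K N a b := by
  obtain ⟨h1, a1, h1'⟩ := hM.isHP
  obtain ⟨h2, a2, h2'⟩ := hN.isHP
  obtain ⟨h3, a3, h3'⟩ := (hM.sup hN).isHP
  obtain ⟨h4, a4, h4'⟩ := (hM.inf hN).isHP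
  obtain ⟨a5, h5⟩ := (hM.sup hN).eq_Gam_of_charts (N := fun a b => Gam K M a b ⊔ Gam K N a b)
    (by
      intro a b v hv
      obtain ⟨x, hx, y, hy, rfl⟩ := Submodule.mem_sup.1 hv
      obtain ⟨x1, x2, x3, x4⟩ := hM.famClosed a b x hx
      obtain ⟨y1, y2, y3, y4⟩ := hN.famClosed a b y hy
      simp only [smul_add]
      exact ⟨Submodule.add_mem_sup x1 y1, Submodule.add_mem_sup x2 y2, Submodule.add_mem_sup x3 y3,
        Submodule.add_mem_sup x4 y4⟩)
    (fun a b => sup_le
      (fun v hv => mem_Gam.2 fun c => Submodule.mem_sup_left (mem_Gam.1 hv c))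
      (fun v hv => mem_Gam.2 fun c => Submodule.mem_sup_right (mem_Gam.1 hv c)))
    (by
      intro c v hv
      obtain ⟨x, hx, y, hy, rfl⟩ := Submodule.mem_sup.1 hv
      obtain ⟨n, hn⟩ := hM.tau_smul_mem_Gam c hx
      obtain ⟨m, hm⟩ := hN.tau_smul_mem_Gam c hy
      refine ⟨n + m, ?_⟩
      rw [smul_add]
      exact Submodule.add_mem_sup (hn _ _ (by omega) (by omega)) (hm _ _ (by omega) (by omega)))
  have key := (gamB_bil_add h3 h4).ext (gamB_bil_add h1 h2)
    (a0 := max (max (max a1 a2) (max a3 a4)) a5) fun a b ha hb => by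
    simp only [max_le_iff] at ha hb
    have := hM.Gam_finite a b
    have := hN.Gam_finite a b
    rw [← h1' a b ha.1.1.1 hb.1.1.1, ← h2' a b ha.1.1.2 hb.1.1.2, ← h3' a b ha.1.2.1 hb.1.2.1,
      ← h4' a b ha.1.2.2 hb.1.2.2, ← h5 a b ha.2 hb.2, Gam_inf]
    exact_mod_cast Submodule.finrank_sup_add_finrank_inf_eq _ _
  exact congrFun (congrFun key a) b

theorem gamB_Gam_le {M N : Pre V} (h : ∀ c, M c ≤ N c) (a b : ℤ) : Gam K M a b ≤ Gam K N a b :=
  fun _ hv => mem_Gam.2 fun c => h c (mem_Gam.1 hv c)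

theorem gamB_HP_le {M N : Pre V} (hM : IsSheaf S M) (hN : IsSheaf S N) (h : ∀ c, M c ≤ N c) :
    ∃ a0, ∀ a b, a0 ≤ a → a0 ≤ b → HP K M a b ≤ HP K N a b := by
  obtain ⟨-, a1, h1⟩ := hM.isHP
  obtain ⟨-, a2, h2⟩ := hN.isHP
  refine ⟨max a1 a2, fun a b ha hb => ?_⟩
  simp only [max_le_iff] at ha hb
  have := hN.Gam_finite a b
  rw [← h1 a b ha.1 hb.1, ← h2 a b ha.2 hb.2]
  exact_mod_cast Submodule.finrank_mono (gamB_Gam_le h a b)

theorem IsSheaf.pc_mono {M N : Pre V} (hM : IsSheaf S M) (hN : IsSheaf S N) (h : ∀ c, M c ≤ N c) :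
    pc K M ≤ pc K N ∧ qc K M ≤ qc K N := by
  obtain ⟨a0, h0⟩ := gamB_HP_le hM hN h
  simp only [hM.HP_eq, hN.HP_eq] at h0
  constructor
  · have := gamB_slope_nonneg (p := pc K N - pc K M)
      (c := (qc K N - qc K M) * a0 + (chi K N - chi K M)) (a0 := a0) fun a ha => by
        have := h0 a a0 ha le_rfl
        linarith
    linarith
  · have := gamB_slope_nonneg (p := qc K N - qc K M)
      (c := (pc K N - pc K M) * a0 + (chi K N - chi K M)) (a0 := a0) fun a ha => by
        have := h0 a0 a le_rfl ha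
        linarith
    linarith

/-- `Γ(M')(a,b) ⧸ Γ(M)(a,b)` has bounded dimension, so the difference of the polynomials is constant -/
theorem IsSheaf.HP_finCol {M M' : Pre V} (hM : IsSheaf S M) (hM' : IsSheaf S M') (h : FinCol M M') :
    ∃ δ : ℤ, 0 ≤ δ ∧ ∀ a b, HP K M' a b = HP K M a b + δ := by
  choose s hs using fun c => (h c).2
  set T : Submodule ℂ (∀ c : Chart, V ⧸ M c) :=
    Submodule.pi Set.univ fun c => (Submodule.span ℂ (s c : Set V)).map (M c).mkQ with hT
  have hTfin : FiniteDimensional ℂ T := by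
    rw [hT]
    exact Module.Finite.iff_fg.2 (Submodule.fg_pi fun c => Submodule.FG.map _ ⟨s c, rfl⟩)
  have hbd : ∀ a b, Module.finrank ℂ (Gam K M' a b)
      ≤ Module.finrank ℂ (Gam K M a b) + Module.finrank ℂ T := by
    intro a b
    have := hM'.Gam_finite a b
    have := hM.Gam_finite a b
    set φ : V →ₗ[ℂ] (∀ c : Chart, V ⧸ M c) := LinearMap.pi fun c =>
      (M c).mkQ ∘ₗ ((LinearMap.lsmul K V (tau K c a b)⁻¹).restrictScalars ℂ) with hφ
    have hφ' : ∀ v c, φ v c = (M c).mkQ ((tau K c a b)⁻¹ • v) := fun _ _ => rfl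
    rw [gamB_rank_nullity (Gam K M' a b) φ]
    refine add_le_add (Submodule.finrank_mono ?_) (Submodule.finrank_mono ?_)
    · rintro v ⟨hv, -⟩
      refine mem_Gam.2 fun c => ?_
      have h1 : φ v c = 0 := congrFun (LinearMap.mem_ker.1 hv) c
      rwa [hφ', Submodule.mkQ_apply, Submodule.Quotient.mk_eq_zero] at h1
    · rintro _ ⟨v, hv, rfl⟩ c -
      obtain ⟨x, hx, y, hy, hxy⟩ := Submodule.mem_sup.1 (hs c (mem_Gam.1 hv c))
      refine ⟨y, hy, ?_⟩
      rw [hφ', ← hxy, map_add, Submodule.mkQ_apply _ x, (Submodule.Quotient.mk_eq_zero _).2 hx,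
        zero_add]
  obtain ⟨a0, h0⟩ := gamB_HP_le hM hM' fun c => (h c).1
  obtain ⟨-, a1, h1⟩ := hM.isHP
  obtain ⟨-, a2, h2⟩ := hM'.isHP
  have hup : ∀ a b, max a1 a2 ≤ a → max a1 a2 ≤ b →
      HP K M' a b ≤ HP K M a b + Module.finrank ℂ T := by
    intro a b ha hb
    simp only [max_le_iff] at ha hb
    rw [← h1 a b ha.1 hb.1, ← h2 a b ha.2 hb.2]
    exact_mod_cast hbd a b
  obtain ⟨hp, hq⟩ := hM.pc_mono hM' fun c => (h c).1
  simp only [hM.HP_eq, hM'.HP_eq] at hup h0 ⊢
  have hp' := gamB_slope_nonneg (p := pc K M - pc K M')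
    (c := (qc K M - qc K M') * max a1 a2 + (chi K M - chi K M') + Module.finrank ℂ T)
    (a0 := max a1 a2) fun a ha => by
      have := hup a _ ha le_rfl
      linarith
  have hq' := gamB_slope_nonneg (p := qc K M - qc K M')
    (c := (pc K M - pc K M') * max a1 a2 + (chi K M - chi K M') + Module.finrank ℂ T)
    (a0 := max a1 a2) fun a ha => by
      have := hup _ a le_rfl ha
      linarith
  have e1 : pc K M' = pc K M := by linarith
  have e2 : qc K M' = qc K M := by linarith
  refine ⟨chi K M' - chi K M, ?_, fun a b => ?_⟩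
  · have := h0 a0 a0 le_rfl le_rfl
    rw [e1, e2] at this
    linarith
  · rw [e1, e2]; ring

theorem HP_of_subsingleton [Subsingleton V] (M : Pre V) : HP K M = 0 := by
  refine IsHP.HP_eq ⟨⟨0, 0, 0, 0, fun a b => by simp⟩, 0, fun a b _ _ => ?_⟩
  simp [Module.finrank_zero_of_subsingleton]

theorem HP_S0 (a b : ℤ) : HP K0 (OO S0) a b = (a + 1) * (b + 1) := by
  have : IsHP K0 (OO S0) fun a b => (a + 1) * (b + 1) := by
    refine ⟨⟨1, 1, 1, 1, fun a b => by ring⟩, 0, fun a b ha hb => ?_⟩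
    rw [(finrank_Gam_S0 a b).2, Nat.cast_mul, Int.toNat_of_nonneg (by omega),
      Int.toNat_of_nonneg (by omega)]
  rw [this.HP_eq]

theorem gamB_pc_le {M : Pre V} (hM : IsSheaf S M) {ι : Type} (φ : ι → V →ₗ[K] K)
    (hφ : ∀ i, Function.Surjective (φ i)) (J : Finset ι) (W : Submodule K V)
    (hW : ∀ v ∈ W, (∀ j ∈ J, φ j v = 0) → v = 0) :
    pc K (pull W.subtype M) ≤ ∑ j ∈ J, |pc K (push (φ j) M)| := by
  classical
  induction J using Finset.induction_on generalizing W with
  | empty =>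
    have : Subsingleton W := ⟨fun x y => Subtype.ext
      ((hW x.1 x.2 (by simp)).trans (hW y.1 y.2 (by simp)).symm)⟩
    simp [pc, HP_of_subsingleton]
  | insert j J hj ih =>
    rw [Finset.sum_insert hj]
    by_cases h0 : ∀ v ∈ W, φ j v = 0
    · have := ih W fun v hv h => hW v hv fun i hi => by
        rcases Finset.mem_insert.1 hi with rfl | hi
        · exact h0 v hv
        · exact h i hi
      have := abs_nonneg (pc K (push (φ j) M))
      linarith
    · push Not at h0
      obtain ⟨v, hv, hv0⟩ := h0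
      have h1 := ih (W ⊓ LinearMap.ker (φ j)) fun v hv h => hW v hv.1 fun i hi => by
        rcases Finset.mem_insert.1 hi with rfl | hi
        · exact hv.2
        · exact h i hi
      have hWs := hM.pull W.injective_subtype
      have hπ : Function.Surjective (φ j ∘ₗ W.subtype) := fun y =>
        ⟨(y / φ j v) • ⟨v, hv⟩, by simp [div_mul_cancel₀ _ hv0]⟩
      have hex := hWs.HP_exact
        (i := Submodule.inclusion (inf_le_left : W ⊓ LinearMap.ker (φ j) ≤ W))
        (Submodule.inclusion_injective _) hπ (by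
          rw [Submodule.range_inclusion]
          ext x
          simp)
      have e : pull (Submodule.inclusion (inf_le_left : W ⊓ LinearMap.ker (φ j) ≤ W))
          (pull W.subtype M) = pull (W ⊓ LinearMap.ker (φ j)).subtype M := rfl
      have h2 := ((hWs.push hπ).pc_mono (hM.push (hφ j)) (by
        rintro c _ ⟨x, hx, rfl⟩
        exact ⟨x.1, hx, rfl⟩)).1
      have h3 := le_abs_self (pc K (push (φ j) M))
      have h4 : pc K (pull W.subtype M) = pc K (pull (W ⊓ LinearMap.ker (φ j)).subtype M)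
          + pc K (push (φ j ∘ₗ W.subtype) (pull W.subtype M)) := by
        simp only [pc, hex, e]
        ring
      linarith

/-- slopes of subsheaves are bounded above: embed `M` in `O(d,d)^r`, project a subspace injectively to
some of the coordinates -/
theorem IsSheaf.pc_bdd {M : Pre V} (hM : IsSheaf S M) :
    ∃ C : ℤ, ∀ W : Submodule K V, pc K (R169.pull W.subtype M) ≤ C := by
  have := hM.finiteDimensional
  let b := Module.finBasis K V
  refine ⟨_, fun W => gamB_pc_le hM b.coord (fun i y => ⟨y • b i, by simp⟩) Finset.univ W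
    fun v _ h => ?_⟩
  exact b.forall_coord_eq_zero_iff.1 fun i => h i (Finset.mem_univ i)

end

end Crest.Agent.R169
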