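import Crest.Agent.R169.YDefs

/-! # Multiquadratic extensions -/

set_option autoImplicit false

namespace Crest.Agent.R169

theorem prod_mul_prod_mq {M ι : Type} [CommMonoid M] [DecidableEq ι] (x : ι → M) (s t : Finset ι) :
    (∏ i ∈ s, x i) * ∏ i ∈ t, x i = (∏ i ∈ s ∩ t, x i) ^ 2 * ∏ i ∈ (s \ t) ∪ (t \ s), x i := by
  rw [Finset.prod_union disjoint_sdiff_sdiff, ← Finset.prod_inter_mul_prod_diff s t,
    ← Finset.prod_inter_mul_prod_diff t s, Finset.inter_comm t s, sq]
  ac_rfl

theorem indep_mq (F Ω : Type) [Field F] [Field Ω] [Algebra F Ω] [IsGalois F Ω] (ι : Type)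
    [Fintype ι] [DecidableEq ι] (a : ι → F)
    (h : ∀ s : Finset ι, s.Nonempty → ¬ IsSquare (∏ i ∈ s, a i)) (r : ι → Ω)
    (hr : ∀ i, r i ^ 2 = algebraMap F Ω (a i)) :
    LinearIndependent F fun s : Finset ι => ∏ i ∈ s, r i := by
  have ha : ∀ i, a i ≠ 0 := fun i hi => h {i} ⟨i, by simp⟩ (by simp [hi])
  set R : Finset ι → Ω := fun s => ∏ i ∈ s, r i with hR
  have hsq : ∀ s, R s ^ 2 = algebraMap F Ω (∏ i ∈ s, a i) := fun s => by
    simp only [hR, ← Finset.prod_pow, hr, map_prod]
  have hA : ∀ s : Finset ι, (∏ i ∈ s, a i) ≠ 0 := fun s => Finset.prod_ne_zero_iff.2 fun i _ => ha i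
  have hR0 : ∀ s, R s ≠ 0 := fun s h0 => by
    have := hsq s
    rw [h0, zero_pow two_ne_zero, eq_comm, map_eq_zero] at this
    exact hA s this
  have hpm : ∀ (σ : Ω ≃ₐ[F] Ω) s, σ (R s) = R s ∨ σ (R s) = -R s := fun σ s => by
    rw [← sq_eq_sq_iff_eq_or_eq_neg, ← map_pow, hsq, AlgEquiv.commutes]
  let χ : Finset ι → ((Ω ≃ₐ[F] Ω) →* Ω) := fun s =>
    { toFun := fun σ => σ (R s) / R s
      map_one' := by simp [hR0 s]
      map_mul' := fun σ τ => by
        have := hR0 s
        rw [AlgEquiv.mul_apply]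
        rcases hpm τ s with h1 | h1 <;> rw [h1] <;> simp [this, neg_div] }
  have hχ : ∀ s σ, σ (R s) = χ s σ * R s := fun s σ => by
    change σ (R s) = σ (R s) / R s * R s
    rw [div_mul_cancel₀ _ (hR0 s)]
  have hχ2 : ∀ s σ, χ s σ * χ s σ = 1 := fun s σ => by
    change σ (R s) / R s * (σ (R s) / R s) = 1
    have := hR0 s
    rcases hpm σ s with h1 | h1 <;> rw [h1] <;> simp [this, neg_div]
  have hinj : Function.Injective χ := by
    intro s t hst
    by_contra hne
    have hfix : ∀ σ : Ω ≃ₐ[F] Ω, σ (R s * R t) = R s * R t := fun σ => by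
      rw [map_mul, hχ s σ, hχ t σ, ← hst]
      linear_combination (R s * R t) * hχ2 s σ
    obtain ⟨c, hc⟩ := (InfiniteGalois.mem_range_algebraMap_iff_fixed _).2 hfix
    have e : c ^ 2 = (∏ i ∈ s ∩ t, a i) ^ 2 * ∏ i ∈ (s \ t) ∪ (t \ s), a i := by
      apply (algebraMap F Ω).injective
      rw [← prod_mul_prod_mq, map_pow, hc, mul_pow, hsq, hsq, map_mul]
    refine h ((s \ t) ∪ (t \ s)) ?_ ⟨c / ∏ i ∈ s ∩ t, a i, ?_⟩
    · rw [Finset.nonempty_iff_ne_empty]
      intro h0
      rw [Finset.union_eq_empty, Finset.sdiff_eq_empty_iff_subset,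
        Finset.sdiff_eq_empty_iff_subset] at h0
      exact hne (Finset.Subset.antisymm h0.1 h0.2)
    · have := hA (s ∩ t)
      field_simp
      linear_combination -e
  have hli := (linearIndependent_monoidHom (Ω ≃ₐ[F] Ω) Ω).comp χ hinj
  rw [Fintype.linearIndependent_iff] at hli ⊢
  intro g hg s
  have := hli (fun s => algebraMap F Ω (g s) * R s) (by
    funext σ
    have h2 := congrArg σ hg
    rw [map_sum, map_zero] at h2
    simp only [Finset.sum_apply, Pi.smul_apply, Function.comp_apply, smul_eq_mul, Pi.zero_apply]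
    rw [← h2]
    refine Finset.sum_congr rfl fun t _ => ?_
    rw [Algebra.smul_def, map_mul, AlgEquiv.commutes, hχ t σ]
    ring) s
  simpa [hR0 s] using this

/-- If no nonempty product of the `a i` is a square, the squarefree monomials in the square roots are linearly
independent.  (Induction on the index set, for all fields at once: adjoin one square root `r`; a product `b` of the
other `a i` that becomes a square `(x + y r)²` has `x y = 0`, so `b` or `b * r²` is a square below.) -/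
theorem exists_multiquadratic (F : Type) [Field F] [CharZero F] (ι : Type) [Fintype ι] [DecidableEq ι]
    (a : ι → F) (h : ∀ s : Finset ι, s.Nonempty → ¬ IsSquare (∏ i ∈ s, a i)) :
    ∃ (K : Type) (_ : Field K) (_ : Algebra F K) (r : ι → K) (b : Module.Basis (Finset ι) F K),
      (∀ i, r i ^ 2 = algebraMap F K (a i)) ∧ ∀ s, b s = ∏ i ∈ s, r i := by
  let Ω := AlgebraicClosure F
  have hex : ∀ i, ∃ x : Ω, x ^ 2 = algebraMap F Ω (a i) := fun i =>
    IsAlgClosed.exists_pow_nat_eq _ two_pos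
  choose r hr using hex
  have hli := indep_mq F Ω ι a h r hr
  let K : IntermediateField F Ω := IntermediateField.adjoin F (Set.range r)
  let r' : ι → K := fun i => ⟨r i, IntermediateField.subset_adjoin F _ ⟨i, rfl⟩⟩
  have hcoe : ∀ s : Finset ι, ((∏ i ∈ s, r' i : K) : Ω) = ∏ i ∈ s, r i := fun s => by
    simp [r']
  have hli' : LinearIndependent F fun s : Finset ι => ∏ i ∈ s, r' i := by
    apply LinearIndependent.of_comp K.val.toLinearMap
    have e : (K.val.toLinearMap ∘ fun s : Finset ι => ∏ i ∈ s, r' i) =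
        fun s : Finset ι => ∏ i ∈ s, r i := funext hcoe
    rw [e]
    exact hli
  have hspan : ∀ x ∈ Algebra.adjoin F (Set.range r),
      x ∈ Submodule.span F (Set.range fun s : Finset ι => ∏ i ∈ s, r i) := by
    intro x hx
    induction hx using Algebra.adjoin_induction with
    | mem x hx =>
      obtain ⟨i, rfl⟩ := hx
      exact Submodule.subset_span ⟨{i}, by simp⟩
    | algebraMap c =>
      rw [Algebra.algebraMap_eq_smul_one]
      exact Submodule.smul_mem _ _ (Submodule.subset_span ⟨∅, by simp⟩)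
    | add x y _ _ hx hy => exact Submodule.add_mem _ hx hy
    | mul x y _ _ hx hy =>
      have := Submodule.mul_mem_mul hx hy
      rw [Submodule.span_mul_span] at this
      refine Submodule.span_le.2 ?_ this
      rintro _ ⟨_, ⟨s, rfl⟩, _, ⟨t, rfl⟩, rfl⟩
      have e : (∏ i ∈ s, r i) * ∏ i ∈ t, r i =
          (∏ i ∈ s ∩ t, a i) • ∏ i ∈ (s \ t) ∪ (t \ s), r i := by
        rw [prod_mul_prod_mq, Algebra.smul_def, map_prod, ← Finset.prod_pow]
        simp only [hr]
      simp only [e]
      exact Submodule.smul_mem _ _ (Submodule.subset_span ⟨_, rfl⟩)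
  have htop : ⊤ ≤ Submodule.span F (Set.range fun s : Finset ι => ∏ i ∈ s, r' i) := by
    intro x _
    have hx : (x : Ω) ∈ Algebra.adjoin F (Set.range r) := by
      rw [← IntermediateField.adjoin_toSubalgebra_of_isAlgebraic
        (fun y _ => Algebra.IsAlgebraic.isAlgebraic y)]
      exact x.2
    have h2 := hspan x hx
    have e : (Set.range fun s : Finset ι => ∏ i ∈ s, r i) =
        K.val.toLinearMap '' Set.range fun s : Finset ι => ∏ i ∈ s, r' i := by
      rw [← Set.range_comp]
      congr 1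
      funext s
      exact (hcoe s).symm
    rw [e, ← Submodule.map_span] at h2
    obtain ⟨y, hy, hyx⟩ := h2
    have : y = x := Subtype.ext hyx
    exact this ▸ hy
  refine ⟨K, inferInstance, inferInstance, r', Module.Basis.mk hli' htop, fun i => ?_, fun s => ?_⟩
  · exact Subtype.ext (hr i)
  · exact Module.Basis.mk_apply hli' htop s

open Polynomial in
theorem isSquare_poly_mq {k : Type} [Field k] {p : k[X]}
    (h : IsSquare (algebraMap k[X] (RatFunc k) p)) : IsSquare p := by
  obtain ⟨f, hf⟩ := h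
  have hi : IsIntegral k[X] (f ^ 2) := by
    rw [sq, ← hf]
    exact isIntegral_algebraMap
  obtain ⟨y, rfl⟩ := IsIntegrallyClosed.exists_algebraMap_eq_of_isIntegral_pow two_pos hi
  exact ⟨y, IsFractionRing.injective k[X] (RatFunc k) (by rw [hf, map_mul])⟩

open Polynomial in
theorem nonsq_mq {k J : Type} [Field k] [CharZero k] (n : J → k) (hn : Function.Injective n)
    (h0 : ∀ j, n j ≠ 0) (s : Finset J) (hs : s.Nonempty) {c : k} (hc : c ≠ 0) :
    ¬ IsSquare (algebraMap k[X] (RatFunc k) (C c * ∏ j ∈ s, (X ^ 2 + C (n j)))) := by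
  intro h
  obtain ⟨y, hy⟩ := isSquare_poly_mq h
  have hsep : (∏ j ∈ s, (X ^ 2 + C (n j) : k[X])).Separable := by
    refine separable_prod' (fun i _ j _ hij => ?_) fun j _ => ?_
    · have hd : n i - n j ≠ 0 := sub_ne_zero.2 (hn.ne hij)
      refine ⟨C (n i - n j)⁻¹, -C (n i - n j)⁻¹, ?_⟩
      have : C (n i - n j)⁻¹ * C (n i - n j) = (1 : k[X]) := by
        rw [← C_mul, inv_mul_cancel₀ hd, C_1]
      rw [C_sub] at this
      linear_combination this
    · have := separable_X_pow_sub_C (n := 2) (-n j) (by norm_num) (neg_ne_zero.2 (h0 j))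
      simpa using this
  have hu : IsUnit (C c : k[X]) := isUnit_C.2 hc.isUnit
  have hy' : y * y ∣ ∏ j ∈ s, (X ^ 2 + C (n j) : k[X]) := by
    rw [← hy, hu.mul_left_dvd]
  have hyu := hsep.squarefree y hy'
  have : IsUnit (C c * ∏ j ∈ s, (X ^ 2 + C (n j) : k[X])) := hy ▸ hyu.mul hyu
  obtain ⟨j, hj⟩ := hs
  have h2 : IsUnit (X ^ 2 + C (n j) : k[X]) :=
    isUnit_of_dvd_unit ((Finset.dvd_prod_of_mem _ hj).mul_left _) this
  have h3 := natDegree_eq_zero_of_isUnit h2
  rw [natDegree_X_pow_add_C] at h3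
  exact two_ne_zero h3

open Polynomial in
theorem nonsq2_mq {J : Type} [DecidableEq J] (n : J → ℂ) (hn : Function.Injective n)
    (h0 : ∀ j, n j ≠ 0) (s : Finset (J ⊕ J)) (hs : s.Nonempty) :
    ¬ IsSquare (∏ i ∈ s, Sum.elim (fun j => lam0 ^ 2 + algebraMap ℂ K0 (n j))
      (fun j => mu0 ^ 2 + algebraMap ℂ K0 (n j)) i) := by
  intro h
  rw [← Finset.toLeft_disjSum_toRight (u := s), Finset.prod_disjSum] at h
  simp only [Sum.elim_inl, Sum.elim_inr] at h
  set c : K1 := algebraMap ℂ[X] K1 (C 1 * ∏ j ∈ s.toLeft, (X ^ 2 + C (n j))) with hc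
  have hCa : ∀ x : ℂ, algebraMap ℂ[X] K1 (C x) = algebraMap ℂ K1 x := fun x => by
    rw [RatFunc.algebraMap_C, RatFunc.algebraMap_eq_C]
  have hCb : ∀ x : K1, algebraMap K1[X] K0 (C x) = algebraMap K1 K0 x := fun x => by
    rw [RatFunc.algebraMap_C, RatFunc.algebraMap_eq_C]
  have e1 : ∏ j ∈ s.toLeft, (lam0 ^ 2 + algebraMap ℂ K0 (n j)) = algebraMap K1 K0 c := by
    rw [hc, C_1, one_mul, map_prod, map_prod]
    refine Finset.prod_congr rfl fun j _ => ?_
    rw [map_add, map_add, map_pow, map_pow, hCa, RatFunc.algebraMap_X,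
      ← IsScalarTower.algebraMap_apply]
    rfl
  have e2 : ∏ j ∈ s.toRight, (mu0 ^ 2 + algebraMap ℂ K0 (n j)) =
      algebraMap K1[X] K0 (∏ j ∈ s.toRight, (X ^ 2 + C (algebraMap ℂ K1 (n j)))) := by
    rw [map_prod]
    refine Finset.prod_congr rfl fun j _ => ?_
    rw [map_add, map_pow, hCb, RatFunc.algebraMap_X, ← IsScalarTower.algebraMap_apply]
    rfl
  have hc0 : c ≠ 0 := by
    rw [hc, C_1, one_mul, map_ne_zero_iff _ (IsFractionRing.injective ℂ[X] K1)]
    exact Finset.prod_ne_zero_iff.2 fun j _ => (monic_X_pow_add_C (n j) two_ne_zero).ne_zero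
  rw [e1, e2, ← hCb, ← map_mul] at h
  by_cases hR : s.toRight.Nonempty
  · exact nonsq_mq (fun j => algebraMap ℂ K1 (n j)) ((algebraMap ℂ K1).injective.comp hn)
      (fun j => (_root_.map_ne_zero _).2 (h0 j)) _ hR hc0 h
  · rw [Finset.not_nonempty_iff_eq_empty] at hR
    have hL : s.toLeft.Nonempty := by
      obtain ⟨x, hx⟩ := hs
      rcases x with x | x
      · exact ⟨x, Finset.mem_toLeft.2 hx⟩
      · have := Finset.mem_toRight.2 hx
        rw [hR] at this
        simp at this
    rw [hR, Finset.prod_empty, mul_one] at h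
    obtain ⟨y, hy⟩ := isSquare_poly_mq h
    have h2 : IsSquare c := by
      refine ⟨y.eval 0, ?_⟩
      have := congrArg (eval 0) hy
      rwa [eval_C, eval_mul] at this
    exact nonsq_mq n hn h0 _ hL one_ne_zero h2

/-- the parameters of the quadrics -/
def nn_mq (i : YI) : ℕ := 2 * i.1 + if i.2 then 0 else 1

theorem nn_inj_mq : Function.Injective nn_mq := by decide

theorem nn_ne_mq : ∀ i : YI, i ≠ (0, true) → nn_mq i ≠ 0 := by decide

/-- Take `ι = YJ ⊕ YJ`, `a (inl i) = λ² + n i`, `a (inr i) = μ² + n i` with distinct nonzero numbers `n i`. -/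
theorem exists_YData : ∃ (K : Type) (_ : Field K) (_ : Algebra K0 K) (_ : Algebra ℂ K)
    (_ : IsScalarTower ℂ K0 K), Nonempty (YData K) := by
  have hinj : Function.Injective fun j : YJ => (nn_mq j.1 : ℂ) := fun i j hij =>
    Subtype.ext (nn_inj_mq (Nat.cast_injective (R := ℂ) hij))
  have hne : ∀ j : YJ, (nn_mq j.1 : ℂ) ≠ 0 := fun j => Nat.cast_ne_zero.2 (nn_ne_mq _ j.2.1)
  obtain ⟨K, _, _, r, b, hr, hb⟩ := exists_multiquadratic K0 (YJ ⊕ YJ) _
    (nonsq2_mq (fun j : YJ => (nn_mq j.1 : ℂ)) hinj hne)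
  let _ : Algebra ℂ K := ((algebraMap K0 K).comp (algebraMap ℂ K0)).toAlgebra
  have tower : IsScalarTower ℂ K0 K := IsScalarTower.of_algebraMap_eq fun _ => rfl
  have hcase : ∀ i : YI, ¬ (i ≠ (0, true) ∧ i ≠ (0, false)) → i = (0, true) ∨ i = (0, false) := by
    intro i hi
    tauto
  refine ⟨K, inferInstance, inferInstance, inferInstance, tower, ⟨{
    u := fun i => if h : i ≠ (0, true) ∧ i ≠ (0, false) then r (.inl ⟨i, h⟩) else hu (lam K) i.2
    v := fun i => if h : i ≠ (0, true) ∧ i ≠ (0, false) then r (.inr ⟨i, h⟩) else hu (mu K) i.2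
    al := fun i => if i = (0, false) then 0 else 1
    be := fun i => nn_mq i
    u_base := fun i => by cases i <;> simp
    v_base := fun i => by cases i <;> simp
    al_t := by simp
    be_t := by simp [nn_mq]
    al_f := by simp
    be_f := by simp [nn_mq]
    u_sq := fun i => ?_
    v_sq := fun i => ?_
    nonprop := fun i j hij => ?_
    basis := b.reindex Finset.sumEquiv.toEquiv
    basis_eq := fun s => ?_ }⟩⟩
  · by_cases h : i ≠ (0, true) ∧ i ≠ (0, false)
    · rw [dif_pos h, hr, if_neg h.2]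
      simp [lam]
    · rcases hcase i h with rfl | rfl <;> simp [hu, nn_mq]
  · by_cases h : i ≠ (0, true) ∧ i ≠ (0, false)
    · rw [dif_pos h, hr, if_neg h.2]
      simp [mu]
    · rcases hcase i h with rfl | rfl <;> simp [hu, nn_mq]
  · by_cases hi : i = (0, false)
    · subst hi
      simp [hij.symm, nn_mq]
    · by_cases hj : j = (0, false)
      · subst hj
        simp [hi, nn_mq]
      · simp only [if_neg hi, if_neg hj, one_mul]
        exact sub_ne_zero.2 fun e => hij (nn_inj_mq (Nat.cast_injective (R := ℂ) e)).symm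
  · rw [Module.Basis.reindex_apply, hb]
    change ∏ i ∈ s.1.disjSum s.2, r i = _
    rw [Finset.prod_disjSum]
    congr 1 <;> refine Finset.prod_congr rfl fun i _ => ?_ <;> rw [dif_pos i.2]

end Crest.Agent.R169
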