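import Crest.Agent.R169.HN

/-! # The main bound on the surface side -/

set_option autoImplicit false

namespace Crest.Agent.R169

noncomputable section

variable {K : Type} [Field K] [Algebra K0 K] [Algebra ℂ K] [IsScalarTower ℂ K0 K] {S : Surf K}

section Aux
variable {V : Type} [AddCommGroup V] [Module K V] [Module ℂ V] [IsScalarTower ℂ K V]

/-- the bigraded family generated by `s` in degree `(n0, n0)` -/
def rmainFam (S : Surf K) (s : Set V) (n0 : ℤ) (a b : ℤ) : Submodule ℂ V :=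
  Submodule.span ℂ {w | ∃ r ∈ Gam K (OO S) (a - n0) (b - n0), ∃ x ∈ s, w = r • x}

theorem rmain_famClosed (s : Set V) (n0 : ℤ) :
    FamClosed (lam K) (mu K) (rmainFam S s n0) := by
  intro a b v hv
  have hO := (isSheaf_OO S).famClosed
  induction hv using Submodule.span_induction with
  | mem w hw =>
    obtain ⟨r, hr, x, hx, rfl⟩ := hw
    obtain ⟨h1, h2, h3, h4⟩ := hO _ _ r hr
    have e1 : a - n0 + 1 = a + 1 - n0 := by ring
    have e2 : b - n0 + 1 = b + 1 - n0 := by ring
    rw [e1] at h1 h2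
    rw [e2] at h3 h4
    refine ⟨Submodule.subset_span ⟨r, h1, x, hx, rfl⟩, Submodule.subset_span ⟨_, h2, x, hx, ?_⟩,
      Submodule.subset_span ⟨r, h3, x, hx, rfl⟩, Submodule.subset_span ⟨_, h4, x, hx, ?_⟩⟩
    · rw [smul_eq_mul, mul_smul]
    · rw [smul_eq_mul, mul_smul]
  | zero =>
    simp only [smul_zero]
    exact ⟨Submodule.zero_mem _, Submodule.zero_mem _, Submodule.zero_mem _, Submodule.zero_mem _⟩
  | add x y _ _ hx hy =>
    simp only [smul_add]
    exact ⟨Submodule.add_mem _ hx.1 hy.1, Submodule.add_mem _ hx.2.1 hy.2.1,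
      Submodule.add_mem _ hx.2.2.1 hy.2.2.1, Submodule.add_mem _ hx.2.2.2 hy.2.2.2⟩
  | smul c x _ hx =>
    rw [smul_comm (lam K) c x, smul_comm (mu K) c x]
    exact ⟨Submodule.smul_mem _ c hx.1, Submodule.smul_mem _ c hx.2.1,
      Submodule.smul_mem _ c hx.2.2.1, Submodule.smul_mem _ c hx.2.2.2⟩

theorem rmain_mem_genSh {s : Set V} {a b : ℤ} {c : Chart} {v : V} :
    v ∈ genSh S s a b c ↔ tau K c a b • v ∈ Submodule.span (S.R c) s := by
  simp only [genSh, mem_scal, inv_inv, Submodule.restrictScalars_mem]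

theorem rmain_gen_mem_Gam {s : Set V} {a b : ℤ} {x : V} (hx : x ∈ s) :
    x ∈ Gam K (genSh S s a b) a b := by
  rw [mem_Gam]
  intro c
  rw [rmain_mem_genSh, smul_smul, mul_inv_cancel₀ (tau_ne_zero K c a b), one_smul]
  exact Submodule.subset_span hx

theorem rmain_fam_le {s : Set V} {n0 : ℤ} (hM : IsSheaf S (genSh S s n0 n0)) (a b : ℤ) :
    rmainFam S s n0 a b ≤ Gam K (genSh S s n0 n0) a b := by
  refine Submodule.span_le.2 ?_
  rintro _ ⟨r, hr, x, hx, rfl⟩
  have := hM.Gam_mul hr (rmain_gen_mem_Gam (S := S) (a := n0) (b := n0) hx)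
  rwa [sub_add_cancel, sub_add_cancel] at this

theorem rmain_charts_aux {s : Set V} (n0 : ℤ) (c : Chart) {w : V}
    (hw : w ∈ Submodule.span (S.R c) s) :
    ∀ r ∈ S.R c, ∃ m : ℕ, ∀ k : ℤ, m ≤ k →
      tau K c k k • (r • w) ∈ rmainFam S s n0 (k + n0) (k + n0) := by
  induction hw using Submodule.span_induction with
  | mem x hx =>
    intro r hr
    obtain ⟨m, hm⟩ := (isSheaf_OO S).tau_smul_mem_Gam c (v := r) hr
    refine ⟨m, fun k hk => Submodule.subset_span ⟨tau K c k k • r, ?_, x, hx, ?_⟩⟩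
    · rw [add_sub_cancel_right]
      exact hm k k hk hk
    · rw [smul_eq_mul, mul_smul]
  | zero =>
    intro r _
    exact ⟨0, fun k _ => by simp only [smul_zero]; exact Submodule.zero_mem _⟩
  | add x y _ _ hx hy =>
    intro r hr
    obtain ⟨m, hm⟩ := hx r hr
    obtain ⟨m', hm'⟩ := hy r hr
    refine ⟨max m m', fun k hk => ?_⟩
    rw [smul_add, smul_add]
    push_cast at hk
    exact Submodule.add_mem _ (hm k (le_trans (le_max_left _ _) hk))
      (hm' k (le_trans (le_max_right _ _) hk))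
  | smul a x _ hx =>
    intro r hr
    obtain ⟨m, hm⟩ := hx (r * a) ((S.R c).mul_mem hr a.2)
    refine ⟨m, fun k hk => ?_⟩
    have := hm k hk
    rwa [mul_smul] at this

theorem rmain_eq_Gam {s : Set V} {n0 : ℕ} (hM : IsSheaf S (genSh S s n0 n0)) :
    ∃ a0 : ℤ, ∀ a b, a0 ≤ a → a0 ≤ b →
      rmainFam S s n0 a b = Gam K (genSh S s n0 n0) a b := by
  refine hM.eq_Gam_of_charts (rmain_famClosed s n0) (rmain_fam_le hM) ?_
  intro c v hv
  rw [rmain_mem_genSh] at hv
  obtain ⟨m, hm⟩ := rmain_charts_aux (n0 : ℤ) c hv 1 (S.R c).one_mem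
  refine ⟨m + n0, ?_⟩
  have := hm m le_rfl
  rw [one_smul, smul_smul, ← tau_add] at this
  push_cast
  exact this

theorem rmain_step {M : Pre V} (hM : IsSheaf S M) (n : ℤ) {w0 w1 w2 : V}
    (h0 : w0 ∈ Gam K M n n) (h1 : w1 ∈ Gam K M n n) (h2 : w2 ∈ Gam K M n n) :
    w0 + (lam K * mu K) • w1 + (lam K + mu K) • w2 ∈ Gam K M (n + 1) (n + 1) := by
  have hF := hM.famClosed
  have hn : n ≤ n + 1 := by omega
  refine Submodule.add_mem _ (Submodule.add_mem _ (hM.Gam_mono hn hn h0) ?_) ?_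
  · rw [mul_smul]
    exact (hF _ _ _ (hF _ _ _ h1).2.2.2).2.1
  · rw [add_smul]
    exact Submodule.add_mem _ (hM.Gam_mono le_rfl hn (hF _ _ _ h2).2.1)
      (hM.Gam_mono hn le_rfl (hF _ _ _ h2).2.2.2)

/-- a graded family is, in large degrees, the family of sections of a sheaf -/
theorem rmain_exists_sheaf (S : Surf K) (E : ℕ → Submodule ℂ V) (hfin : ∀ n, FiniteDimensional ℂ (E n))
    (hmul : ∀ n (k : ℕ), ∀ τ ∈ Gam K (OO S) k k, ∀ v ∈ E n, τ • v ∈ E (n + k))
    (hgen : ∃ n0, ∀ n, n0 ≤ n → ∀ v ∈ E (n + 1), ∃ v0 ∈ E n, ∃ v1 ∈ E n, ∃ v2 ∈ E n,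
      v = v0 + (lam K * mu K) • v1 + (lam K + mu K) • v2) :
    ∃ (V' : Submodule K V) (M : Pre V'), IsSheaf S M ∧ ∃ n1 : ℕ, ∀ n, n1 ≤ n →
      E n = (Gam K M n n).map (V'.subtype.restrictScalars ℂ) := by
  obtain ⟨n0, hgen⟩ := hgen
  let V' : Submodule K V := Submodule.span K (E n0 : Set V)
  let ι : V' →ₗ[ℂ] V := V'.subtype.restrictScalars ℂ
  have hι : Function.Injective ι := Subtype.val_injective
  have hfg : ((E n0).comap ι).FG := by
    have := hfin n0
    have h2 : FiniteDimensional ℂ ((E n0).comap ι) :=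
      FiniteDimensional.of_injective (ι.restrict (p := (E n0).comap ι) (q := E n0) (fun _ hx => hx))
        (fun x y hxy => Subtype.ext (hι (congrArg (fun z : E n0 => (z : V)) hxy)))
    exact (Submodule.fg_iff_finiteDimensional _).2 h2
  obtain ⟨s, hs⟩ := hfg
  have hsp : Submodule.span K (s : Set V') = ⊤ := by
    rw [← Submodule.span_span_of_tower ℂ K (s : Set V'), hs]
    exact Submodule.span_span_coe_preimage
  have hM : IsSheaf S (genSh S (s : Set V') n0 n0) := isSheaf_genSh s.finite_toSet hsp _ _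
  obtain ⟨a0, ha0⟩ := rmain_eq_Gam hM
  refine ⟨V', genSh S (s : Set V') n0 n0, hM, max n0 a0.toNat, fun n hn => ?_⟩
  have hn0 : n0 ≤ n := le_trans (le_max_left _ _) hn
  have hna : a0 ≤ n := by
    have := le_trans (le_max_right _ _) hn
    omega
  apply le_antisymm
  · clear hn hna
    induction n, hn0 using Nat.le_induction with
    | base =>
      intro v hv
      have hv' : v ∈ V' := Submodule.subset_span hv
      refine ⟨⟨v, hv'⟩, ?_, rfl⟩
      have h1 : (⟨v, hv'⟩ : V') ∈ Submodule.span ℂ (s : Set V') := by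
        rw [hs]; exact hv
      exact (Submodule.span_le.2 fun x hx => rmain_gen_mem_Gam hx) h1
    | succ n hn ih =>
      intro v hv
      obtain ⟨v0, h0, v1, h1, v2, h2, rfl⟩ := hgen n hn v hv
      obtain ⟨w0, hw0, rfl⟩ := ih h0
      obtain ⟨w1, hw1, rfl⟩ := ih h1
      obtain ⟨w2, hw2, rfl⟩ := ih h2
      refine ⟨w0 + (lam K * mu K) • w1 + (lam K + mu K) • w2, ?_, rfl⟩
      push_cast
      exact rmain_step hM n hw0 hw1 hw2
  · rw [← ha0 n n hna hna, Submodule.map_le_iff_le_comap]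
    refine Submodule.span_le.2 ?_
    rintro _ ⟨r, hr, x, hx, rfl⟩
    obtain ⟨k, rfl⟩ := Nat.exists_eq_add_of_le hn0
    have hx' : x ∈ (E n0).comap ι := by
      rw [← hs]; exact Submodule.subset_span hx
    have e : ((n0 + k : ℕ) : ℤ) - n0 = k := by push_cast; ring
    rw [e] at hr
    exact hmul n0 k r hr x hx'

theorem rmain_finrank_inf (V' : Submodule K V) (G : Submodule ℂ V') (W : Submodule K V) :
    Module.finrank ℂ (G.map (V'.subtype.restrictScalars ℂ) ⊓ W.restrictScalars ℂ : Submodule ℂ V) =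
      Module.finrank ℂ (G.comap ((W.comap V'.subtype).subtype.restrictScalars ℂ)) := by
  let j : (W.comap V'.subtype) →ₗ[ℂ] V :=
    (V'.subtype.restrictScalars ℂ).comp ((W.comap V'.subtype).subtype.restrictScalars ℂ)
  have hj : Function.Injective j := Subtype.val_injective.comp Subtype.val_injective
  have he : (G.map (V'.subtype.restrictScalars ℂ) ⊓ W.restrictScalars ℂ : Submodule ℂ V) =
      (G.comap ((W.comap V'.subtype).subtype.restrictScalars ℂ)).map j := by
    ext v
    constructor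
    · rintro ⟨⟨w, hw, rfl⟩, hW⟩
      exact ⟨⟨w, hW⟩, hw, rfl⟩
    · rintro ⟨w, hw, rfl⟩
      exact ⟨⟨w.1, hw, rfl⟩, w.2⟩
  rw [he]
  exact (Submodule.equivMapOfInjective j hj _).finrank_eq.symm

theorem rmain_HP_top (M : Pre V) : HP K (pull (⊤ : Submodule K V).subtype M) = HP K M :=
  HP_pull_equiv (Submodule.topEquiv (R := K) (M := V)) M

end Aux

/-- Let `V' = span K (E n0)` and `M = genSh s n0 n0` in `V'`, for a finite `ℂ`-spanning set `s` of `E n0`.  The family
`N a b = ∑ Γ(O)(a - n0, b - n0) • s` has the charts of `M`, so equals `Gam K M a b` in large degrees (`eq_Gam_of_charts`);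
`N n n ≤ E n`, and `E n ≤ Gam K M n n` for `n ≥ n0` by the generation hypothesis.  For `W` put `W' = W.comap V'.subtype`,
`s W = finrank W'`, `γ W = p + q`, `χ W = χ` of `pull W'.subtype M` (`Gam_pull`, `isHP`, `HP_eq`); conclude with `hn_bound`. -/
theorem rmain_of_bog {κ : ℚ} (hB : BogProp S κ) :
    RMainProp K (lam K * mu K) (lam K + mu K) (fun n => Gam K (OO S) n n) (Module.finrank K0 K) κ := by
  intro V _ _ _ _ E hfin hmul hgen
  obtain ⟨V', M, hM, n1, hn1⟩ := rmain_exists_sheaf S E hfin hmul hgen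
  let s' : Submodule K V' → ℕ := fun W => Module.finrank K W
  let γ' : Submodule K V' → ℤ := fun W => pc K (pull W.subtype M) + qc K (pull W.subtype M)
  let χ' : Submodule K V' → ℤ := fun W => chi K (pull W.subtype M)
  have hs : s' ⊤ = Module.finrank K V' := finrank_top K V'
  have hγ : γ' ⊤ = pc K M + qc K M := by
    simp only [γ', pc, qc, rmain_HP_top]
  have hχ : χ' ⊤ = chi K M := by
    simp only [χ', chi, rmain_HP_top]
  refine ⟨fun W => s' (W.comap V'.subtype), fun W => γ' (W.comap V'.subtype),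
    fun W => χ' (W.comap V'.subtype), fun W => ?_, fun h hr => ?_⟩
  · have hW : IsSheaf S (pull (W.comap V'.subtype).subtype M) := hM.pull Subtype.val_injective
    obtain ⟨-, a0, ha0⟩ := hW.isHP
    refine ⟨max n1 a0.toNat, fun n hn => ?_⟩
    have hna : a0 ≤ n := by
      have := le_trans (le_max_right _ _) hn
      omega
    rw [hn1 n (le_trans (le_max_left _ _) hn), rmain_finrank_inf, ← Gam_pull, ha0 n n hna hna,
      hW.HP_eq]
    simp only [s', γ', χ']
    push_cast
    ring
  · simp only [Submodule.comap_top, hs, hγ, hχ] at h hr ⊢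
    refine hn_bound hB V' M hM hr fun W => ?_
    have := h (W.map V'.subtype)
    rw [Submodule.comap_map_eq_of_injective V'.injective_subtype] at this
    exact this

end

end Crest.Agent.R169
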