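import Crest.Agent.R169.YDefs
import Crest.Agent.R169.PicQ

/-! # Local generators of rank one sheaves -/

set_option autoImplicit false
set_option linter.unusedSectionVars false
set_option linter.unusedVariables false

namespace Crest.Agent.R169

noncomputable section

section LocMem

variable {K : Type} [Field K] [Algebra ℂ K] {R : Subalgebra ℂ K} {𝔪 : Ideal R}

theorem one_notMem_of_isMaximal (h : 𝔪.IsMaximal) : (1 : R) ∉ 𝔪 :=
  (Ideal.ne_top_iff_one 𝔪).1 h.ne_top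

theorem mul_notMem_of_isMaximal (h : 𝔪.IsMaximal) {a b : R} (ha : a ∉ 𝔪) (hb : b ∉ 𝔪) : a * b ∉ 𝔪 :=
  fun hab => (h.isPrime.mem_or_mem hab).elim ha hb

theorem prod_notMem_of_isMaximal (h : 𝔪.IsMaximal) {ι : Type} (s : Finset ι) (f : ι → R)
    (hf : ∀ i ∈ s, f i ∉ 𝔪) : ∏ i ∈ s, f i ∉ 𝔪 := by
  classical
  induction s using Finset.induction_on with
  | empty => simpa using one_notMem_of_isMaximal h
  | insert a s ha ih =>
    rw [Finset.prod_insert ha]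
    exact mul_notMem_of_isMaximal h (hf a (Finset.mem_insert_self _ _))
      (ih fun i hi => hf i (Finset.mem_insert_of_mem hi))

theorem locMem_of_mem (h : 𝔪.IsMaximal) {x : K} (hx : x ∈ R) : LocMem 𝔪 x :=
  ⟨1, one_notMem_of_isMaximal h, by simpa using hx⟩

theorem LocMem.mul (h : 𝔪.IsMaximal) {x y : K} (hx : LocMem 𝔪 x) (hy : LocMem 𝔪 y) :
    LocMem 𝔪 (x * y) := by
  obtain ⟨g, hg, hgx⟩ := hx
  obtain ⟨g', hg', hgy⟩ := hy
  refine ⟨g * g', mul_notMem_of_isMaximal h hg hg', ?_⟩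
  have : ((g * g' : R) : K) * (x * y) = ((g : K) * x) * ((g' : K) * y) := by
    push_cast; ring
  rw [this]
  exact R.mul_mem hgx hgy

theorem LocMem.add (h : 𝔪.IsMaximal) {x y : K} (hx : LocMem 𝔪 x) (hy : LocMem 𝔪 y) :
    LocMem 𝔪 (x + y) := by
  obtain ⟨g, hg, hgx⟩ := hx
  obtain ⟨g', hg', hgy⟩ := hy
  refine ⟨g * g', mul_notMem_of_isMaximal h hg hg', ?_⟩
  have : ((g * g' : R) : K) * (x + y) = (g' : K) * ((g : K) * x) + (g : K) * ((g' : K) * y) := by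
    push_cast; ring
  rw [this]
  exact R.add_mem (R.mul_mem g'.2 hgx) (R.mul_mem g.2 hgy)

/-- one denominator for finitely many elements -/
theorem locMem_uniform (h : 𝔪.IsMaximal) {s : Set K} (hs : s.Finite) (hx : ∀ x ∈ s, LocMem 𝔪 x) :
    ∃ g : R, g ∉ 𝔪 ∧ ∀ x ∈ s, (g : K) * x ∈ R := by
  induction s, hs using Set.Finite.induction_on with
  | empty => exact ⟨1, one_notMem_of_isMaximal h, by simp⟩
  | @insert a s _ _ ih =>
    obtain ⟨g, hg, hgs⟩ := ih fun x hx' => hx x (Set.mem_insert_of_mem _ hx')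
    obtain ⟨g', hg', hga⟩ := hx a (Set.mem_insert _ _)
    refine ⟨g * g', mul_notMem_of_isMaximal h hg hg', ?_⟩
    intro x hx'
    rcases hx' with rfl | hx'
    · have : ((g * g' : R) : K) * x = (g : K) * ((g' : K) * x) := by push_cast; ring
      rw [this]
      exact R.mul_mem g.2 hga
    · have : ((g * g' : R) : K) * x = (g' : K) * ((g : K) * x) := by push_cast; ring
      rw [this]
      exact R.mul_mem g'.2 (hgs x hx')

theorem LocGen.symm {A : Type} [CommRing A] {𝔫 : Ideal A} {s t : A} (h : LocGen 𝔫 s t) : LocGen 𝔫 t s := by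
  intro x hx
  obtain ⟨g, hg, hgx⟩ := h x hx
  exact ⟨g, hg, by rwa [Set.pair_comm]⟩

/-- if `y²` and `t` generate `𝔫` locally and `y ∈ 𝔫`, then `t` does -/
theorem LocGen.principal_of_sq {A : Type} [CommRing A] {𝔫 : Ideal A} (h𝔫 : 𝔫.IsPrime) {y t : A}
    (hy : y ∈ 𝔫) (h : LocGen 𝔫 (y * y) t) : ∀ x ∈ 𝔫, ∃ g ∉ 𝔫, g * x ∈ Ideal.span {t} := by
  obtain ⟨g, hg, hgy⟩ := h y hy
  obtain ⟨a, b, hab⟩ := Ideal.mem_span_pair.1 hgy
  have hg' : g - a * y ∉ 𝔫 := fun h' => hg (by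
    have := 𝔫.add_mem h' (𝔫.mul_mem_left a hy)
    simpa using this)
  intro x hx
  obtain ⟨g₁, hg₁, hgx⟩ := h x hx
  obtain ⟨a₁, b₁, hab₁⟩ := Ideal.mem_span_pair.1 hgx
  refine ⟨(g - a * y) * g₁, fun h' => (h𝔫.mem_or_mem h').elim hg' hg₁, ?_⟩
  rw [Ideal.mem_span_singleton']
  refine ⟨a₁ * y * b + (g - a * y) * b₁, ?_⟩
  have h1 : (g - a * y) * y = b * t := by linear_combination -hab
  linear_combination (g - a * y) * hab₁ - a₁ * y * h1

end LocMem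

variable {K : Type} [Field K] [Algebra K0 K] [Algebra ℂ K] [IsScalarTower ℂ K0 K] {S : Surf K}

theorem Surf.mem_of_locMem (S : Surf K) (c : Chart) {x : K}
    (h : ∀ 𝔪 : Ideal (S.R c), 𝔪.IsMaximal → LocMem 𝔪 x) : x ∈ S.R c :=
  S.mem_of_local c (OO S c) (fun _ hr _ hv => (S.R c).mul_mem hr hv) x h

/-- square roots of local elements are local -/
theorem Surf.locMem_of_sq (S : Surf K) (c : Chart) {𝔪 : Ideal (S.R c)} {x : K} (h : LocMem 𝔪 (x ^ 2)) :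
    LocMem 𝔪 x := by
  obtain ⟨g, hg, hgx⟩ := h
  refine ⟨g, hg, S.normal c ?_⟩
  have h2 : ((g : K) * x) ^ 2 ∈ S.R c := by
    have : ((g : K) * x) ^ 2 = (g : K) * ((g : K) * x ^ 2) := by ring
    rw [this]
    exact (S.R c).mul_mem g.2 hgx
  exact IsIntegral.of_pow (n := 2) (by norm_num) (isIntegral_algebraMap (x := (⟨_, h2⟩ : S.R c)))

theorem Surf.mem_of_sq (S : Surf K) (c : Chart) {x : K} (h : x ^ 2 ∈ S.R c) : x ∈ S.R c :=
  S.normal c (IsIntegral.of_pow (n := 2) (by norm_num) (isIntegral_algebraMap (x := (⟨_, h⟩ : S.R c))))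

/-- `x` generates `L` at the maximal ideal `𝔪` -/
def GenAt (L : Pre K) {c : Chart} (𝔪 : Ideal (S.R c)) (x : K) : Prop :=
  x ≠ 0 ∧ (∃ g : S.R c, g ∉ 𝔪 ∧ (g : K) * x ∈ L c) ∧ ∀ y ∈ L c, LocMem 𝔪 (y / x)

theorem GenAt.congr {L : Pre K} (hL : IsSheaf S L) {c : Chart} {𝔪 : Ideal (S.R c)} (h𝔪 : 𝔪.IsMaximal)
    {x x' : K} (h : GenAt L 𝔪 x) (hx' : x' ≠ 0) (h1 : LocMem 𝔪 (x / x')) (h2 : LocMem 𝔪 (x' / x)) :
    GenAt L 𝔪 x' := by
  obtain ⟨hx, ⟨g, hg, hgx⟩, hy⟩ := h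
  refine ⟨hx', ?_, fun y hy' => ?_⟩
  · obtain ⟨g', hg', hgx'⟩ := h2
    refine ⟨g * g', mul_notMem_of_isMaximal h𝔪 hg hg', ?_⟩
    have : ((g * g' : S.R c) : K) * x' = ((g' : K) * (x' / x)) • ((g : K) * x) := by
      push_cast
      rw [smul_eq_mul]
      field_simp
    rw [this]
    exact hL.smul_mem c hgx' hgx
  · have : y / x' = (y / x) * (x / x') := by field_simp
    rw [this]
    exact (hy y hy').mul h𝔪 h1

theorem GenAt.tens {L L' : Pre K} {c : Chart} {𝔪 : Ideal (S.R c)} (h𝔪 : 𝔪.IsMaximal)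
    {x x' : K} (h : GenAt L 𝔪 x) (h' : GenAt L' 𝔪 x') :
    GenAt (tens (LinearMap.lsmul K K) L L') 𝔪 (x * x') := by
  obtain ⟨hx, ⟨g, hg, hgx⟩, hy⟩ := h
  obtain ⟨hx', ⟨g', hg', hgx'⟩, hy'⟩ := h'
  refine ⟨mul_ne_zero hx hx', ⟨g * g', mul_notMem_of_isMaximal h𝔪 hg hg', ?_⟩, fun y hy₁ => ?_⟩
  · refine Submodule.subset_span ⟨_, hgx, _, hgx', ?_⟩
    simp only [LinearMap.lsmul_apply, smul_eq_mul]
    push_cast
    ring
  · induction hy₁ using Submodule.span_induction with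
    | mem z hz =>
      obtain ⟨a, ha, b, hb, rfl⟩ := hz
      have : (LinearMap.lsmul K K a b) / (x * x') = (a / x) * (b / x') := by
        simp only [LinearMap.lsmul_apply, smul_eq_mul]
        field_simp
      simp only
      rw [this]
      exact (hy a ha).mul h𝔪 (hy' b hb)
    | zero => simpa using locMem_of_mem h𝔪 (S.R c).zero_mem
    | add a b _ _ ha hb => rw [add_div]; exact ha.add h𝔪 hb
    | smul r a _ ha =>
      have : (r • a) / (x * x') = algebraMap ℂ K r * (a / (x * x')) := by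
        rw [Algebra.smul_def, mul_div_assoc]
      rw [this]
      exact (locMem_of_mem h𝔪 ((S.R c).algebraMap_mem r)).mul h𝔪 ha

theorem GenAt.mul {L L' : Pic S} {c : Chart} {𝔪 : Ideal (S.R c)} (h𝔪 : 𝔪.IsMaximal)
    {x x' : K} (h : GenAt L.sh 𝔪 x) (h' : GenAt L'.sh 𝔪 x') : GenAt (L * L').sh 𝔪 (x * x') :=
  h.tens h𝔪 h'

theorem le_of_genAt {L L' : Pre K} (hL' : IsSheaf S L') (c : Chart)
    (h : ∀ 𝔪 : Ideal (S.R c), 𝔪.IsMaximal → ∃ x, GenAt L 𝔪 x ∧ GenAt L' 𝔪 x) : L c ≤ L' c := by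
  intro y hy
  refine S.mem_of_local c (L' c) (fun r hr v hv => hL'.smul_mem c hr hv) y fun 𝔪 h𝔪 => ?_
  obtain ⟨x, ⟨hx, -, h1⟩, ⟨-, ⟨g, hg, hgx⟩, -⟩⟩ := h 𝔪 h𝔪
  obtain ⟨g', hg', hgy⟩ := h1 y hy
  refine ⟨g * g', mul_notMem_of_isMaximal h𝔪 hg hg', ?_⟩
  have : ((g * g' : S.R c) : K) • y = ((g' : K) * (y / x)) • ((g : K) * x) := by
    push_cast
    simp only [smul_eq_mul]
    field_simp
  rw [this]
  exact hL'.smul_mem c hgy hgx

theorem Pic.eq_of_genAt {L L' : Pic S}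
    (h : ∀ c (𝔪 : Ideal (S.R c)), 𝔪.IsMaximal → ∃ x, GenAt L.sh 𝔪 x ∧ GenAt L'.sh 𝔪 x) : L = L' := by
  apply Pic.ext'
  funext c
  refine le_antisymm (le_of_genAt L'.isSheaf c (h c)) (le_of_genAt L.isSheaf c fun 𝔪 h𝔪 => ?_)
  obtain ⟨x, h1, h2⟩ := h c 𝔪 h𝔪
  exact ⟨x, h2, h1⟩

theorem mem_prin_iff (y : Kˣ) (c : Chart) (x : K) : x ∈ (prin S y).sh c ↔ x / y ∈ S.R c := by
  show ((y : K)⁻¹ • x ∈ S.R c) ↔ _
  rw [smul_eq_mul, div_eq_inv_mul]

theorem mem_Ftw_iff (a b : ℤ) (c : Chart) (x : K) :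
    x ∈ (Ftw S a b).sh c ↔ x / tau K c a b ∈ S.R c := by
  show ((tau K c a b)⁻¹ • x ∈ S.R c) ↔ _
  rw [smul_eq_mul, div_eq_inv_mul]

theorem mem_prin_mul_Ftw_iff (y : Kˣ) (a b : ℤ) (c : Chart) (x : K) :
    x ∈ (prin S y * Ftw S a b).sh c ↔ x / (y * tau K c a b) ∈ S.R c := by
  rw [← act_sh, act_prin (Pic.isSheaf _), mem_scal, mem_Ftw_iff, smul_eq_mul]
  have : (y : K)⁻¹ * x / tau K c a b = x / (y * tau K c a b) := by
    have := y.ne_zero
    have := tau_ne_zero K c a b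
    field_simp
  rw [this]

theorem genAt_of_mem_iff {L : Pre K} {c : Chart} {𝔪 : Ideal (S.R c)} (h𝔪 : 𝔪.IsMaximal) {z : K}
    (hz : z ≠ 0) (h : ∀ x, x ∈ L c ↔ x / z ∈ S.R c) : GenAt L 𝔪 z := by
  refine ⟨hz, ⟨1, one_notMem_of_isMaximal h𝔪, ?_⟩, fun y hy => locMem_of_mem h𝔪 ((h y).1 hy)⟩
  rw [h]
  simp [hz]

theorem genAt_prin (y : Kˣ) {c : Chart} {𝔪 : Ideal (S.R c)} (h𝔪 : 𝔪.IsMaximal) :
    GenAt (prin S y).sh 𝔪 y :=
  genAt_of_mem_iff h𝔪 y.ne_zero (mem_prin_iff y c)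

theorem genAt_Ftw (a b : ℤ) {c : Chart} {𝔪 : Ideal (S.R c)} (h𝔪 : 𝔪.IsMaximal) :
    GenAt (Ftw S a b).sh 𝔪 (tau K c a b) :=
  genAt_of_mem_iff h𝔪 (tau_ne_zero K c a b) (mem_Ftw_iff a b c)

omit [IsScalarTower ℂ K0 K] in
theorem mem_genSh_iff (s : Set K) (a b : ℤ) (c : Chart) (x : K) :
    x ∈ genSh S s a b c ↔ tau K c a b * x ∈ Submodule.span (S.R c) s := by
  simp [genSh]

theorem gen_mem_genSh {s : Set K} (a b : ℤ) (c : Chart) {x : K} (hx : x ∈ s) :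
    (tau K c a b)⁻¹ * x ∈ genSh S s a b c := by
  rw [mem_genSh_iff, ← mul_assoc, mul_inv_cancel₀ (tau_ne_zero K c a b), one_mul]
  exact Submodule.subset_span hx

/-- an `R c`-submodule that contains the generators contains `genSh` -/
theorem genSh_le {s : Set K} (a b : ℤ) (c : Chart) (N : Submodule ℂ K)
    (hN : ∀ r ∈ S.R c, ∀ v ∈ N, r * v ∈ N) (h : ∀ x ∈ s, (tau K c a b)⁻¹ * x ∈ N) :
    genSh S s a b c ≤ N := by
  intro y hy
  rw [mem_genSh_iff] at hy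
  have key : ∀ z ∈ Submodule.span (S.R c) s, (tau K c a b)⁻¹ * z ∈ N := by
    intro z hz
    induction hz using Submodule.span_induction with
    | mem z hz => exact h z hz
    | zero => simp
    | add u v _ _ hu hv => rw [mul_add]; exact N.add_mem hu hv
    | smul r u _ hu =>
      have : (tau K c a b)⁻¹ * (r • u) = (r : K) * ((tau K c a b)⁻¹ * u) := by
        rw [Subalgebra.smul_def, smul_eq_mul]; ring
      rw [this]
      exact hN _ r.2 _ hu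
  have := key _ hy
  rwa [← mul_assoc, inv_mul_cancel₀ (tau_ne_zero K c a b), one_mul] at this

/-- the local generator of `genSh`, with one denominator -/
theorem genSh_uniform {s : Set K} (hs : s.Finite) (a b : ℤ) {c : Chart} {𝔪 : Ideal (S.R c)}
    (h𝔪 : 𝔪.IsMaximal) {x : K} (hx0 : x ≠ 0) (h : ∀ y ∈ s, LocMem 𝔪 (y / x)) :
    ∃ g : S.R c, g ∉ 𝔪 ∧ ∀ y ∈ genSh S s a b c, (g : K) * (y / ((tau K c a b)⁻¹ * x)) ∈ S.R c := by
  obtain ⟨g, hg, hgs⟩ := locMem_uniform h𝔪 (hs.image (· / x)) (by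
    rintro _ ⟨y, hy, rfl⟩
    exact h y hy)
  refine ⟨g, hg, ?_⟩
  let N : Submodule ℂ K :=
    { carrier := {y | (g : K) * (y / ((tau K c a b)⁻¹ * x)) ∈ S.R c}
      add_mem' := fun {u v} hu hv => by
        simp only [Set.mem_ofPred_eq, add_div, mul_add] at *
        exact (S.R c).add_mem hu hv
      zero_mem' := by simp
      smul_mem' := fun r u hu => by
        simp only [Set.mem_ofPred_eq] at *
        have : (g : K) * (r • u / ((tau K c a b)⁻¹ * x)) = r • ((g : K) * (u / ((tau K c a b)⁻¹ * x))) := by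
          simp only [Algebra.smul_def]; ring
        rw [this]
        exact (S.R c).smul_mem hu r }
  have hle : genSh S s a b c ≤ N := by
    refine genSh_le a b c N (fun r hr v hv => ?_) (fun y hy => ?_)
    · show (g : K) * (r * v / ((tau K c a b)⁻¹ * x)) ∈ S.R c
      have : (g : K) * (r * v / ((tau K c a b)⁻¹ * x)) = r * ((g : K) * (v / ((tau K c a b)⁻¹ * x))) := by
        ring
      rw [this]
      exact (S.R c).mul_mem hr hv
    · show (g : K) * ((tau K c a b)⁻¹ * y / ((tau K c a b)⁻¹ * x)) ∈ S.R c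
      rw [mul_div_mul_left _ _ (inv_ne_zero (tau_ne_zero K c a b))]
      exact hgs _ ⟨y, hy, rfl⟩
  exact fun y hy => hle hy

theorem genAt_genSh {s : Set K} (hs : s.Finite) (a b : ℤ) {c : Chart} {𝔪 : Ideal (S.R c)}
    (h𝔪 : 𝔪.IsMaximal) {x : K} (hx : x ∈ s) (hx0 : x ≠ 0) (h : ∀ y ∈ s, LocMem 𝔪 (y / x)) :
    GenAt (genSh S s a b) 𝔪 ((tau K c a b)⁻¹ * x) := by
  obtain ⟨g, hg, hgs⟩ := genSh_uniform hs a b h𝔪 hx0 h
  refine ⟨mul_ne_zero (inv_ne_zero (tau_ne_zero K c a b)) hx0,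
    ⟨1, one_notMem_of_isMaximal h𝔪, by simpa using gen_mem_genSh a b c hx⟩, fun y hy => ⟨g, hg, hgs y hy⟩⟩

theorem locFree_genSh {s : Set K} (hs : s.Finite) (a b : ℤ)
    (h : ∀ c (𝔪 : Ideal (S.R c)), 𝔪.IsMaximal → ∃ x ∈ s, x ≠ 0 ∧ ∀ y ∈ s, LocMem 𝔪 (y / x)) :
    LocFree S (genSh S s a b) := by
  rw [locFree_iff_rank_one]
  intro c 𝔪 h𝔪
  obtain ⟨x, hx, hx0, hy⟩ := h c 𝔪 h𝔪
  exact ⟨_, gen_mem_genSh a b c hx, mul_ne_zero (inv_ne_zero (tau_ne_zero K c a b)) hx0,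
    genSh_uniform hs a b h𝔪 hx0 hy⟩

theorem isSheaf_genSh_of_ne_zero {s : Set K} (hs : s.Finite) {x : K} (hx : x ∈ s) (hx0 : x ≠ 0) (a b : ℤ) :
    IsSheaf S (genSh S s a b) := by
  refine isSheaf_genSh hs ?_ a b
  rw [eq_top_iff]
  intro y _
  have : y = (y / x) • x := by rw [smul_eq_mul]; field_simp
  rw [this]
  exact Submodule.smul_mem _ _ (Submodule.subset_span hx)

/-- an ideal sheaf that is locally the unit ideal or contains local generators of the maximal ideal has finite colength -/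
theorem finCol_of_local {M : Pre K} (hM : IsSheaf S M) (hle : ∀ c, M c ≤ OO S c)
    (h : ∀ c (𝔪 : Ideal (S.R c)), 𝔪.IsMaximal → (∃ g : S.R c, g ∉ 𝔪 ∧ (g : K) ∈ M c) ∨
      ∃ s t : S.R c, (s : K) ∈ M c ∧ (t : K) ∈ M c ∧ LocGen 𝔪 s t) : FinCol M (OO S) := by
  refine finCol_of_ann (isSheaf_OO S) hle fun c => ?_
  let I : Ideal (S.R c) :=
    { carrier := {r | (r : K) ∈ M c}
      add_mem' := fun {u v} hu hv => (M c).add_mem hu hv
      zero_mem' := (M c).zero_mem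
      smul_mem' := fun r u hu => hM.smul_mem c r.2 hu }
  refine ⟨I, ?_, fun g hg v hv => ?_⟩
  · have : Algebra.FiniteType ℂ (S.R c) := (Subalgebra.fg_iff_finiteType _).1 (S.R_fg c)
    rw [FiniteDimensional, Module.finite_iff_krullDimLE_zero,
      Ideal.krullDimLE_zero_quotient_iff_forall_minimalPrimes_isMaximal]
    intro 𝔭 h𝔭
    have hp : 𝔭.IsPrime := h𝔭.1.1
    have hI : I ≤ 𝔭 := h𝔭.1.2
    obtain ⟨𝔪, h𝔪, hle'⟩ := Ideal.exists_le_maximal 𝔭 hp.ne_top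
    rcases h c 𝔪 h𝔪 with ⟨g, hg, hgM⟩ | ⟨s, t, hs, ht, hst⟩
    · exact absurd (hle' (hI hgM)) hg
    · have : 𝔭 = 𝔪 := by
        refine le_antisymm hle' fun x hx => ?_
        obtain ⟨g, hg, hgx⟩ := hst x hx
        have h1 : Ideal.span {s, t} ≤ 𝔭 := by
          rw [Ideal.span_le]
          rintro _ (rfl | rfl)
          · exact hI hs
          · exact hI ht
        exact (hp.mem_or_mem (h1 hgx)).resolve_left fun hg' => hg (hle' hg')
      rw [this]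
      exact h𝔪
  · rw [smul_eq_mul, mul_comm]
    exact hM.smul_mem c hv hg

/-- an ideal sheaf that is locally the unit ideal -/
theorem eq_OO_of_local {M : Pre K} (hM : IsSheaf S M) (hle : ∀ c, M c ≤ OO S c)
    (h : ∀ c (𝔪 : Ideal (S.R c)), 𝔪.IsMaximal → ∃ g : S.R c, g ∉ 𝔪 ∧ (g : K) ∈ M c) : M = OO S := by
  funext c
  refine le_antisymm (hle c) fun x hx => ?_
  refine S.mem_of_local c (M c) (fun r hr v hv => hM.smul_mem c hr hv) x fun 𝔪 h𝔪 => ?_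
  obtain ⟨g, hg, hgM⟩ := h c 𝔪 h𝔪
  refine ⟨g, hg, ?_⟩
  rw [smul_eq_mul, mul_comm]
  exact hM.smul_mem c hx hgM

/-- colengths of pairwise comaximal ideal sheaves add -/
theorem chi_inf_of_comaximal {ι : Type} (Z : ι → Pre K) (hZ : ∀ i, IsSheaf S (Z i))
    (hle : ∀ i c, Z i c ≤ OO S c)
    (h : ∀ i j, i ≠ j → ∀ c (𝔪 : Ideal (S.R c)), 𝔪.IsMaximal →
      (∃ g : S.R c, g ∉ 𝔪 ∧ (g : K) ∈ Z i c) ∨ (∃ g : S.R c, g ∉ 𝔪 ∧ (g : K) ∈ Z j c)) (s : Finset ι) :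
    IsSheaf S (OO S ⊓ s.inf Z) ∧
      chi K (OO S) - chi K (OO S ⊓ s.inf Z) = ∑ i ∈ s, (chi K (OO S) - chi K (Z i)) := by
  classical
  induction s using Finset.induction_on with
  | empty => simpa using isSheaf_OO S
  | insert a s ha ih =>
    have e1 : OO S ⊓ (insert a s).inf Z = (OO S ⊓ s.inf Z) ⊓ Z a := by
      rw [Finset.inf_insert, inf_comm (Z a), inf_assoc]
    have e2 : (OO S ⊓ s.inf Z) ⊔ Z a = OO S := by
      refine eq_OO_of_local (ih.1.sup (hZ a)) (fun c => sup_le inf_le_left (hle a c)) fun c 𝔪 h𝔪 => ?_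
      by_cases ha' : ∃ g : S.R c, g ∉ 𝔪 ∧ (g : K) ∈ Z a c
      · obtain ⟨g, hg, hgZ⟩ := ha'
        exact ⟨g, hg, Submodule.mem_sup_right hgZ⟩
      · have hj : ∀ j : s, ∃ g : S.R c, g ∉ 𝔪 ∧ (g : K) ∈ Z j c := fun j =>
          (h a j (fun e => ha (e ▸ j.2)) c 𝔪 h𝔪).resolve_left ha'
        choose g hg hgZ using hj
        refine ⟨∏ j, g j, prod_notMem_of_isMaximal h𝔪 _ _ fun j _ => hg j, Submodule.mem_sup_left ?_⟩
        refine ⟨(∏ j, g j).2, ?_⟩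
        rw [Finset.inf_apply, SetLike.mem_coe, Submodule.mem_finsetInf]
        intro j hj
        rw [← Finset.prod_erase_mul _ _ (Finset.mem_univ (⟨j, hj⟩ : s))]
        exact (hZ j).smul_mem c (∏ x ∈ Finset.univ.erase (⟨j, hj⟩ : s), g x).2 (hgZ ⟨j, hj⟩)
    refine ⟨e1 ▸ ih.1.inf (hZ a), ?_⟩
    have hm := ih.1.HP_modular (hZ a) 0 0
    rw [e2, ← e1] at hm
    rw [Finset.sum_insert ha, ← ih.2]
    simp only [chi]
    linarith

end

end Crest.Agent.R169
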