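import Crest.Agent.R169.SurfY
import Crest.Agent.R169.YNumAux

/-! # The branch curve on `Y` and its square root -/

set_option autoImplicit false

namespace Crest.Agent.R169

noncomputable section

namespace YData

variable {K : Type} [Field K] [Algebra K0 K] [Algebra ℂ K] [IsScalarTower ℂ K0 K] (Y : YData K)

/-- the ideal sheaf of the union of the graphs of the sign changes of one parity -/
def gsh (π : Bool) : Pre K :=
  genSh Y.surf {x | ∃ I : Finset (Fin 12), (Odd I.card ↔ π = true) ∧ x = Y.Psi I} 12 12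

theorem exists_parity_set (π : Bool) : ∃ I : Finset (Fin 12), (Odd I.card ↔ π = true) := by
  cases π
  · exact ⟨∅, by simp⟩
  · exact ⟨{0}, by simp⟩

omit [Field K] [Algebra K0 K] [Algebra ℂ K] [IsScalarTower ℂ K0 K] in
theorem finite_parity_set (π : Bool) (f : Finset (Fin 12) → K) :
    {x | ∃ I : Finset (Fin 12), (Odd I.card ↔ π = true) ∧ x = f I}.Finite :=
  (Set.finite_range f).subset (by rintro _ ⟨I, -, rfl⟩; exact ⟨I, rfl⟩)

theorem gsh_isSheaf (π : Bool) : IsSheaf Y.surf (Y.gsh π) := by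
  obtain ⟨I, hI⟩ := exists_parity_set π
  exact isSheaf_genSh_of_ne_zero (finite_parity_set π _) ⟨I, hI, rfl⟩ (Y.Psi_ne_zero I) 12 12

theorem gsh_le (π : Bool) (c : Chart) : Y.gsh π c ≤ OO Y.surf c := by
  refine genSh_le 12 12 c _ (fun r hr v hv => (Y.surf.R c).mul_mem hr hv) ?_
  rintro _ ⟨I, -, rfl⟩
  rw [← Y.coe_psib c I]
  exact (Y.psib c I).2

theorem gsh_locFree (π : Bool) : LocFree Y.surf (Y.gsh π) := by
  refine locFree_genSh (finite_parity_set π _) 12 12 fun c 𝔪 h𝔪 => ?_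
  obtain ⟨I, hI, h1, -⟩ := Y.local_types c 𝔪 h𝔪
  refine ⟨_, ⟨I π, hI π, rfl⟩, Y.Psi_ne_zero _, ?_⟩
  rintro _ ⟨I', hI', rfl⟩
  exact h1 π I' hI'

def gP (π : Bool) : Pic Y.surf := Pic.mk' (Y.gsh π) (Y.gsh_isSheaf π) (Y.gsh_locFree π)

theorem psib_mem_gsh {π : Bool} (c : Chart) {I : Finset (Fin 12)} (hI : Odd I.card ↔ π = true) :
    (Y.psib c I : K) ∈ Y.gsh π c := by
  rw [Y.coe_psib c I]
  exact gen_mem_genSh 12 12 c ⟨I, hI, rfl⟩

theorem psib_ne_zero (c : Chart) (I : Finset (Fin 12)) : (Y.psib c I : K) ≠ 0 := by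
  rw [Y.coe_psib c I]
  exact mul_ne_zero (inv_ne_zero (tau_ne_zero K c 12 12)) (Y.Psi_ne_zero I)

theorem genAt_gsh {π : Bool} {c : Chart} {𝔪 : Ideal (Y.surf.R c)} (h𝔪 : 𝔪.IsMaximal) {I : Finset (Fin 12)}
    (hI : Odd I.card ↔ π = true)
    (h : ∀ I' : Finset (Fin 12), (Odd I'.card ↔ π = true) → LocMem 𝔪 (Y.Psi I' / Y.Psi I)) :
    GenAt (Y.gP π).sh 𝔪 (Y.psib c I : K) := by
  rw [Y.coe_psib c I]
  refine genAt_genSh (finite_parity_set π _) 12 12 h𝔪 ⟨I, hI, rfl⟩ (Y.Psi_ne_zero I) ?_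
  rintro _ ⟨I', hI', rfl⟩
  exact h I' hI'

theorem gP_mul : Y.gP false * Y.gP true =
    prin Y.surf (Units.mk0 _ (del_ne_zero (K := K))) * Ftw Y.surf (-2) (-2) := by
  refine Pic.eq_of_genAt fun c 𝔪 h𝔪 => ?_
  obtain ⟨I, hI, h1, -, h3, h4, -⟩ := Y.local_types c 𝔪 h𝔪
  refine ⟨_, (Y.genAt_gsh h𝔪 (hI false) (h1 false)).mul h𝔪 (Y.genAt_gsh h𝔪 (hI true) (h1 true)), ?_⟩
  have h5 := (genAt_prin (S := Y.surf) (Units.mk0 _ (del_ne_zero (K := K))) h𝔪).mul h𝔪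
    (genAt_Ftw (-2) (-2) h𝔪)
  have h6 : ((Units.mk0 _ (del_ne_zero (K := K)) : Kˣ) : K) * tau K c (-2) (-2) = Y.delb c := by
    rw [Y.coe_delb c, tau_neg K c 2 2, Units.val_mk0, mul_comm]
  rw [h6] at h5
  exact h5.congr (Pic.isSheaf _) h𝔪 (mul_ne_zero (Y.psib_ne_zero c _) (Y.psib_ne_zero c _)) h4 h3

/-- the curve `u i = 0` -/
def uP (i : YI) : Pic Y.surf := prin Y.surf (Units.mk0 _ (Y.u_ne_zero i)) * Ftw Y.surf (-1) 0

/-- the curve `v i = 0` -/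
def vP (i : YI) : Pic Y.surf := prin Y.surf (Units.mk0 _ (Y.v_ne_zero i)) * Ftw Y.surf 0 (-1)

theorem mem_uP_iff (i : YI) (c : Chart) (x : K) :
    x ∈ (Y.uP i).sh c ↔ x / (Y.ub c i : K) ∈ Y.R c := by
  rw [uP, mem_prin_mul_Ftw_iff]
  have : ((Units.mk0 _ (Y.u_ne_zero i) : Kˣ) : K) * tau K c (-1) 0 = (Y.ub c i : K) := by
    simp [tau, ub, div_eq_mul_inv]
  rw [this]
  rfl

theorem mem_vP_iff (i : YI) (c : Chart) (x : K) :
    x ∈ (Y.vP i).sh c ↔ x / (Y.vb c i : K) ∈ Y.R c := by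
  rw [vP, mem_prin_mul_Ftw_iff]
  have : ((Units.mk0 _ (Y.v_ne_zero i) : Kˣ) : K) * tau K c 0 (-1) = (Y.vb c i : K) := by
    simp [tau, vb, div_eq_mul_inv]
  rw [this]
  rfl

theorem ub_ne_zero (c : Chart) (i : YI) : (Y.ub c i : K) ≠ 0 := by
  have h := tau_ne_zero K c 1 0
  simp only [tau, zpow_one, zpow_zero, mul_one] at h
  exact div_ne_zero (Y.u_ne_zero i) h

theorem vb_ne_zero (c : Chart) (i : YI) : (Y.vb c i : K) ≠ 0 := by
  have h := tau_ne_zero K c 0 1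
  simp only [tau, zpow_one, zpow_zero, one_mul] at h
  exact div_ne_zero (Y.v_ne_zero i) h

/-- the ideal sheaf `(ub i, vb i)` -/
def pt (i : YI) : Pre K := (Y.uP i).sh ⊔ (Y.vP i).sh

theorem pt_isSheaf (i : YI) : IsSheaf Y.surf (Y.pt i) := (Pic.isSheaf _).sup (Pic.isSheaf _)

theorem mem_pt_iff (i : YI) (c : Chart) (x : K) :
    x ∈ Y.pt i c ↔ ∃ a b : Y.R c, x = ((a * Y.ub c i + b * Y.vb c i : Y.R c) : K) := by
  rw [pt, Pi.sup_apply, Submodule.mem_sup]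
  constructor
  · rintro ⟨y, hy, z, hz, rfl⟩
    rw [mem_uP_iff] at hy
    rw [mem_vP_iff] at hz
    refine ⟨⟨_, hy⟩, ⟨_, hz⟩, ?_⟩
    have := Y.ub_ne_zero c i
    have := Y.vb_ne_zero c i
    push_cast
    field_simp
  · rintro ⟨a, b, rfl⟩
    refine ⟨(a : K) * Y.ub c i, ?_, (b : K) * Y.vb c i, ?_, by push_cast; rfl⟩
    · rw [mem_uP_iff, mul_div_cancel_right₀ _ (Y.ub_ne_zero c i)]
      exact a.2
    · rw [mem_vP_iff, mul_div_cancel_right₀ _ (Y.vb_ne_zero c i)]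
      exact b.2

theorem ub_mem_pt (i : YI) (c : Chart) : (Y.ub c i : K) ∈ Y.pt i c :=
  (Y.mem_pt_iff i c _).2 ⟨1, 0, by simp⟩

theorem vb_mem_pt (i : YI) (c : Chart) : (Y.vb c i : K) ∈ Y.pt i c :=
  (Y.mem_pt_iff i c _).2 ⟨0, 1, by simp⟩

theorem pt_le (i : YI) (c : Chart) : Y.pt i c ≤ OO Y.surf c := by
  intro x hx
  obtain ⟨a, b, rfl⟩ := (Y.mem_pt_iff i c x).1 hx
  exact (a * Y.ub c i + b * Y.vb c i).2

theorem pt_finCol (i : YI) : FinCol (Y.pt i) (OO Y.surf) := by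
  refine finCol_of_local (Y.pt_isSheaf i) (Y.pt_le i) fun c 𝔪 h𝔪 => ?_
  by_cases hu : Y.ub c i ∈ 𝔪
  swap
  · exact Or.inl ⟨Y.ub c i, hu, Y.ub_mem_pt i c⟩
  by_cases hv : Y.vb c i ∈ 𝔪
  swap
  · exact Or.inl ⟨Y.vb c i, hv, Y.vb_mem_pt i c⟩
  obtain ⟨I, -, -, -, -, -, h | ⟨i₀, -, -, h2, -, -, -, h3⟩⟩ := Y.local_types c 𝔪 h𝔪
  · exact absurd ⟨hu, hv⟩ (h.1 i)
  · have : i = i₀ := by
      by_contra hne
      exact (h2 i hne).1 hu
    subst this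
    exact Or.inr ⟨Y.ub c i, Y.vb c i, Y.ub_mem_pt i c, Y.vb_mem_pt i c, h3⟩

theorem chi_pt (i : YI) : chi K (OO Y.surf) - chi K (Y.pt i) = 2 ^ 44 := by
  have h := BB_eq_colength (x := Y.uP i) (y := Y.vP i) (fun c => le_sup_left.trans (Y.pt_le i c))
    (fun c => le_sup_right.trans (Y.pt_le i c)) (Y.pt_finCol i)
  have h2 : BB (Y.uP i) (Y.vP i) = 2 ^ 44 := by
    rw [uP, vP, BB_mul_left, BB_prin_left, BB_mul_right, BB_comm _ (prin _ _), BB_prin_left, BB_Ftw_Ftw,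
      Y.finrank_eq]
    norm_num
  rw [← h2, h]
  rfl

theorem psib_mem_pt (c : Chart) (I : Finset (Fin 12)) (i : YI) : (Y.psib c I : K) ∈ Y.pt i c := by
  obtain ⟨k, ε⟩ := i
  rw [psib, ← Finset.prod_erase_mul _ _ (Finset.mem_univ k)]
  refine (Y.pt_isSheaf _).smul_mem c (∏ x ∈ Finset.univ.erase k, _ : Y.R c).2 (v := (_ : Y.R c)) ?_
  rw [mem_pt_iff]
  cases ε
  · split_ifs
    · exact ⟨Y.vb c (k, true), Y.ub c (k, true), by congr 1; ring⟩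
    · exact ⟨-Y.vb c (k, true), Y.ub c (k, true), by congr 1; ring⟩
  · split_ifs
    · exact ⟨Y.vb c (k, false), Y.ub c (k, false), by congr 1; ring⟩
    · exact ⟨Y.vb c (k, false), -Y.ub c (k, false), by congr 1; ring⟩

theorem gsh_le_pt (π : Bool) (i : YI) (c : Chart) : Y.gsh π c ≤ Y.pt i c := by
  refine genSh_le 12 12 c _ (fun r hr v hv => (Y.pt_isSheaf i).smul_mem c hr hv) ?_
  rintro _ ⟨I, -, rfl⟩
  rw [← Y.coe_psib c I]
  exact Y.psib_mem_pt c I i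

theorem gsh_sup_eq : Y.gsh false ⊔ Y.gsh true = OO Y.surf ⊓ Finset.univ.inf Y.pt := by
  have hs := (Y.gsh_isSheaf false).sup (Y.gsh_isSheaf true)
  funext c
  apply le_antisymm
  · refine le_inf (sup_le (Y.gsh_le false c) (Y.gsh_le true c)) ?_
    rw [Finset.inf_apply]
    exact Finset.le_inf fun i _ => sup_le (Y.gsh_le_pt false i c) (Y.gsh_le_pt true i c)
  · rintro x ⟨hx1, hx2⟩
    rw [Finset.inf_apply, SetLike.mem_coe, Submodule.mem_finsetInf] at hx2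
    refine Y.surf.mem_of_local c _ (fun r hr v hv => hs.smul_mem c hr hv) x fun 𝔪 h𝔪 => ?_
    obtain ⟨I, hI, -, -, -, -, ⟨-, h | h⟩ | ⟨i, hu, hv, -, -, -, h3, -⟩⟩ := Y.local_types c 𝔪 h𝔪
    · refine ⟨_, h, Submodule.mem_sup_left ?_⟩
      rw [smul_eq_mul, mul_comm]
      exact (Y.gsh_isSheaf false).smul_mem c hx1 (Y.psib_mem_gsh c (hI false))
    · refine ⟨_, h, Submodule.mem_sup_right ?_⟩
      rw [smul_eq_mul, mul_comm]
      exact (Y.gsh_isSheaf true).smul_mem c hx1 (Y.psib_mem_gsh c (hI true))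
    · obtain ⟨a, b, rfl⟩ := (Y.mem_pt_iff i c x).1 (hx2 i (Finset.mem_univ i))
      obtain ⟨g, hg, hgx⟩ := h3 _ (𝔪.add_mem (𝔪.mul_mem_left a hu) (𝔪.mul_mem_left b hv))
      obtain ⟨a', b', hab⟩ := Ideal.mem_span_pair.1 hgx
      refine ⟨g, hg, ?_⟩
      have : (g : K) • ((a * Y.ub c i + b * Y.vb c i : Y.R c) : K) =
          (a' : K) • (Y.psib c (I false) : K) + (b' : K) • (Y.psib c (I true) : K) :=
        (congrArg Subtype.val hab).symm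
      rw [this]
      exact Submodule.add_mem_sup ((Y.gsh_isSheaf false).smul_mem c a'.2 (Y.psib_mem_gsh c (hI false)))
        ((Y.gsh_isSheaf true).smul_mem c b'.2 (Y.psib_mem_gsh c (hI true)))

theorem gsh_sup_finCol : FinCol (Y.gsh false ⊔ Y.gsh true) (OO Y.surf) := by
  refine finCol_of_local ((Y.gsh_isSheaf false).sup (Y.gsh_isSheaf true))
    (fun c => sup_le (Y.gsh_le false c) (Y.gsh_le true c)) fun c 𝔪 h𝔪 => ?_
  obtain ⟨I, hI, -, -, -, -, ⟨-, h | h⟩ | ⟨i, -, -, -, -, -, h3, -⟩⟩ := Y.local_types c 𝔪 h𝔪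
  · exact Or.inl ⟨_, h, Submodule.mem_sup_left (Y.psib_mem_gsh c (hI false))⟩
  · exact Or.inl ⟨_, h, Submodule.mem_sup_right (Y.psib_mem_gsh c (hI true))⟩
  · exact Or.inr ⟨_, _, Submodule.mem_sup_left (Y.psib_mem_gsh c (hI false)),
      Submodule.mem_sup_right (Y.psib_mem_gsh c (hI true)), h3⟩

theorem BB_gP_eq_colength :
    BB (Y.gP false) (Y.gP true) = chi K (OO Y.surf) - chi K (Y.gsh false ⊔ Y.gsh true) :=
  BB_eq_colength (x := Y.gP false) (y := Y.gP true) (Y.gsh_le false) (Y.gsh_le true) Y.gsh_sup_finCol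

/-- `gsh false ⊔ gsh true = ⨅ i, (ub i, vb i)` (local check), the ideals `(ub i, vb i) = u i O(-1,0) ⊔ v i O(0,-1)` are
pairwise comaximal and of colength `BB (F (-1) 0) (F 0 (-1)) = e` (`BB_eq_colength`; for `FinCol` use `finCol_of_ann`: the
quotient of `R c` by an ideal that is locally `⊤` or the maximal ideal at every maximal ideal is finite-dimensional,
e.g. by `Surf.finite_quot` and `Surf.height_eq_two`); `HP_modular`. -/
theorem BB_gP : BB (Y.gP false) (Y.gP true) = 24 * 2 ^ 44 := by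
  rw [BB_gP_eq_colength, gsh_sup_eq]
  rw [(chi_inf_of_comaximal Y.pt Y.pt_isSheaf Y.pt_le ?_ Finset.univ).2]
  · simp only [chi_pt, Finset.sum_const, Finset.card_univ, Fintype.card_prod, Fintype.card_fin,
      Fintype.card_bool]
    norm_num
  · intro i j hij c 𝔪 h𝔪
    obtain ⟨I, -, -, -, -, -, ⟨h, -⟩ | ⟨i₀, -, -, h2, -⟩⟩ := Y.local_types c 𝔪 h𝔪
    · by_cases hu : Y.ub c i ∈ 𝔪
      · exact Or.inl ⟨Y.vb c i, fun hv => h i ⟨hu, hv⟩, Y.vb_mem_pt i c⟩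
      · exact Or.inl ⟨Y.ub c i, hu, Y.ub_mem_pt i c⟩
    · by_cases hi : i = i₀
      · exact Or.inr ⟨Y.ub c j, (h2 j (fun e => hij (hi.trans e.symm))).1, Y.ub_mem_pt j c⟩
      · exact Or.inl ⟨Y.ub c i, (h2 i hi).1, Y.ub_mem_pt i c⟩

/-- `d π = - BB (g π) (F 1 1)` has `d false + d true = 4 e` and `BB (g π) (g π) = 2 d π - 24 e` -/
theorem exists_parity : ∃ π, BB (Y.gP π) (Y.gP π) ≤ -20 * 2 ^ 44 := by
  have h1 : BB (Y.gP false * Y.gP true) (Y.gP false * Y.gP true) = 8 * 2 ^ 44 := by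
    rw [gP_mul, BB_mul_left, BB_prin_left, BB_mul_right, BB_comm _ (prin _ _), BB_prin_left, BB_Ftw_Ftw,
      Y.finrank_eq]
    norm_num
  rw [BB_mul_left, BB_mul_right, BB_mul_right, BB_comm (Y.gP true) (Y.gP false), BB_gP] at h1
  by_contra h
  push Not at h
  have h2 := h false
  have h3 := h true
  omega

/-- There is a point where `ub i, vb i ∈ 𝔪` (for instance because `BB_gP ≠ 0`, or because `(ub i, vb i) ≠ ⊤` by `mem_R_iff`).
If `Psi I = y²` then, by `exists_sq_ratio`, `psib (I π) = y'²` with `y' ∈ R c` (`Surf.normal`), `y' ∈ 𝔪`, and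
`LocGen 𝔪 (y'²) t`; by Nakayama `𝔪` is locally `(t)`, against `Surf.not_locally_principal`. -/
theorem not_isSquare_Psi (I : Finset (Fin 12)) : ¬ IsSquare (Y.Psi I) := by
  rintro ⟨y, hy⟩
  have hne : Y.gsh false ⊔ Y.gsh true ≠ OO Y.surf := by
    intro h
    have h1 := Y.BB_gP
    rw [BB_gP_eq_colength, h] at h1
    norm_num at h1
  apply hne
  refine eq_OO_of_local ((Y.gsh_isSheaf false).sup (Y.gsh_isSheaf true))
    (fun c => sup_le (Y.gsh_le false c) (Y.gsh_le true c)) fun c 𝔪 h𝔪 => ?_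
  obtain ⟨J, hJ, -, -, -, -, ⟨-, h | h⟩ | ⟨i, -, -, -, hf, ht, h3, -⟩⟩ := Y.local_types c 𝔪 h𝔪
  · exact ⟨_, h, Submodule.mem_sup_left (Y.psib_mem_gsh c (hJ false))⟩
  · exact ⟨_, h, Submodule.mem_sup_right (Y.psib_mem_gsh c (hJ true))⟩
  · exfalso
    have key : ∀ (π : Bool) (t : Y.R c), (Odd I.card ↔ π = true) → Y.psib c (J π) ∈ 𝔪 → t ∈ 𝔪 →
        LocGen 𝔪 (Y.psib c (J π)) t → False := by
      intro π t hπ hm htm hg
      obtain ⟨j, -, hj⟩ := Y.exists_sq_ratio (J π) I ((hJ π).trans hπ.symm)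
      have h12 : tau K c 12 12 = tau K c 6 6 * tau K c 6 6 := tau_add K c 6 6 6 6
      have hsq : ((tau K c 6 6)⁻¹ * j * y) ^ 2 = (Y.psib c (J π) : K) := by
        rw [Y.coe_psib, ← hj, hy, h12, mul_inv]
        ring
      have hmem : (tau K c 6 6)⁻¹ * j * y ∈ Y.surf.R c := by
        apply Y.surf.mem_of_sq c
        rw [hsq]
        exact (Y.psib c (J π)).2
      have hsq' : Y.psib c (J π) = (⟨_, hmem⟩ : Y.R c) * ⟨_, hmem⟩ := by
        apply Subtype.ext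
        rw [← hsq, sq]
        rfl
      rw [hsq'] at hm hg
      exact Y.surf.not_locally_principal c 𝔪 h𝔪 t htm
        (LocGen.principal_of_sq h𝔪.isPrime ((h𝔪.isPrime.mem_or_mem hm).elim id id) hg)
    by_cases hI : Odd I.card
    · exact key true _ (by simp [hI]) ht hf h3.symm
    · exact key false _ (by simp [hI]) hf ht h3

/-- `J = genSh {j I} 6 6` with `j I ² * Psi I₀ = Psi I`; products `Psi I₀ * j I * j I' / τ(12,12)` are integral, so in `R c`;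
`prin (Psi I₀) * J * J = gP π`. -/
theorem exists_J : ∃ (J : Pic Y.surf) (Ψ : K), ¬ IsSquare Ψ ∧
    (∀ c, ∀ x ∈ J.sh c, ∀ y ∈ J.sh c, Ψ * x * y ∈ Y.surf.R c) ∧ BranchReg Y.surf J.sh Ψ ∧
    BB J J ≤ -5 * 2 ^ 44 := by
  obtain ⟨π, hπ⟩ := Y.exists_parity
  obtain ⟨I₀, hI₀⟩ := exists_parity_set π
  have hj : ∀ I : Finset (Fin 12), ∃ j : K, (Odd I.card ↔ π = true) → j ≠ 0 ∧ j ^ 2 * Y.Psi I₀ = Y.Psi I := by
    intro I
    by_cases hI : (Odd I.card ↔ π = true)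
    · obtain ⟨j, hj⟩ := Y.exists_sq_ratio I I₀ (hI.trans hI₀.symm)
      exact ⟨j, fun _ => hj⟩
    · exact ⟨0, fun h => absurd h hI⟩
  choose j hj using hj
  let s : Set K := {x | ∃ I : Finset (Fin 12), (Odd I.card ↔ π = true) ∧ x = j I}
  have hs : s.Finite := finite_parity_set π j
  have hloc : ∀ (c : Chart) (𝔪 : Ideal (Y.surf.R c)) (I : Finset (Fin 12)), (Odd I.card ↔ π = true) →
      (∀ I' : Finset (Fin 12), (Odd I'.card ↔ π = true) → LocMem 𝔪 (Y.Psi I' / Y.Psi I)) →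
      ∀ y ∈ s, LocMem 𝔪 (y / j I) := by
    rintro c 𝔪 I hI h _ ⟨I', hI', rfl⟩
    apply Y.surf.locMem_of_sq c
    have : (j I' / j I) ^ 2 = Y.Psi I' / Y.Psi I := by
      rw [← (hj I hI).2, ← (hj I' hI').2, mul_div_mul_right _ _ (Y.Psi_ne_zero I₀), div_pow]
    rw [this]
    exact h I' hI'
  have hsq : ∀ (c : Chart) (I : Finset (Fin 12)), (Odd I.card ↔ π = true) →
      (Y.psib c I : K) = Y.Psi I₀ * ((tau K c 6 6)⁻¹ * j I) ^ 2 := by
    intro c I hI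
    have h12 : tau K c 12 12 = tau K c 6 6 * tau K c 6 6 := tau_add K c 6 6 6 6
    rw [Y.coe_psib, ← (hj I hI).2, h12, mul_inv]
    ring
  have hsh : IsSheaf Y.surf (genSh Y.surf s 6 6) :=
    isSheaf_genSh_of_ne_zero hs ⟨I₀, hI₀, rfl⟩ (hj I₀ hI₀).1 6 6
  have hlf : LocFree Y.surf (genSh Y.surf s 6 6) := by
    refine locFree_genSh hs 6 6 fun c 𝔪 h𝔪 => ?_
    obtain ⟨I, hI, h1, -⟩ := Y.local_types c 𝔪 h𝔪
    exact ⟨_, ⟨I π, hI π, rfl⟩, (hj _ (hI π)).1, hloc c 𝔪 _ (hI π) (h1 π)⟩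
  let J : Pic Y.surf := Pic.mk' _ hsh hlf
  have hJ : prin Y.surf (Units.mk0 _ (Y.Psi_ne_zero I₀)) * (J * J) = Y.gP π := by
    refine Pic.eq_of_genAt fun c 𝔪 h𝔪 => ?_
    obtain ⟨I, hI, h1, -⟩ := Y.local_types c 𝔪 h𝔪
    refine ⟨_, ?_, Y.genAt_gsh h𝔪 (hI π) (h1 π)⟩
    have h2 : GenAt J.sh 𝔪 ((tau K c 6 6)⁻¹ * j (I π)) :=
      genAt_genSh hs 6 6 h𝔪 ⟨I π, hI π, rfl⟩ (hj _ (hI π)).1 (hloc c 𝔪 _ (hI π) (h1 π))
    have h3 := (genAt_prin (S := Y.surf) (Units.mk0 _ (Y.Psi_ne_zero I₀)) h𝔪).mul h𝔪 (h2.mul h𝔪 h2)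
    rw [hsq c _ (hI π), sq]
    exact h3
  refine ⟨J, Y.Psi I₀, Y.not_isSquare_Psi I₀, fun c x hx y hy => ?_, fun c 𝔪 h𝔪 => ?_, ?_⟩
  · apply Y.gsh_le π c
    show _ ∈ (Y.gP π).sh c
    rw [← hJ, ← act_sh, act_prin (Pic.isSheaf _), mem_scal, Units.val_mk0, smul_eq_mul, mul_assoc,
      ← mul_assoc, inv_mul_cancel₀ (Y.Psi_ne_zero I₀), one_mul]
    exact Submodule.subset_span ⟨x, hx, y, hy, rfl⟩
  · obtain ⟨I, hI, h1, h2, -⟩ := Y.local_types c 𝔪 h𝔪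
    exact ⟨(tau K c 6 6)⁻¹ * j (I π), gen_mem_genSh 6 6 c ⟨I π, hI π, rfl⟩,
      mul_ne_zero (inv_ne_zero (tau_ne_zero K c 6 6)) (hj _ (hI π)).1,
      genSh_uniform hs 6 6 h𝔪 (hj _ (hI π)).1 (hloc c 𝔪 _ (hI π) (h1 π)),
      Y.psib c (I π), hsq c _ (hI π), h2 π⟩
  · rw [← hJ] at hπ
    simp only [BB_mul_left, BB_mul_right, BB_prin_left, BB_comm _ (prin _ _)] at hπ
    omega

end YData

end

end Crest.Agent.R169
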