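import Crest.Agent.R169.TRing
import Crest.Agent.R169.Bog
import Crest.Agent.R169.RMain
import Crest.Agent.R169.MQ
import Crest.Agent.R169.YNum
import Crest.Agent.R169.DCover

/-! # Existence of the key ring -/

set_option autoImplicit false

namespace Crest.Agent.R169

theorem exists_keyRing : ∃ (T : Type) (_ : CommRing T) (_ : Algebra ℂ T) (𝒜 : ℕ → Submodule ℂ T)
    (_ : GradedAlgebra 𝒜) (j : P3 →ₐ[ℂ] T), KeyRing T 𝒜 j := by
  obtain ⟨K, _, _, _, _, ⟨Y⟩⟩ := exists_YData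
  obtain ⟨J, Ψ, hΨ, hJ, hreg, hB⟩ := Y.exists_J
  obtain ⟨K', _, _, _, _, S', θ', ω'', hd, he, hκ⟩ := exists_double_cover Y.isDualizing J Ψ hΨ hJ hreg
  have hlt : (Module.finrank K0 K' : ℚ) / 2 < kappa (ω'' * Ftw S' (-2) (-2)) := by
    rw [hκ, he, Y.kappa_eq, Y.finrank_eq]
    have : (BB J J : ℚ) ≤ -5 * 2 ^ 44 := by exact_mod_cast hB
    push_cast
    linarith
  obtain ⟨j, hj⟩ := exists_keyRing_of_main S' hlt (rmain_of_bog (bogomolov hd))
  obtain ⟨g⟩ := TR_graded S'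
  exact ⟨TR S', inferInstance, inferInstance, TA S', g, j, hj⟩

end Crest.Agent.R169
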