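import Mathlib

/-! # Local algebra of two-dimensional regular local domains -/

set_option autoImplicit false
set_option linter.unusedSectionVars false
set_option linter.unusedVariables false

namespace Crest.Agent.R169

open IsLocalRing

variable {O : Type} [CommRing O] [IsDomain O] [IsNoetherianRing O] [IsLocalRing O] {s t : O}

omit [IsDomain O] in
/-- the maximal ideal is not contained in the radical of a principal proper ideal -/
theorem reg2_not_le_radical (hd : 2 ≤ ringKrullDim O) {a : O} (ha : a ∈ maximalIdeal O) :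
    ¬ maximalIdeal O ≤ (Ideal.span {a}).radical := by
  intro h
  have hmin : maximalIdeal O ∈ (Ideal.span {a}).minimalPrimes := by
    refine ⟨⟨inferInstance, by simpa using ha⟩, fun q hq _ => ?_⟩
    exact h.trans (hq.1.radical_le_iff.2 hq.2)
  have h1 := Ideal.height_le_one_of_isPrincipal_of_mem_minimalPrimes _ _ hmin
  rw [← IsLocalRing.maximalIdeal_height_eq_ringKrullDim] at hd
  have h2 : (2 : WithBot ℕ∞) ≤ ((1 : ℕ∞) : WithBot ℕ∞) := hd.trans (WithBot.coe_le_coe.2 h1)
  exact absurd h2 (by decide)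

omit [IsDomain O] in
theorem reg2_pow_notMem (hm : maximalIdeal O = Ideal.span {s, t}) (hd : 2 ≤ ringKrullDim O) (n : ℕ) :
    t ^ n ∉ Ideal.span {s} := by
  intro h
  have hs : s ∈ maximalIdeal O := hm ▸ Ideal.subset_span (by simp)
  refine reg2_not_le_radical hd hs ?_
  rw [hm, Ideal.span_le]
  rintro x (rfl | rfl)
  · exact Ideal.le_radical (Ideal.mem_span_singleton_self _)
  · exact ⟨n, h⟩

omit [IsDomain O] in
/-- every element outside `(s)` is a unit times a power of `t` modulo `s` -/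
theorem reg2_decomp (hm : maximalIdeal O = Ideal.span {s, t}) {x : O} (hx : x ∉ Ideal.span {s}) :
    ∃ (n : ℕ) (u a : O), IsUnit u ∧ x = a * s + u * t ^ n := by
  classical
  have hs : s ∈ maximalIdeal O := hm ▸ Ideal.subset_span (by simp)
  have ht : t ∈ maximalIdeal O := hm ▸ Ideal.subset_span (by simp)
  have hne : Ideal.span {s} ≠ ⊤ := fun h =>
    (maximalIdeal.isMaximal O).ne_top (eq_top_iff.2 (h ▸ by simpa using hs))
  have : Nontrivial (O ⧸ Ideal.span {s}) := Ideal.Quotient.nontrivial_iff.2 hne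
  have : IsLocalRing (O ⧸ Ideal.span {s}) :=
    IsLocalRing.of_surjective' (Ideal.Quotient.mk _) Ideal.Quotient.mk_surjective
  have hex : ∃ n : ℕ, ¬ ∃ u a : O, x = a * s + u * t ^ n := by
    by_contra hcon
    push Not at hcon
    have hI : Ideal.span {Ideal.Quotient.mk (Ideal.span {s}) t} ≠ ⊤ := by
      rw [Ne, Ideal.span_singleton_eq_top]
      intro hu
      obtain ⟨y, hy⟩ := hu.exists_right_inv
      obtain ⟨y, rfl⟩ := Ideal.Quotient.mk_surjective y
      rw [← map_mul, ← map_one (Ideal.Quotient.mk (Ideal.span {s})), Ideal.Quotient.eq,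
        Ideal.mem_span_singleton'] at hy
      obtain ⟨c, hc⟩ := hy
      apply (maximalIdeal.isMaximal O).ne_top
      rw [Ideal.eq_top_iff_one]
      have : (1 : O) = t * y - c * s := by rw [hc]; ring
      rw [this]
      exact Ideal.sub_mem _ (Ideal.mul_mem_right _ _ ht) (Ideal.mul_mem_left _ _ hs)
    have h0 := Ideal.iInf_pow_eq_bot_of_isLocalRing _ hI
    apply hx
    rw [← Ideal.Quotient.eq_zero_iff_mem, ← Ideal.mem_bot, ← h0, Ideal.mem_iInf]
    intro n
    obtain ⟨u, a, rfl⟩ := hcon n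
    rw [Ideal.span_singleton_pow, Ideal.mem_span_singleton']
    refine ⟨Ideal.Quotient.mk _ u, ?_⟩
    rw [← map_pow, ← map_mul, eq_comm, Ideal.Quotient.eq, add_sub_cancel_right]
    exact Ideal.mul_mem_left _ _ (Ideal.mem_span_singleton_self _)
  have hpos : Nat.find hex ≠ 0 := by
    intro h0
    have := Nat.find_spec hex
    rw [h0] at this
    exact this ⟨x, 0, by ring⟩
  obtain ⟨n, hn⟩ := Nat.exists_eq_succ_of_ne_zero hpos
  have h1 := Nat.find_min hex (show n < Nat.find hex by omega)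
  have h2 := Nat.find_spec hex
  rw [hn] at h2
  obtain ⟨u, a, hua⟩ := not_not.1 h1
  refine ⟨n, u, a, ?_, hua⟩
  by_contra hu
  have hu' : u ∈ maximalIdeal O := hu
  rw [hm, Ideal.mem_span_pair] at hu'
  obtain ⟨c, d, rfl⟩ := hu'
  exact h2 ⟨d, a + c * t ^ n, by rw [hua, pow_succ]; ring⟩

/-- `(s)` is prime and `O ⧸ (s)` is a DVR. -/
theorem reg2_prime (hm : maximalIdeal O = Ideal.span {s, t}) (hd : 2 ≤ ringKrullDim O) :
    s ≠ 0 ∧ (Ideal.span {s}).IsPrime ∧ t ∉ Ideal.span {s} ∧
      IsPrincipalIdealRing (O ⧸ Ideal.span {s}) := by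
  have hs : s ∈ maximalIdeal O := hm ▸ Ideal.subset_span (by simp)
  have ht : t ∈ maximalIdeal O := hm ▸ Ideal.subset_span (by simp)
  have hne : Ideal.span {s} ≠ ⊤ := fun h =>
    (maximalIdeal.isMaximal O).ne_top (eq_top_iff.2 (h ▸ by simpa using hs))
  have hp : (Ideal.span {s}).IsPrime := by
    refine ⟨hne, fun {x y} hxy => ?_⟩
    by_contra hcon
    push Not at hcon
    obtain ⟨n, u, a, hu, rfl⟩ := reg2_decomp hm hcon.1
    obtain ⟨n', u', a', hu', rfl⟩ := reg2_decomp hm hcon.2
    apply reg2_pow_notMem hm hd (n + n')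
    rw [← Ideal.unit_mul_mem_iff_mem _ (hu.mul hu')]
    have : u * u' * t ^ (n + n') = (a * s + u * t ^ n) * (a' * s + u' * t ^ n') -
        (a * (a' * s + u' * t ^ n') + u * t ^ n * a') * s := by ring
    rw [this]
    exact Ideal.sub_mem _ hxy (Ideal.mul_mem_left _ _ (Ideal.mem_span_singleton_self _))
  refine ⟨?_, hp, by simpa using reg2_pow_notMem hm hd 1, ?_⟩
  · rintro rfl
    refine reg2_not_le_radical hd ht ?_
    rw [hm, Ideal.span_le]
    rintro x (rfl | rfl)
    · exact Ideal.zero_mem _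
    · exact Ideal.le_radical (Ideal.mem_span_singleton_self _)
  · have : IsLocalRing (O ⧸ Ideal.span {s}) :=
      IsLocalRing.of_surjective' (Ideal.Quotient.mk _) Ideal.Quotient.mk_surjective
    refine ((tfae_of_isNoetherianRing_of_isLocalRing_of_isDomain (O ⧸ Ideal.span {s})).out 0 4).2 ?_
    refine ⟨⟨Ideal.Quotient.mk _ t, ?_⟩⟩
    rw [← IsLocalRing.map_maximalIdeal_of_surjective (Ideal.Quotient.mk (Ideal.span {s}))
      Ideal.Quotient.mk_surjective, hm, Ideal.map_span, Set.image_pair,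
      Ideal.Quotient.eq_zero_iff_mem.2 (Ideal.mem_span_singleton_self s)]
    simp

/-- the maximal ideal is not principal -/
theorem reg2_not_principal (hd : 2 ≤ ringKrullDim O) (t : O) : maximalIdeal O ≠ Ideal.span {t} := by
  intro h
  exact reg2_not_le_radical hd (h ▸ Ideal.mem_span_singleton_self t) (h ▸ Ideal.le_radical)

theorem reg2_prime_elem (hm : maximalIdeal O = Ideal.span {s, t}) (hd : 2 ≤ ringKrullDim O) :
    Prime s :=
  (Ideal.span_singleton_prime (reg2_prime hm hd).1).1 (reg2_prime hm hd).2.1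

variable {K : Type} [Field K] [Algebra O K] [IsFractionRing O K]

/-- depth two -/
theorem reg2_depth (hm : maximalIdeal O = Ideal.span {s, t}) (hd : 2 ≤ ringKrullDim O) (y : K) (k : ℕ)
    (hy : ∀ m ∈ maximalIdeal O ^ k, ∃ z : O, algebraMap O K m * y = algebraMap O K z) :
    ∃ z : O, y = algebraMap O K z := by
  have hs : s ∈ maximalIdeal O := hm ▸ Ideal.subset_span (by simp)
  have ht : t ∈ maximalIdeal O := hm ▸ Ideal.subset_span (by simp)
  have hp := reg2_prime_elem hm hd
  obtain ⟨a, ha⟩ := hy _ (Ideal.pow_mem_pow hs k)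
  obtain ⟨b, hb⟩ := hy _ (Ideal.pow_mem_pow ht k)
  have h1 : t ^ k * a = s ^ k * b := by
    apply IsFractionRing.injective O K
    rw [map_mul, map_mul, ← ha, ← hb]
    ring
  have h2 : ¬ s ∣ t ^ k := fun h => reg2_pow_notMem hm hd k (Ideal.mem_span_singleton.2 h)
  obtain ⟨z, rfl⟩ := hp.pow_dvd_of_dvd_mul_left k h2 ⟨b, h1⟩
  refine ⟨z, mul_left_cancel₀ (a := algebraMap O K (s ^ k)) ?_ (by rw [ha, map_mul])⟩
  exact (map_ne_zero_iff _ (IsFractionRing.injective O K)).2 (pow_ne_zero _ hp.ne_zero)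

/-- Height one primes are principal (Nakayama modulo `s`). -/
theorem reg2_height_one (hm : maximalIdeal O = Ideal.span {s, t}) (hd : 2 ≤ ringKrullDim O)
    (𝔭 : Ideal O) [𝔭.IsPrime] (h0 : 𝔭 ≠ ⊥) (h1 : 𝔭 ≠ maximalIdeal O) : 𝔭.IsPrincipal := by
  have hs : s ∈ maximalIdeal O := hm ▸ Ideal.subset_span (by simp)
  have hP : 𝔭.IsPrime := inferInstance
  by_cases hsp : s ∈ 𝔭
  · refine ⟨⟨s, le_antisymm (fun x hx => ?_) (by simpa using hsp)⟩⟩
    by_contra hxs
    obtain ⟨n, u, a, hu, rfl⟩ := reg2_decomp hm hxs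
    have h2 : u * t ^ n ∈ 𝔭 := (Ideal.add_mem_iff_right _ (𝔭.mul_mem_left a hsp)).1 hx
    have h3 : t ∈ 𝔭 := hP.mem_of_pow_mem n ((Ideal.unit_mul_mem_iff_mem _ hu).1 h2)
    refine h1 ((maximalIdeal.isMaximal O).eq_of_le hP.ne_top ?_).symm
    rw [hm, Ideal.span_le]
    rintro y (rfl | rfl)
    · exact hsp
    · exact h3
  · have := (reg2_prime hm hd).2.2.2
    obtain ⟨g, hg⟩ := (IsPrincipalIdealRing.principal
      (𝔭.map (Ideal.Quotient.mk (Ideal.span {s})))).principal
    have hgm : g ∈ 𝔭.map (Ideal.Quotient.mk (Ideal.span {s})) :=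
      hg ▸ Submodule.mem_span_singleton_self g
    obtain ⟨f, hf, rfl⟩ := (Ideal.mem_map_iff_of_surjective _ Ideal.Quotient.mk_surjective).1 hgm
    refine ⟨⟨f, le_antisymm ?_ (by simpa using hf)⟩⟩
    refine Submodule.le_of_le_smul_of_le_jacobson_bot (I := Ideal.span {s})
      (IsNoetherian.noetherian _) ?_ fun x hx => ?_
    · rw [IsLocalRing.jacobson_eq_maximalIdeal _ bot_ne_top]
      simpa using hs
    · have hx' := Ideal.mem_map_of_mem (Ideal.Quotient.mk (Ideal.span {s})) hx
      rw [hg, Submodule.mem_span_singleton] at hx'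
      obtain ⟨c, hc⟩ := hx'
      obtain ⟨c, rfl⟩ := Ideal.Quotient.mk_surjective c
      rw [smul_eq_mul, ← map_mul, eq_comm, Ideal.Quotient.eq, Ideal.mem_span_singleton'] at hc
      obtain ⟨d, hd'⟩ := hc
      have hds : d * s ∈ 𝔭 := hd' ▸ 𝔭.sub_mem hx (𝔭.mul_mem_left c hf)
      have hdp : d ∈ 𝔭 := (hP.mem_or_mem hds).resolve_right hsp
      have : x = c • f + s • d := by rw [smul_eq_mul, smul_eq_mul, mul_comm s d, hd']; ring
      rw [this]
      exact Submodule.add_mem_sup (Submodule.smul_mem _ _ (Submodule.mem_span_singleton_self f))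
        (Submodule.smul_mem_smul (Ideal.mem_span_singleton_self s) hdp)

theorem reg2_ufd (hm : maximalIdeal O = Ideal.span {s, t}) (hd : 2 ≤ ringKrullDim O) :
    UniqueFactorizationMonoid O := by
  refine UniqueFactorizationMonoid.iff_exists_prime_mem_of_isPrime.2 fun I h0 hI => ?_
  by_cases h1 : I = maximalIdeal O
  · exact ⟨s, h1 ▸ hm ▸ Ideal.subset_span (by simp), reg2_prime_elem hm hd⟩
  · obtain ⟨f, rfl⟩ := (reg2_height_one hm hd I h0 h1).principal
    have hf : f ≠ 0 := by
      rintro rfl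
      exact h0 (by simp)
    exact ⟨f, Submodule.mem_span_singleton_self f, (Ideal.span_singleton_prime hf).1 hI⟩

/-- normality (`O` is factorial) -/
theorem reg2_normal (hm : maximalIdeal O = Ideal.span {s, t}) (hd : 2 ≤ ringKrullDim O) (x : K)
    (hx : IsIntegral O x) : ∃ z : O, x = algebraMap O K z := by
  have := reg2_ufd hm hd
  obtain ⟨z, hz⟩ := IsIntegrallyClosed.algebraMap_eq_of_integral hx
  exact ⟨z, hz.symm⟩

variable {V : Type} [AddCommGroup V] [Module K V] [Module O V] [IsScalarTower O K V]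

/-- the `O`-dual of a lattice -/
def dualLat (K : Type) [Field K] [Algebra O K] [Module K V] [IsScalarTower O K V]
    (N : Submodule O V) : Submodule O (Module.Dual K V) where
  carrier := {φ | ∀ x ∈ N, ∃ z : O, φ x = algebraMap O K z}
  add_mem' := by
    intro a b ha hb x hx
    obtain ⟨z, hz⟩ := ha x hx
    obtain ⟨w, hw⟩ := hb x hx
    exact ⟨z + w, by rw [LinearMap.add_apply, hz, hw, map_add]⟩
  zero_mem' := fun x _ => ⟨0, by simp⟩
  smul_mem' := by
    intro c a ha x hx
    obtain ⟨z, hz⟩ := ha x hx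
    exact ⟨c * z, by rw [LinearMap.smul_apply, hz, map_mul, Algebra.smul_def]⟩

omit [IsDomain O] [IsNoetherianRing O] [IsLocalRing O] [IsFractionRing O K] in
theorem mem_dualLat_span {n : ℕ} (x : Fin n → V) (φ : Module.Dual K V) :
    φ ∈ dualLat K (Submodule.span O (Set.range x)) ↔ ∀ i, ∃ z : O, φ (x i) = algebraMap O K z := by
  refine ⟨fun h i => h _ (Submodule.subset_span ⟨i, rfl⟩), fun h v hv => ?_⟩
  induction hv using Submodule.span_induction with
  | mem v hv =>
    obtain ⟨i, rfl⟩ := hv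
    exact h i
  | zero => exact ⟨0, by simp⟩
  | add a b _ _ ha hb =>
    obtain ⟨z, hz⟩ := ha
    obtain ⟨w, hw⟩ := hb
    exact ⟨z + w, by rw [map_add, hz, hw, map_add]⟩
  | smul c a _ ha =>
    obtain ⟨z, hz⟩ := ha
    exact ⟨c * z, by rw [LinearMap.map_smul_of_tower, hz, map_mul, Algebra.smul_def]⟩

omit [IsLocalRing O] [IsDomain O] in
theorem dualLat_finite (N : Submodule O V) (hN : N.FG)
    (hsp : Submodule.span K (N : Set V) = ⊤) : Module.Finite O (dualLat K N) := by
  obtain ⟨n, x, rfl⟩ := Submodule.fg_iff_exists_fin_generating_family.1 hN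
  have hsp' : Submodule.span K (Set.range x) = ⊤ := by
    rw [← hsp, Submodule.span_span_of_tower]
  let ev : Module.Dual K V →ₗ[O] (Fin n → K) :=
    { toFun := fun φ i => φ (x i)
      map_add' := fun _ _ => rfl
      map_smul' := fun _ _ => rfl }
  have hev : Function.Injective ev := by
    intro φ ψ h
    refine LinearMap.ext_on_range hsp' fun i => congrFun h i
  let ι : (Fin n → O) →ₗ[O] (Fin n → K) := (Algebra.linearMap O K).compLeft (Fin n)
  have hfg : (LinearMap.range ι).FG := by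
    rw [LinearMap.range_eq_map]
    exact Module.Finite.fg_top.map _
  have hle : (dualLat K (Submodule.span O (Set.range x))).map ev ≤ LinearMap.range ι := by
    rintro _ ⟨φ, hφ, rfl⟩
    choose z hz using (mem_dualLat_span x φ).1 hφ
    exact ⟨z, funext fun i => (hz i).symm⟩
  have h1 : ((dualLat K (Submodule.span O (Set.range x))).map ev).FG := by
    have : IsNoetherian O (LinearMap.range ι) := isNoetherian_of_fg_of_noetherian _ hfg
    exact (isNoetherian_submodule.1 this) _ hle
  exact Module.Finite.iff_fg.2 (Submodule.fg_of_fg_map_injective ev hev h1)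

omit [IsLocalRing O] [IsNoetherianRing O] in
theorem dualLat_frac (N : Submodule O V) (hN : N.FG) (φ : Module.Dual K V) :
    ∃ a : O, a ≠ 0 ∧ a • φ ∈ dualLat K N := by
  obtain ⟨n, x, rfl⟩ := Submodule.fg_iff_exists_fin_generating_family.1 hN
  obtain ⟨a, ha⟩ := IsLocalization.exist_integer_multiples_of_finite (nonZeroDivisors O)
    (fun i => φ (x i))
  refine ⟨a, nonZeroDivisors.coe_ne_zero a, (mem_dualLat_span x _).2 fun i => ?_⟩
  obtain ⟨z, hz⟩ := ha i
  exact ⟨z, hz.symm⟩

open Pointwise in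
theorem dualLat_free (hm : maximalIdeal O = Ideal.span {s, t}) (hd : 2 ≤ ringKrullDim O)
    (N : Submodule O V) (hN : N.FG) (hsp : Submodule.span K (N : Set V) = ⊤) :
    Module.Free O (dualLat K N) := by
  have hs : s ∈ maximalIdeal O := hm ▸ Ideal.subset_span (by simp)
  have hp := reg2_prime_elem hm hd
  have hinj := IsFractionRing.injective O K
  have hs0 : algebraMap O K s ≠ 0 := (map_ne_zero_iff _ hinj).2 hp.ne_zero
  have := dualLat_finite N hN hsp
  have := Module.finitePresentation_of_finite O (dualLat K N)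
  have := (reg2_prime hm hd).2.1
  have := (reg2_prime hm hd).2.2.2
  refine (Module.free_quotSMulTop_iff_free O (dualLat K N) (x := s) ?_ ?_).1 ?_
  · rw [IsLocalRing.jacobson_eq_maximalIdeal _ bot_ne_top]
    exact hs
  · intro φ ψ h
    have h1 : algebraMap O K s • (φ : Module.Dual K V) = algebraMap O K s • (ψ : Module.Dual K V) := by
      rw [algebraMap_smul, algebraMap_smul]
      exact congrArg Subtype.val h
    exact Subtype.ext (smul_right_injective _ hs0 h1)
  · have : Module.Finite (O ⧸ Ideal.span {s}) (QuotSMulTop s (dualLat K N)) :=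
      Module.Finite.of_restrictScalars_finite O _ _
    have : Module.IsTorsionFree (O ⧸ Ideal.span {s}) (QuotSMulTop s (dualLat K N)) := by
      refine Module.IsTorsionFree.of_smul_eq_zero fun a m h => ?_
      obtain ⟨a, rfl⟩ := Ideal.Quotient.mk_surjective a
      obtain ⟨φ, rfl⟩ := Submodule.Quotient.mk_surjective _ m
      rw [or_iff_not_imp_left, Ideal.Quotient.eq_zero_iff_mem, Ideal.mem_span_singleton]
      intro ha
      have h1 : a • φ ∈ s • (⊤ : Submodule O (dualLat K N)) :=
        (Submodule.Quotient.mk_eq_zero _).1 h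
      obtain ⟨ψ, -, hψ⟩ := (Submodule.mem_smul_pointwise_iff_exists _ _ _).1 h1
      rw [Submodule.Quotient.mk_eq_zero, Submodule.mem_smul_pointwise_iff_exists]
      refine ⟨⟨(algebraMap O K s)⁻¹ • (φ : Module.Dual K V), fun x hx => ?_⟩, trivial, ?_⟩
      · obtain ⟨z, hz⟩ := φ.2 x hx
        obtain ⟨w, hw⟩ := ψ.2 x hx
        have h2 : s * w = a * z := by
          apply hinj
          have h3 := LinearMap.congr_fun (congrArg Subtype.val hψ) x
          simp only [Submodule.coe_smul_of_tower, LinearMap.smul_apply, hz, hw,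
            Algebra.smul_def] at h3
          rw [map_mul, map_mul, h3]
        obtain ⟨y, rfl⟩ := (hp.dvd_or_dvd ⟨w, h2.symm⟩).resolve_left ha
        refine ⟨y, ?_⟩
        rw [LinearMap.smul_apply, hz, map_mul, smul_eq_mul, inv_mul_cancel_left₀ hs0]
      · apply Subtype.ext
        rw [Submodule.coe_smul_of_tower, ← algebraMap_smul K s, smul_inv_smul₀ hs0]
    infer_instance

/-- Duals are free. -/
theorem reg2_dual_free (hm : maximalIdeal O = Ideal.span {s, t}) (hd : 2 ≤ ringKrullDim O)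
    [FiniteDimensional K V] (N : Submodule O V) (hN : N.FG) (hsp : Submodule.span K (N : Set V) = ⊤) :
    ∃ b : Module.Basis (Fin (Module.finrank K V)) K V, ∀ φ : Module.Dual K V,
      (∀ x ∈ N, ∃ z : O, φ x = algebraMap O K z) ↔ ∀ j, ∃ z : O, φ (b j) = algebraMap O K z := by
  classical
  have hinj := IsFractionRing.injective O K
  have := dualLat_free hm hd N hN hsp
  have := dualLat_finite N hN hsp
  have hloc : IsLocalizedModule (nonZeroDivisors O) (dualLat K N).subtype := by
    refine ⟨fun a => ?_, fun φ => ?_, fun {φ ψ} h => ⟨1, by rw [Subtype.ext h]⟩⟩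
    · rw [Module.End.isUnit_iff]
      have ha : algebraMap O K a ≠ 0 := (map_ne_zero_iff _ hinj).2 (nonZeroDivisors.coe_ne_zero a)
      have : ⇑(algebraMap O (Module.End O (Module.Dual K V)) a) = fun φ => algebraMap O K a • φ := by
        funext φ
        rw [Module.algebraMap_end_apply, algebraMap_smul]
      rw [this]
      exact (MulAction.toPerm (Units.mk0 _ ha)).bijective
    · obtain ⟨a, ha, h⟩ := dualLat_frac N hN φ
      exact ⟨⟨⟨_, h⟩, ⟨a, mem_nonZeroDivisors_of_ne_zero ha⟩⟩, rfl⟩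
  let e0 := Module.Free.chooseBasis O (dualLat K N)
  let e := e0.ofIsLocalizedModule K (nonZeroDivisors O) (dualLat K N).subtype
  let b0 := e.dualBasis.map (Module.evalEquiv K V).symm
  have hb0 : ∀ (φ : Module.Dual K V) j, φ (b0 j) = e.repr φ j := by
    intro φ j
    simp [b0]
  let b := b0.reindex (b0.indexEquiv (Module.finBasis K V))
  refine ⟨b, fun φ => ?_⟩
  have : (∀ j, ∃ z : O, φ (b j) = algebraMap O K z) ↔ ∀ j, ∃ z : O, e.repr φ j = algebraMap O K z := by
    simp only [b, Module.Basis.reindex_apply, hb0]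
    exact Equiv.forall_congr_left (b0.indexEquiv (Module.finBasis K V)).symm |>.trans (by simp)
  rw [this]
  constructor
  · intro h j
    exact ⟨e0.repr ⟨φ, h⟩ j, e0.ofIsLocalizedModule_repr_apply K (nonZeroDivisors O)
      (dualLat K N).subtype ⟨φ, h⟩ j⟩
  · intro h
    choose z hz using h
    change φ ∈ dualLat K N
    rw [← e.sum_repr φ]
    refine Submodule.sum_mem _ fun j _ => ?_
    rw [hz, algebraMap_smul]
    refine Submodule.smul_mem _ _ ?_
    rw [Module.Basis.ofIsLocalizedModule_apply]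
    exact (e0 j).2

omit [IsDomain O] [IsNoetherianRing O] [IsLocalRing O] in
/-- a submodule of `O^n` killed modulo `𝔭` by no nonzero functional has full rank modulo `𝔭` -/
theorem full_rank_mod {n : ℕ} (𝔭 : Ideal O) [hP : 𝔭.IsPrime] (P : Submodule O (Fin n → O))
    (h : ∀ c : Fin n → O, (∀ x ∈ P, ∑ j, c j * x j ∈ 𝔭) → ∀ j, c j ∈ 𝔭) (y : Fin n → O) :
    ∃ a ∉ 𝔭, ∃ x ∈ P, ∀ i, a * y i - x i ∈ 𝔭 := by
  classical
  let L := 𝔭.ResidueField
  let π : O →+* L := algebraMap O L
  have hπ : ∀ a, π a = 0 ↔ a ∈ 𝔭 := fun a => Ideal.algebraMap_residueField_eq_zero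
  have hden : ∀ l : Fin n → L, ∃ d ∉ 𝔭, ∃ c : Fin n → O, ∀ j, π d * l j = π (c j) := by
    intro l
    obtain ⟨d, hd⟩ := IsLocalization.exist_integer_multiples_of_finite
      (nonZeroDivisors (O ⧸ 𝔭)) l
    obtain ⟨d', hd'⟩ := Ideal.Quotient.mk_surjective (d : O ⧸ 𝔭)
    have : ∀ j, ∃ c : O, π d' * l j = π c := by
      intro j
      obtain ⟨c, hc⟩ := hd j
      obtain ⟨c, rfl⟩ := Ideal.Quotient.mk_surjective c
      refine ⟨c, ?_⟩
      rw [← hd', Algebra.smul_def] at hc
      exact hc.symm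
    choose c hc using this
    refine ⟨d', fun hm => nonZeroDivisors.coe_ne_zero d ?_, c, hc⟩
    rw [← hd', Ideal.Quotient.eq_zero_iff_mem.2 hm]
  let ι : (Fin n → O) →ₗ[O] (Fin n → L) := (Algebra.linearMap O L).compLeft (Fin n)
  have hW : Submodule.span L (ι '' P) = ⊤ := by
    by_contra hne
    obtain ⟨φ, hφ0, hφ⟩ := Submodule.exists_le_ker_of_lt_top _ (lt_top_iff_ne_top.2 hne)
    obtain ⟨d, hd, c, hc⟩ := hden fun j => φ (Pi.single j 1)
    have hφv : ∀ w : Fin n → L, φ w = ∑ j, w j * φ (Pi.single j 1) := by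
      intro w
      conv_lhs => rw [← Finset.univ_sum_single w, map_sum]
      refine Finset.sum_congr rfl fun j _ => ?_
      rw [← smul_eq_mul, ← map_smul, ← Pi.single_smul, smul_eq_mul, mul_one]
    have hc0 := h c fun x hx => by
      rw [← hπ, map_sum]
      have h1 : φ (ι x) = 0 := hφ (Submodule.subset_span ⟨x, hx, rfl⟩)
      rw [hφv] at h1
      have h2 : ∑ j, π (c j * x j) = π d * ∑ j, ι x j * φ (Pi.single j 1) := by
        rw [Finset.mul_sum]
        refine Finset.sum_congr rfl fun j _ => ?_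
        rw [map_mul, ← hc]
        change _ = π d * (π (x j) * _)
        ring
      rw [h2, h1, mul_zero]
    apply hφ0
    refine LinearMap.ext fun w => ?_
    rw [hφv, LinearMap.zero_apply]
    refine Finset.sum_eq_zero fun j _ => ?_
    have h3 := hc j
    rw [(hπ _).2 (hc0 j), mul_eq_zero, hπ] at h3
    rw [h3.resolve_left hd, mul_zero]
  have key : ∀ w ∈ Submodule.span L (ι '' P), ∃ a ∉ 𝔭, ∃ x ∈ P, ∀ i, π a * w i = π (x i) := by
    intro w hw
    induction hw using Submodule.span_induction with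
    | mem w hw =>
      obtain ⟨x, hx, rfl⟩ := hw
      exact ⟨1, (Ideal.ne_top_iff_one _).1 hP.ne_top, x, hx, fun i => by rw [map_one, one_mul]; rfl⟩
    | zero => exact ⟨1, (Ideal.ne_top_iff_one _).1 hP.ne_top, 0, P.zero_mem, fun i => by simp⟩
    | add u w _ _ hu hw =>
      obtain ⟨a, ha, x, hx, h1⟩ := hu
      obtain ⟨b, hb, z, hz, h2⟩ := hw
      refine ⟨a * b, fun hm => (hP.mem_or_mem hm).elim ha hb, b • x + a • z,
        P.add_mem (P.smul_mem _ hx) (P.smul_mem _ hz), fun i => ?_⟩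
      simp only [Pi.add_apply, Pi.smul_apply, smul_eq_mul, map_add, map_mul, ← h1, ← h2]
      ring
    | smul l w _ hw =>
      obtain ⟨a, ha, x, hx, h1⟩ := hw
      obtain ⟨d, hd, c, hc⟩ := hden fun _ => l
      by_cases hn : n = 0
      · subst hn
        exact ⟨a, ha, x, hx, fun i => i.elim0⟩
      let j : Fin n := ⟨0, Nat.pos_of_ne_zero hn⟩
      refine ⟨a * d, fun hm => (hP.mem_or_mem hm).elim ha hd, c j • x, P.smul_mem _ hx, fun i => ?_⟩
      simp only [Pi.smul_apply, smul_eq_mul, map_mul, ← h1, ← hc j]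
      ring
  obtain ⟨a, ha, x, hx, h1⟩ := key (ι y) (hW ▸ Submodule.mem_top)
  refine ⟨a, ha, x, hx, fun i => ?_⟩
  rw [← hπ, map_sub, map_mul, ← h1]
  exact sub_self _

/-- The bidual is free and has finite colength. -/
theorem reg2_bidual (hm : maximalIdeal O = Ideal.span {s, t}) (hd : 2 ≤ ringKrullDim O)
    [FiniteDimensional K V] (N : Submodule O V) (hN : N.FG) (hsp : Submodule.span K (N : Set V) = ⊤) :
    ∃ b : Module.Basis (Fin (Module.finrank K V)) K V,
      (∀ v : V, (∀ φ : Module.Dual K V, (∀ x ∈ N, ∃ z : O, φ x = algebraMap O K z) →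
          ∃ z : O, φ v = algebraMap O K z) ↔ ∀ j, ∃ z : O, b.repr v j = algebraMap O K z) ∧
      ∃ k : ℕ, ∀ m ∈ maximalIdeal O ^ k, ∀ j, m • b j ∈ N := by
  classical
  have hinj := IsFractionRing.injective O K
  obtain ⟨b, hb⟩ := reg2_dual_free hm hd N hN hsp
  have hcoord : ∀ j, ∀ x ∈ N, ∃ z : O, b.coord j x = algebraMap O K z := by
    intro j
    refine (hb _).2 fun i => ?_
    by_cases hij : i = j
    · exact ⟨1, by simp [hij]⟩
    · exact ⟨0, by simp [hij]⟩
  refine ⟨b, fun v => ⟨fun h j => h _ (hcoord j), fun h φ hφ => ?_⟩, ?_⟩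
  · choose z hz using h
    choose w hw using (hb φ).1 hφ
    refine ⟨∑ j, z j * w j, ?_⟩
    conv_lhs => rw [← b.sum_repr v, map_sum]
    rw [map_sum]
    refine Finset.sum_congr rfl fun j _ => ?_
    rw [map_smul, hz, hw, map_mul, smul_eq_mul]
  -- the lattice spanned by `b`
  let σ : (Fin (Module.finrank K V) → O) →ₗ[O] V := Fintype.linearCombination O b
  have hσ : ∀ c, σ c = ∑ j, c j • b j := fun c => Fintype.linearCombination_apply O b c
  let P := N.comap σ
  let I : Ideal O := ⨅ j, N.comap (LinearMap.toSpanSingleton O V (b j))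
  have hI : ∀ a, a ∈ I ↔ ∀ j, a • b j ∈ N := fun a => by simp [I, Submodule.mem_iInf]
  have hIP : ∀ a ∈ I, ∀ y, a • y ∈ P := by
    intro a ha y
    change σ (a • y) ∈ N
    rw [hσ]
    refine N.sum_mem fun j _ => ?_
    rw [Pi.smul_apply, smul_eq_mul, mul_comm, mul_smul]
    exact N.smul_mem _ ((hI a).1 ha j)
  have hPI : ∀ a, (∀ y, a • y ∈ P) → a ∈ I := by
    intro a ha
    refine (hI a).2 fun j => ?_
    have : σ (a • Pi.single j 1) ∈ N := ha _
    rwa [map_smul, Fintype.linearCombination_apply_single, one_smul] at this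
  obtain ⟨d, hd0, hdI⟩ : ∃ d : O, d ≠ 0 ∧ d ∈ I := by
    have : ∀ j, ∃ a : nonZeroDivisors O, a • b j ∈ N := by
      intro j
      have := multiple_mem_span_of_mem_localization_span (nonZeroDivisors O) K (N : Set V) (b j)
        (hsp ▸ Submodule.mem_top)
      rwa [Submodule.span_eq] at this
    choose a ha using this
    refine ⟨∏ j, (a j : O), Finset.prod_ne_zero_iff.2 fun j _ => nonZeroDivisors.coe_ne_zero _,
      (hI _).2 fun j => ?_⟩
    rw [← Finset.prod_erase_mul _ _ (Finset.mem_univ j), mul_smul]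
    exact N.smul_mem _ (ha j)
  suffices hrad : maximalIdeal O ≤ I.radical by
    obtain ⟨k, hk⟩ := Ideal.exists_pow_le_of_le_radical_of_fg hrad (IsNoetherian.noetherian _)
    exact ⟨k, fun m hm j => (hI m).1 (hk hm) j⟩
  rw [Ideal.radical_eq_sInf]
  refine le_sInf ?_
  rintro 𝔭 ⟨hI𝔭, hP⟩
  by_contra hne
  have h1 : 𝔭 ≠ maximalIdeal O := fun h => hne h.ge
  have h0 : 𝔭 ≠ ⊥ := fun h => hd0 (by simpa [h] using hI𝔭 hdI)
  obtain ⟨f, hf⟩ := (reg2_height_one hm hd 𝔭 h0 h1).principal
  have hmem : ∀ a, a ∈ 𝔭 ↔ f ∣ a := fun a => by rw [hf]; exact Ideal.mem_span_singleton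
  have hf0 : f ≠ 0 := by
    rintro rfl
    exact h0 (by simpa using hf)
  have hfK : algebraMap O K f ≠ 0 := (map_ne_zero_iff _ hinj).2 hf0
  have hfu : ¬ IsUnit f := fun hu => hP.ne_top (𝔭.eq_top_of_isUnit_mem ((hmem f).2 dvd_rfl) hu)
  have hfull := full_rank_mod 𝔭 P fun c hc j => by
    let ψ : Module.Dual K V := ∑ i, ((algebraMap O K f)⁻¹ * algebraMap O K (c i)) • b.coord i
    have hψ : ∀ x ∈ N, ∃ z : O, ψ x = algebraMap O K z := by
      intro x hx
      choose z hz using fun i => hcoord i x hx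
      have hz' : z ∈ P := by
        change σ z ∈ N
        have : σ z = x := by
          rw [hσ]
          conv_rhs => rw [← b.sum_repr x]
          refine Finset.sum_congr rfl fun i _ => ?_
          rw [← algebraMap_smul K, ← hz]
          rfl
        rwa [this]
      obtain ⟨w, hw⟩ := (hmem _).1 (hc z hz')
      refine ⟨w, ?_⟩
      have : algebraMap O K w = (algebraMap O K f)⁻¹ * algebraMap O K (∑ j, c j * z j) := by
        rw [hw, map_mul, inv_mul_cancel_left₀ hfK]
      rw [this, map_sum, Finset.mul_sum, LinearMap.sum_apply]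
      refine Finset.sum_congr rfl fun i _ => ?_
      rw [LinearMap.smul_apply, hz, map_mul, smul_eq_mul, mul_assoc]
    obtain ⟨z, hz⟩ := (hb ψ).1 hψ j
    have h2 : ψ (b j) = (algebraMap O K f)⁻¹ * algebraMap O K (c j) := by
      simp [ψ, LinearMap.sum_apply, Finsupp.single_apply]
    refine (hmem _).2 ⟨z, hinj ?_⟩
    rw [map_mul, ← hz, h2, mul_inv_cancel_left₀ hfK]
  have hit : ∀ (k : ℕ) (y : Fin (Module.finrank K V) → O),
      ∃ a ∉ 𝔭, ∃ x ∈ P, ∃ y', a • y = x + f ^ k • y' := by
    intro k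
    induction k with
    | zero => exact fun y => ⟨1, (Ideal.ne_top_iff_one _).1 hP.ne_top, 0, P.zero_mem, y, by simp⟩
    | succ k ih =>
      intro y
      obtain ⟨a, ha, x, hx, y', h2⟩ := ih y
      obtain ⟨a', ha', x', hx', h3⟩ := hfull y'
      choose w hw using fun i => (hmem _).1 (h3 i)
      refine ⟨a' * a, fun hm => (hP.mem_or_mem hm).elim ha' ha, a' • x + f ^ k • x',
        P.add_mem (P.smul_mem _ hx) (P.smul_mem _ hx'), w, ?_⟩
      funext i
      have h4 := congrFun h2 i
      have h5 := hw i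
      simp only [Pi.add_apply, Pi.smul_apply, smul_eq_mul] at h4 ⊢
      linear_combination a' * h4 + f ^ k * h5
  obtain ⟨k, d', hd', rfl⟩ := WfDvdMonoid.max_power_factor' hd0 hfu
  have h6 : ∀ j, ∃ a ∉ 𝔭, a • b j ∈ N := by
    intro j
    obtain ⟨a, ha, x, hx, y', h2⟩ := hit k (Pi.single j 1)
    refine ⟨d' * a, fun hm => (hP.mem_or_mem hm).elim (fun h => hd' ((hmem _).1 h)) ha, ?_⟩
    have h3 : (d' * a) • (Pi.single j 1 : Fin (Module.finrank K V) → O) ∈ P := by
      rw [mul_smul, h2, smul_add, smul_smul, mul_comm d']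
      exact P.add_mem (P.smul_mem _ hx) (hIP _ hdI _)
    have h4 : σ ((d' * a) • Pi.single j 1) ∈ N := h3
    rwa [map_smul, Fintype.linearCombination_apply_single, one_smul] at h4
  choose a ha haN using h6
  have h7 : ∏ j, a j ∈ I := by
    refine (hI _).2 fun j => ?_
    rw [← Finset.prod_erase_mul _ _ (Finset.mem_univ j), mul_smul]
    exact N.smul_mem _ (haN j)
  obtain ⟨j, -, hj⟩ := Ideal.IsPrime.prod_mem_iff.1 (hI𝔭 h7)
  exact ha j hj

end Crest.Agent.R169
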