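import Crest.Agent.R169.Tens
import Crest.Agent.R169.LA0

/-! # Local rings of the charts, finite colength -/

set_option autoImplicit false

namespace Crest.Agent.R169

noncomputable section

open IsLocalRing

theorem height_maximal_mvPolynomial (k : Type) [Field k] (n : ℕ) :
    ∀ (𝔫 : Ideal (MvPolynomial (Fin n) k)), 𝔫.IsMaximal → 𝔫.height = n := by
  induction n with
  | zero =>
    intro 𝔫 h
    have e := (MvPolynomial.isEmptyRingEquiv k (Fin 0))
    have h1 : (𝔫.map e).IsMaximal := Ideal.map_isMaximal_of_equiv e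
    have h2 : 𝔫.map e = ⊥ := by
      rcases Ideal.eq_bot_or_top (𝔫.map e) with h | h
      · exact h
      · exact absurd h h1.ne_top
    rw [← e.height_map 𝔫, h2]
    simp
  | succ n ih =>
    intro 𝔫 h
    let e := (MvPolynomial.finSuccEquiv k n).toRingEquiv
    have h1 : (𝔫.map e).IsMaximal := Ideal.map_isMaximal_of_equiv e
    have h2 : ((𝔫.map e).under (MvPolynomial (Fin n) k)).IsMaximal :=
      Polynomial.isMaximal_comap_C_of_isJacobsonRing _
    rw [← e.height_map 𝔫, Polynomial.height_eq_height_add_one ((𝔫.map e).under _) (𝔫.map e),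
      ih _ h2]
    simp

variable {K : Type} [Field K] [Algebra ℂ K]

section Loc

variable (A : Subalgebra ℂ K) [IsFractionRing A K] (𝔪 : Ideal A) [𝔪.IsPrime]

/-- the local ring at `𝔪`, inside `K` -/
def Oloc : Subalgebra A K :=
  Localization.subalgebra K 𝔪.primeCompl 𝔪.primeCompl_le_nonZeroDivisors

instance : IsLocalization.AtPrime (Oloc A 𝔪) 𝔪 :=
  Localization.subalgebra.isLocalization_subalgebra K _ _

instance : IsFractionRing (Oloc A 𝔪) K := Localization.subalgebra.isFractionRing K _ _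

instance : IsLocalRing (Oloc A 𝔪) := IsLocalization.AtPrime.isLocalRing _ 𝔪

instance [IsNoetherianRing A] : IsNoetherianRing (Oloc A 𝔪) :=
  IsLocalization.isNoetherianRing 𝔪.primeCompl _ inferInstance

variable {A 𝔪}

theorem coe_ne_zero_of_not_mem {g : A} (hg : g ∉ 𝔪) : (g : K) ≠ 0 := by
  intro h
  apply hg
  have : g = 0 := Subtype.ext h
  rw [this]
  exact 𝔪.zero_mem

theorem mem_Oloc {y : K} : y ∈ Oloc A 𝔪 ↔ ∃ g : A, g ∉ 𝔪 ∧ (g : K) * y ∈ A := by
  constructor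
  · rintro ⟨a, s, hs, rfl⟩
    refine ⟨s, hs, ?_⟩
    have := IsLocalization.mk'_spec' K a ⟨s, 𝔪.primeCompl_le_nonZeroDivisors hs⟩
    change (s : K) * _ = (a : K) at this
    rw [this]
    exact a.2
  · rintro ⟨g, hg, hy⟩
    refine ⟨⟨_, hy⟩, g, hg, ?_⟩
    rw [IsLocalization.eq_mk'_iff_mul_eq]
    exact mul_comm _ _

theorem exists_Oloc_iff {y : K} :
    (∃ z : Oloc A 𝔪, y = algebraMap (Oloc A 𝔪) K z) ↔ ∃ g : A, g ∉ 𝔪 ∧ (g : K) * y ∈ A := by
  rw [← mem_Oloc]
  exact ⟨fun ⟨z, hz⟩ => hz ▸ z.2, fun h => ⟨⟨y, h⟩, rfl⟩⟩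

theorem coe_mem_Oloc {y : K} (hy : y ∈ A) : y ∈ Oloc A 𝔪 :=
  (Oloc A 𝔪).algebraMap_mem ⟨y, hy⟩

theorem inv_mem_Oloc {g : A} (hg : g ∉ 𝔪) : (g : K)⁻¹ ∈ Oloc A 𝔪 :=
  mem_Oloc.2 ⟨g, hg, by rw [mul_inv_cancel₀ (coe_ne_zero_of_not_mem hg)]; exact A.one_mem⟩

theorem maximalIdeal_Oloc_eq {s t : A} (hs : s ∈ 𝔪) (ht : t ∈ 𝔪)
    (h : ∀ x ∈ 𝔪, ∃ g ∉ 𝔪, g * x ∈ Ideal.span {s, t}) :
    maximalIdeal (Oloc A 𝔪) =
      Ideal.span {algebraMap A (Oloc A 𝔪) s, algebraMap A (Oloc A 𝔪) t} := by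
  rw [← IsLocalization.AtPrime.map_eq_maximalIdeal 𝔪 (Oloc A 𝔪)]
  apply le_antisymm
  · rw [Ideal.map_le_iff_le_comap]
    intro x hx
    obtain ⟨g, hg, hgx⟩ := h x hx
    have hu : IsUnit (algebraMap A (Oloc A 𝔪) g) :=
      IsLocalization.map_units (Oloc A 𝔪) (⟨g, hg⟩ : 𝔪.primeCompl)
    have h1 := Ideal.mem_map_of_mem (algebraMap A (Oloc A 𝔪)) hgx
    rw [Ideal.map_span, Set.image_pair, map_mul] at h1
    exact (Ideal.unit_mul_mem_iff_mem _ hu).1 h1
  · rw [Ideal.span_le]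
    rintro x (rfl | rfl)
    · exact Ideal.mem_map_of_mem _ hs
    · exact Ideal.mem_map_of_mem _ ht

/-- common denominators -/
theorem exists_common_den {ι : Type*} (s : Finset ι) (P : ι → A → Prop)
    (hP : ∀ i ∈ s, ∀ g h, P i g → P i (h * g)) (h : ∀ i ∈ s, ∃ g ∉ 𝔪, P i g) :
    ∃ g ∉ 𝔪, ∀ i ∈ s, P i g := by
  classical
  induction s using Finset.induction_on with
  | empty => exact ⟨1, (Ideal.ne_top_iff_one 𝔪).1 Ideal.IsPrime.ne_top', by simp⟩
  | insert a s _ ih =>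
    obtain ⟨g, hg, hg'⟩ := ih (fun i hi => hP i (Finset.mem_insert_of_mem hi))
      (fun i hi => h i (Finset.mem_insert_of_mem hi))
    obtain ⟨g₁, hg₁, hg₁'⟩ := h a (Finset.mem_insert_self _ _)
    refine ⟨g * g₁, fun hm => ?_, fun i hi => ?_⟩
    · rcases Ideal.IsPrime.mem_or_mem inferInstance hm with h | h
      · exact hg h
      · exact hg₁ h
    · rcases Finset.mem_insert.1 hi with rfl | hi'
      · exact hP _ hi _ _ hg₁'
      · rw [mul_comm]
        exact hP _ hi _ _ (hg' i hi')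

variable {V : Type} [AddCommGroup V] [Module K V]

theorem mem_span_Oloc (M : Submodule A V) {v : V} :
    v ∈ Submodule.span (Oloc A 𝔪) (M : Set V) ↔ ∃ g : A, g ∉ 𝔪 ∧ (g : K) • v ∈ M := by
  constructor
  · intro hv
    induction hv using Submodule.span_induction with
    | mem x hx => exact ⟨1, (Ideal.ne_top_iff_one 𝔪).1 Ideal.IsPrime.ne_top', by simpa using hx⟩
    | zero => exact ⟨1, (Ideal.ne_top_iff_one 𝔪).1 Ideal.IsPrime.ne_top', by simp⟩
    | add x y _ _ hx hy =>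
      obtain ⟨g, hg, hx⟩ := hx
      obtain ⟨h, hh, hy⟩ := hy
      refine ⟨g * h, fun hm => ?_, ?_⟩
      · rcases Ideal.IsPrime.mem_or_mem inferInstance hm with h | h
        · exact hg h
        · exact hh h
      · have e : ((g * h : A) : K) • (x + y) = h • ((g : K) • x) + g • ((h : K) • y) := by
          simp only [Subalgebra.smul_def, smul_add, smul_smul, MulMemClass.coe_mul]
          rw [mul_comm (h : K)]
        rw [e]
        exact M.add_mem (M.smul_mem _ hx) (M.smul_mem _ hy)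
    | smul a x _ hx =>
      obtain ⟨g, hg, hx⟩ := hx
      obtain ⟨h, hh, ha⟩ := mem_Oloc.1 a.2
      refine ⟨h * g, fun hm => ?_, ?_⟩
      · rcases Ideal.IsPrime.mem_or_mem inferInstance hm with h | h
        · exact hh h
        · exact hg h
      · have e : ((h * g : A) : K) • (a • x) = (⟨_, ha⟩ : A) • ((g : K) • x) := by
          simp only [Subalgebra.smul_def, smul_smul, MulMemClass.coe_mul]
          congr 1
          ring
        rw [e]
        exact M.smul_mem _ hx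
  · rintro ⟨g, hg, hv⟩
    have e : v = (⟨_, inv_mem_Oloc hg⟩ : Oloc A 𝔪) • ((g : K) • v) := by
      simp only [Subalgebra.smul_def, smul_smul]
      rw [inv_mul_cancel₀ (coe_ne_zero_of_not_mem hg), one_smul]
    rw [e]
    exact Submodule.smul_mem _ _ (Submodule.subset_span hv)

theorem span_Oloc_fg {M : Submodule A V} (hM : M.FG) :
    (Submodule.span (Oloc A 𝔪) (M : Set V)).FG := by
  obtain ⟨s, rfl⟩ := hM
  exact ⟨s, (Submodule.span_span_of_tower A (Oloc A 𝔪) _).symm⟩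

/-- a common denominator for a finitely generated module -/
theorem exists_den_of_fg {W : Type} [AddCommGroup W] [Module K W] {M : Submodule A V} (hM : M.FG)
    (f : V →ₗ[K] W) (M' : Submodule A W) (h : ∀ v ∈ M, ∃ g : A, g ∉ 𝔪 ∧ (g : K) • f v ∈ M') :
    ∃ g : A, g ∉ 𝔪 ∧ ∀ v ∈ M, (g : K) • f v ∈ M' := by
  obtain ⟨s, rfl⟩ := hM
  obtain ⟨g, hg, hs⟩ := exists_common_den (𝔪 := 𝔪) s (fun v g => (g : K) • f v ∈ M')
    (fun v _ g h hv => by
      have := M'.smul_mem h hv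
      rwa [Subalgebra.smul_def, smul_smul] at this)
    (fun v hv => h v (Submodule.subset_span hv))
  refine ⟨g, hg, fun v hv => ?_⟩
  induction hv using Submodule.span_induction with
  | mem x hx => exact hs x hx
  | zero => simp
  | add x y _ _ hx hy => rw [map_add, smul_add]; exact M'.add_mem hx hy
  | smul a x _ hx =>
    rw [Subalgebra.smul_def, map_smul, smul_comm]
    exact M'.smul_mem a hx

/-- `A` as a submodule of `K` over itself -/
def selfSub (A : Subalgebra ℂ K) : Submodule A K where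
  carrier := A
  add_mem' := A.add_mem
  zero_mem' := A.zero_mem
  smul_mem' := fun r _ hv => A.mul_mem r.2 hv

theorem exists_den_dual {M : Submodule A V} (hM : M.FG) (φ : Module.Dual K V)
    (h : ∀ v ∈ M, φ v ∈ Oloc A 𝔪) : ∃ g : A, g ∉ 𝔪 ∧ ∀ v ∈ M, (g : K) * φ v ∈ A :=
  exists_den_of_fg hM φ (selfSub A) fun v hv => mem_Oloc.1 (h v hv)

theorem dual_span_iff {M : Submodule A V} (φ : Module.Dual K V) :
    (∀ x ∈ Submodule.span (Oloc A 𝔪) (M : Set V),
      ∃ z : Oloc A 𝔪, φ x = algebraMap (Oloc A 𝔪) K z) ↔ ∀ v ∈ M, φ v ∈ Oloc A 𝔪 := by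
  constructor
  · intro h v hv
    obtain ⟨z, hz⟩ := h v (Submodule.subset_span hv)
    rw [hz]
    exact z.2
  · intro h x hx
    obtain ⟨g, hg, hx⟩ := (mem_span_Oloc M).1 hx
    have h1 := (Oloc A 𝔪).mul_mem (inv_mem_Oloc hg) (h _ hx)
    rw [map_smul, smul_eq_mul, inv_mul_cancel_left₀ (coe_ne_zero_of_not_mem hg)] at h1
    exact ⟨⟨_, h1⟩, rfl⟩

end Loc

section Colength

variable {A : Subalgebra ℂ K}

theorem finite_quot_of_primes (hA : A.FG) (I : Ideal A)
    (h : ∀ 𝔮 : Ideal A, 𝔮.IsPrime → I ≤ 𝔮 → 𝔮.IsMaximal) : FiniteDimensional ℂ (A ⧸ I) := by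
  have : Algebra.FiniteType ℂ A := (Subalgebra.fg_iff_finiteType _).1 hA
  refine (Module.finite_iff_krullDimLE_zero ℂ (A ⧸ I)).2 ?_
  rw [Ring.krullDimLE_zero_iff]
  intro 𝔮 h𝔮
  have h1 := h (𝔮.comap (Ideal.Quotient.mk I)) (Ideal.comap_isPrime _ _) (fun x hx => by
    rw [Ideal.mem_comap, Ideal.Quotient.eq_zero_iff_mem.2 hx]; exact 𝔮.zero_mem)
  exact Ideal.isMaximal_of_isIntegral_of_isMaximal_comap' (Ideal.Quotient.mk I)
    (RingHom.isIntegral_of_surjective _ Ideal.Quotient.mk_surjective) 𝔮 h1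

theorem isMaximal_of_finite_quot (I : Ideal A) [FiniteDimensional ℂ (A ⧸ I)] (𝔮 : Ideal A)
    [𝔮.IsPrime] (h : I ≤ 𝔮) : 𝔮.IsMaximal := by
  have : Module.Finite ℂ (A ⧸ 𝔮) :=
    Module.Finite.of_surjective (Ideal.Quotient.factorₐ ℂ h).toLinearMap
      (Ideal.Quotient.factor_surjective h)
  have : IsArtinianRing (A ⧸ 𝔮) := IsArtinianRing.of_finite ℂ _
  exact Ideal.Quotient.maximal_of_isField _ (IsArtinianRing.isField_of_isDomain _)

theorem exists_pow_le_map [IsFractionRing A K] [IsNoetherianRing A] (I : Ideal A)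
    [FiniteDimensional ℂ (A ⧸ I)] (𝔪 : Ideal A) [𝔪.IsPrime] :
    ∃ k : ℕ, maximalIdeal (Oloc A 𝔪) ^ k ≤ I.map (algebraMap A (Oloc A 𝔪)) := by
  refine Ideal.exists_pow_le_of_le_radical_of_fg ?_ (IsNoetherian.noetherian _)
  rw [Ideal.radical_eq_sInf]
  refine le_sInf ?_
  rintro 𝔮 ⟨hI, h𝔮⟩
  have h1 : (𝔮.comap (algebraMap A (Oloc A 𝔪))).IsMaximal :=
    isMaximal_of_finite_quot I _ (Ideal.map_le_iff_le_comap.1 hI)
  have h2 : 𝔮.comap (algebraMap A (Oloc A 𝔪)) ≤ 𝔪 := by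
    have := Ideal.comap_mono (f := algebraMap A (Oloc A 𝔪)) (le_maximalIdeal h𝔮.ne_top)
    rwa [show (maximalIdeal (Oloc A 𝔪)).comap (algebraMap A (Oloc A 𝔪)) = 𝔪 from
      IsLocalization.AtPrime.under_maximalIdeal (Oloc A 𝔪) 𝔪] at this
  have h3 := h1.eq_of_le Ideal.IsPrime.ne_top' h2
  rw [← IsLocalization.AtPrime.map_eq_maximalIdeal 𝔪 (Oloc A 𝔪), Ideal.map_le_iff_le_comap, h3]

variable {V : Type} [AddCommGroup V] [Module K V] [Module ℂ V] [IsScalarTower ℂ K V]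

/-- the conductor of a finite set into `M` has finite colength -/
theorem finite_quot_conductor {M N : Submodule ℂ V} (hN : ∀ r ∈ A, ∀ v ∈ N, r • v ∈ N)
    {s : Finset V} (hs : N ≤ M ⊔ Submodule.span ℂ (s : Set V)) (T : Finset V)
    (hT : ∀ v ∈ T, v ∈ N) (I : Ideal A) (hI : ∀ g : A, (∀ v ∈ T, (g : K) • v ∈ M) → g ∈ I) :
    FiniteDimensional ℂ (A ⧸ I) := by
  let Q : Submodule ℂ (V ⧸ M) := (Submodule.span ℂ (s : Set V)).map M.mkQ
  have : FiniteDimensional ℂ Q := by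
    have : FiniteDimensional ℂ (Submodule.span ℂ (s : Set V)) :=
      FiniteDimensional.span_finset ℂ s
    infer_instance
  have hQ : ∀ v ∈ N, M.mkQ v ∈ Q := by
    intro v hv
    obtain ⟨a, ha, b, hb, rfl⟩ := Submodule.mem_sup.1 (hs hv)
    refine ⟨b, hb, ?_⟩
    rw [map_add, Submodule.mkQ_apply M a, (Submodule.Quotient.mk_eq_zero M).2 ha, zero_add]
  let f : A →ₗ[ℂ] (T → Q) :=
    { toFun := fun g v => ⟨M.mkQ ((g : K) • (v : V)), hQ _ (hN _ g.2 _ (hT v v.2))⟩
      map_add' := fun g h => by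
        funext v
        apply Subtype.ext
        simp [add_smul]
      map_smul' := fun a g => by
        funext v
        apply Subtype.ext
        simp [smul_assoc] }
  have hker : LinearMap.ker f ≤ LinearMap.ker (Ideal.Quotient.mkₐ ℂ I).toLinearMap := by
    intro g hg
    rw [LinearMap.mem_ker] at hg ⊢
    refine Ideal.Quotient.eq_zero_iff_mem.2 (hI g fun v hv => ?_)
    have := congrArg Subtype.val (congrFun hg ⟨v, hv⟩)
    exact (Submodule.Quotient.mk_eq_zero M).1 this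
  have h1 : FiniteDimensional ℂ (A ⧸ LinearMap.ker f) :=
    Module.Finite.equiv f.quotKerEquivRange.symm
  refine Module.Finite.of_surjective ((LinearMap.ker f).liftQ _ hker) ?_
  intro x
  obtain ⟨g, rfl⟩ := Ideal.Quotient.mk_surjective x
  exact ⟨Submodule.Quotient.mk g, rfl⟩

end Colength

end

end Crest.Agent.R169
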