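import Crest.Agent.R169.Tens
import Crest.Agent.R169.LA0
import Crest.Agent.R169.LASAux

/-! # Local algebra on a surface -/

set_option autoImplicit false

namespace Crest.Agent.R169

noncomputable section

open IsLocalRing

variable {K : Type} [Field K] [Algebra K0 K] [Algebra ℂ K] [IsScalarTower ℂ K0 K] {S : Surf K}
variable {V : Type} [AddCommGroup V] [Module K V] [Module ℂ V] [IsScalarTower ℂ K V]

theorem mem_minimalPrimes_of_local {R : Type} [CommRing R] {𝔪 J : Ideal R} [𝔪.IsPrime] (hJ : J ≤ 𝔪)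
    (h : ∀ x ∈ 𝔪, ∃ g ∉ 𝔪, g * x ∈ J) : 𝔪 ∈ J.minimalPrimes := by
  refine ⟨⟨inferInstance, hJ⟩, ?_⟩
  rintro 𝔮 ⟨h𝔮, hJ𝔮⟩ hle x hx
  obtain ⟨g, hg, hgx⟩ := h x hx
  rcases h𝔮.mem_or_mem (hJ𝔮 hgx) with h | h
  · exact absurd (hle h) hg
  · exact h

/-- `R c` is integral over the normal domain `PP K c ≅ ℂ[X,Y]`; going down.  (Upper bound from `S.reg` and Krull's
height theorem.) -/
theorem Surf.height_eq_two (S : Surf K) (c : Chart) (𝔪 : Ideal (S.R c)) (h : 𝔪.IsMaximal) :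
    𝔪.height = 2 := by
  classical
  have := S.R_noeth c
  apply le_antisymm
  · obtain ⟨s, hs, t, ht, hst⟩ := S.reg c 𝔪 h
    have h1 : 𝔪 ∈ (Ideal.span (({s, t} : Finset (S.R c)) : Set (S.R c))).minimalPrimes := by
      rw [Finset.coe_pair]
      refine mem_minimalPrimes_of_local ?_ hst
      rw [Ideal.span_le]
      rintro x (rfl | rfl)
      · exact hs
      · exact ht
    refine (Ideal.height_le_card_of_mem_minimalPrimes_span_finset h1).trans ?_
    exact_mod_cast Finset.card_le_two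
  · obtain ⟨φ, -, -⟩ := exists_PP_equiv K c
    have := PP_noeth K c
    letI : Algebra (PP K c) (S.R c) := (Subalgebra.inclusion (S.P_le c)).toRingHom.toAlgebra
    have : IsScalarTower (PP K c) (S.R c) K := IsScalarTower.of_algebraMap_eq fun _ => rfl
    have : FaithfulSMul (PP K c) (S.R c) :=
      (faithfulSMul_iff_algebraMap_injective _ _).2 (Subalgebra.inclusion_injective (S.P_le c))
    have : Algebra.IsIntegral (PP K c) (S.R c) := ⟨fun x =>
      (isIntegral_algebraMap_iff (A := S.R c) (B := K) Subtype.val_injective).1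
        (S.R_integral c x.2)⟩
    have : IsIntegrallyClosed (PP K c) := IsIntegrallyClosed.of_equiv φ.toRingEquiv
    have hm : (𝔪.under (PP K c)).IsMaximal := Ideal.isMaximal_comap_of_isIntegral_of_isMaximal 𝔪
    have h2 : (𝔪.under (PP K c)).height = 2 := by
      rw [← φ.toRingEquiv.height_comap]
      exact height_maximal_mvPolynomial ℂ 2 _ (Ideal.comap_isMaximal_of_equiv φ.toRingEquiv)
    rw [Ideal.height_eq_height_add_of_liesOver_of_hasGoingDown (𝔪.under (PP K c)) 𝔪, h2]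
    exact le_self_add

/-- a maximal ideal is not locally principal -/
theorem Surf.not_locally_principal (S : Surf K) (c : Chart) (𝔪 : Ideal (S.R c)) (h : 𝔪.IsMaximal)
    (t : S.R c) (ht : t ∈ 𝔪) : ¬ ∀ x ∈ 𝔪, ∃ g ∉ 𝔪, g * x ∈ Ideal.span {t} := by
  intro hx
  have := S.R_noeth c
  have h1 := Ideal.height_le_one_of_isPrincipal_of_mem_minimalPrimes (Ideal.span {t}) 𝔪
    (mem_minimalPrimes_of_local ((Ideal.span_singleton_le_iff_mem _).2 ht) hx)
  rw [S.height_eq_two c 𝔪 h] at h1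
  exact absurd h1 (by norm_num)

theorem Surf.loc_reg (S : Surf K) (c : Chart) (𝔪 : Ideal (S.R c)) [h : 𝔪.IsMaximal]
    [IsFractionRing (S.R c) K] :
    (∃ s t : Oloc (S.R c) 𝔪, maximalIdeal (Oloc (S.R c) 𝔪) = Ideal.span {s, t}) ∧
      2 ≤ ringKrullDim (Oloc (S.R c) 𝔪) := by
  obtain ⟨s, hs, t, ht, hst⟩ := S.reg c 𝔪 h
  refine ⟨⟨_, _, maximalIdeal_Oloc_eq hs ht hst⟩, ?_⟩
  rw [IsLocalization.AtPrime.ringKrullDim_eq_height 𝔪, S.height_eq_two c 𝔪 h]
  exact le_rfl

theorem Surf.normal (S : Surf K) (c : Chart) {x : K} (hx : IsIntegral (S.R c) x) : x ∈ S.R c := by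
  have := S.R_noeth c
  have := S.R_isFractionRing c
  refine S.mem_of_local c (OO S c) (fun r hr v hv => (S.R c).mul_mem hr hv) x fun 𝔪 h𝔪 => ?_
  obtain ⟨⟨s, t, hm⟩, hd⟩ := S.loc_reg c 𝔪
  exact exists_Oloc_iff.1 (reg2_normal hm hd x hx.tower_top)

/-- an ideal contained only in maximal primes has finite codimension; here in the form needed for coprime
curves -/
theorem Surf.finite_quot (S : Surf K) (c : Chart) (I J : Ideal (S.R c)) (hI : I ≠ ⊥)
    (hJ : ∀ 𝔭 ∈ I.minimalPrimes, ¬ J ≤ 𝔭) : FiniteDimensional ℂ (S.R c ⧸ (I ⊔ J)) := by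
  refine finite_quot_of_primes (S.R_fg c) _ fun 𝔮 h𝔮 hle => ?_
  obtain ⟨𝔭, h𝔭, h𝔭𝔮⟩ := Ideal.exists_minimalPrimes_le (le_sup_left.trans hle)
  have : 𝔭.IsPrime := h𝔭.1.1
  obtain ⟨𝔪, h𝔪, h𝔮𝔪⟩ := Ideal.exists_le_maximal 𝔮 h𝔮.ne_top
  rcases h𝔮𝔪.eq_or_lt with rfl | hlt
  · exact h𝔪
  exfalso
  have h0 : (⊥ : Ideal (S.R c)) < 𝔭 := bot_lt_iff_ne_bot.2 fun h => hI (le_bot_iff.1 (h ▸ h𝔭.1.2))
  have h1 : 𝔭 < 𝔮 := lt_of_le_of_ne h𝔭𝔮 fun h => hJ 𝔭 h𝔭 (h ▸ le_sup_right.trans hle)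
  have a0 := Ideal.height_add_one_le_of_lt_of_isPrime h0
  have a1 := Ideal.height_add_one_le_of_lt_of_isPrime h1
  have a2 := Ideal.height_add_one_le_of_lt_of_isPrime hlt
  rw [S.height_eq_two c 𝔪 h𝔪] at a2
  rw [Ideal.height_bot, zero_add] at a0
  have : (1 + 1 + 1 : ℕ∞) ≤ 2 :=
    le_trans (add_le_add_left (le_trans (add_le_add_left a0 1) a1) 1) a2
  exact absurd this (by norm_num)

theorem locFree_of_local {M : Pre V} (hM : IsSheaf S M)
    (h : ∀ c (𝔪 : Ideal (S.R c)), 𝔪.IsMaximal → ∃ (ι : Type) (_ : Finite ι) (b : Module.Basis ι K V),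
      (∀ j, ∃ g : S.R c, g ∉ 𝔪 ∧ (g : K) • b j ∈ M c) ∧
      ∀ v ∈ M c, ∀ j, ∃ g : S.R c, g ∉ 𝔪 ∧ (g : K) * b.repr v j ∈ S.R c) : LocFree S M := by
  refine locFree_of_basis fun c 𝔪 h𝔪 => ?_
  obtain ⟨ι, hι, b, hb, hv⟩ := h c 𝔪 h𝔪
  have := Fintype.ofFinite ι
  have := S.R_isFractionRing c
  obtain ⟨g, hg, hgb⟩ := exists_common_den (𝔪 := 𝔪) Finset.univ (fun j g => (g : K) • b j ∈ M c)
    (fun j _ g h hv => by
      have := hM.smul_mem c h.2 hv
      rwa [smul_smul] at this)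
    (fun j _ => hb j)
  obtain ⟨g', hg', hgv⟩ := exists_common_den (𝔪 := 𝔪) Finset.univ
    (fun j g => ∀ v ∈ M c, (g : K) * b.repr v j ∈ S.R c)
    (fun j _ g h hv v hvM => by
      have := (S.R c).mul_mem h.2 (hv v hvM)
      rwa [← mul_assoc] at this)
    (fun j _ => exists_den_of_fg (hM.toSub_fg c) (b.coord j) (selfSub (S.R c)) fun v hvM => hv v hvM j)
  have hg0 : (g : K) ≠ 0 := coe_ne_zero_of_not_mem hg
  refine ⟨ι, hι, b.unitsSMul fun _ => Units.mk0 _ hg0, g' * g, fun hm => ?_, fun j => ?_,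
    fun v hvM j => ?_⟩
  · rcases h𝔪.isPrime.mem_or_mem hm with h | h
    · exact hg' h
    · exact hg h
  · rw [Module.Basis.unitsSMul_apply]
    exact hgb j (Finset.mem_univ _)
  · rw [Module.Basis.repr_unitsSMul]
    have e : ((g' * g : S.R c) : K) * ((Units.mk0 _ hg0)⁻¹ • b.repr v j) = g' * b.repr v j := by
      simp only [Units.smul_def, Units.val_inv_eq_inv_val, Units.val_mk0, smul_eq_mul,
        MulMemClass.coe_mul]
      field_simp
    rw [e]
    exact hgv j (Finset.mem_univ _) v hvM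

omit [IsScalarTower ℂ K0 K] in
theorem IsSheaf.span_eq_top {M : Pre V} (hM : IsSheaf S M) (c : Chart) {N : Set V}
    (h : (M c : Set V) ⊆ N) : Submodule.span K N = ⊤ := by
  rw [eq_top_iff]
  intro v _
  obtain ⟨f, -, hf, hv⟩ := hM.frac c v
  have : v = f⁻¹ • (f • v) := by rw [inv_smul_smul₀ hf]
  rw [this]
  exact Submodule.smul_mem _ _ (Submodule.subset_span (h hv))

/-- local description of the bidual -/
theorem IsSheaf.bidual_local {M : Pre V} (hM : IsSheaf S M) (c : Chart) (𝔪 : Ideal (S.R c))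
    [𝔪.IsMaximal] [IsFractionRing (S.R c) K] :
    ∃ b : Module.Basis (Fin (Module.finrank K V)) K V,
      (∀ v : V, (∃ g : S.R c, g ∉ 𝔪 ∧ (g : K) • v ∈ R169.bidual S M c) ↔
        ∀ j, b.repr v j ∈ Oloc (S.R c) 𝔪) ∧
      ∃ k : ℕ, ∀ m ∈ maximalIdeal (Oloc (S.R c) 𝔪) ^ k, ∀ j,
        m • b j ∈ Submodule.span (Oloc (S.R c) 𝔪) (hM.toSub c : Set V) := by
  have := S.R_noeth c
  have := hM.finiteDimensional
  obtain ⟨⟨s, t, hm⟩, hd⟩ := S.loc_reg c 𝔪
  obtain ⟨b, hb, hk⟩ := reg2_bidual (K := K) hm hd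
    (Submodule.span (Oloc (S.R c) 𝔪) (hM.toSub c : Set V)) (span_Oloc_fg (hM.toSub_fg c))
    (hM.span_eq_top c Submodule.subset_span)
  refine ⟨b, fun v => ?_, hk⟩
  have hb' := hb v
  simp only [dual_span_iff] at hb'
  simp only [exists_Oloc_iff, ← mem_Oloc] at hb'
  rw [← hb']
  constructor
  · rintro ⟨g, hg, hv⟩ φ hφ
    obtain ⟨g', hg', hφ'⟩ := exists_den_dual (hM.toSub_fg c) φ hφ
    have h1 := hv ((g' : K) • φ) hφ'
    refine mem_Oloc.2 ⟨g' * g, fun hm => ?_, ?_⟩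
    · rcases Ideal.IsPrime.mem_or_mem inferInstance hm with h | h
      · exact hg' h
      · exact hg h
    · simpa [mul_assoc, mul_left_comm] using h1
  · intro hv
    obtain ⟨g, hg, h1⟩ := exists_den_dual (𝔪 := 𝔪) (hM.dualP.toSub_fg c) (Module.Dual.eval K V v)
      fun φ hφ => hv φ fun x hx => coe_mem_Oloc (hφ x hx)
    refine ⟨g, hg, fun φ hφ => ?_⟩
    rw [map_smul]
    exact h1 φ hφ

theorem IsSheaf.locFree_bidual {M : Pre V} (hM : IsSheaf S M) : LocFree S (R169.bidual S M) := by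
  classical
  refine locFree_of_local hM.bidual fun c 𝔪 h𝔪 => ?_
  have := S.R_isFractionRing c
  obtain ⟨b, hb, -⟩ := hM.bidual_local c 𝔪
  refine ⟨_, inferInstance, b, fun j => (hb _).2 fun i => ?_, fun v hv j => mem_Oloc.1 ?_⟩
  · rw [b.repr_self, Finsupp.single_apply]
    split_ifs
    · exact one_mem _
    · exact zero_mem _
  · exact (hb v).1 ⟨1, (Ideal.ne_top_iff_one 𝔪).1 h𝔪.ne_top, by simpa using hv⟩ j

theorem IsSheaf.locFree_dualP {M : Pre V} (hM : IsSheaf S M) : LocFree S (R169.dualP S M) := by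
  classical
  refine locFree_of_local hM.dualP fun c 𝔪 h𝔪 => ?_
  have := S.R_isFractionRing c
  have := S.R_noeth c
  have := hM.finiteDimensional
  obtain ⟨⟨s, t, hm⟩, hd⟩ := S.loc_reg c 𝔪
  obtain ⟨b, hb⟩ := reg2_dual_free (K := K) hm hd
    (Submodule.span (Oloc (S.R c) 𝔪) (hM.toSub c : Set V)) (span_Oloc_fg (hM.toSub_fg c))
    (hM.span_eq_top c Submodule.subset_span)
  simp only [dual_span_iff] at hb
  simp only [exists_Oloc_iff, ← mem_Oloc] at hb
  refine ⟨_, inferInstance, b.dualBasis, fun j => ?_, fun φ hφ j => mem_Oloc.1 ?_⟩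
  · refine exists_den_dual (hM.toSub_fg c) _ ((hb _).2 fun i => ?_)
    rw [b.dualBasis_apply_self]
    split_ifs
    · exact one_mem _
    · exact zero_mem _
  · rw [b.dualBasis_repr]
    exact (hb φ).1 (fun x hx => coe_mem_Oloc (hφ x hx)) j

/-- the conductor of `M'` into `M` -/
def IsSheaf.cond {M : Pre V} (hM : IsSheaf S M) (c : Chart) (T : Set V) : Ideal (S.R c) where
  carrier := {g | ∀ v ∈ T, (g : K) • v ∈ M c}
  add_mem' := fun ha hb v hv => by
    rw [AddMemClass.coe_add, add_smul]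
    exact (M c).add_mem (ha v hv) (hb v hv)
  zero_mem' := fun v _ => by simp
  smul_mem' := fun r g hg v hv => by
    rw [smul_eq_mul, MulMemClass.coe_mul, mul_smul]
    exact hM.smul_mem c r.2 (hg v hv)

theorem finCol_of_ann {M M' : Pre V} (hM' : IsSheaf S M') (hle : ∀ c, M c ≤ M' c)
    (h : ∀ c, ∃ I : Ideal (S.R c), FiniteDimensional ℂ (S.R c ⧸ I) ∧
      ∀ g ∈ I, ∀ v ∈ M' c, (g : K) • v ∈ M c) : FinCol M M' := by
  classical
  intro c
  refine ⟨hle c, ?_⟩
  obtain ⟨I, hI, hIM⟩ := h c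
  obtain ⟨s, hs⟩ := hM'.fg c
  obtain ⟨T, hT⟩ := (Module.Finite.fg_top : (⊤ : Submodule ℂ (S.R c ⧸ I)).FG)
  choose σ hσ using Ideal.Quotient.mk_surjective (I := I)
  refine ⟨Finset.image₂ (fun q v => (σ q : K) • v) T s, ?_⟩
  set N := M c ⊔ Submodule.span ℂ ((Finset.image₂ (fun q v => (σ q : K) • v) T s : Finset V) : Set V)
  have key : ∀ v ∈ s, ∀ r : S.R c, (r : K) • v ∈ N := by
    intro v hv
    have hv' : v ∈ M' c := (hs v).2 (Submodule.subset_span hv)
    have h1 : ∀ q ∈ Submodule.span ℂ (T : Set (S.R c ⧸ I)), ∀ r : S.R c,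
        Ideal.Quotient.mk I r = q → (r : K) • v ∈ N := by
      have red : ∀ r r' : S.R c, Ideal.Quotient.mk I r = Ideal.Quotient.mk I r' →
          (r' : K) • v ∈ N → (r : K) • v ∈ N := by
        intro r r' hr hN
        have h2 := hIM _ (Ideal.Quotient.eq.1 hr) v hv'
        have e : (r : K) • v = ((r - r' : S.R c) : K) • v + (r' : K) • v := by
          rw [← add_smul]; simp
        rw [e]
        exact N.add_mem (Submodule.mem_sup_left h2) hN
      intro q hq
      induction hq using Submodule.span_induction with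
      | mem x hx =>
        intro r hr
        refine red r (σ x) (hr.trans (hσ x).symm) (Submodule.mem_sup_right (Submodule.subset_span ?_))
        exact Finset.mem_coe.2 (Finset.mem_image₂_of_mem hx hv)
      | zero =>
        intro r hr
        exact red r 0 (by simpa using hr) (by simp)
      | add x y _ _ hx hy =>
        intro r hr
        refine red r (σ x + σ y) (by rw [map_add, hσ, hσ, hr]) ?_
        rw [AddMemClass.coe_add, add_smul]
        exact N.add_mem (hx _ (hσ x)) (hy _ (hσ y))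
      | smul a x _ hx =>
        intro r hr
        refine red r (a • σ x) ?_ ?_
        · rw [hr, ← Ideal.Quotient.mkₐ_eq_mk ℂ, map_smul, Ideal.Quotient.mkₐ_eq_mk, hσ]
        · rw [SetLike.val_smul, smul_assoc]
          exact N.smul_mem a (hx _ (hσ x))
    intro r
    exact h1 _ (hT ▸ Submodule.mem_top) r rfl
  intro v hv
  have h2 : ∀ w ∈ Submodule.span (S.R c) (s : Set V), ∀ r : S.R c, (r : K) • w ∈ N := by
    intro w hw
    induction hw using Submodule.span_induction with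
    | mem x hx => exact key x hx
    | zero => intro r; simp
    | add x y _ _ hx hy => intro r; rw [smul_add]; exact N.add_mem (hx r) (hy r)
    | smul a x _ hx =>
      intro r
      rw [Subalgebra.smul_def, smul_smul]
      exact hx (r * a)
  simpa using h2 v ((hs v).1 hv) 1

/-- the annihilator of `M** ⧸ M` is contained only in maximal primes -/
theorem IsSheaf.finCol_bidual {M : Pre V} (hM : IsSheaf S M) : FinCol M (R169.bidual S M) := by
  refine finCol_of_ann hM.bidual (fun c v hv φ hφ => hφ v hv) fun c => ?_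
  have := S.R_isFractionRing c
  refine ⟨hM.cond c (R169.bidual S M c), ?_, fun g hg => hg⟩
  refine finite_quot_of_primes (S.R_fg c) _ fun 𝔮 h𝔮 hle => ?_
  obtain ⟨𝔪, h𝔪, h𝔮𝔪⟩ := Ideal.exists_le_maximal 𝔮 h𝔮.ne_top
  suffices h : 𝔪 ≤ 𝔮 by rwa [le_antisymm h𝔮𝔪 h]
  obtain ⟨b, hb, k, hk⟩ := hM.bidual_local c 𝔪
  intro x hx
  have hxk : algebraMap (S.R c) (Oloc (S.R c) 𝔪) x ^ k ∈ maximalIdeal (Oloc (S.R c) 𝔪) ^ k := by
    refine Ideal.pow_mem_pow ?_ k
    rw [← IsLocalization.AtPrime.map_eq_maximalIdeal 𝔪 (Oloc (S.R c) 𝔪)]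
    exact Ideal.mem_map_of_mem _ hx
  obtain ⟨g, hg, hgv⟩ := exists_den_of_fg (𝔪 := 𝔪) (hM.bidual.toSub_fg c)
    (((x : K) ^ k) • LinearMap.id) (hM.toSub c) fun v hv => by
      rw [← mem_span_Oloc]
      have h1 := (hb v).1 ⟨1, (Ideal.ne_top_iff_one 𝔪).1 h𝔪.ne_top, by
        simpa [IsSheaf.mem_toSub] using hv⟩
      rw [LinearMap.smul_apply, LinearMap.id_apply, ← b.sum_repr v, Finset.smul_sum]
      refine Submodule.sum_mem _ fun j _ => ?_
      rw [smul_comm]
      exact Submodule.smul_mem _ (⟨_, h1 j⟩ : Oloc (S.R c) 𝔪) (hk _ hxk j)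
  have h2 : g * x ^ k ∈ 𝔮 := hle fun v hv => by
    have := hgv v hv
    rw [LinearMap.smul_apply, LinearMap.id_apply, smul_smul] at this
    exact this
  rcases h𝔮.mem_or_mem h2 with h | h
  · exact absurd (h𝔮𝔪 h) hg
  · exact h𝔮.mem_of_pow_mem k h

theorem LocFree.refl {M : Pre V} (hM : IsSheaf S M) (h : LocFree S M) : Refl S M := by
  rintro c N hN - ⟨s, hs⟩ v hv
  have := S.R_isFractionRing c
  have := S.R_noeth c
  refine S.mem_of_local c (M c) (fun r hr w hw => hM.smul_mem c hr hw) v fun 𝔪 h𝔪 => ?_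
  obtain ⟨b, g₀, hg₀, hb, hrepr⟩ := h c 𝔪 h𝔪
  obtain ⟨⟨s', t', hm⟩, hd⟩ := S.loc_reg c 𝔪
  have : FiniteDimensional ℂ (S.R c ⧸ hM.cond c {v}) :=
    finite_quot_conductor (M := M c) hN hs {v} (by simpa using hv) _
      fun g hg w hw => hg w (by simpa using hw)
  obtain ⟨k, hk⟩ := exists_pow_le_map (hM.cond c {v}) 𝔪
  have h1 : ∀ j, b.repr v j ∈ Oloc (S.R c) 𝔪 := by
    intro j
    obtain ⟨z, hz⟩ := reg2_depth hm hd (b.repr v j) k fun m hm' => by
      have h2 : (m : K) * b.repr v j ∈ Oloc (S.R c) 𝔪 := by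
        have h3 := hk hm'
        clear hm'
        induction h3 using Submodule.span_induction with
        | mem x hx =>
          obtain ⟨a, ha, rfl⟩ := hx
          have h4 := hrepr _ (ha v rfl) j
          rw [map_smul, Finsupp.smul_apply, smul_eq_mul] at h4
          exact mem_Oloc.2 ⟨g₀, hg₀, h4⟩
        | zero => simp
        | add x y _ _ hx hy =>
          rw [AddMemClass.coe_add, add_mul]
          exact add_mem hx hy
        | smul a x _ hx =>
          rw [smul_eq_mul, MulMemClass.coe_mul, mul_assoc]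
          exact mul_mem a.2 hx
      exact ⟨⟨_, h2⟩, rfl⟩
    rw [hz]
    exact z.2
  have h5 : v ∈ Submodule.span (Oloc (S.R c) 𝔪) (hM.toSub c : Set V) := by
    rw [← b.sum_repr v]
    exact Submodule.sum_mem _ fun j _ =>
      Submodule.smul_mem _ (⟨_, h1 j⟩ : Oloc (S.R c) 𝔪) (Submodule.subset_span (hb j))
  exact (mem_span_Oloc _).1 h5

theorem Refl.locFree {M : Pre V} (hM : IsSheaf S M) (h : Refl S M) : LocFree S M := by
  have e : R169.bidual S M = M := by
    funext c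
    exact le_antisymm (h c _ (fun r hr v hv => hM.bidual.smul_mem c hr hv) (hM.finCol_bidual c).1
      (hM.finCol_bidual c).2) (hM.finCol_bidual c).1
  have := hM.locFree_bidual
  rwa [e] at this

theorem LocFree.toS0 [Module K0 V] [IsScalarTower K0 K V] [IsScalarTower ℂ K0 V] {M : Pre V}
    (hM : IsSheaf S M) (h : LocFree S M) : LocFree S0 M :=
  Refl.locFree hM.toS0 (Refl.toS0 hM (h.refl hM))

/-- finite colength in terms of annihilators -/
theorem FinCol.exists_ann {M M' : Pre V} (hM : IsSheaf S M) (hM' : IsSheaf S M') (h : FinCol M M')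
    (c : Chart) : ∃ I : Ideal (S.R c), FiniteDimensional ℂ (S.R c ⧸ I) ∧
      ∀ g ∈ I, ∀ v ∈ M' c, (g : K) • v ∈ M c := by
  obtain ⟨-, s, hs⟩ := h c
  obtain ⟨T, hT⟩ := hM'.fg c
  refine ⟨hM.cond c (M' c), ?_, fun g hg => hg⟩
  refine finite_quot_conductor (M := M c) (fun r hr v hv => hM'.smul_mem c hr hv) hs T
    (fun v hv => (hT v).2 (Submodule.subset_span hv)) _ fun g hg v hv => ?_
  have hv' := (hT v).1 hv
  clear hv
  induction hv' using Submodule.span_induction with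
  | mem x hx => exact hg x hx
  | zero => simp
  | add x y _ _ hx hy => rw [smul_add]; exact (M c).add_mem hx hy
  | smul a x _ hx =>
    rw [Subalgebra.smul_def, smul_comm]
    exact hM.smul_mem c a.2 hx

end

end Crest.Agent.R169
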