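import Crest.Agent.R169.CDefs

/-! # The adelic system of an algebraic extension of `k(X)` -/

set_option autoImplicit false

namespace Crest.Agent.R169

noncomputable section

theorem om_pid (A K L : Type) [CommRing A] [IsDomain A] [IsDiscreteValuationRing A] [Field K]
    [Algebra A K] [IsFractionRing A K] [Field L] [Algebra K L] [Algebra A L] [IsScalarTower A K L]
    [FiniteDimensional K L] [Algebra.IsSeparable K L] :
    IsPrincipalIdealRing (integralClosure A L) := by
  have := integralClosure.isDedekindDomain A K L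
  have hinj : Function.Injective (algebraMap A (integralClosure A L)) :=
    algebraMap_injective_of_field_isFractionRing A (integralClosure A L) K L
  have : FaithfulSMul A (integralClosure A L) := (faithfulSMul_iff_algebraMap_injective _ _).2 hinj
  refine IsPrincipalIdealRing.of_finite_maximals
    ((IsDedekindDomain.primesOver_finite (IsLocalRing.maximalIdeal A)
      (integralClosure A L)).subset ?_)
  intro P hP
  have : P.IsMaximal := hP
  exact ⟨this.isPrime, ⟨(IsLocalRing.eq_maximalIdeal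
    (Ideal.isMaximal_comap_of_isIntegral_of_isMaximal (R := A) P)).symm⟩⟩

namespace PlaceSys

variable {k : Type} [Field k] (PS : PlaceSys k)

theorem nu_one (v : PS.ι) : PS.nu v 1 = 0 := by
  have := PS.nu_mul v 1 1 one_ne_zero one_ne_zero
  rw [one_mul] at this
  omega

theorem nu_inv (v : PS.ι) {f : RatFunc k} (hf : f ≠ 0) : PS.nu v f⁻¹ = -PS.nu v f := by
  have := PS.nu_mul v f f⁻¹ hf (inv_ne_zero hf)
  rw [mul_inv_cancel₀ hf, PS.nu_one] at this
  omega

theorem nu_pow (v : PS.ι) {f : RatFunc k} (hf : f ≠ 0) (n : ℕ) :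
    PS.nu v (f ^ n) = n * PS.nu v f := by
  induction n with
  | zero => simp [PS.nu_one]
  | succ n ih => rw [pow_succ, PS.nu_mul v _ _ (pow_ne_zero _ hf) hf, ih]; push_cast; ring

theorem nu_neg (v : PS.ι) {f : RatFunc k} (hf : f ≠ 0) : PS.nu v (-f) = PS.nu v f := by
  have h1 := PS.nu_mul v (-1) (-1) (by simp) (by simp)
  rw [neg_mul_neg, one_mul, PS.nu_one] at h1
  have h2 := PS.nu_mul v (-1) f (by simp) hf
  rw [neg_one_mul] at h2
  omega

theorem nu_zpow (v : PS.ι) {f : RatFunc k} (hf : f ≠ 0) (n : ℤ) : PS.nu v (f ^ n) = n * PS.nu v f := by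
  obtain ⟨m, rfl | rfl⟩ := n.eq_nat_or_neg
  · rw [zpow_natCast, PS.nu_pow v hf]
  · rw [zpow_neg, zpow_natCast, PS.nu_inv v (pow_ne_zero _ hf), PS.nu_pow v hf]; ring

theorem nu_eq_zero (v : PS.ι) {f : RatFunc k} (hf : f ≠ 0) (h1 : f ∈ PS.O v) (h2 : f⁻¹ ∈ PS.O v) :
    PS.nu v f = 0 := by
  rw [PS.mem_iff v _ hf] at h1
  rw [PS.mem_iff v _ (inv_ne_zero hf), PS.nu_inv v hf] at h2
  omega

theorem nu_finite_support {f : RatFunc k} (hf : f ≠ 0) :
    (Function.support fun v => PS.nu v f).Finite := by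
  refine ((PS.fin_supp f).union (PS.fin_supp f⁻¹)).subset fun v hv => ?_
  by_contra h
  simp only [Set.mem_union, Set.mem_ofPred_eq, not_or, not_not] at h
  exact hv (PS.nu_eq_zero v hf h.1 h.2)

theorem nu_algebraMap (v : PS.ι) {a : k} (ha : a ≠ 0) : PS.nu v (algebraMap k (RatFunc k) a) = 0 := by
  exact PS.nu_eq_zero v (by simpa using ha) ((PS.O v).algebraMap_mem a)
    (by rw [← map_inv₀]; exact (PS.O v).algebraMap_mem _)

theorem isFractionRing_O (v : PS.ι) : IsFractionRing (PS.O v) (RatFunc k) := by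
  refine IsFractionRing.of_field _ _ fun f => ?_
  by_cases h : f ∈ PS.O v
  · exact ⟨⟨f, h⟩, 1, by simp⟩
  · have hf : f ≠ 0 := fun h0 => h (h0 ▸ (PS.O v).zero_mem)
    have : f⁻¹ ∈ PS.O v := by
      rw [PS.mem_iff v _ hf] at h
      rw [PS.mem_iff v _ (inv_ne_zero hf), PS.nu_inv v hf]
      omega
    exact ⟨1, ⟨f⁻¹, this⟩, by simp⟩

variable (L : Type) [Field L] [Algebra (RatFunc k) L]

theorem mem_I_iff (v : PS.ι) (x : L) : x ∈ PS.I L v ↔ IsIntegral (PS.O v) x := Iff.rfl

omit L in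
theorem isIntegral_iff_mem (v : PS.ι) (f : RatFunc k) : IsIntegral (PS.O v) f ↔ f ∈ PS.O v := by
  have := PS.dvr v
  have := PS.isFractionRing_O v
  rw [IsIntegrallyClosed.isIntegral_iff]
  constructor
  · rintro ⟨y, rfl⟩; exact y.2
  · intro h; exact ⟨⟨f, h⟩, rfl⟩

theorem algebraMap_mem_I_iff (v : PS.ι) (f : RatFunc k) :
    algebraMap (RatFunc k) L f ∈ PS.I L v ↔ f ∈ PS.O v := by
  rw [mem_I_iff, isIntegral_algebraMap_iff (algebraMap (RatFunc k) L).injective,
    PS.isIntegral_iff_mem]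

theorem nuL_algebraMap (v : PS.ι) {f : RatFunc k} (hf : f ≠ 0) :
    PS.nuL L v (algebraMap (RatFunc k) L f) = PS.nu v f := by
  unfold nuL
  rw [minpoly.eq_X_sub_C]
  simp [PS.nu_neg v hf]

variable {L} in
theorem nuL_map {L' : Type} [Field L'] [Algebra (RatFunc k) L'] (σ : L →ₐ[RatFunc k] L') (v : PS.ι)
    (x : L) : PS.nuL L' v (σ x) = PS.nuL L v x := by
  unfold nuL
  rw [minpoly.algHom_eq σ σ.injective]

variable {L} in
theorem map_mem_I_iff {L' : Type} [Field L'] [Algebra (RatFunc k) L'] (σ : L →ₐ[RatFunc k] L')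
    (v : PS.ι) (x : L) : σ x ∈ PS.I L' v ↔ x ∈ PS.I L v := by
  rw [mem_I_iff, mem_I_iff]
  exact isIntegral_algHom_iff (σ.restrictScalars (PS.O v)) σ.injective

/-- `Algebra.norm_eq_norm_adjoin`, `Algebra.PowerBasis.norm_gen_eq_coeff_zero_minpoly` -/
theorem finrank_mul_nuL [FiniteDimensional (RatFunc k) L] (v : PS.ι) {x : L} (hx : x ≠ 0) :
    (Module.finrank (RatFunc k) L : ℚ) * PS.nuL L v x = PS.nu v (Algebra.norm (RatFunc k) x) := by
  have hi : IsIntegral (RatFunc k) x := IsIntegral.of_finite _ x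
  have h0 := minpoly.coeff_zero_ne_zero hi hx
  have h1 : Algebra.norm (RatFunc k) (IntermediateField.AdjoinSimple.gen (RatFunc k) x) =
      (-1) ^ (minpoly (RatFunc k) x).natDegree * (minpoly (RatFunc k) x).coeff 0 := by
    have := Algebra.PowerBasis.norm_gen_eq_coeff_zero_minpoly
      (IntermediateField.adjoin.powerBasis hi)
    rwa [IntermediateField.adjoin.powerBasis_gen, IntermediateField.adjoin.powerBasis_dim,
      IntermediateField.minpoly_gen] at this
  have h2 : PS.nu v ((-1) ^ (minpoly (RatFunc k) x).natDegree * (minpoly (RatFunc k) x).coeff 0) =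
      PS.nu v ((minpoly (RatFunc k) x).coeff 0) := by
    rcases neg_one_pow_eq_or (RatFunc k) (minpoly (RatFunc k) x).natDegree with h | h
    · rw [h, one_mul]
    · rw [h, neg_one_mul, PS.nu_neg v h0]
  rw [Algebra.norm_eq_norm_adjoin, h1, PS.nu_pow v (mul_ne_zero (by simp) h0), h2,
    ← Module.finrank_mul_finrank (RatFunc k) (IntermediateField.adjoin (RatFunc k) {x}) L,
    IntermediateField.adjoin.finrank hi]
  have h3 : ((minpoly (RatFunc k) x).natDegree : ℚ) ≠ 0 := by
    exact_mod_cast (minpoly.natDegree_pos hi).ne'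
  unfold nuL
  push_cast
  field_simp

theorem trace_mem_O [FiniteDimensional (RatFunc k) L] (v : PS.ι) {x : L} (hx : x ∈ PS.I L v) :
    Algebra.trace (RatFunc k) L x ∈ PS.O v := by
  rw [← PS.isIntegral_iff_mem]
  exact Algebra.isIntegral_trace hx

/-- the integral closure of a DVR in a finite separable extension is a semilocal Dedekind domain -/
theorem I_pid [CharZero k] [FiniteDimensional (RatFunc k) L] (v : PS.ι) :
    IsPrincipalIdealRing (PS.I L v) := by
  have := PS.dvr v
  have := PS.isFractionRing_O v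
  exact om_pid (PS.O v) (RatFunc k) L

variable [Algebra.IsAlgebraic (RatFunc k) L]

theorem exists_denom (v : PS.ι) (x : L) :
    ∃ d ∈ PS.O v, d ≠ 0 ∧ algebraMap (RatFunc k) L d * x ∈ PS.I L v := by
  have := PS.isFractionRing_O v
  have h1 : IsAlgebraic (PS.O v) x :=
    (IsFractionRing.isAlgebraic_iff (PS.O v) (RatFunc k) L).2 (Algebra.IsAlgebraic.isAlgebraic x)
  obtain ⟨y, hy, h2⟩ := h1.exists_integral_multiple
  refine ⟨y, y.2, fun h => hy (Subtype.ext h), ?_⟩
  rw [mem_I_iff, ← Algebra.smul_def]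
  exact h2

theorem I_isFractionRing (v : PS.ι) : IsFractionRing (PS.I L v) L := by
  refine IsFractionRing.of_field _ _ fun x => ?_
  obtain ⟨d, hd, hd0, h⟩ := PS.exists_denom L v x
  refine ⟨⟨_, h⟩, ⟨_, (PS.algebraMap_mem_I_iff L v d).2 hd⟩, ?_⟩
  have : algebraMap (RatFunc k) L d ≠ 0 := by simpa using hd0
  show x = algebraMap (RatFunc k) L d * x / algebraMap (RatFunc k) L d
  field_simp

/-- work in the finite extension `k(X)(x, y)` -/
theorem nuL_mul (v : PS.ι) (x y : L) (hx : x ≠ 0) (hy : y ≠ 0) :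
    PS.nuL L v (x * y) = PS.nuL L v x + PS.nuL L v y := by
  let F := IntermediateField.adjoin (RatFunc k) {x, y}
  have : FiniteDimensional (RatFunc k) F := IntermediateField.finiteDimensional_adjoin_pair
    (Algebra.IsAlgebraic.isAlgebraic x).isIntegral (Algebra.IsAlgebraic.isAlgebraic y).isIntegral
  let x' : F := ⟨x, IntermediateField.subset_adjoin _ _ (by simp)⟩
  let y' : F := ⟨y, IntermediateField.subset_adjoin _ _ (by simp)⟩
  have hx' : x' ≠ 0 := fun h => hx (congrArg Subtype.val h)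
  have hy' : y' ≠ 0 := fun h => hy (congrArg Subtype.val h)
  have e1 : PS.nuL L v x = PS.nuL F v x' := PS.nuL_map F.val v x'
  have e2 : PS.nuL L v y = PS.nuL F v y' := PS.nuL_map F.val v y'
  have e3 : PS.nuL L v (x * y) = PS.nuL F v (x' * y') := PS.nuL_map F.val v (x' * y')
  have h1 := PS.finrank_mul_nuL F v hx'
  have h2 := PS.finrank_mul_nuL F v hy'
  have h3 := PS.finrank_mul_nuL F v (mul_ne_zero hx' hy')
  rw [map_mul, PS.nu_mul v _ _ (Algebra.norm_ne_zero_iff.2 hx') (Algebra.norm_ne_zero_iff.2 hy')]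
    at h3
  have h4 : (Module.finrank (RatFunc k) F : ℚ) ≠ 0 := by exact_mod_cast Module.finrank_pos.ne'
  rw [e1, e2, e3]
  apply mul_left_cancel₀ h4
  rw [mul_add, h1, h2, h3]
  push_cast
  rfl

theorem nuL_nonneg (v : PS.ι) (x : L) (hx : x ≠ 0) (h : x ∈ PS.I L v) : 0 ≤ PS.nuL L v x := by
  have := PS.dvr v
  have := PS.isFractionRing_O v
  have h0 := minpoly.coeff_zero_ne_zero (Algebra.IsAlgebraic.isAlgebraic (R := RatFunc k) x).isIntegral hx
  have h1 : (minpoly (RatFunc k) x).coeff 0 ∈ PS.O v := by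
    rw [minpoly.isIntegrallyClosed_eq_field_fractions' (R := PS.O v) (RatFunc k) h,
      Polynomial.coeff_map]
    exact Subtype.prop _
  rw [PS.mem_iff v _ h0] at h1
  unfold nuL
  exact div_nonneg (by exact_mod_cast h1) (Nat.cast_nonneg _)

theorem I_fin_supp (x : L) : {v | x ∉ PS.I L v}.Finite := by
  have hi := (Algebra.IsAlgebraic.isAlgebraic (R := RatFunc k) x).isIntegral
  refine (Set.Finite.biUnion (minpoly (RatFunc k) x).support.finite_toSet
    fun i _ => PS.fin_supp ((minpoly (RatFunc k) x).coeff i)).subset fun v hv => ?_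
  by_contra hc
  simp only [Set.mem_iUnion, Set.mem_ofPred_eq, not_exists, not_not] at hc
  have hl : minpoly (RatFunc k) x ∈ Polynomial.lifts (algebraMap (PS.O v) (RatFunc k)) := by
    rw [Polynomial.lifts_iff_coeff_lifts]
    intro n
    by_cases hn : n ∈ (minpoly (RatFunc k) x).support
    · exact ⟨⟨_, hc n hn⟩, rfl⟩
    · rw [Polynomial.notMem_support_iff.1 hn]
      exact ⟨0, map_zero _⟩
  obtain ⟨q, h1, -, h2⟩ := Polynomial.lifts_and_natDegree_eq_and_monic hl (minpoly.monic hi)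
  refine hv ⟨q, h2, ?_⟩
  rw [← Polynomial.aeval_def, ← Polynomial.aeval_map_algebraMap (RatFunc k), h1, minpoly.aeval]

theorem nuL_prod (x : L) (hx : x ≠ 0) : ∑ᶠ v, PS.nuL L v x = 0 := by
  have h0 := minpoly.coeff_zero_ne_zero (Algebra.IsAlgebraic.isAlgebraic (R := RatFunc k) x).isIntegral hx
  let g : ℤ →+ ℚ := (AddMonoidHom.mulRight ((minpoly (RatFunc k) x).natDegree : ℚ)⁻¹).comp
    (Int.castAddHom ℚ)
  have h1 := g.map_finsum (PS.nu_finite_support h0)
  rw [PS.prod _ h0, map_zero] at h1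
  rw [h1]
  refine finsum_congr fun v => ?_
  simp [g, nuL, div_eq_mul_inv]

theorem I_bezout [CharZero k] (v : PS.ι) (x y : L) : ∃ g a b x' y' : L, a ∈ PS.I L v ∧ b ∈ PS.I L v ∧
    x' ∈ PS.I L v ∧ y' ∈ PS.I L v ∧ g = a * x + b * y ∧ x = g * x' ∧ y = g * y' := by
  let F := IntermediateField.adjoin (RatFunc k) {x, y}
  have : FiniteDimensional (RatFunc k) F := IntermediateField.finiteDimensional_adjoin_pair
    (Algebra.IsAlgebraic.isAlgebraic x).isIntegral (Algebra.IsAlgebraic.isAlgebraic y).isIntegral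
  let x' : F := ⟨x, IntermediateField.subset_adjoin _ _ (by simp)⟩
  let y' : F := ⟨y, IntermediateField.subset_adjoin _ _ (by simp)⟩
  have := PS.I_pid F v
  obtain ⟨d, hd, hd0, h1⟩ := PS.exists_denom F v x'
  obtain ⟨e, he, he0, h2⟩ := PS.exists_denom F v y'
  let D : PS.I F v := ⟨_, (PS.algebraMap_mem_I_iff F v d).2 hd⟩
  let E : PS.I F v := ⟨_, (PS.algebraMap_mem_I_iff F v e).2 he⟩
  let X : PS.I F v := E * ⟨_, h1⟩
  let Y : PS.I F v := D * ⟨_, h2⟩
  obtain ⟨a, b, hab⟩ := IsBezout.gcd_eq_sum X Y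
  obtain ⟨x1, hx1⟩ := IsBezout.gcd_dvd_left X Y
  obtain ⟨y1, hy1⟩ := IsBezout.gcd_dvd_right X Y
  let φ : PS.I F v →+* L := (F.val : F →+* L).comp (PS.I F v).subtype
  have hφ : ∀ z, φ z ∈ PS.I L v := fun z => (PS.map_mem_I_iff F.val v (z : F)).2 z.2
  have hX : φ X = algebraMap (RatFunc k) L e * (algebraMap (RatFunc k) L d * x) := rfl
  have hY : φ Y = algebraMap (RatFunc k) L d * (algebraMap (RatFunc k) L e * y) := rfl
  have hd' : algebraMap (RatFunc k) L d ≠ 0 := by simpa using hd0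
  have he' : algebraMap (RatFunc k) L e ≠ 0 := by simpa using he0
  have q1 := congrArg φ hab
  have q2 := congrArg φ hx1
  have q3 := congrArg φ hy1
  rw [map_add, map_mul φ a X, map_mul φ b Y, hX, hY] at q1
  rw [map_mul φ _ x1, hX] at q2
  rw [map_mul φ _ y1, hY] at q3
  refine ⟨φ (IsBezout.gcd X Y) / (algebraMap (RatFunc k) L d * algebraMap (RatFunc k) L e),
    φ a, φ b, φ x1, φ y1, hφ _, hφ _, hφ _, hφ _, ?_, ?_, ?_⟩
  · rw [← q1]; field_simp
  · rw [div_mul_eq_mul_div, ← q2]; field_simp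
  · rw [div_mul_eq_mul_div, ← q3]; field_simp

/-- the adelic system of `L` -/
abbrev ad [CharZero k] : AdSys L where
  ι := PS.ι
  I := PS.I L
  ν := PS.nuL L
  ν_mul := PS.nuL_mul L
  ν_nonneg := PS.nuL_nonneg L
  fin_supp := PS.I_fin_supp L
  prod := PS.nuL_prod L
  bezout := PS.I_bezout L

open Classical in
/-- local generators of `O(n)`: `X ^ n` at infinity, `1` elsewhere -/
def uInf (n : ℤ) : PS.ι → L :=
  fun v => if v = PS.inf then algebraMap (RatFunc k) L RatFunc.X ^ n else 1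

theorem uInf_idele [CharZero k] (n : ℤ) : (PS.ad L).IsIdele (PS.uInf L n) := by
  refine ⟨fun v => ?_, (Set.finite_singleton PS.inf).subset fun v hv => ?_⟩
  · unfold uInf
    split_ifs
    · exact zpow_ne_zero _ (by simpa using RatFunc.X_ne_zero)
    · exact one_ne_zero
  · by_contra h
    have h1 : PS.uInf L n v = 1 := if_neg h
    simp only [h1, inv_one, or_self, Set.mem_ofPred_eq] at hv
    exact hv (one_mem _)

theorem deg_uInf [CharZero k] (n : ℤ) : (PS.ad L).deg (PS.uInf L n) = n := by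
  unfold AdSys.deg
  rw [finsum_eq_single _ PS.inf]
  · have h1 : PS.uInf L n PS.inf = algebraMap (RatFunc k) L (RatFunc.X ^ n) := by
      rw [map_zpow₀]; exact if_pos rfl
    show -PS.nuL L PS.inf (PS.uInf L n PS.inf) = n
    rw [h1, PS.nuL_algebraMap L _ (zpow_ne_zero _ RatFunc.X_ne_zero),
      PS.nu_zpow _ RatFunc.X_ne_zero, PS.nu_inf_X]
    push_cast
    ring
  · intro v hv
    have h1 : PS.uInf L n v = algebraMap (RatFunc k) L 1 := by
      rw [map_one]; exact if_neg hv
    show PS.nuL L v (PS.uInf L n v) = 0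
    rw [h1, PS.nuL_algebraMap L _ one_ne_zero, PS.nu_one]
    rfl

theorem ad_hasOne [CharZero k] : (PS.ad L).HasOne := by
  refine ⟨PS.uInf L 1, PS.uInf_idele L 1, by simpa using PS.deg_uInf L 1, ?_⟩
  refine (Set.toFinite {algebraMap (RatFunc k) L RatFunc.X ^ (1 : ℤ), 1}).subset ?_
  rintro _ ⟨v, rfl⟩
  unfold uInf
  split_ifs <;> simp

theorem exists_denom_finset (v : PS.ι) (S : Finset L) :
    ∃ d ∈ PS.O v, d ≠ 0 ∧ ∀ x ∈ S, algebraMap (RatFunc k) L d * x ∈ PS.I L v := by
  classical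
  induction S using Finset.induction_on with
  | empty => exact ⟨1, one_mem _, one_ne_zero, by simp⟩
  | insert a S _ ih =>
    obtain ⟨d, h1, h2, h3⟩ := ih
    obtain ⟨e, g1, g2, g3⟩ := PS.exists_denom L v a
    refine ⟨d * e, mul_mem h1 g1, mul_ne_zero h2 g2, fun x hx => ?_⟩
    rcases Finset.mem_insert.1 hx with rfl | hx
    · rw [map_mul, mul_assoc]
      exact mul_mem ((PS.algebraMap_mem_I_iff L v d).2 h1) g3
    · rw [map_mul, mul_comm (algebraMap _ L d), mul_assoc]
      exact mul_mem ((PS.algebraMap_mem_I_iff L v e).2 g1) (h3 x hx)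

/-- The trace dual of `I v` is contained in `u v • I v`.  (Take a basis `ω` of `L`, the trace dual basis `ω*`;
`y = ∑ Tr(y ω i) ω* i`; at almost all places all `ω i`, `ω* i` are integral and `u v = 1`; at the others use
denominators.) -/
theorem exists_trace_dual [CharZero k] [FiniteDimensional (RatFunc k) L] :
    ∃ u : PS.ι → L, (PS.ad L).IsIdele u ∧ ∀ v (y : L),
      (∀ r ∈ PS.I L v, Algebra.trace (RatFunc k) L (y * r) ∈ PS.O v) → (u v)⁻¹ * y ∈ PS.I L v := by
  classical
  let ω := Module.finBasis (RatFunc k) L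
  let S : Finset L := Finset.univ.image ω ∪ Finset.univ.image ω.traceDual
  have key : ∀ v, ∃ d ∈ PS.O v, d ≠ 0 ∧ (∀ x ∈ S, algebraMap (RatFunc k) L d * x ∈ PS.I L v) ∧
      ((∀ x ∈ S, x ∈ PS.I L v) → d = 1) := by
    intro v
    by_cases h : ∀ x ∈ S, x ∈ PS.I L v
    · exact ⟨1, one_mem _, one_ne_zero, by simpa using h, fun _ => rfl⟩
    · obtain ⟨d, h1, h2, h3⟩ := PS.exists_denom_finset L v S
      exact ⟨d, h1, h2, h3, fun h' => absurd h' h⟩
  choose d h1 h2 h3 h4 using key
  have h5 : ∀ v, algebraMap (RatFunc k) L (d v) ≠ 0 := fun v => by simpa using h2 v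
  refine ⟨fun v => (algebraMap (RatFunc k) L (d v) ^ 2)⁻¹, ⟨fun v => inv_ne_zero (pow_ne_zero _ (h5 v)),
    (Set.Finite.biUnion S.finite_toSet fun x _ => PS.I_fin_supp L x).subset fun v hv => ?_⟩,
    fun v y hy => ?_⟩
  · by_contra hc
    simp only [Set.mem_iUnion, Set.mem_ofPred_eq, not_exists, not_not] at hc
    have := h4 v hc
    simp only [this, map_one, one_pow, inv_one, or_self, Set.mem_ofPred_eq] at hv
    exact hv (one_mem _)
  · rw [inv_inv, ← ω.traceDual.sum_repr y, Finset.mul_sum]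
    refine sum_mem fun i _ => ?_
    have a1 := hy _ (h3 v (ω i) (by simp [S]))
    have a2 := h3 v (ω.traceDual i) (by simp [S])
    have a3 := mul_mem ((PS.algebraMap_mem_I_iff L v _).2 a1) a2
    convert a3 using 1
    rw [Module.Basis.traceDual_repr_apply, Algebra.traceForm_apply, mul_left_comm y,
      ← Algebra.smul_def (d v) (y * ω i), map_smul, smul_eq_mul,
      map_mul (algebraMap (RatFunc k) L) (d v), Algebra.smul_def]
    ring

end PlaceSys

end

end Crest.Agent.R169
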