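import Crest.Agent.R169.LAS
import Crest.Agent.R169.GamA
import Crest.Agent.R169.Omega
import Crest.Agent.R169.Iwa

/-! # The generic fibre of the first projection: stalks and local matrices -/

set_option autoImplicit false
set_option linter.unusedSectionVars false

namespace Crest.Agent.R169

noncomputable section

open Matrix Polynomial

variable (PS : PlaceSys K1)
variable {K : Type} [Field K] [Algebra K0 K] [Algebra ℂ K] [IsScalarTower ℂ K0 K] [FiniteDimensional K0 K]
  {S : Surf K}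
variable {V : Type} [AddCommGroup V] [Module K V] [Module ℂ V] [IsScalarTower ℂ K V]

open Classical in
/-- the chart that sees the place `v` -/
def cv (v : PS.ι) : Chart := (false, if v = PS.inf then true else false)

variable (K) in
/-- the lattice of `M` at the place `v` of `ℂ(λ)(μ)` -/
def stalk (M : Pre V) (v : PS.ι) : Submodule (PS.I K v) V :=
  Submodule.span (PS.I K v) (M (cv PS v) : Set V)

variable (K) in
/-- `g v` is the matrix of a basis of `stalk M v` in the basis `b` -/
def IsLocMat (M : Pre V) {n : Type} [Fintype n] (b : Module.Basis n K V) (g : PS.ι → Matrix n n K) :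
    Prop :=
  ∀ v x, (fun i => b.repr x i) ∈ (PS.ad K).Lat v (g v) ↔ x ∈ stalk PS K M v

variable (K) in
/-- over the algebraic closure, the generic fibre of `M` has a flag with degrees in `[lo, hi]` -/
def CTri (M : Pre V) (lo hi : ℚ) : Prop :=
  ∃ (n : Type) (_ : Fintype n) (_ : DecidableEq n) (b : Module.Basis n K V) (g : PS.ι → Matrix n n K),
    (PS.ad K).IsBun g ∧ IsLocMat PS K M b g ∧
    (PS.ad (AlgebraicClosure K)).Tri (fun v => (g v).map (algebraMap K (AlgebraicClosure K))) lo hi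

private theorem cv_inf : cv PS PS.inf = (false, true) := by simp [cv]

private theorem cv_fin {v : PS.ι} (hv : v ≠ PS.inf) : cv PS v = (false, false) := by simp [cv, hv]

private theorem cv_eq (v : PS.ι) : cv PS v = (false, (cv PS v).2) := rfl

private theorem aeval_mu0 (t : K1[X]) : aeval (co mu0 false) t = algebraMap K1[X] K0 t := by
  have : co mu0 false = algebraMap K1[X] K0 X := by simp [co, mu0, RatFunc.algebraMap_X]
  rw [this, aeval_algebraMap_apply, aeval_X_left_apply]

private theorem co_mu0_true : co mu0 true = (RatFunc.X : K0)⁻¹ := by simp [co, mu0]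

private theorem aeval_lam0 (p : ℂ[X]) : aeval lam0 p = algebraMap K1 K0 (aeval (RatFunc.X : K1) p) := by
  rw [lam0, aeval_algebraMap_apply]

private theorem aeval_X_K1_ne_zero {p : ℂ[X]} (hp : p ≠ 0) : aeval (RatFunc.X : K1) p ≠ 0 := by
  have : (RatFunc.X : K1) = algebraMap ℂ[X] K1 X := RatFunc.algebraMap_X.symm
  rw [this, aeval_algebraMap_apply, aeval_X_left_apply]
  exact fun h => hp ((IsFractionRing.injective ℂ[X] K1) (by rw [h, map_zero]))

private theorem aeval_lam0_ne_zero {p : ℂ[X]} (hp : p ≠ 0) : aeval lam0 p ≠ 0 := by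
  rw [aeval_lam0]
  exact (_root_.map_ne_zero _).2 (aeval_X_K1_ne_zero hp)

private theorem nu_aeval_lam0 (v : PS.ι) {p : ℂ[X]} (hp : p ≠ 0) : PS.nu v (aeval lam0 p) = 0 := by
  rw [aeval_lam0]
  exact PS.nu_algebraMap v (aeval_X_K1_ne_zero hp)

omit [FiniteDimensional K0 K] in
private theorem aeval_lam0_map (p : ℂ[X]) : algebraMap K0 K (aeval lam0 p) = aeval (lam K) p := by
  rw [lam, aeval_algebraMap_apply]

private theorem aeval_co_ne_zero (i : Bool) {t : K1[X]} (ht : t ≠ 0) : aeval (co mu0 i) t ≠ 0 := by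
  have h1 : Transcendental K1 (RatFunc.X : K0) := RatFunc.transcendental_X
  have h2 : Transcendental K1 (co mu0 i) := by
    cases i
    · simpa [co, mu0] using h1
    · rw [co_mu0_true]
      exact fun h => h1 (IsAlgebraic.inv_iff.1 h)
  exact fun h => h2 ⟨t, ht, h⟩

private theorem aeval_co_mem_O (v : PS.ι) (t : K1[X]) : aeval (co mu0 (cv PS v).2) t ∈ PS.O v := by
  by_cases hv : v = PS.inf
  · subst hv
    rw [cv_inf, PS.loc_inf]
    exact ⟨1, t, by simp, by rw [map_one, one_mul, co_mu0_true]⟩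
  · rw [cv_fin PS hv, aeval_mu0]
    exact PS.poly_mem v hv t

private theorem lam0_mem_PP (i : Bool) : lam0 ∈ PP K0 (false, i) :=
  Algebra.subset_adjoin (Or.inl rfl)

private theorem co_mem_PP (i : Bool) : co mu0 i ∈ PP K0 (false, i) :=
  Algebra.subset_adjoin (Or.inr rfl)

private theorem aeval_lam0_mem_PP (i : Bool) (p : ℂ[X]) : aeval lam0 p ∈ PP K0 (false, i) := by
  have : aeval lam0 p ∈ Algebra.adjoin ℂ {lam0} := aeval_mem_adjoin_singleton ℂ lam0
  exact Algebra.adjoin_le (Set.singleton_subset_iff.2 (lam0_mem_PP i)) this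

private theorem exists_aeval_of_mem_PP (i : Bool) {s : K0} (hs : s ∈ PP K0 (false, i)) :
    ∃ t : K1[X], aeval (co mu0 i) t = s := by
  have : PP K0 (false, i) ≤ ((aeval (co mu0 i) : K1[X] →ₐ[K1] K0).range).restrictScalars ℂ := by
    refine Algebra.adjoin_le ?_
    rintro y (rfl | rfl)
    · exact ⟨C RatFunc.X, by simp [co, lam_K0, lam0]⟩
    · exact ⟨X, by simp [mu_K0]⟩
  exact this hs

private theorem exists_lam_mul_mem_PP (i : Bool) (t : K1[X]) :
    ∃ p : ℂ[X], p ≠ 0 ∧ aeval lam0 p * aeval (co mu0 i) t ∈ PP K0 (false, i) := by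
  induction t using Polynomial.induction_on' with
  | add t t' ht ht' =>
    obtain ⟨p, hp, h⟩ := ht
    obtain ⟨p', hp', h'⟩ := ht'
    refine ⟨p * p', mul_ne_zero hp hp', ?_⟩
    have : aeval lam0 (p * p') * aeval (co mu0 i) (t + t') =
        aeval lam0 p' * (aeval lam0 p * aeval (co mu0 i) t) +
        aeval lam0 p * (aeval lam0 p' * aeval (co mu0 i) t') := by
      rw [map_mul, map_add]; ring
    rw [this]
    exact add_mem (mul_mem (aeval_lam0_mem_PP i _) h) (mul_mem (aeval_lam0_mem_PP i _) h')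
  | monomial m a =>
    obtain ⟨p, q, hq, h⟩ := K1_frac a
    refine ⟨q, fun h0 => hq (by rw [h0, map_zero]), ?_⟩
    have : aeval lam0 q * aeval (co mu0 i) (monomial m a) = aeval lam0 p * co mu0 i ^ m := by
      rw [aeval_monomial, aeval_lam0, aeval_lam0, ← h, map_mul]; ring
    rw [this]
    exact mul_mem (aeval_lam0_mem_PP i _) (pow_mem (co_mem_PP i) m)

private theorem nu_inv_add (v : PS.ι) {s : K0} (hs : s ≠ 0) : PS.nu v s + PS.nu v s⁻¹ = 0 := by
  rw [← PS.nu_mul v _ _ hs (inv_ne_zero hs), mul_inv_cancel₀ hs, PS.nu_one]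

private theorem inv_mem_O (v : PS.ι) {s : K0} (hs : s ≠ 0) (h : PS.nu v s = 0) : s⁻¹ ∈ PS.O v := by
  rw [PS.mem_iff v _ (inv_ne_zero hs)]
  have := nu_inv_add PS v hs
  omega

private theorem nu_eq_zero_of_inv_mem (v : PS.ι) {s : K0} (hs : s ≠ 0) (h : s ∈ PS.O v)
    (h' : s⁻¹ ∈ PS.O v) : PS.nu v s = 0 := by
  rw [PS.mem_iff v _ hs] at h
  rw [PS.mem_iff v _ (inv_ne_zero hs)] at h'
  have := nu_inv_add PS v hs
  omega

theorem PP_le_O (v : PS.ι) {s : K0} (hs : s ∈ PP K0 (cv PS v)) : s ∈ PS.O v := by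
  obtain ⟨t, rfl⟩ := exists_aeval_of_mem_PP (cv PS v).2 hs
  exact aeval_co_mem_O PS v t

/-- `O v` is a localisation of the chart ring (`loc_fin`, `loc_inf`; clear the denominators in `ℂ[λ]`) -/
theorem exists_PP_mul_mem (v : PS.ι) {f : K0} (hf : f ∈ PS.O v) :
    ∃ s ∈ PP K0 (cv PS v), s ≠ 0 ∧ PS.nu v s = 0 ∧ s * f ∈ PP K0 (cv PS v) := by
  have key : ∃ s t : K1[X], s ≠ 0 ∧ PS.nu v (aeval (co mu0 (cv PS v).2) s) = 0 ∧
      aeval (co mu0 (cv PS v).2) s * f = aeval (co mu0 (cv PS v).2) t := by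
    by_cases hv : v = PS.inf
    · subst hv
      obtain ⟨s, t, hs, h⟩ := (PS.loc_inf f).1 hf
      have hs0 : s ≠ 0 := fun h0 => hs (by rw [h0, coeff_zero])
      have hne := aeval_co_ne_zero (cv PS PS.inf).2 hs0
      refine ⟨s, t, hs0, nu_eq_zero_of_inv_mem PS _ hne (aeval_co_mem_O PS _ s) ?_, ?_⟩
      · rw [cv_inf, co_mu0_true] at hne ⊢
        rw [PS.loc_inf]
        exact ⟨s, 1, hs, by rw [mul_inv_cancel₀ hne, map_one]⟩
      · rw [cv_inf, co_mu0_true]
        exact h
    · obtain ⟨s, t, hs, h1, h2⟩ := PS.loc_fin v hv f hf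
      rw [cv_fin PS hv]
      exact ⟨s, t, hs, by rw [aeval_mu0]; exact h1, by rw [aeval_mu0, aeval_mu0]; exact h2⟩
  obtain ⟨s, t, hs, h1, h2⟩ := key
  obtain ⟨p, hp, hps⟩ := exists_lam_mul_mem_PP (cv PS v).2 s
  obtain ⟨q, hq, hqt⟩ := exists_lam_mul_mem_PP (cv PS v).2 t
  have hp' := aeval_lam0_ne_zero hp
  have hq' := aeval_lam0_ne_zero hq
  have hs' := aeval_co_ne_zero (cv PS v).2 hs
  refine ⟨aeval lam0 q * (aeval lam0 p * aeval (co mu0 (cv PS v).2) s),
    mul_mem (aeval_lam0_mem_PP _ q) hps, mul_ne_zero hq' (mul_ne_zero hp' hs'), ?_, ?_⟩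
  · rw [PS.nu_mul v _ _ hq' (mul_ne_zero hp' hs'), PS.nu_mul v _ _ hp' hs', h1,
      nu_aeval_lam0 PS v hp, nu_aeval_lam0 PS v hq]
    rfl
  · have : aeval lam0 q * (aeval lam0 p * aeval (co mu0 (cv PS v).2) s) * f =
        aeval lam0 p * (aeval lam0 q * aeval (co mu0 (cv PS v).2) t) := by
      rw [← h2]; ring
    rw [this]
    exact mul_mem (aeval_lam0_mem_PP _ p) hqt

omit [FiniteDimensional K0 K] in
private theorem map_mem_R (S : Surf K) (c : Chart) {s : K0} (hs : s ∈ PP K0 c) :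
    algebraMap K0 K s ∈ S.R c :=
  S.P_le c ((mem_PP_iff K c _).2 ⟨s, hs, rfl⟩)

theorem R_le_I (v : PS.ι) {r : K} (hr : r ∈ S.R (cv PS v)) : r ∈ PS.I K v := by
  have h1 : IsIntegral (PP K (cv PS v)) r := S.R_integral _ hr
  have hle : (PP K (cv PS v)).toSubring ≤ (integralClosure (PS.O v) K).toSubring := by
    intro x hx
    obtain ⟨y, hy, rfl⟩ := (mem_PP_iff K _ x).1 hx
    exact (PS.algebraMap_mem_I_iff K v y).2 (PP_le_O PS v hy)
  have h2 : IsIntegral (integralClosure (PS.O v) K) r :=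
    IsIntegral.map_of_comp_eq (R := PP K (cv PS v)) (T := integralClosure (PS.O v) K)
      (Subring.inclusion hle) (RingHom.id K) (by ext; rfl) h1
  exact isIntegral_trans r h2

/-- uses `Surf.normal` -/
theorem exists_PP_mul_mem_R (v : PS.ι) {r : K} (hr : r ∈ PS.I K v) :
    ∃ s ∈ PP K0 (cv PS v), s ≠ 0 ∧ PS.nu v s = 0 ∧ algebraMap K0 K s * r ∈ S.R (cv PS v) := by
  have hle : (PP K0 (cv PS v)).toSubring ≤ (PS.O v).toSubring := fun x hx => PP_le_O PS v hx
  let ι : PP K0 (cv PS v) →+* PS.O v := Subring.inclusion hle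
  let _ : Algebra (PP K0 (cv PS v)) (PS.O v) := ι.toAlgebra
  have : IsScalarTower (PP K0 (cv PS v)) (PS.O v) K := IsScalarTower.of_algebraMap_eq fun _ => rfl
  let T : Submonoid (PP K0 (cv PS v)) :=
    { carrier := {s | (s : K0) ≠ 0 ∧ PS.nu v s = 0}
      mul_mem' := fun {a b} ha hb => ⟨mul_ne_zero ha.1 hb.1, by
        have := PS.nu_mul v _ _ ha.1 hb.1
        rw [ha.2, hb.2] at this
        exact this⟩
      one_mem' := ⟨one_ne_zero, PS.nu_one v⟩ }
  have : IsLocalization T (PS.O v) := by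
    refine ⟨?_, ?_, ?_⟩
    · rintro ⟨s, hs⟩
      refine IsUnit.of_mul_eq_one (⟨(s : K0)⁻¹, inv_mem_O PS v hs.1 hs.2⟩ : PS.O v) ?_
      exact Subtype.ext (mul_inv_cancel₀ hs.1)
    · intro f
      obtain ⟨s, hs, h0, h1, h2⟩ := exists_PP_mul_mem PS v f.2
      exact ⟨(⟨s * f, h2⟩, ⟨⟨s, hs⟩, h0, h1⟩), Subtype.ext (mul_comm _ _)⟩
    · intro x y h
      refine ⟨1, ?_⟩
      have : x = y := Subtype.ext (congrArg (fun z : PS.O v => (z : K0)) h)
      rw [this]
  obtain ⟨⟨m, hm⟩, h⟩ := IsIntegral.exists_multiple_integral_of_isLocalization T r hr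
  refine ⟨m, m.2, hm.1, hm.2, S.normal _ ?_⟩
  let φ : PP K0 (cv PS v) →+* S.R (cv PS v) :=
    ((algebraMap K0 K).comp (PP K0 (cv PS v)).val.toRingHom).codRestrict (S.R (cv PS v))
      fun x => map_mem_R S _ x.2
  have h2 := IsIntegral.map_of_comp_eq (T := S.R (cv PS v)) φ (RingHom.id K) (by ext; rfl) h
  have h3 : (RingHom.id K) ((⟨m, hm⟩ : T) • r) = algebraMap K0 K m * r := by
    rw [← Algebra.smul_def]; rfl
  rwa [h3] at h2

theorem IsSheaf.mem_stalk_iff {M : Pre V} (hM : IsSheaf S M) (v : PS.ι) (x : V) :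
    x ∈ stalk PS K M v ↔
      ∃ s ∈ PP K0 (cv PS v), s ≠ 0 ∧ PS.nu v s = 0 ∧ algebraMap K0 K s • x ∈ M (cv PS v) := by
  constructor
  · intro hx
    induction hx using Submodule.span_induction with
    | mem x hx => exact ⟨1, one_mem _, one_ne_zero, PS.nu_one v, by simpa using hx⟩
    | zero => exact ⟨1, one_mem _, one_ne_zero, PS.nu_one v, by simp⟩
    | add x y _ _ hx hy =>
      obtain ⟨s, hs, h0, h1, h2⟩ := hx
      obtain ⟨s', hs', h0', h1', h2'⟩ := hy
      refine ⟨s * s', mul_mem hs hs', mul_ne_zero h0 h0', ?_, ?_⟩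
      · rw [PS.nu_mul v _ _ h0 h0', h1, h1']; rfl
      · have : algebraMap K0 K (s * s') • (x + y) =
            algebraMap K0 K s' • algebraMap K0 K s • x + algebraMap K0 K s • algebraMap K0 K s' • y := by
          rw [map_mul, smul_add, ← mul_smul, ← mul_smul, mul_comm (algebraMap K0 K s')]
        rw [this]
        exact add_mem (hM.smul_mem _ (map_mem_R S _ hs') h2) (hM.smul_mem _ (map_mem_R S _ hs) h2')
    | smul r x _ hx =>
      obtain ⟨s, hs, h0, h1, h2⟩ := hx
      obtain ⟨s', hs', h0', h1', h2'⟩ := exists_PP_mul_mem_R (S := S) PS v r.2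
      refine ⟨s * s', mul_mem hs hs', mul_ne_zero h0 h0', ?_, ?_⟩
      · rw [PS.nu_mul v _ _ h0 h0', h1, h1']; rfl
      · have : algebraMap K0 K (s * s') • (r • x) =
            (algebraMap K0 K s' * r) • algebraMap K0 K s • x := by
          rw [map_mul, Subring.smul_def, ← mul_smul, ← mul_smul]
          congr 1
          ring
        rw [this]
        exact hM.smul_mem _ h2' h2
  · rintro ⟨s, -, h0, h1, h2⟩
    have h3 : algebraMap K0 K s⁻¹ ∈ PS.I K v :=
      (PS.algebraMap_mem_I_iff K v _).2 (inv_mem_O PS v h0 h1)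
    have h4 : x = (⟨_, h3⟩ : PS.I K v) • algebraMap K0 K s • x := by
      rw [Subring.smul_def, ← mul_smul, ← map_mul, inv_mul_cancel₀ h0, map_one, one_smul]
    rw [h4]
    exact Submodule.smul_mem _ _ (Submodule.subset_span h2)

/-- the coordinates of the stalk are generated by the columns of a matrix depending on the chart -/
private theorem IsSheaf.exists_genMat {M : Pre V} (hM : IsSheaf S M) {n : Type} [Fintype n]
    (b : Module.Basis n K V) (c : Chart) : ∃ (m : ℕ) (G : Matrix n (Fin m) K), ∀ v, cv PS v = c →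
      ∀ x, (fun i => b.repr x i) ∈ (PS.ad K).Lat v G ↔ x ∈ stalk PS K M v := by
  obtain ⟨s, hs⟩ := hM.fg c
  let e : Fin s.card → V := fun j => (s.equivFin.symm j : V)
  have he : Set.range e = (s : Set V) := by
    ext x
    constructor
    · rintro ⟨j, rfl⟩
      exact (s.equivFin.symm j).2
    · intro hx
      exact ⟨s.equivFin ⟨x, hx⟩, by simp [e]⟩
  refine ⟨s.card, Matrix.of fun i j => b.repr (e j) i, ?_⟩
  rintro v rfl x
  have hspan : stalk PS K M v = Submodule.span (PS.I K v) (Set.range e) := by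
    rw [he]
    apply le_antisymm
    · refine Submodule.span_le.2 fun y hy => ?_
      have hy' := (hs y).1 hy
      clear hy
      induction hy' using Submodule.span_induction with
      | mem y hy => exact Submodule.subset_span hy
      | zero => exact zero_mem _
      | add y z _ _ hy hz => exact add_mem hy hz
      | smul r y _ hy =>
        exact (Submodule.span (PS.I K v) (s : Set V)).smul_mem ⟨r, R_le_I PS v r.2⟩ hy
    · exact Submodule.span_mono fun y hy => (hs y).2 (Submodule.subset_span hy)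
  rw [hspan, Submodule.mem_span_range_iff_exists_fun]
  constructor
  · rintro ⟨y, hy, h⟩
    refine ⟨fun j => ⟨y j, hy j⟩, b.ext_elem fun i => ?_⟩
    have := congrFun h i
    simp only [mulVec, dotProduct, of_apply] at this
    rw [this, map_sum, Finsupp.finsetSum_apply]
    refine Finset.sum_congr rfl fun j _ => ?_
    rw [Subring.smul_def, map_smul, Finsupp.smul_apply, smul_eq_mul, mul_comm]
  · rintro ⟨y, rfl⟩
    refine ⟨fun j => y j, fun j => (y j).2, funext fun i => ?_⟩
    simp only [mulVec, dotProduct, of_apply]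
    rw [map_sum, Finsupp.finsetSum_apply]
    refine Finset.sum_congr rfl fun j _ => ?_
    rw [Subring.smul_def, map_smul, Finsupp.smul_apply, smul_eq_mul, mul_comm]

private theorem AdSys.exists_square {L : Type} [Field L] (A : AdSys L) (v : A.ι) {n p : Type} [Fintype n]
    [Fintype p] (G : Matrix n p L) : ∃ t : Matrix n n L, A.Lat v t = A.Lat v G := by
  let e := Fintype.equivFin n
  obtain ⟨t, -, ht⟩ := AdSys.iwasawa (A := A) v _ (G.submatrix e.symm id)
  refine ⟨t.submatrix e e, ?_⟩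
  ext x
  have h1 : x ∈ A.Lat v G ↔ x ∘ e.symm ∈ A.Lat v (G.submatrix e.symm id) := by
    refine exists_congr fun y => and_congr_right fun _ => ?_
    constructor
    · rintro rfl
      rfl
    · intro h
      funext i
      have := congrFun h (e i)
      simpa [mulVec] using this
  rw [h1, ht]
  constructor
  · rintro ⟨y, hy, rfl⟩
    refine ⟨y ∘ e.symm, fun j => hy _, ?_⟩
    rw [submatrix_mulVec_equiv]
    funext j
    simp
  · rintro ⟨y, hy, h⟩
    refine ⟨y ∘ e, fun j => hy _, ?_⟩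
    rw [submatrix_mulVec_equiv]
    have : (y ∘ e) ∘ e.symm = y := by
      funext j
      simp
    rw [this, ← h]
    funext i
    simp

/-- `stalk M v` is f.g. and torsion free over the PID `I K v` (or use `iwasawa` for the generators); at almost all
places it is the standard lattice -/
theorem IsSheaf.exists_locMat {M : Pre V} (hM : IsSheaf S M) {n : Type} [Fintype n] [DecidableEq n]
    (b : Module.Basis n K V) :
    ∃ g : PS.ι → Matrix n n K, (PS.ad K).IsBun g ∧ IsLocMat PS K M b g := by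
  choose m G hG using hM.exists_genMat PS b
  choose g hg using fun v : PS.ι => (PS.ad K).exists_square v (G (cv PS v))
  have hloc : IsLocMat PS K M b g := fun v x => by
    rw [hg v]
    exact hG _ v rfl x
  choose f hf hf0 hfM using fun c i => hM.frac c (b i)
  have hsingle : ∀ v i, Pi.single i (f (cv PS v) i) ∈ (PS.ad K).Lat v (g v) := by
    intro v i
    have h1 := (hloc v _).2 (Submodule.subset_span (hfM (cv PS v) i))
    convert h1 using 1
    funext j
    by_cases hj : j = i
    · subst hj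
      simp
    · simp [hj, Finsupp.single_eq_of_ne hj]
  refine ⟨g, ⟨fun v hdet => ?_, ?_⟩, hloc⟩
  · obtain ⟨u, hu0, hu⟩ := Matrix.exists_vecMul_eq_zero_iff.2 hdet
    apply hu0
    funext i
    obtain ⟨y, -, hy⟩ := hsingle v i
    have h1 : u ⬝ᵥ Pi.single i (f (cv PS v) i) = 0 := by
      rw [hy, dotProduct_mulVec, hu, zero_dotProduct]
    rw [dotProduct_single] at h1
    exact (mul_eq_zero.1 h1).resolve_right (hf0 _ _)
  · have hfin : ({PS.inf} ∪ ((⋃ i, ⋃ j, {v | G (false, false) i j ∉ PS.I K v}) ∪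
        ⋃ i, {v | (f (false, false) i)⁻¹ ∉ PS.I K v}) : Set PS.ι).Finite :=
      (Set.finite_singleton _).union
        ((Set.finite_iUnion fun i => Set.finite_iUnion fun j => PS.I_fin_supp K _).union
          (Set.finite_iUnion fun i => PS.I_fin_supp K _))
    refine hfin.subset fun v hv => ?_
    by_contra hn
    simp only [Set.mem_union, Set.mem_singleton_iff, Set.mem_iUnion, Set.mem_ofPred_eq, not_or,
      not_exists, not_not] at hn
    obtain ⟨hv0, hG1, hf1⟩ := hn
    apply hv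
    have hc := cv_fin PS hv0
    ext x
    rw [AdSys.mem_Lat_one]
    constructor
    · rw [hg v, hc]
      rintro ⟨y, hy, rfl⟩ i
      exact Subring.sum_mem (PS.I K v) (t := Finset.univ) fun j _ => mul_mem (hG1 i j) (hy j)
    · intro hx
      have h1 : x = fun i => b.repr (∑ j, x j • b j) i := by
        funext i
        simp [Finsupp.single_apply, Finset.sum_apply']
      rw [h1, hloc]
      refine Submodule.sum_mem _ fun j _ => ?_
      have h2 : x j • b j = (⟨x j * (f (false, false) j)⁻¹, mul_mem (hx j) (hf1 j)⟩ : PS.I K v) •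
          (f (false, false) j • b j) := by
        rw [Subring.smul_def, ← mul_smul, mul_assoc, inv_mul_cancel₀ (hf0 _ _), mul_one]
      rw [h2]
      refine Submodule.smul_mem _ _ (Submodule.subset_span ?_)
      rw [hc]
      exact hfM _ _

/-- the conductor of `x` into `ℂ(λ) • M (false, i)` -/
private def IsSheaf.condL {M : Pre V} (hM : IsSheaf S M) (i : Bool) (x : V) : Ideal K1[X] where
  carrier := {t | ∃ p : ℂ[X], p ≠ 0 ∧
    algebraMap K0 K (aeval lam0 p * aeval (co mu0 i) t) • x ∈ M (false, i)}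
  zero_mem' := ⟨1, one_ne_zero, by simp⟩
  add_mem' := by
    rintro t t' ⟨p, hp, h⟩ ⟨p', hp', h'⟩
    refine ⟨p * p', mul_ne_zero hp hp', ?_⟩
    have : algebraMap K0 K (aeval lam0 (p * p') * aeval (co mu0 i) (t + t')) • x =
        algebraMap K0 K (aeval lam0 p') • algebraMap K0 K (aeval lam0 p * aeval (co mu0 i) t) • x +
        algebraMap K0 K (aeval lam0 p) • algebraMap K0 K (aeval lam0 p' * aeval (co mu0 i) t') • x := by
      rw [← mul_smul, ← mul_smul, ← add_smul, ← map_mul, ← map_mul, ← map_add, map_mul (aeval lam0),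
        map_add (aeval (co mu0 i))]
      congr 2
      ring
    rw [this]
    exact add_mem (hM.smul_mem _ (map_mem_R S _ (aeval_lam0_mem_PP i _)) h)
      (hM.smul_mem _ (map_mem_R S _ (aeval_lam0_mem_PP i _)) h')
  smul_mem' := by
    rintro u t ⟨p, hp, h⟩
    obtain ⟨q, hq, hqu⟩ := exists_lam_mul_mem_PP i u
    refine ⟨q * p, mul_ne_zero hq hp, ?_⟩
    have : algebraMap K0 K (aeval lam0 (q * p) * aeval (co mu0 i) (u • t)) • x =
        algebraMap K0 K (aeval lam0 q * aeval (co mu0 i) u) •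
          algebraMap K0 K (aeval lam0 p * aeval (co mu0 i) t) • x := by
      rw [← mul_smul, ← map_mul, map_mul (aeval lam0), smul_eq_mul, map_mul (aeval (co mu0 i))]
      congr 2
      ring
    rw [this]
    exact hM.smul_mem _ (map_mem_R S _ hqu) h

omit [FiniteDimensional K0 K] in
private theorem IsSheaf.mem_cond_of {M : Pre V} (hM : IsSheaf S M) (i : Bool) (x : V) {t : K1[X]}
    (h : algebraMap K0 K (aeval (co mu0 i) t) • x ∈ M (false, i)) : t ∈ hM.condL i x :=
  ⟨1, one_ne_zero, by rwa [map_one, one_mul]⟩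

omit [FiniteDimensional K0 K] in
private theorem IsSheaf.of_one_mem_cond {M : Pre V} (hM : IsSheaf S M) (i : Bool) (x : V)
    (h : 1 ∈ hM.condL i x) : ∃ p : ℂ[X], p ≠ 0 ∧ aeval (lam K) p • x ∈ M (false, i) := by
  obtain ⟨p, hp, h⟩ := h
  rw [map_one, mul_one, aeval_lam0_map] at h
  exact ⟨p, hp, h⟩

private theorem IsSheaf.exists_lam_fin {M : Pre V} (hM : IsSheaf S M) (x : V)
    (h : ∀ v, v ≠ PS.inf → x ∈ stalk PS K M v) :
    ∃ p : ℂ[X], p ≠ 0 ∧ aeval (lam K) p • x ∈ M (false, false) := by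
  refine hM.of_one_mem_cond false x ?_
  obtain ⟨d, hd⟩ := (IsPrincipalIdealRing.principal (hM.condL false x)).principal
  have hmem : ∀ t, t ∈ hM.condL false x ↔ d ∣ t := fun t => by
    rw [hd]
    exact Ideal.mem_span_singleton
  have hd0 : d ≠ 0 := by
    obtain ⟨f, hf, hf0, hfx⟩ := hM.frac' (false, false) x
    obtain ⟨y, hy, rfl⟩ := (mem_PP_iff K _ f).1 hf
    obtain ⟨t, rfl⟩ := exists_aeval_of_mem_PP false hy
    have h1 := (hmem t).1 (hM.mem_cond_of false x hfx)
    rintro rfl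
    rw [zero_dvd_iff] at h1
    exact hf0 (by rw [h1, map_zero, map_zero])
  have hd1 := aeval_co_ne_zero false hd0
  have hinv : ∀ v, v ≠ PS.inf → (aeval (co mu0 false) d)⁻¹ ∈ PS.O v := by
    intro v hv
    refine inv_mem_O PS v hd1 ?_
    obtain ⟨s, hs, h0, h1, h2⟩ := (hM.mem_stalk_iff PS v x).1 (h v hv)
    have hc := cv_fin PS hv
    rw [hc] at hs h2
    obtain ⟨t, rfl⟩ := exists_aeval_of_mem_PP false hs
    obtain ⟨e, rfl⟩ := (hmem t).1 (hM.mem_cond_of false x h2)
    rw [map_mul] at h0 h1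
    have he1 := right_ne_zero_of_mul h0
    rw [PS.nu_mul v _ _ hd1 he1] at h1
    have h3 := aeval_co_mem_O PS v d
    have h4 := aeval_co_mem_O PS v e
    rw [hc] at h3 h4
    rw [PS.mem_iff v _ hd1] at h3
    rw [PS.mem_iff v _ he1] at h4
    omega
  obtain ⟨p, hp⟩ := PS.glob _ hinv
  rw [hmem]
  refine ⟨p, IsFractionRing.injective K1[X] K0 ?_⟩
  rw [map_one, map_mul, ← hp, ← aeval_mu0, mul_inv_cancel₀ hd1]

private theorem IsSheaf.exists_lam_inf {M : Pre V} (hM : IsSheaf S M) (y : V)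
    (h : y ∈ stalk PS K M PS.inf) {m : ℕ} (hm : X ^ m ∈ hM.condL true y) :
    ∃ p : ℂ[X], p ≠ 0 ∧ aeval (lam K) p • y ∈ M (false, true) := by
  refine hM.of_one_mem_cond true y ?_
  obtain ⟨s, hs, h0, h1, h2⟩ := (hM.mem_stalk_iff PS _ y).1 h
  rw [cv_inf] at hs h2
  obtain ⟨t, rfl⟩ := exists_aeval_of_mem_PP true hs
  have ht := hM.mem_cond_of true y h2
  have hX : ¬ X ∣ t := by
    rintro ⟨e, rfl⟩
    rw [map_mul] at h0 h1
    have he1 := right_ne_zero_of_mul h0
    rw [PS.nu_mul _ _ _ (left_ne_zero_of_mul h0) he1, aeval_X, co_mu0_true] at h1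
    have h3 := nu_inv_add PS PS.inf (s := RatFunc.X) RatFunc.X_ne_zero
    rw [PS.nu_inf_X] at h3
    have h4 := aeval_co_mem_O PS PS.inf e
    rw [cv_inf, PS.mem_iff _ _ he1, co_mu0_true] at h4
    omega
  have : IsBezout K1[X] := IsBezout.of_isPrincipalIdealRing _
  obtain ⟨u, w, huw⟩ : IsCoprime (X ^ m) t :=
    ((irreducible_X.coprime_iff_not_dvd).2 hX).pow_left
  rw [← huw]
  exact add_mem (Ideal.mul_mem_left _ _ hm) (Ideal.mul_mem_left _ _ ht)

/-- Sections of `M(0,b)` on the generic fibre.  (`⇒`: the set of `s ∈ K1[X]` with `s • x ∈ K1 • M (ff,ff)` is an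
ideal not contained in any prime, so `p(λ) • x ∈ M (ff,ff)` for some `p ≠ 0`.  For the chart `(ff,tt)`: `y = μ^(-b) x`
satisfies `μ^(-n) y ∈ K1 • M (ff,tt)` by `compat` and `s(μ⁻¹) y ∈ K1 • M (ff,tt)` with `s(0) ≠ 0`; `X^n` and `s` are coprime.
The charts `(tt, ·)` follow from `compat'` for large `a`.) -/
theorem IsSheaf.generic_sections {M : Pre V} (hM : IsSheaf S M) (b : ℤ) (x : V) :
    (∀ v, (PS.uInf K b v)⁻¹ • x ∈ stalk PS K M v) ↔
      ∃ p : ℂ[X], p ≠ 0 ∧ ∃ a : ℤ, aeval (lam K) p • x ∈ Gam K M a b := by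
  have hinf : PS.uInf K b PS.inf = mu K ^ b := by simp [PlaceSys.uInf, mu, mu0]
  have hfin : ∀ v, v ≠ PS.inf → PS.uInf K b v = 1 := fun v hv => by simp [PlaceSys.uInf, hv]
  have hmu := mu_ne_zero K
  have hlamR : ∀ (i : Bool) (p : ℂ[X]), aeval (lam K) p ∈ S.R (false, i) := fun i p => by
    rw [← aeval_lam0_map]
    exact map_mem_R S _ (aeval_lam0_mem_PP i p)
  constructor
  · intro h
    obtain ⟨p, hp, hpx⟩ := hM.exists_lam_fin PS x fun v hv => by
      have := h v
      rwa [hfin v hv, inv_one, one_smul] at this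
    have hy := h PS.inf
    rw [hinf] at hy
    obtain ⟨n, hn⟩ := hM.compat' _ hpx
    obtain ⟨m, hm⟩ : ∃ m : ℕ, (n : ℤ) ≤ b + m := ⟨(n - b).toNat, by omega⟩
    have h1 := hn (false, true) n (b + m) le_rfl hm
    have hXm : X ^ m ∈ hM.condL true ((mu K ^ b)⁻¹ • x) := by
      refine ⟨p, hp, ?_⟩
      convert h1 using 1
      rw [← mul_smul, ← mul_smul, map_mul, aeval_lam0_map, map_pow, aeval_X, co_mu0_true, map_pow,
        map_inv₀]
      congr 1
      have : algebraMap K0 K RatFunc.X = mu K := rfl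
      rw [this]
      simp only [tau, hu, Bool.false_eq_true, if_false, if_true, _root_.one_zpow, one_mul, mul_one]
      rw [zpow_add₀ hmu, zpow_natCast, mul_inv, inv_pow]
      ring
    obtain ⟨q, hq, hqy⟩ := hM.exists_lam_inf PS _ hy hXm
    have hz1 : aeval (lam K) (p * q) • x ∈ M (false, false) := by
      rw [map_mul, mul_comm, mul_smul]
      exact hM.smul_mem _ (hlamR false q) hpx
    have hz2 : (mu K ^ b)⁻¹ • aeval (lam K) (p * q) • x ∈ M (false, true) := by
      rw [smul_comm, map_mul, mul_smul]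
      exact hM.smul_mem _ (hlamR true p) hqy
    obtain ⟨n1, hn1⟩ := hM.compat' _ hz1
    obtain ⟨n2, hn2⟩ := hM.compat' _ hz2
    refine ⟨p * q, mul_ne_zero hp hq, max n1 n2, mem_Gam.2 ?_⟩
    rintro ⟨_ | _, _ | _⟩
    · simpa [tau, hu] using hz1
    · simpa [tau, hu] using hz2
    · simpa [tau, hu] using hn1 (true, false) (max n1 n2) n1 (le_max_left _ _) le_rfl
    · have h2 := hn2 (true, true) (max n1 n2) n2 (le_max_right _ _) le_rfl
      convert h2 using 1
      rw [← mul_smul ((tau K (true, true) (max n1 n2) n2)⁻¹ * tau K (false, true) (max n1 n2) n2)]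
      congr 1
      simp only [tau, hu, Bool.false_eq_true, if_false, if_true, _root_.one_zpow, one_mul]
      have := zpow_ne_zero (n2 : ℤ) hmu
      field_simp
  · rintro ⟨p, hp, a, h⟩ v
    rw [mem_Gam] at h
    rw [hM.mem_stalk_iff PS]
    refine ⟨aeval lam0 p, aeval_lam0_mem_PP _ p, aeval_lam0_ne_zero hp, nu_aeval_lam0 PS v hp, ?_⟩
    rw [aeval_lam0_map, smul_comm]
    by_cases hv : v = PS.inf
    · subst hv
      rw [hinf, cv_inf]
      simpa [tau, hu] using h (false, true)
    · rw [hfin v hv, cv_fin PS hv]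
      simpa [tau, hu] using h (false, false)

theorem IsSheaf.mem_stalk_pull {M : Pre V} (hM : IsSheaf S M) {W : Type} [AddCommGroup W] [Module K W]
    [Module ℂ W] [IsScalarTower ℂ K W] {f : W →ₗ[K] V} (hf : Function.Injective f) (v : PS.ι) (x : W) :
    x ∈ stalk PS K (R169.pull f M) v ↔ f x ∈ stalk PS K M v := by
  rw [(hM.pull hf).mem_stalk_iff PS, hM.mem_stalk_iff PS]
  refine exists_congr fun s => and_congr_right fun _ => and_congr_right fun _ =>
    and_congr_right fun _ => ?_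
  change f (algebraMap K0 K s • x) ∈ M _ ↔ _
  rw [map_smul]

end

end Crest.Agent.R169
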