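import Crest.Agent.R169.Iwa

/-! # Triangular bundles: tensor products and vanishing -/

set_option autoImplicit false
set_option linter.unusedSectionVars false

namespace Crest.Agent.R169

noncomputable section

open Matrix
open scoped Kronecker

namespace AdSys

variable {L : Type} [Field L] {A : AdSys L}
variable {n m : Type} [Fintype n] [DecidableEq n] [Fintype m] [DecidableEq m]

theorem tri_Lat_mul_subset {p q r : Type} [Fintype q] [Fintype r] (v : A.ι) (g : Matrix p q L)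
    {u : Matrix q r L} (hu : ∀ i j, u i j ∈ A.I v) : A.Lat v (g * u) ⊆ A.Lat v g := by
  rintro _ ⟨y, hy, rfl⟩
  refine ⟨u *ᵥ y, fun i => ?_, (mulVec_mulVec _ _ _).symm⟩
  exact Subring.sum_mem _ fun j _ => Subring.mul_mem _ (hu i j) (hy j)

theorem tri_Lat_kron_subset (v : A.ι) {g g' : Matrix n n L} {h h' : Matrix m m L} (hg : g'.det ≠ 0)
    (hh : h'.det ≠ 0) (e1 : A.Lat v g ⊆ A.Lat v g') (e2 : A.Lat v h ⊆ A.Lat v h') :
    A.Lat v (g ⊗ₖ h) ⊆ A.Lat v (g' ⊗ₖ h') := by
  have h1 := (Lat_subset_iff v hg).1 e1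
  have h2 := (Lat_subset_iff v hh).1 e2
  have e : g ⊗ₖ h = (g' ⊗ₖ h') * ((g'⁻¹ * g) ⊗ₖ (h'⁻¹ * h)) := by
    rw [← Matrix.mul_kronecker_mul, mul_nonsing_inv_cancel_left _ _ (Ne.isUnit hg),
      mul_nonsing_inv_cancel_left _ _ (Ne.isUnit hh)]
  rw [e]
  refine tri_Lat_mul_subset v _ fun i j => ?_
  exact Subring.mul_mem _ (h1 _ _) (h2 _ _)

theorem tri_isBun_of_mul {g s : A.ι → Matrix n n L} (hg : A.IsBun g) {h : Matrix n n L}
    (hh : h.det ≠ 0) (e : ∀ v, A.Lat v (g v) = A.Lat v (h * s v)) : A.IsBun s := by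
  have hi : (h⁻¹).det ≠ 0 := (isUnit_nonsing_inv_det h (Ne.isUnit hh)).ne_zero
  have h3 := (hg.congr e).1.mul_left hi
  simp only [nonsing_inv_mul_cancel_left _ _ (Ne.isUnit hh)] at h3
  exact h3.1

theorem tri_mem_Lat_reindex (v : A.ι) (g : Matrix n n L) (e : n ≃ m) (x : m → L) :
    x ∈ A.Lat v (Matrix.reindex e e g) ↔ x ∘ e ∈ A.Lat v g := by
  constructor
  · rintro ⟨y, hy, rfl⟩
    refine ⟨y ∘ e, fun i => hy _, ?_⟩
    rw [reindex_apply, submatrix_mulVec_equiv]
    funext i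
    simp
  · rintro ⟨y, hy, h⟩
    refine ⟨y ∘ e.symm, fun i => hy _, ?_⟩
    rw [reindex_apply, submatrix_mulVec_equiv]
    funext i
    have h1 : (y ∘ e.symm) ∘ e.symm.symm = y := by
      funext k
      simp
    rw [h1, ← h]
    simp

theorem tri_Lat_reindex_congr (v : A.ι) {g g' : Matrix n n L} (e : n ≃ m) :
    A.Lat v (Matrix.reindex e e g) = A.Lat v (Matrix.reindex e e g') ↔
      A.Lat v g = A.Lat v g' := by
  constructor
  · intro h
    ext x
    have h1 : (x ∘ e.symm) ∘ e = x := by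
      funext k
      simp
    rw [← h1, ← tri_mem_Lat_reindex v g e, ← tri_mem_Lat_reindex v g' e, h]
  · intro h
    ext x
    rw [tri_mem_Lat_reindex, tri_mem_Lat_reindex, h]

theorem Lat_kron_congr (v : A.ι) {g g' : Matrix n n L} {h h' : Matrix m m L} (hg : g.det ≠ 0)
    (hh : h.det ≠ 0) (e1 : A.Lat v g = A.Lat v g') (e2 : A.Lat v h = A.Lat v h') :
    A.Lat v (g ⊗ₖ h) = A.Lat v (g' ⊗ₖ h') :=
  Set.Subset.antisymm
    (tri_Lat_kron_subset v (det_ne_zero_of_Lat_eq v hg e1) (det_ne_zero_of_Lat_eq v hh e2)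
      e1.subset e2.subset)
    (tri_Lat_kron_subset v hg hh e1.superset e2.superset)

theorem IsBun.kron {g : A.ι → Matrix n n L} {g' : A.ι → Matrix m m L} (hg : A.IsBun g)
    (hg' : A.IsBun g') : A.IsBun (fun v => g v ⊗ₖ g' v) := by
  refine ⟨fun v => ?_, (hg.ae.union hg'.ae).subset fun v hv => ?_⟩
  · rw [det_kronecker]
    exact mul_ne_zero (pow_ne_zero _ (hg.det_ne v)) (pow_ne_zero _ (hg'.det_ne v))
  · by_contra hcon
    simp only [Set.mem_union, Set.mem_ofPred_eq, not_or, not_not] at hcon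
    apply hv
    rw [Lat_kron_congr v (hg.det_ne v) (hg'.det_ne v) hcon.1 hcon.2, one_kronecker_one]

/-- use `ρ (i, i') = ρ i + ρ' i'` -/
theorem Tri.kron {g : A.ι → Matrix n n L} {g' : A.ι → Matrix m m L} (hg : A.IsBun g)
    (hg' : A.IsBun g') {lo hi lo' hi' : ℚ} (h : A.Tri g lo hi) (h' : A.Tri g' lo' hi') :
    A.Tri (fun v => g v ⊗ₖ g' v) (lo + lo') (hi + hi') := by
  obtain ⟨k, t, ρ, hk, e, ht, hd⟩ := h
  obtain ⟨k', t', ρ', hk', e', ht', hd'⟩ := h'
  have hi1 := ((tri_isBun_of_mul hg hk e).diag_idele ht).1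
  have hi2 := ((tri_isBun_of_mul hg' hk' e').diag_idele ht').1
  refine ⟨k ⊗ₖ k', fun v => t v ⊗ₖ t' v, fun p => ρ p.1 + ρ' p.2, ?_, fun v => ?_,
    fun v i j hij => ?_, fun i => ?_⟩
  · rw [det_kronecker]
    exact mul_ne_zero (pow_ne_zero _ hk) (pow_ne_zero _ hk')
  · rw [← Matrix.mul_kronecker_mul]
    exact Lat_kron_congr v (hg.det_ne v) (hg'.det_ne v) (e v) (e' v)
  · have hij' : t v i.1 j.1 * t' v i.2 j.2 ≠ 0 := hij
    have a1 := ht v _ _ (left_ne_zero_of_mul hij')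
    have a2 := ht' v _ _ (right_ne_zero_of_mul hij')
    show i = j ∨ ρ i.1 + ρ' i.2 < ρ j.1 + ρ' j.2
    rcases a1 with a1 | a1 <;> rcases a2 with a2 | a2
    · exact Or.inl (Prod.ext a1 a2)
    · right
      rw [a1]
      omega
    · right
      rw [a2]
      omega
    · right
      omega
  · have e3 : A.deg (fun v => (t v ⊗ₖ t' v) i i) =
        A.deg (fun v => t v i.1 i.1) + A.deg (fun v => t' v i.2 i.2) :=
      deg_mul (hi1 i.1) (hi2 i.2)
    rw [e3]
    exact ⟨add_le_add (hd _).1 (hd' _).1, add_le_add (hd _).2 (hd' _).2⟩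

/-- for a triangular invertible `t`, the top coordinate of `t y` -/
theorem tri_top_coord {t : Matrix n n L} {ρ : n → ℕ} (ht : ∀ i j, t i j ≠ 0 → i = j ∨ ρ i < ρ j)
    (hd : ∀ i, t i i ≠ 0) (y : n → L) (i : n) (hi : ∀ j, ρ i < ρ j → (t *ᵥ y) j = 0) :
    (t *ᵥ y) i = t i i * y i := by
  classical
  have key : ∀ i, (∀ j, ρ i < ρ j → y j = 0) → (t *ᵥ y) i = t i i * y i := by
    intro i hy
    simp only [mulVec, dotProduct]
    refine Finset.sum_eq_single i (fun j _ hj => ?_) (by simp)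
    by_cases h0 : t i j = 0
    · rw [h0, zero_mul]
    · rcases ht i j h0 with h1 | h1
      · exact absurd h1.symm hj
      · rw [hy j h1, mul_zero]
  refine key i fun j hj => ?_
  by_contra hy
  obtain ⟨k, hk, hmax⟩ := Finset.exists_max_image (Finset.univ.filter fun k => y k ≠ 0) ρ
    ⟨j, by simpa using hy⟩
  have hk' : y k ≠ 0 := by simpa using hk
  have h1 : ρ j ≤ ρ k := hmax j (by simpa using hy)
  have h2 := key k fun l hl => by
    by_contra hl'
    have := hmax l (by simpa using hl')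
    omega
  rw [hi k (by omega)] at h2
  exact mul_ne_zero (hd k) hk' h2.symm

/-- Look at an index `i` with `(h⁻¹ x) i ≠ 0` and maximal `ρ i`. -/
theorem Tri.bd {g : A.ι → Matrix n n L} (hg : A.IsBun g) {lo hi : ℚ} (h : A.Tri g lo hi) :
    A.Bd g hi := by
  classical
  obtain ⟨k, t, ρ, hk, e, ht, hd⟩ := h
  have hi1 := ((tri_isBun_of_mul hg hk e).diag_idele ht).1
  intro x hx c hc hm
  have hxz : k *ᵥ (k⁻¹ *ᵥ x) = x := by
    rw [mulVec_mulVec, mul_nonsing_inv _ (Ne.isUnit hk), one_mulVec]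
  generalize k⁻¹ *ᵥ x = z at hxz
  have hz : z ≠ 0 := by
    rintro rfl
    exact hx (by rw [← hxz, mulVec_zero])
  obtain ⟨j, hj⟩ := Function.ne_iff.1 hz
  obtain ⟨i, hi', hmax⟩ := Finset.exists_max_image (Finset.univ.filter fun k => z k ≠ 0) ρ
    ⟨j, by simpa using hj⟩
  have hzi : z i ≠ 0 := by simpa using hi'
  have hle : A.deg (fun v => c v * z i) ≤ A.deg (fun v => t v i i) := by
    refine deg_le_of_dvd (hi1 i) (hc.mul (isIdele_const hzi)) fun v => ?_
    have h1 := hm v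
    rw [e, ← hxz, ← mulVec_smul, mulVec_mem_Lat_mul v hk] at h1
    obtain ⟨y, hy, h1⟩ := h1
    have h2 := tri_top_coord (ht v) (fun l => (hi1 l).1 v) y i fun l hl => by
      rw [← h1]
      have : z l = 0 := by
        by_contra hl'
        have := hmax l (by simpa using hl')
        omega
      simp [this]
    rw [← h1] at h2
    have h3 : c v * z i = t v i i * y i := h2
    rw [h3, inv_mul_cancel_left₀ ((hi1 i).1 v)]
    exact hy i
  rw [deg_mul hc (isIdele_const hzi), deg_const hzi, add_zero] at hle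
  exact hle.trans (hd i).2

/-- Look at an index `i` with `(ψ ᵥ* h) i ≠ 0` and minimal `ρ i`. -/
theorem Tri.le_deg {g : A.ι → Matrix n n L} (hg : A.IsBun g) {lo hi : ℚ} (h : A.Tri g lo hi)
    {ψ : n → L} (hψ : ψ ≠ 0) {u : A.ι → L} (hu : A.IsIdele u)
    (hint : ∀ v j, (u v)⁻¹ * (ψ ᵥ* g v) j ∈ A.I v) : lo ≤ A.deg u := by
  classical
  obtain ⟨k, t, ρ, hk, e, ht, hd⟩ := h
  have hi1 := ((tri_isBun_of_mul hg hk e).diag_idele ht).1
  have hφ : ψ ᵥ* k ≠ 0 := fun h0 => hψ (Matrix.eq_zero_of_vecMul_eq_zero hk h0)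
  obtain ⟨j, hj⟩ := Function.ne_iff.1 hφ
  obtain ⟨i, hi', hmin⟩ := Finset.exists_min_image (Finset.univ.filter fun l => (ψ ᵥ* k) l ≠ 0) ρ
    ⟨j, by simpa using hj⟩
  have hφi : (ψ ᵥ* k) i ≠ 0 := by simpa using hi'
  have hle : A.deg (fun v => (ψ ᵥ* k) i * t v i i) ≤ A.deg u := by
    refine deg_le_of_dvd hu ((isIdele_const hφi).mul (hi1 i)) fun v => ?_
    have h1 := col_mem_Lat v (k * t v) i
    rw [← e] at h1
    obtain ⟨y, hy, h1⟩ := h1
    have h2 : (ψ ᵥ* k) i * t v i i = ((ψ ᵥ* k) ᵥ* t v) i := by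
      symm
      generalize ψ ᵥ* k = φ at hmin
      simp only [vecMul, dotProduct]
      refine Finset.sum_eq_single i (fun l _ hl => ?_) (by simp)
      by_cases h0 : t v l i = 0
      · rw [h0, mul_zero]
      · rcases ht v l i h0 with h3 | h3
        · exact absurd h3 hl
        · have : φ l = 0 := by
            by_contra hl'
            have := hmin l (by simpa using hl')
            omega
          rw [this, zero_mul]
    have h3 : ((ψ ᵥ* k) ᵥ* t v) i = (ψ ᵥ* g v) ⬝ᵥ y := by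
      rw [vecMul_vecMul, ← dotProduct_mulVec, ← h1]
      rfl
    rw [h2, h3, dotProduct, Finset.mul_sum]
    refine Subring.sum_mem _ fun l _ => ?_
    rw [← mul_assoc]
    exact Subring.mul_mem _ (hint v l) (hy l)
  rw [deg_mul (isIdele_const hφi) (hi1 i), deg_const hφi, zero_add] at hle
  exact (hd i).1.trans hle

theorem IsBun.reindex {g : A.ι → Matrix n n L} (hg : A.IsBun g) (e : n ≃ m) :
    A.IsBun (fun v => Matrix.reindex e e (g v)) ∧ A.D (fun v => Matrix.reindex e e (g v)) = A.D g := by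
  refine ⟨⟨fun v => ?_, hg.ae.subset fun v hv h1 => hv ?_⟩, ?_⟩
  · rw [det_reindex_self]
    exact hg.det_ne v
  · rw [(tri_Lat_reindex_congr v e).2 h1, reindex_apply, submatrix_one_equiv]
  · simp only [D, det_reindex_self]

theorem Bd.reindex {g : A.ι → Matrix n n L} {t : ℚ} (h : A.Bd g t) (e : n ≃ m) :
    A.Bd (fun v => Matrix.reindex e e (g v)) t := by
  intro x hx c hc hm
  refine h (x ∘ e) (fun h0 => hx ?_) c hc fun v => (tri_mem_Lat_reindex v (g v) e _).1 (hm v)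
  funext i
  simpa using congrFun h0 (e.symm i)

theorem Tri.of_reindex {g : A.ι → Matrix n n L} (e : n ≃ m) {lo hi : ℚ}
    (h : A.Tri (fun v => Matrix.reindex e e (g v)) lo hi) : A.Tri g lo hi := by
  obtain ⟨k, t, ρ, hk, e', ht, hd⟩ := h
  refine ⟨Matrix.reindex e.symm e.symm k, fun v => Matrix.reindex e.symm e.symm (t v), ρ ∘ e, ?_,
    fun v => ?_, fun v i j hij => ?_, fun i => hd (e i)⟩
  · rwa [det_reindex_self]
  · rw [← tri_Lat_reindex_congr v e, e']
    congr 1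
    ext i j
    simp [mul_apply]
  · exact (ht v (e i) (e j) hij).imp e.injective.eq_iff.1 id

end AdSys

end

end Crest.Agent.R169
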