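import Crest.Agent.R169.LinkBAux
import Crest.Agent.R169.AS
import Crest.Agent.R169.Tri

/-! # Degrees on the generic fibre; vanishing theorems -/

set_option autoImplicit false

namespace Crest.Agent.R169

noncomputable section

open Matrix Polynomial

variable (PS : PlaceSys K1)
variable {K : Type} [Field K] [Algebra K0 K] [Algebra ℂ K] [IsScalarTower ℂ K0 K] [FiniteDimensional K0 K]
  {S : Surf K}
variable {V : Type} [AddCommGroup V] [Module K V] [Module ℂ V] [IsScalarTower ℂ K V]

omit [Algebra ℂ K] [IsScalarTower ℂ K0 K] [Module ℂ V] [IsScalarTower ℂ K V] in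
theorem linkB_sum_toNat {n : Type} [Fintype n] {J : Type} [Fintype J]
    (x : Module.Basis J K0 (n → K)) (b : Module.Basis n K V) (a : J → ℤ) (β : ℤ)
    (h : ∀ j, a j ≤ β + 1) :
    ((∑ j, (β - a j + 1).toNat : ℕ) : ℤ) =
      (Module.finrank K V * Module.finrank K0 K : ℕ) * (β + 1) - ∑ j, a j := by
  have h1 : Fintype.card J = Module.finrank K V * Module.finrank K0 K := by
    rw [← Module.finrank_eq_card_basis x, Module.finrank_pi_fintype, Finset.sum_const,
      Finset.card_univ, smul_eq_mul, Module.finrank_eq_card_basis b]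
  rw [← h1, Nat.cast_sum, Finset.sum_congr rfl (g := fun j => β + 1 - a j)
    (fun j _ => by have := h j; omega), Finset.sum_sub_distrib, Finset.sum_const, Finset.card_univ,
    nsmul_eq_mul]

omit [Algebra ℂ K] [IsScalarTower ℂ K0 K] in
theorem linkB_exists_trace {n : Type} [Fintype n] [DecidableEq n] (φ : (n → K) →ₗ[K0] K0) :
    ∃ ψ : n → K, ∀ y, φ y = Algebra.trace K0 K (ψ ⬝ᵥ y) := by
  refine ⟨fun i => ((Algebra.traceForm K0 K).toDual (traceForm_nondegenerate K0 K)).symm
    (φ ∘ₗ LinearMap.single K0 (fun _ => K) i), fun y => ?_⟩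
  conv_lhs => rw [← Finset.univ_sum_single y]
  rw [map_sum, dotProduct, map_sum]
  refine Finset.sum_congr rfl fun i _ => ?_
  rw [← Algebra.traceForm_apply, LinearMap.BilinForm.apply_toDual_symm_apply]
  rfl

open Classical in
/-- If the lattices of `M` split with exponents `a j`, then the growth of `a ↦ dim Γ(a,b)` is at most, and for large `a`
equal to, `∑ (b - a j + 1)⁺`, the `K1`-dimension of the sections on the generic fibre (`generic_sections`,
`IsFam.finrank_succ_le`, `IsFam.split` for `k = ℂ`, `F = K1`, with `Module.compHom`). -/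
theorem IsSheaf.slope_of_split {M : Pre V} (hM : IsSheaf S M) {n : Type} [Fintype n] [DecidableEq n]
    {b : Module.Basis n K V} {g : PS.ι → Matrix n n K} (hg : IsLocMat PS K M b g)
    {J : Type} [Fintype J] {x : Module.Basis J K0 (n → K)} {a : J → ℤ}
    (hx : ∀ v y, y ∈ (PS.ad K).Lat v (g v) ↔
      ∀ j, (if v = PS.inf then RatFunc.X ^ a j else 1) * x.repr y j ∈ PS.O v) (β : ℤ) :
    (∀ α : ℤ, Module.finrank ℂ (Gam K M (α + 1) β) ≤
      Module.finrank ℂ (Gam K M α β) + ∑ j, (β - a j + 1).toNat) ∧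
    ∃ α0 : ℤ, ∀ α, α0 ≤ α → Module.finrank ℂ (Gam K M (α + 1) β) =
      Module.finrank ℂ (Gam K M α β) + ∑ j, (β - a j + 1).toNat := by
  let Φ : V ≃ₗ[ℂ] (J → K0) :=
    (b.equivFun.restrictScalars ℂ).trans (x.equivFun.restrictScalars ℂ)
  have hΦ : ∀ v j, Φ v j = x.repr (fun i => b.repr v i) j := fun _ _ => rfl
  have hΦs : ∀ (f : K0) v, Φ (algebraMap K0 K f • v) = f • Φ v := by
    intro f v
    funext j
    have : (fun i => b.repr (algebraMap K0 K f • v) i) = f • fun i => b.repr v i := by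
      funext i
      rw [map_smul, Finsupp.smul_apply, Pi.smul_apply, algebraMap_smul]
    rw [hΦ, this, map_smul, Finsupp.smul_apply, Pi.smul_apply, hΦ]
  have hΦp : ∀ (p : ℂ[X]) v, Φ (aeval (lam K) p • v) = aeval (RatFunc.X : K1) p • Φ v := by
    intro p v
    rw [lam, lam0, aeval_algebraMap_apply, aeval_algebraMap_apply, hΦs, algebraMap_smul]
  have hΦX : ∀ v, Φ (lam K • v) = (RatFunc.X : K1) • Φ v := by
    intro v
    simpa only [aeval_X] using hΦp X v
  let M' : ℤ → Submodule ℂ (J → K0) := fun α => (Gam K M α β).map (Φ : V →ₗ[ℂ] (J → K0))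
  have hM' : ∀ α v, Φ v ∈ M' α ↔ v ∈ Gam K M α β := by
    intro α v
    simp only [M', Submodule.mem_map_equiv, LinearEquiv.symm_apply_apply]
  have hF := hM.isFam1 β
  have hfam : IsFam (RatFunc.X : K1) M' := by
    refine ⟨fun α => Submodule.map_mono (hF.mono α), fun α c hc => ?_, fun α c hc hc' => ?_⟩
    · obtain ⟨v, rfl⟩ := Φ.surjective c
      rw [← hΦX, hM']
      exact hF.mul α v ((hM' _ _).1 hc)
    · obtain ⟨v, rfl⟩ := Φ.surjective c
      rw [← hΦX, hM'] at hc'
      exact (hM' _ _).2 (hF.sat α v ((hM' _ _).1 hc) hc')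
  have hrk : ∀ α, Module.finrank ℂ (M' α) = Module.finrank ℂ (Gam K M α β) := fun α =>
    LinearEquiv.finrank_map_eq Φ _
  have hU : ∀ v, Φ v ∈ linkBU K1 (fun j => (β - a j + 1).toNat) ↔
      ∃ p : ℂ[X], p ≠ 0 ∧ ∃ α : ℤ, aeval (lam K) p • v ∈ Gam K M α β := by
    intro v
    rw [← hM.generic_sections PS β v, mem_linkBU]
    simp only [← PS.linkB_mem_iff]
    rw [forall_comm]
    refine forall_congr' fun w => ?_
    rw [← hg w, hx w]
    refine forall_congr' fun j => ?_
    rw [← hΦ]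
    unfold PlaceSys.uInf
    split_ifs with hw
    · rw [← map_zpow₀, ← map_inv₀, hΦs, Pi.smul_apply, smul_eq_mul, ← mul_assoc, ← _root_.zpow_neg,
        ← zpow_add₀ RatFunc.X_ne_zero, show a j + -β = -(β - a j) by ring]
    · rw [inv_one, one_smul]
  obtain ⟨hfd, hdim⟩ := finrank_linkBU K1 (fun j => (β - a j + 1).toNat)
  obtain ⟨a0, ha0⟩ := hM.Gam_eq_bot
  have key := linkB_slope hfam RatFunc.transcendental_X K1_frac
    (fun α => by
      have := hM.Gam_finite α β
      exact Module.Finite.map _ _)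
    ⟨a0, by simp only [M']; rw [ha0 a0 β (Or.inl le_rfl), Submodule.map_bot]⟩
    (linkBU K1 (fun j => (β - a j + 1).toNat))
    (fun α c hc => by
      obtain ⟨v, rfl⟩ := Φ.surjective c
      exact (hU v).2 ⟨1, one_ne_zero, α, by rw [map_one, one_smul]; exact (hM' _ _).1 hc⟩)
    (fun c hc => by
      obtain ⟨v, rfl⟩ := Φ.surjective c
      obtain ⟨p, hp, α, h⟩ := (hU v).1 hc
      exact ⟨p, hp, α, by rw [← hΦp, hM']; exact h⟩)
  simpa only [hrk, hdim] using key

open Classical in
theorem IsSheaf.pc_of_split {M : Pre V} (hM : IsSheaf S M) {n : Type} [Fintype n] [DecidableEq n]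
    {b : Module.Basis n K V} {g : PS.ι → Matrix n n K} (hg : IsLocMat PS K M b g)
    {J : Type} [Fintype J] {x : Module.Basis J K0 (n → K)} {a : J → ℤ}
    (hx : ∀ v y, y ∈ (PS.ad K).Lat v (g v) ↔
      ∀ j, (if v = PS.inf then RatFunc.X ^ a j else 1) * x.repr y j ∈ PS.O v) :
    pc K M = (Module.finrank K V * Module.finrank K0 K : ℕ) - ∑ j, a j := by
  obtain ⟨-, a0, ha0⟩ := hM.isHP
  obtain ⟨D, hD⟩ := (Set.finite_range a).bddAbove
  obtain ⟨-, α0, hα0⟩ := hM.slope_of_split PS hg hx (max a0 D)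
  have h1 := hα0 (max a0 α0) (le_max_right _ _)
  have h2 := ha0 (max a0 α0) (max a0 D) (le_max_left _ _) (le_max_left _ _)
  have h3 := ha0 (max a0 α0 + 1) (max a0 D) (by have := le_max_left a0 α0; omega) (le_max_left _ _)
  have h4 := linkB_sum_toNat x b a (max a0 D) fun j => by
    have := hD ⟨j, rfl⟩
    have := le_max_right a0 D
    omega
  rw [hM.HP_eq] at h2 h3
  rw [h1, Nat.cast_add, h2, h4] at h3
  linear_combination -h3

/-- `adelic_split` for `M` and for `O` -/
theorem IsSheaf.D_eq {M : Pre V} (hM : IsSheaf S M) {n : Type} [Fintype n] [DecidableEq n]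
    {b : Module.Basis n K V} {g : PS.ι → Matrix n n K} (hb : (PS.ad K).IsBun g)
    (hg : IsLocMat PS K M b g) :
    (Module.finrank K0 K : ℚ) * (PS.ad K).D g = pc K M - Module.finrank K V * pc K (OO S) := by
  obtain ⟨AL, hAL⟩ := PS.adelic_split K
  obtain ⟨J, _, x, a, hx, hd⟩ := hAL n g hb
  have h1 := hM.pc_of_split PS hg hx
  have hb1 : (PS.ad K).IsBun (fun _ => (1 : Matrix Unit Unit K)) :=
    AdSys.isBun_const (by simp)
  obtain ⟨J', _, x', a', hx', hd'⟩ := hAL Unit _ hb1
  have hg1 : IsLocMat PS K (OO S) (Module.Basis.singleton Unit K)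
      (fun _ => (1 : Matrix Unit Unit K)) := by
    intro v y
    rw [AdSys.mem_Lat_one]
    simp only [Module.Basis.singleton_repr, forall_const]
    constructor
    · intro hy
      have := (stalk PS K (OO S) v).smul_mem ⟨y, hy⟩
        (Submodule.subset_span (show (1 : K) ∈ (OO S (cv PS v) : Set K) from (S.R _).one_mem))
      simpa [Subring.smul_def] using this
    · intro hy
      induction hy using Submodule.span_induction with
      | mem z hz => exact R_le_I PS v hz
      | zero => exact zero_mem _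
      | add z z' _ _ h h' => exact add_mem h h'
      | smul r z _ h => exact mul_mem r.2 h
  have h2 := (isSheaf_OO S).pc_of_split PS hg1 hx'
  have h3 : (PS.ad K).D (fun _ => (1 : Matrix Unit Unit K)) = 0 := by
    unfold AdSys.D
    simp only [det_one]
    exact AdSys.deg_const one_ne_zero
  rw [h3] at hd'
  rw [← Module.finrank_eq_card_basis b] at hd
  rw [hd, h1, h2]
  simp only [Fintype.card_unique, Module.finrank_self] at hd' ⊢
  push_cast at hd' ⊢
  linear_combination (-(Module.finrank K V : ℚ)) * hd'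

/-- `Tri.bd` with `c = (uInf (-1))⁻¹`, of degree `1` -/
theorem IsSheaf.Gam_neg_one {M : Pre V} (hM : IsSheaf S M) {lo hi : ℚ} (h : CTri PS K M lo hi)
    (hhi : hi < 1) (a : ℤ) : Gam K M a (-1) = ⊥ := by
  obtain ⟨n, _, _, b, g, hb, hg, ht⟩ := h
  rw [eq_bot_iff]
  intro v hv
  by_contra hv0
  have hs := (hM.generic_sections PS (-1) v).2 ⟨1, one_ne_zero, a, by rwa [map_one, one_smul]⟩
  have hc := (PS.uInf_idele K (-1)).inv
  obtain ⟨hc1, hc2⟩ := PS.idele_map (Ω := AlgebraicClosure K) hc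
  have hbd := ht.bd (PS.isBun_map (Ω := AlgebraicClosure K) hb).1
    (fun i => algebraMap K (AlgebraicClosure K) (b.repr v i)) (by
      intro h0
      apply hv0
      rw [Submodule.mem_bot, ← b.repr.map_eq_zero_iff]
      ext i
      simpa using congrFun h0 i) _ hc1 (by
      intro w
      have := (PS.map_mem_Lat_iff (Ω := AlgebraicClosure K) w (hb.det_ne w) _).2
        ((hg w _).2 (hs w))
      convert this using 1
      funext i
      simp)
  rw [hc2, AdSys.deg_inv (PS.uInf_idele K (-1)), PS.deg_uInf] at hbd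
  norm_num at hbd
  linarith

/-- Vanishing of `H¹` on the generic fibre.  The coordinate `φ j = x.coord j` is `Tr ∘ ψ` for a `K`-linear `ψ ≠ 0`;
with `u` from `exists_trace_dual`, `Tri.le_deg` for the idele `u * uInf (-a j)` gives `lo ≤ deg u - a j`.  Take
`b1 ≥ deg u`; then `a j ≤ b1 + 1` for all `j` and `∑ (b1 - a j + 1)⁺ = r e b1 + p`. -/
theorem exists_b1 (S : Surf K) : ∃ b1 : ℕ, ∀ (V : Type) [AddCommGroup V] [Module K V] [Module ℂ V]
    [IsScalarTower ℂ K V] (M : Pre V), IsSheaf S M → ∀ lo hi : ℚ, CTri PS K M lo hi → -1 < lo →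
    ∀ a : ℤ, (Module.finrank ℂ (Gam K M (a + 1) b1) : ℤ) ≤ Module.finrank ℂ (Gam K M a b1) +
      ((Module.finrank K V * Module.finrank K0 K : ℕ) * (b1 : ℤ) + pc K M) := by
  classical
  obtain ⟨u, hu, hdual⟩ := PS.exists_trace_dual K
  refine ⟨⌈(PS.ad K).deg u⌉₊, fun V _ _ _ _ M hM lo hi h hlo α => ?_⟩
  obtain ⟨n, _, _, b, g, hb, hg, ht⟩ := h
  obtain ⟨J, _, x, a, hx⟩ := PS.exists_split K hb
  have ha : ∀ j, a j ≤ (⌈(PS.ad K).deg u⌉₊ : ℤ) + 1 := by
    intro j
    obtain ⟨ψ, hψ⟩ := linkB_exists_trace (x.coord j)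
    have hψ0 : ψ ≠ 0 := by
      intro h0
      have := hψ (x j)
      simp [h0] at this
    have hid := hu.mul (PS.uInf_idele K (a j)).inv
    obtain ⟨hc1, hc2⟩ := PS.idele_map (Ω := AlgebraicClosure K) hid
    have hle := ht.le_deg (PS.isBun_map (Ω := AlgebraicClosure K) hb).1
      (ψ := algebraMap K (AlgebraicClosure K) ∘ ψ) (by
        intro h0
        apply hψ0
        funext i
        simpa using congrFun h0 i) hc1 (by
        intro w j'
        rw [← RingHom.map_vecMul, ← map_inv₀, ← map_mul]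
        refine (PS.map_mem_I_iff (IsScalarTower.toAlgHom K0 K (AlgebraicClosure K)) w _).2 ?_
        rw [mul_inv, inv_inv, mul_assoc]
        refine hdual w _ fun r hr => ?_
        have h1 := (hx w _).1 (AdSys.Lat_smul (A := PS.ad K) (v := w) hr
          (AdSys.col_mem_Lat (A := PS.ad K) w (g w) j')) j
        rw [← Module.Basis.coord_apply, hψ, dotProduct_smul, ← smul_eq_mul, ← map_smul,
          Algebra.smul_def] at h1
        convert h1 using 2
        unfold PlaceSys.uInf
        have e : (ψ ᵥ* g w) j' = ψ ⬝ᵥ fun i => g w i j' := rfl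
        rw [e]
        split_ifs with hw
        · rw [map_zpow₀, smul_eq_mul]; ring
        · rw [map_one, smul_eq_mul]; ring)
    rw [hc2, AdSys.deg_mul hu (PS.uInf_idele K (a j)).inv, AdSys.deg_inv (PS.uInf_idele K (a j)),
      PS.deg_uInf] at hle
    have h2 := Nat.le_ceil ((PS.ad K).deg u)
    have h3 : (a j : ℚ) ≤ ((⌈(PS.ad K).deg u⌉₊ : ℤ) + 1 : ℤ) := by push_cast; linarith
    exact_mod_cast h3
  have h1 := (hM.slope_of_split PS hg hx (⌈(PS.ad K).deg u⌉₊ : ℤ)).1 α
  have h2 := linkB_sum_toNat x b a (⌈(PS.ad K).deg u⌉₊ : ℤ) ha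
  have h3 := hM.pc_of_split PS hg hx
  have h4 : (Module.finrank ℂ (Gam K M (α + 1) (⌈(PS.ad K).deg u⌉₊ : ℤ)) : ℤ) ≤
      Module.finrank ℂ (Gam K M α (⌈(PS.ad K).deg u⌉₊ : ℤ)) +
        ((∑ j, ((⌈(PS.ad K).deg u⌉₊ : ℤ) - a j + 1).toNat : ℕ) : ℤ) := by exact_mod_cast h1
  rw [h2] at h4
  rw [h3]
  linarith

end

end Crest.Agent.R169
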