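import Crest.Agent.R169.LinkA
import Crest.Agent.R169.BG

/-! # Auxiliary lemmas for `LinkB` -/

set_option autoImplicit false

namespace Crest.Agent.R169

noncomputable section

open Polynomial

namespace PlaceSys

variable {k : Type} [Field k] (PS : PlaceSys k)

theorem linkB_nu_inf_poly {p : k[X]} (hp : p ≠ 0) :
    PS.nu PS.inf (algebraMap k[X] (RatFunc k) p) = -(p.natDegree : ℤ) := by
  have hX : (RatFunc.X : RatFunc k) ≠ 0 := RatFunc.X_ne_zero
  set u : RatFunc k := aeval (RatFunc.X : RatFunc k)⁻¹ p.reverse with hu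
  have h1 : u * RatFunc.X ^ p.natDegree = algebraMap k[X] (RatFunc k) p := by
    let _ : Invertible (RatFunc.X : RatFunc k) := invertibleOfNonzero hX
    have := eval₂_reverse_mul_pow (algebraMap k (RatFunc k)) (RatFunc.X : RatFunc k) p
    rw [invOf_eq_inv] at this
    rw [← RatFunc.aeval_X_left_eq_algebraMap, aeval_def, ← this, hu, aeval_def]
  have hp' : algebraMap k[X] (RatFunc k) p ≠ 0 := RatFunc.algebraMap_ne_zero hp
  have hu0 : u ≠ 0 := by
    intro h
    rw [h, zero_mul] at h1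
    exact hp' h1.symm
  have h2 : u ∈ PS.O PS.inf := (PS.loc_inf u).2 ⟨1, p.reverse, by simp, by simp [hu]⟩
  have h3 : u⁻¹ ∈ PS.O PS.inf := (PS.loc_inf u⁻¹).2 ⟨p.reverse, 1, by
    rw [coeff_zero_reverse]; exact leadingCoeff_ne_zero.2 hp, by
    rw [← hu, mul_inv_cancel₀ hu0, map_one]⟩
  have h4 := (PS.mem_iff _ _ hu0).1 h2
  have h5 := (PS.mem_iff _ _ (inv_ne_zero hu0)).1 h3
  have h6 := PS.nu_mul PS.inf u u⁻¹ hu0 (inv_ne_zero hu0)
  rw [mul_inv_cancel₀ hu0, PS.nu_one] at h6
  have h7 := PS.nu_zpow PS.inf hX (p.natDegree : ℤ)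
  rw [zpow_natCast, PS.nu_inf_X] at h7
  rw [← h1, PS.nu_mul _ _ _ hu0 (pow_ne_zero _ hX), h7]
  omega

open Classical in
theorem linkB_mem_iff (m : ℤ) (f : RatFunc k) :
    (∀ v, (if v = PS.inf then RatFunc.X ^ (-m) else 1) * f ∈ PS.O v) ↔
      ∃ p ∈ degreeLT k (m + 1).toNat, f = algebraMap k[X] (RatFunc k) p := by
  have hX : (RatFunc.X : RatFunc k) ≠ 0 := RatFunc.X_ne_zero
  have key : ∀ p : k[X], RatFunc.X ^ (-m) * algebraMap k[X] (RatFunc k) p ∈ PS.O PS.inf ↔
      p ∈ degreeLT k (m + 1).toNat := by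
    intro p
    by_cases hp : p = 0
    · subst hp
      simp only [map_zero, mul_zero, zero_mem]
    · have hp' : algebraMap k[X] (RatFunc k) p ≠ 0 := RatFunc.algebraMap_ne_zero hp
      rw [PS.mem_iff _ _ (mul_ne_zero (zpow_ne_zero _ hX) hp'),
        PS.nu_mul _ _ _ (zpow_ne_zero _ hX) hp', PS.nu_zpow _ hX, PS.nu_inf_X,
        PS.linkB_nu_inf_poly hp, mem_degreeLT, ← natDegree_lt_iff_degree_lt hp]
      omega
  constructor
  · intro h
    obtain ⟨p, rfl⟩ := PS.glob f fun v hv => by simpa [hv] using h v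
    refine ⟨p, (key p).1 ?_, rfl⟩
    simpa using h PS.inf
  · rintro ⟨p, hp, rfl⟩ v
    split_ifs with hv
    · subst hv; exact (key p).2 hp
    · rw [one_mul]; exact PS.poly_mem v hv p

end PlaceSys

/-- tuples of polynomials of bounded degrees -/
def linkBU (k : Type) [Field k] {J : Type} (N : J → ℕ) : Submodule k (J → RatFunc k) :=
  Submodule.pi Set.univ fun j =>
    (degreeLT k (N j)).map (IsScalarTower.toAlgHom k k[X] (RatFunc k)).toLinearMap

theorem mem_linkBU {k : Type} [Field k] {J : Type} {N : J → ℕ} {c : J → RatFunc k} :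
    c ∈ linkBU k N ↔ ∀ j, ∃ p ∈ degreeLT k (N j), c j = algebraMap k[X] (RatFunc k) p := by
  simp only [linkBU, Submodule.mem_pi, Set.mem_univ, true_imp_iff, Submodule.mem_map]
  exact forall_congr' fun j => ⟨fun ⟨p, hp, e⟩ => ⟨p, hp, e.symm⟩, fun ⟨p, hp, e⟩ => ⟨p, hp, e.symm⟩⟩

theorem finrank_linkBU (k : Type) [Field k] {J : Type} [Fintype J] (N : J → ℕ) :
    FiniteDimensional k (linkBU k N) ∧ Module.finrank k (linkBU k N) = ∑ j, N j := by
  let T : (∀ j, degreeLT k (N j)) →ₗ[k] (J → RatFunc k) :=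
    LinearMap.pi fun j => (IsScalarTower.toAlgHom k k[X] (RatFunc k)).toLinearMap ∘ₗ
      (degreeLT k (N j)).subtype ∘ₗ LinearMap.proj j
  have hT : ∀ p j, T p j = algebraMap k[X] (RatFunc k) (p j).1 := fun _ _ => rfl
  have hinj : Function.Injective T := by
    intro p q h
    funext j
    have := congrFun h j
    rw [hT, hT] at this
    exact Subtype.ext (RatFunc.algebraMap_injective k this)
  have hr : LinearMap.range T = linkBU k N := by
    ext c
    rw [mem_linkBU, LinearMap.mem_range]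
    constructor
    · rintro ⟨p, rfl⟩ j
      exact ⟨_, (p j).2, hT p j⟩
    · intro h
      choose p hp e using h
      exact ⟨fun j => ⟨p j, hp j⟩, funext fun j => (e j).symm⟩
  have hfin : ∀ j, FiniteDimensional k (degreeLT k (N j)) := fun j =>
    Module.Finite.of_basis (degreeLT.basis k (N j))
  rw [← hr]
  refine ⟨inferInstance, ?_⟩
  rw [LinearMap.finrank_range_of_inj hinj, Module.finrank_pi_fintype]
  refine Finset.sum_congr rfl fun j _ => ?_
  rw [Module.finrank_eq_card_basis (degreeLT.basis k (N j)), Fintype.card_fin]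

/-- the slope of a family is the dimension of its span -/
theorem linkB_slope {k F W : Type} [Field k] [Field F] [Algebra k F] [AddCommGroup W] [Module k W]
    [Module F W] [IsScalarTower k F W] {x : F} {M : ℤ → Submodule k W} (hM : IsFam x M)
    (htr : Transcendental k x)
    (hx : ∀ f : F, ∃ p q : k[X], aeval x q ≠ 0 ∧ f * aeval x q = aeval x p)
    (hfin : ∀ a, FiniteDimensional k (M a)) (hbot : ∃ a0, M a0 = ⊥) (U : Submodule F W)
    [FiniteDimensional F U] (h1 : ∀ a, ∀ v ∈ M a, v ∈ U)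
    (h2 : ∀ v ∈ U, ∃ p : k[X], p ≠ 0 ∧ ∃ a, aeval x p • v ∈ M a) :
    (∀ α : ℤ, Module.finrank k (M (α + 1)) ≤ Module.finrank k (M α) + Module.finrank F U) ∧
    ∃ α0 : ℤ, ∀ α, α0 ≤ α →
      Module.finrank k (M (α + 1)) = Module.finrank k (M α) + Module.finrank F U := by
  constructor
  · intro α
    refine hM.finrank_succ_le hx hfin α _ ?_
    rw [Module.finrank_eq_rank]
    exact Submodule.rank_mono (Submodule.span_le.2 (h1 _))
  · have hle : Submodule.span F (⋃ a, (M a : Set W)) ≤ U :=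
      Submodule.span_le.2 (Set.iUnion_subset h1)
    obtain ⟨J, _, w, d, hli, hw, hmem, -, hrk⟩ :=
      hM.split htr hx (Submodule.finiteDimensional_of_le hle) hbot
    have hU : Submodule.span F (Set.range w) = U := by
      refine le_antisymm (Submodule.span_le.2 ?_) fun v hv => ?_
      · rintro _ ⟨j, rfl⟩
        exact h1 _ _ (hw j)
      · obtain ⟨p, hp, a, ha⟩ := h2 v hv
        obtain ⟨q, -, e⟩ := (hmem a _).1 ha
        have hp' : aeval x p ≠ 0 := fun h => htr ⟨p, hp, h⟩
        have : v = (aeval x p)⁻¹ • ∑ j, aeval x (q j) • w j := by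
          rw [← e, smul_smul, inv_mul_cancel₀ hp', one_smul]
        rw [this]
        exact Submodule.smul_mem _ _ (Submodule.sum_mem _ fun j _ =>
          Submodule.smul_mem _ _ (Submodule.subset_span ⟨j, rfl⟩))
    have hc : Module.finrank F U = Fintype.card J := by rw [← hU, finrank_span_eq_card hli]
    obtain ⟨D, hD⟩ := (Set.finite_range d).bddAbove
    refine ⟨D, fun α hα => ?_⟩
    rw [hrk, hrk, hc, ← Finset.card_univ, Finset.card_eq_sum_ones, ← Finset.sum_add_distrib]
    refine Finset.sum_congr rfl fun j _ => ?_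
    have := hD ⟨j, rfl⟩
    omega

end

end Crest.Agent.R169
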