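import Crest.Agent.R169.Rank2
import Crest.Agent.R169.Tri

/-! # Flags with nearly equal degrees -/

set_option autoImplicit false

namespace Crest.Agent.R169

noncomputable section

open Matrix

namespace AdSys

variable {L : Type} [Field L] {A : AdSys L}

/-- block upper triangular matrix with a `1 × 1` corner -/
def blk {r : ℕ} (a : L) (b : Fin r → L) (M : Matrix (Fin r) (Fin r) L) :
    Matrix (Fin (r + 1)) (Fin (r + 1)) L :=
  Matrix.of (Fin.cons (Fin.cons a b) fun i => Fin.cons 0 (M i))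

section blk
variable {r : ℕ} (a : L) (b : Fin r → L) (M : Matrix (Fin r) (Fin r) L)

@[simp] theorem blk_zero_zero : blk a b M 0 0 = a := rfl
@[simp] theorem blk_zero_succ (j : Fin r) : blk a b M 0 j.succ = b j := rfl
@[simp] theorem blk_succ_zero (i : Fin r) : blk a b M i.succ 0 = 0 := rfl
@[simp] theorem blk_succ_succ (i j : Fin r) : blk a b M i.succ j.succ = M i j := rfl

theorem blk_mulVec (p : L) (y : Fin r → L) :
    blk a b M *ᵥ (Fin.cons p y : Fin (r + 1) → L) = Fin.cons (a * p + b ⬝ᵥ y) (M *ᵥ y) := by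
  funext i
  refine Fin.cases ?_ (fun i => ?_) i <;> simp [mulVec, dotProduct, Fin.sum_univ_succ]

theorem blk_mul (N : Matrix (Fin r) (Fin r) L) : blk 1 0 N * blk a b M = blk a b (N * M) := by
  ext i j
  refine Fin.cases ?_ (fun i => ?_) i <;> refine Fin.cases ?_ (fun j => ?_) j <;>
    simp [mul_apply, Fin.sum_univ_succ]

theorem det_blk : (blk a b M).det = a * M.det := by
  rw [det_succ_column_zero, Fin.sum_univ_succ]
  simp only [blk_succ_zero, mul_zero, zero_mul, Finset.sum_const_zero, add_zero, blk_zero_zero,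
    Fin.val_zero, pow_zero, one_mul, Fin.succAbove_zero]
  rfl

theorem eq_blk {s : Matrix (Fin (r + 1)) (Fin (r + 1)) L} (hs : ∀ i j, s i j ≠ 0 → i ≤ j) :
    s = blk (s 0 0) (fun j => s 0 j.succ) (s.submatrix Fin.succ Fin.succ) := by
  ext i j
  refine Fin.cases ?_ (fun i => ?_) i <;> refine Fin.cases ?_ (fun j => ?_) j
  · rfl
  · rfl
  · by_contra h
    exact absurd (hs _ _ h) (not_le.mpr (Fin.succ_pos i))
  · rfl

theorem mem_Lat_blk (v : A.ι) (w : Fin (r + 1) → L) : w ∈ A.Lat v (blk a b M) ↔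
    ∃ p ∈ A.I v, ∃ y : Fin r → L, (∀ i, y i ∈ A.I v) ∧
      w = Fin.cons (a * p + b ⬝ᵥ y) (M *ᵥ y) := by
  constructor
  · rintro ⟨y, hy, rfl⟩
    refine ⟨y 0, hy 0, Fin.tail y, fun i => hy _, ?_⟩
    rw [← blk_mulVec, Fin.cons_self_tail]
  · rintro ⟨p, hp, y, hy, rfl⟩
    exact ⟨Fin.cons p y, fun i => Fin.cases hp hy i, (blk_mulVec a b M p y).symm⟩

theorem mem_Lat_tail (v : A.ι) (y : Fin r → L) :
    y ∈ A.Lat v M ↔ ∃ c : L, (Fin.cons c y : Fin (r + 1) → L) ∈ A.Lat v (blk a b M) := by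
  simp only [mem_Lat_blk]
  constructor
  · rintro ⟨z, hz, rfl⟩
    exact ⟨_, 0, zero_mem _, z, hz, rfl⟩
  · rintro ⟨c, p, -, z, hz, h⟩
    exact ⟨z, hz, (Fin.cons_injective2 h).2⟩

theorem cons_zero_mem_Lat (v : A.ι) :
    (Fin.cons a 0 : Fin (r + 1) → L) ∈ A.Lat v (blk a b M) :=
  (mem_Lat_blk a b M v _).mpr ⟨1, one_mem _, 0, fun _ => zero_mem _, by simp⟩

variable {a b M}

theorem dvd_of_mem_Lat_blk {v : A.ι} (ha : a ≠ 0) (hM : M.det ≠ 0) {c : L}
    (h : (Fin.cons c 0 : Fin (r + 1) → L) ∈ A.Lat v (blk a b M)) : a⁻¹ * c ∈ A.I v := by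
  obtain ⟨p, hp, y, -, h⟩ := (mem_Lat_blk a b M v _).mp h
  obtain ⟨h1, h2⟩ := Fin.cons_injective2 h
  have hy : y = 0 := Matrix.eq_zero_of_mulVec_eq_zero hM h2.symm
  rw [h1, hy, dotProduct_zero, add_zero, inv_mul_cancel_left₀ ha]
  exact hp

theorem Lat_blk_subset {v : A.ι} {M' : Matrix (Fin r) (Fin r) L} {b' : Fin r → L}
    (hM : M.det ≠ 0) (h : A.Lat v M' ⊆ A.Lat v M) (hb : b' = b ᵥ* (M⁻¹ * M')) :
    A.Lat v (blk a b' M') ⊆ A.Lat v (blk a b M) := by
  intro w hw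
  obtain ⟨p, hp, y, hy, rfl⟩ := (mem_Lat_blk a b' M' v _).mp hw
  obtain ⟨z, hz, e⟩ := h ⟨y, hy, rfl⟩
  refine (mem_Lat_blk a b M v _).mpr ⟨p, hp, z, hz, ?_⟩
  rw [hb, ← dotProduct_mulVec, ← mulVec_mulVec, e, mulVec_mulVec,
    nonsing_inv_mul _ (Ne.isUnit hM), one_mulVec]

theorem Lat_blk_congr {v : A.ι} {M' : Matrix (Fin r) (Fin r) L} (hM : M.det ≠ 0)
    (h : A.Lat v M = A.Lat v M') :
    A.Lat v (blk a b M) = A.Lat v (blk a (b ᵥ* (M⁻¹ * M')) M') := by
  have hM' := det_ne_zero_of_Lat_eq v hM h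
  refine Set.Subset.antisymm (Lat_blk_subset hM' h.subset ?_) (Lat_blk_subset hM h.superset rfl)
  rw [vecMul_vecMul, Matrix.mul_assoc, mul_nonsing_inv_cancel_left _ _ (Ne.isUnit hM'),
    nonsing_inv_mul _ (Ne.isUnit hM), vecMul_one]

end blk

theorem Lat_mul_congr {n : Type} [Fintype n] {v : A.ι} (h : Matrix n n L) {g g' : Matrix n n L}
    (e : A.Lat v g = A.Lat v g') : A.Lat v (h * g) = A.Lat v (h * g') := by
  have key : ∀ g : Matrix n n L, A.Lat v (h * g) = (fun x => h *ᵥ x) '' A.Lat v g := by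
    intro g
    ext x
    constructor
    · rintro ⟨y, hy, rfl⟩
      exact ⟨_, ⟨y, hy, rfl⟩, mulVec_mulVec _ _ _⟩
    · rintro ⟨_, ⟨y, hy, rfl⟩, rfl⟩
      exact ⟨y, hy, mulVec_mulVec _ _ _⟩
  rw [key, key, e]

theorem IsBun.of_mul {n : Type} [Fintype n] [DecidableEq n] {g s : A.ι → Matrix n n L}
    (hg : A.IsBun g) {h : Matrix n n L} (hh : h.det ≠ 0)
    (e : ∀ v, A.Lat v (g v) = A.Lat v (h * s v)) : A.IsBun s ∧ A.D s = A.D g := by
  have hi : (h⁻¹).det ≠ 0 := (isUnit_nonsing_inv_det h (Ne.isUnit hh)).ne_zero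
  obtain ⟨h1, h2⟩ := hg.congr e
  have h3 := h1.mul_left hi
  simp only [nonsing_inv_mul_cancel_left _ _ (Ne.isUnit hh)] at h3
  exact ⟨h3.1, h3.2.trans h2⟩

theorem Bd.of_mul {n : Type} [Fintype n] [DecidableEq n] {g s : A.ι → Matrix n n L} {t : ℚ}
    (hg : A.Bd g t) {h : Matrix n n L} (hh : h.det ≠ 0)
    (e : ∀ v, A.Lat v (g v) = A.Lat v (h * s v)) : A.Bd s t := by
  intro x hx c hc hm
  refine hg (h *ᵥ x) (fun h0 => hx (Matrix.eq_zero_of_mulVec_eq_zero hh h0)) c hc fun v => ?_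
  rw [e, ← mulVec_smul]
  exact (mulVec_mem_Lat_mul v hh _ _).mpr (hm v)

/-- the flag attached to a basis `h` -/
theorem exists_blk {r : ℕ} {g : A.ι → Matrix (Fin (r + 1)) (Fin (r + 1)) L} (hg : A.IsBun g)
    {h : Matrix (Fin (r + 1)) (Fin (r + 1)) L} (hh : h.det ≠ 0) :
    ∃ (a : A.ι → L) (b : A.ι → Fin r → L) (M : A.ι → Matrix (Fin r) (Fin r) L),
      (∀ v, A.Lat v (g v) = A.Lat v (h * blk (a v) (b v) (M v))) ∧ A.IsIdele a ∧ A.IsBun M := by
  choose s hs e using fun v => A.iwasawa v (r + 1) (h⁻¹ * g v)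
  have e1 : ∀ v, A.Lat v (g v) = A.Lat v (h * s v) := fun v => by
    rw [← Lat_mul_congr h (e v), mul_nonsing_inv_cancel_left _ _ (Ne.isUnit hh)]
  have hb := (hg.of_mul hh e1).1
  refine ⟨fun v => s v 0 0, fun v j => s v 0 j.succ, fun v => (s v).submatrix Fin.succ Fin.succ,
    fun v => by rw [← eq_blk (hs v), e1], ?_, fun v => ?_, hb.ae.subset fun v hv h1 => hv ?_⟩
  · exact (hb.diag_idele (ρ := Fin.val) fun v i j hij => (hs v i j hij).eq_or_lt).1 0
  · have := hb.det_ne v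
    rw [eq_blk (hs v), det_blk] at this
    exact right_ne_zero_of_mul this
  · ext y
    rw [mem_Lat_tail (s v 0 0) (fun j => s v 0 j.succ), ← eq_blk (hs v), h1]
    simp only [mem_Lat_one, Fin.forall_fin_succ, Fin.cons_zero, Fin.cons_succ]
    exact ⟨fun ⟨_, h⟩ => h.2, fun h => ⟨0, zero_mem _, h⟩⟩

theorem exists_det_ne_col {r : ℕ} {x : Fin (r + 1) → L} (hx : x ≠ 0) :
    ∃ h : Matrix (Fin (r + 1)) (Fin (r + 1)) L, h.det ≠ 0 ∧
      h *ᵥ (Fin.cons 1 0 : Fin (r + 1) → L) = x := by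
  obtain ⟨i, hi⟩ := Function.ne_iff.mp hx
  refine ⟨((1 : Matrix _ _ L).updateCol i x).submatrix id (Equiv.swap 0 i), ?_, ?_⟩
  · rw [det_permute', ← cramer_apply, cramer_one]
    refine mul_ne_zero ?_ hi
    rcases Int.units_eq_one_or (Equiv.Perm.sign (Equiv.swap 0 i)) with h | h <;> simp [h]
  · funext k
    simp [mulVec, dotProduct, Fin.sum_univ_succ]

/-- the quotient by a line of nearly maximal degree -/
theorem bd_quot [IsAlgClosed L] (hRR : A.RR) (h1 : A.HasOne) {r : ℕ} {a : A.ι → L}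
    {b : A.ι → Fin r → L} {M : A.ι → Matrix (Fin r) (Fin r) L} (ha : A.IsIdele a)
    (hs : A.IsBun fun v => blk (a v) (b v) (M v)) {t : ℚ}
    (ht : A.Bd (fun v => blk (a v) (b v) (M v)) t) : A.Bd M (2 * t - A.deg a) := by
  intro y hy d hd hm
  choose β hβ using fun v => (mem_Lat_tail (a v) (b v) (M v) v _).mp (hm v)
  have hfin : {v | β v ∉ A.I v}.Finite := hs.ae.subset fun v hv h1 => hv <| by
    have := hβ v
    rw [h1, mem_Lat_one] at this
    exact this 0
  have := rank_two hRR h1 ha hd hfin (t := t) fun z hz c hc hz' => ?_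
  · linarith
  refine ht (Fin.cons (z 0) (z 1 • y)) (fun h0 => hz ?_) c hc fun v => ?_
  · have e0 : z 0 = 0 := congrFun h0 0
    have e1 : z 1 • y = 0 := funext fun i => congrFun h0 i.succ
    funext i
    fin_cases i
    · exact e0
    · exact (smul_eq_zero.mp e1).resolve_right hy
  · obtain ⟨p, hp, e⟩ := hz' v
    have e0 : c v * z 0 = a v * p 0 + β v * p 1 := by
      simpa [mulVec, dotProduct, Fin.sum_univ_succ] using congrFun e 0
    have e1 : c v * z 1 = d v * p 1 := by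
      simpa [mulVec, dotProduct, Fin.sum_univ_succ] using congrFun e 1
    have := Lat_add (Lat_smul (hp 0) (cons_zero_mem_Lat (a v) (b v) (M v) v))
      (Lat_smul (hp 1) (hβ v))
    convert this using 1
    funext i
    refine Fin.cases ?_ (fun i => ?_) i
    · simp [e0, mul_comm]
    · simp only [Pi.smul_apply, Pi.add_apply, Fin.cons_succ, smul_eq_mul, Pi.zero_apply]
      linear_combination y i * e1

theorem exists_near {r : ℕ} {g : A.ι → Matrix (Fin (r + 1)) (Fin (r + 1)) L} (hg : A.IsBun g)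
    {t : ℚ} (ht : A.Bd g t) {ε : ℚ} (hε : 0 < ε) : ∃ t₀ ≤ t, A.Bd g t₀ ∧ ¬A.Bd g (t₀ - ε) := by
  by_contra hcon
  have key : ∀ j : ℕ, A.Bd g (t - j * ε) := by
    intro j
    induction j with
    | zero => simpa using ht
    | succ j ih =>
      by_contra h
      refine hcon ⟨_, ?_, ih, ?_⟩
      · have : 0 ≤ (j : ℚ) * ε := by positivity
        linarith
      · rwa [show t - j * ε - ε = t - (j + 1 : ℕ) * ε by push_cast; ring]
  obtain ⟨a, b, M, e, ha, -⟩ := exists_blk hg (h := 1) (by simp)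
  obtain ⟨j, hj⟩ := exists_nat_gt ((t - A.deg a) / ε)
  have := key j (Fin.cons 1 0) (fun h0 => one_ne_zero (congrFun h0 0)) a ha fun v => by
    rw [e, Matrix.one_mul]
    convert cons_zero_mem_Lat (a v) (b v) (M v) v using 1
    funext i
    refine Fin.cases ?_ (fun i => ?_) i <;> simp
  rw [div_lt_iff₀ hε] at hj
  linarith

/-- Induction on `r`.  Some line has a finite degree, so there is a largest `j : ℕ` with `Bd g (t - j ε')`; put
`t₀ = t - j ε'` and take `(x, c)` with `deg c > t₀ - ε'`.  Complete `x` to an invertible `h` with first column `x`,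
apply `iwasawa` to `h⁻¹ * g v`; the corner `a v = t v 0 0` has `deg a ≥ deg c`, and the lower right block `g'` satisfies
`Bd g' (t₀ + ε')` by `rank_two` (for `(y, c')` lift `c' v • y` to `Lat`, with first coordinate `b v`, and apply
`rank_two` to `!![a, b; 0, c']`, whose lines `(z₁, z₂)` give the lines `h (z₁, z₂ • y)` of `g`). -/
theorem exists_flag [IsAlgClosed L] (hRR : A.RR) (h1 : A.HasOne) (r : ℕ) :
    ∀ (g : A.ι → Matrix (Fin r) (Fin r) L), A.IsBun g → ∀ t : ℚ, A.Bd g t → ∀ ε : ℚ, 0 < ε →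
    ∃ (h : Matrix (Fin r) (Fin r) L) (s : A.ι → Matrix (Fin r) (Fin r) L), h.det ≠ 0 ∧
      (∀ v, A.Lat v (g v) = A.Lat v (h * s v)) ∧ (∀ v i j, s v i j ≠ 0 → i ≤ j) ∧
      ∀ i, A.deg (fun v => s v i i) ≤ t + ε := by
  induction r with
  | zero =>
    intro g _ t _ ε _
    exact ⟨1, g, by simp, fun v => by rw [Matrix.one_mul], fun _ i => i.elim0, fun i => i.elim0⟩
  | succ r ih =>
    intro g hg t ht ε hε
    obtain ⟨t₀, ht₀, hb, hn⟩ := exists_near hg ht (half_pos hε)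
    simp only [Bd, not_forall, not_le] at hn
    obtain ⟨x, hx, c, hc, hm, hlt⟩ := hn
    obtain ⟨h, hh, rfl⟩ := exists_det_ne_col hx
    obtain ⟨a, b, M, e, ha, hM⟩ := exists_blk hg hh
    have hb' := hb.of_mul hh e
    have hca : A.deg c ≤ A.deg a := deg_le_of_dvd ha hc fun v => by
      have := hm v
      rw [e, ← mulVec_smul, mulVec_mem_Lat_mul v hh] at this
      refine dvd_of_mem_Lat_blk (b := b v) (ha.1 v) (hM.det_ne v) ?_
      convert this using 1
      funext i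
      refine Fin.cases ?_ (fun i => ?_) i <;> simp
    have hat : A.deg a ≤ t₀ :=
      hb' (Fin.cons 1 0) (fun h0 => one_ne_zero (congrFun h0 0)) a ha fun v => by
        convert cons_zero_mem_Lat (a v) (b v) (M v) v using 1
        funext i
        refine Fin.cases ?_ (fun i => ?_) i <;> simp
    obtain ⟨h', s', hh', e', hs', hd'⟩ :=
      ih M hM _ (bd_quot hRR h1 ha (hg.of_mul hh e).1 hb') _ (half_pos hε)
    refine ⟨h * blk 1 0 h', fun v => blk (a v) (b v ᵥ* ((M v)⁻¹ * (h' * s' v))) (s' v), ?_,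
      fun v => ?_, fun v i j => ?_, fun i => ?_⟩
    · rw [det_mul, det_blk, one_mul]
      exact mul_ne_zero hh hh'
    · rw [e, Matrix.mul_assoc, blk_mul]
      exact Lat_mul_congr h (Lat_blk_congr (hM.det_ne v) (e' v))
    · refine Fin.cases ?_ (fun i => ?_) i
      · exact fun _ => Fin.zero_le _
      · refine Fin.cases ?_ (fun j => ?_) j
        · exact fun h0 => absurd rfl h0
        · exact fun h0 => Fin.succ_le_succ_iff.mpr (hs' v i j h0)
    · refine Fin.cases ?_ (fun i => ?_) i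
      · show A.deg a ≤ _
        linarith
      · have := hd' i
        show A.deg (fun v => s' v i i) ≤ _
        linarith

/-- the degrees are `≤ μ + ε'` and add up to `card n * μ` -/
theorem tri_of_bd [IsAlgClosed L] (hRR : A.RR) (h1 : A.HasOne) {n : Type} [Fintype n] [DecidableEq n]
    {g : A.ι → Matrix n n L} (hg : A.IsBun g) {μ : ℚ} (hb : A.Bd g μ)
    (hD : A.D g = Fintype.card n * μ) {ε : ℚ} (hε : 0 < ε) : A.Tri g (μ - ε) (μ + ε) := by
  obtain ⟨N, e₀, hN'⟩ : ∃ (N : ℕ) (_ : n ≃ Fin N), Fintype.card n = N :=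
    ⟨_, Fintype.equivFin n, rfl⟩
  rw [hN'] at hD
  refine Tri.of_reindex e₀ ?_
  obtain ⟨hg', hD'⟩ := hg.reindex e₀
  have hb' := hb.reindex e₀
  have hε' : 0 < ε / (N + 1) := by positivity
  obtain ⟨h, s, hh, e, hs, hd⟩ := exists_flag hRR h1 _ _ hg' μ hb' _ hε'
  have hρ : ∀ v i j, s v i j ≠ 0 → i = j ∨ i.val < j.val := fun v i j hij =>
    (hs v i j hij).eq_or_lt
  obtain ⟨hs1, hs2⟩ := hg'.of_mul hh e
  have hsum := (hs1.diag_idele hρ).2
  have hle : (N + 1) * (ε / (N + 1)) = ε := by field_simp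
  have hN : 0 ≤ N * (ε / (N + 1)) := by positivity
  refine ⟨h, s, Fin.val, hh, e, hρ, fun i => ⟨?_, by linarith [hd i]⟩⟩
  have h3 := Finset.single_le_sum (f := fun i => μ + ε / (N + 1) - A.deg fun v => s v i i)
    (fun i _ => sub_nonneg.mpr (hd i)) (Finset.mem_univ i)
  simp only [Finset.sum_sub_distrib, Finset.sum_const, Finset.card_univ, Fintype.card_fin,
    nsmul_eq_mul] at h3
  rw [← hsum, hs2, hD', hD] at h3
  linarith

end AdSys

end

end Crest.Agent.R169
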