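import Crest.Agent.R169.LinkB
import Crest.Agent.R169.Near
import Crest.Agent.R169.GamC

/-! # Semistable sheaves and tensor products on the generic fibre; the key bound -/

set_option autoImplicit false
set_option linter.unusedSectionVars false

namespace Crest.Agent.R169

noncomputable section

open Matrix TensorProduct

variable (PS : PlaceSys K1)
variable {K : Type} [Field K] [Algebra K0 K] [Algebra ℂ K] [IsScalarTower ℂ K0 K] [FiniteDimensional K0 K]
  {S : Surf K}
variable {V : Type} [AddCommGroup V] [Module K V] [Module ℂ V] [IsScalarTower ℂ K V]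
variable {W : Type} [AddCommGroup W] [Module K W] [Module ℂ W] [IsScalarTower ℂ K W]
variable {U : Type} [AddCommGroup U] [Module K U] [Module ℂ U] [IsScalarTower ℂ K U]

theorem CTri.mono {M : Pre V} {lo hi lo' hi' : ℚ} (h : CTri PS K M lo hi) (hlo : lo' ≤ lo)
    (hhi : hi ≤ hi') : CTri PS K M lo' hi' := by
  obtain ⟨n, _, _, b, g, hb, hg, hT⟩ := h
  exact ⟨n, inferInstance, inferInstance, b, g, hb, hg, hT.mono hlo hhi⟩

theorem CTri.push_equiv {M : Pre V} {lo hi : ℚ} (h : CTri PS K M lo hi) (f : V ≃ₗ[K] W) :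
    CTri PS K (push f.toLinearMap M) lo hi := by
  obtain ⟨n, _, _, b, g, hb, hg, hT⟩ := h
  refine ⟨n, inferInstance, inferInstance, b.map f, g, hb, fun v x => ?_, hT⟩
  have e : stalk PS K (push f.toLinearMap M) v =
      (stalk PS K M v).map (f.toLinearMap.restrictScalars (PS.I K v)) := by
    rw [stalk, stalk, Submodule.map_span]
    rfl
  simp only [Module.Basis.map_repr, LinearEquiv.trans_apply]
  rw [hg v (f.symm x), e]
  constructor
  · intro hx
    exact ⟨_, hx, f.apply_symm_apply x⟩
  · rintro ⟨y, hy, rfl⟩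
    simpa using hy

theorem algebraMap_C_mem_I (v : PS.ι) (c : ℂ) : algebraMap ℂ K c ∈ PS.I K v := by
  rw [IsScalarTower.algebraMap_apply ℂ K0 K, PS.algebraMap_mem_I_iff,
    IsScalarTower.algebraMap_apply ℂ K1 K0]
  exact (PS.O v).algebraMap_mem _

omit [IsScalarTower ℂ K0 K] [FiniteDimensional K0 K] [IsScalarTower ℂ K W] in
theorem tmul_mem_stalk {M : Pre V} {N : Pre W} (v : PS.ι) {x : V} {y : W} (hx : x ∈ stalk PS K M v)
    (hy : y ∈ stalk PS K N v) : x ⊗ₜ[K] y ∈ stalk PS K (tens (TensorProduct.mk K V W) M N) v := by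
  induction hx using Submodule.span_induction with
  | mem x hx =>
    induction hy using Submodule.span_induction with
    | mem y hy => exact Submodule.subset_span (Submodule.subset_span ⟨x, hx, y, hy, rfl⟩)
    | zero => simp
    | add y z _ _ hy hz => rw [tmul_add]; exact Submodule.add_mem _ hy hz
    | smul r y _ hy =>
      have : x ⊗ₜ[K] (r • y) = r • (x ⊗ₜ[K] y) := tmul_smul (r : K) x y
      rw [this]
      exact Submodule.smul_mem _ r hy
  | zero => simp
  | add x z _ _ hx hz => rw [add_tmul]; exact Submodule.add_mem _ hx hz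
  | smul r x _ hx =>
    have : (r • x) ⊗ₜ[K] y = r • (x ⊗ₜ[K] y) := (smul_tmul' (r : K) x y).symm
    rw [this]
    exact Submodule.smul_mem _ r hx

/-- the basis `b.tensorProduct b'`, the matrices `g v ⊗ₖ g' v` -/
theorem CTri.tens_mk {M : Pre V} {N : Pre W} {lo hi lo' hi' : ℚ} (h : CTri PS K M lo hi)
    (h' : CTri PS K N lo' hi') :
    CTri PS K (tens (TensorProduct.mk K V W) M N) (lo + lo') (hi + hi') := by
  obtain ⟨n, _, _, b, g, hb, hg, hT⟩ := h
  obtain ⟨m, _, _, b', g', hb', hg', hT'⟩ := h'
  refine ⟨n × m, inferInstance, inferInstance, b.tensorProduct b',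
    fun v => Matrix.kroneckerMap (· * ·) (g v) (g' v), hb.kron hb', fun v z => ?_, ?_⟩
  · constructor
    · rintro ⟨y, hy, hz⟩
      let x : n → V := fun j => b.equivFun.symm (fun i => g v i j)
      let x' : m → W := fun j => b'.equivFun.symm (fun i => g' v i j)
      have hxr : ∀ j i, b.repr (x j) i = g v i j := fun j i => by
        rw [← b.equivFun_apply, LinearEquiv.apply_symm_apply]
      have hxr' : ∀ j i, b'.repr (x' j) i = g' v i j := fun j i => by
        rw [← b'.equivFun_apply, LinearEquiv.apply_symm_apply]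
      have hx : ∀ j, x j ∈ stalk PS K M v := fun j => by
        rw [← hg v]
        simp only [hxr]
        exact AdSys.col_mem_Lat (A := PS.ad K) v (g v) j
      have hx' : ∀ j, x' j ∈ stalk PS K N v := fun j => by
        rw [← hg' v]
        simp only [hxr']
        exact AdSys.col_mem_Lat (A := PS.ad K) v (g' v) j
      have e : z = ∑ p : n × m, y p • (x p.1 ⊗ₜ[K] x' p.2) := by
        apply (b.tensorProduct b').repr.injective
        ext ⟨i, k⟩
        rw [congrFun hz (i, k)]
        simp only [map_sum, map_smul, Finsupp.coe_finsetSum, Finset.sum_apply, Finsupp.smul_apply,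
          Module.Basis.tensorProduct_repr_tmul_apply, hxr, hxr', smul_eq_mul, Matrix.mulVec,
          dotProduct, Matrix.kroneckerMap_apply]
        exact Finset.sum_congr rfl fun p _ => by ring
      rw [e]
      exact Submodule.sum_mem _ fun p _ =>
        Submodule.smul_mem _ (⟨y p, hy p⟩ : PS.I K v) (tmul_mem_stalk PS v (hx p.1) (hx' p.2))
    · intro hz
      have hzero : (fun i => (b.tensorProduct b').repr 0 i) ∈
          (PS.ad K).Lat v (Matrix.kroneckerMap (· * ·) (g v) (g' v)) :=
        ⟨0, fun _ => (PS.I K v).zero_mem, by funext i; simp⟩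
      have hadd : ∀ z z' : V ⊗[K] W, (fun i => (b.tensorProduct b').repr z i) ∈
          (PS.ad K).Lat v (Matrix.kroneckerMap (· * ·) (g v) (g' v)) →
          (fun i => (b.tensorProduct b').repr z' i) ∈
          (PS.ad K).Lat v (Matrix.kroneckerMap (· * ·) (g v) (g' v)) →
          (fun i => (b.tensorProduct b').repr (z + z') i) ∈
          (PS.ad K).Lat v (Matrix.kroneckerMap (· * ·) (g v) (g' v)) := by
        intro z z' h1 h2
        convert AdSys.Lat_add h1 h2 using 1
        funext i; simp
      have hsmul : ∀ (r : K) (z : V ⊗[K] W), r ∈ PS.I K v → (fun i => (b.tensorProduct b').repr z i) ∈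
          (PS.ad K).Lat v (Matrix.kroneckerMap (· * ·) (g v) (g' v)) →
          (fun i => (b.tensorProduct b').repr (r • z) i) ∈
          (PS.ad K).Lat v (Matrix.kroneckerMap (· * ·) (g v) (g' v)) := by
        intro r z hr h1
        convert AdSys.Lat_smul (A := PS.ad K) hr h1 using 1
        funext i; simp
      induction hz using Submodule.span_induction with
      | mem z hz =>
        induction hz using Submodule.span_induction with
        | mem z hz =>
          obtain ⟨x, hx, x', hx', rfl⟩ := hz
          obtain ⟨y, hy, e⟩ := (hg v x).2 (Submodule.subset_span hx)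
          obtain ⟨y', hy', e'⟩ := (hg' v x').2 (Submodule.subset_span hx')
          refine ⟨fun p => y p.1 * y' p.2, fun p => (PS.I K v).mul_mem (hy p.1) (hy' p.2), ?_⟩
          funext ⟨i, k⟩
          simp only [TensorProduct.mk_apply, Module.Basis.tensorProduct_repr_tmul_apply, smul_eq_mul]
          rw [congrFun e i, congrFun e' k]
          simp only [Matrix.mulVec, dotProduct, Matrix.kroneckerMap_apply, Fintype.sum_prod_type]
          rw [mul_comm, Finset.sum_mul_sum]
          exact Finset.sum_congr rfl fun _ _ => Finset.sum_congr rfl fun _ _ => by ring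
        | zero => exact hzero
        | add z z' _ _ h1 h2 => exact hadd z z' h1 h2
        | smul c z _ h1 =>
          rw [← algebraMap_smul K c z]
          exact hsmul _ z (algebraMap_C_mem_I PS v c) h1
      | zero => exact hzero
      | add z z' _ _ h1 h2 => exact hadd z z' h1 h2
      | smul r z _ h1 => exact hsmul r z r.2 h1
  · have e : (fun v => (Matrix.kroneckerMap (· * ·) (g v) (g' v)).map
        (algebraMap K (AlgebraicClosure K))) = fun v => Matrix.kroneckerMap (· * ·)
          ((g v).map (algebraMap K (AlgebraicClosure K)))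
          ((g' v).map (algebraMap K (AlgebraicClosure K))) := by
      funext v
      ext ⟨i, k⟩ ⟨j, l⟩
      simp
    rw [e]
    exact AdSys.Tri.kron (PS.isBun_map hb).1 (PS.isBun_map hb').1 hT hT'

theorem CTri.tens_lsmul {L : Pre K} {N : Pre W} {lo hi lo' hi' : ℚ} (h : CTri PS K L lo hi)
    (h' : CTri PS K N lo' hi') :
    CTri PS K (tens (LinearMap.lsmul K W) L N) (lo + lo') (hi + hi') := by
  rw [← push_lid]
  exact (h.tens_mk PS h').push_equiv PS (TensorProduct.lid K W)

/-- `exists_locMat`; `SemiAd` from `SemiSt` by `D_eq` for `pull W.subtype M` and `mem_stalk_pull`;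
`bd_of_semiAd`, `isBun_map`, `tri_of_bd`, `ad_RR`, `ad_hasOne`. -/
theorem IsSheaf.cTri_of_semiSt {M : Pre V} (hM : IsSheaf S M) (hs : SemiSt K M)
    (hr : 0 < Module.finrank K V) {ε : ℚ} (hε : 0 < ε) :
    CTri PS K M
      ((pc K M - Module.finrank K V * pc K (OO S) : ℚ) / (Module.finrank K V * Module.finrank K0 K) - ε)
      ((pc K M - Module.finrank K V * pc K (OO S) : ℚ) / (Module.finrank K V * Module.finrank K0 K) + ε) := by
  classical
  have := hM.finiteDimensional
  have he : 0 < Module.finrank K0 K := Module.finrank_pos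
  have hr' : (0 : ℚ) < Module.finrank K V := by exact_mod_cast hr
  have he' : (0 : ℚ) < Module.finrank K0 K := by exact_mod_cast he
  let b := Module.finBasis K V
  obtain ⟨g, hb, hg⟩ := hM.exists_locMat PS b
  set μ : ℚ := (pc K M - Module.finrank K V * pc K (OO S) : ℚ) /
    (Module.finrank K V * Module.finrank K0 K) with hμ
  have hsemi : (PS.ad K).SemiAd g μ := by
    intro s w t hw ht hL
    let f : (Fin s → K) →ₗ[K] V := b.equivFun.symm.toLinearMap ∘ₗ w.mulVecLin
    have hf : Function.Injective f := b.equivFun.symm.injective.comp hw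
    have hfr : ∀ z, (fun i => b.repr (f z) i) = w *ᵥ z := fun z => by
      funext i
      rw [← b.equivFun_apply]
      exact congrFun (b.equivFun.apply_symm_apply (w *ᵥ z)) i
    have hloc : IsLocMat PS K (R169.pull f M) (Pi.basisFun K (Fin s)) t := by
      intro v z
      rw [hM.mem_stalk_pull PS hf, ← hg v, hfr, hL v z]
      simp
    have hD := (hM.pull hf).D_eq PS ht hloc
    have e1 : pc K (R169.pull f M) = pc K (R169.pull (LinearMap.range f).subtype M) := by
      have : R169.pull f M = R169.pull (LinearEquiv.ofInjective f hf).toLinearMap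
          (R169.pull (LinearMap.range f).subtype M) := rfl
      simp only [pc, this, HP_pull_equiv]
    have e2 : Module.finrank K (LinearMap.range f) = s := by
      rw [LinearMap.finrank_range_of_inj hf]; simp
    have h3 := hs (LinearMap.range f)
    rw [← e1, e2] at h3
    have h4 : (Module.finrank K V : ℚ) * pc K (R169.pull f M) ≤ s * pc K M := by exact_mod_cast h3
    simp only [Module.finrank_fintype_fun_eq_card, Fintype.card_fin] at hD
    rw [hμ, ← mul_div_assoc, le_div_iff₀ (mul_pos hr' he')]
    nlinarith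
  have hbd := PS.bd_of_semiAd (Ω := AlgebraicClosure K) hb hsemi
  obtain ⟨hb2, hD2⟩ := PS.isBun_map (Ω := AlgebraicClosure K) hb
  have hD := hM.D_eq PS hb hg
  refine ⟨_, inferInstance, inferInstance, b, g, hb, hg,
    AdSys.tri_of_bd (PS.ad_RR _) (PS.ad_hasOne _) hb2 hbd ?_ hε⟩
  rw [hD2, Fintype.card_fin, hμ]
  field_simp
  linarith

theorem semiSt_rank_one (L : Pre K) : SemiSt K L := by
  intro W
  rcases eq_bot_or_eq_top W with rfl | rfl
  · simp [pc, HP_of_subsingleton]
  · have : pull (⊤ : Submodule K K).subtype L =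
        pull (Submodule.topEquiv (R := K) (M := K)).toLinearMap L := rfl
    simp only [pc, this, HP_pull_equiv]
    simp

/-- The key bound: `HP(a, b1) ≤ dim Γ(a, b1) ≤ dim Γ(0, b1) + a (r e b1 + p)` for large `a` (`HP_le_finrank`,
`exists_b1`), so `HP(0, b1) ≤ dim Γ(0, b1) ≤ dim Γ(0, -1) + (b1 + 1) n`. -/
theorem key_bound (S : Surf K) : ∃ b1 : ℕ, ∀ (V : Type) [AddCommGroup V] [Module K V] [Module ℂ V]
    [IsScalarTower ℂ K V] (M : Pre V), IsSheaf S M → ∀ lo hi : ℚ, CTri PS K M lo hi → -1 < lo → hi < 1 →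
    ∀ n : ℕ, Rho2Le K M n → HP K M 0 b1 ≤ ((b1 : ℤ) + 1) * n := by
  obtain ⟨b1, hb1⟩ := exists_b1 PS S
  refine ⟨b1, fun V _ _ _ _ M hM lo hi hT hlo hhi n hn => ?_⟩
  have h1 := hb1 V M hM lo hi hT hlo
  obtain ⟨a0, ha0⟩ := hM.HP_le_finrank
  have h2 : ∀ a : ℕ, (Module.finrank ℂ (Gam K M a b1) : ℤ) ≤ Module.finrank ℂ (Gam K M 0 b1) +
      a * ((Module.finrank K V * Module.finrank K0 K : ℕ) * (b1 : ℤ) + pc K M) := by
    intro a
    induction a with
    | zero => simp
    | succ a ih =>
      have := h1 a
      have e : ((a + 1 : ℕ) : ℤ) = (a : ℤ) + 1 := by push_cast; ring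
      rw [e]
      linarith
  have h3 : ∀ k : ℕ, Module.finrank ℂ (Gam K M 0 ((k : ℤ) - 1)) ≤ k * n := by
    intro k
    induction k with
    | zero =>
      have := hM.Gam_neg_one PS hT hhi 0
      have e : ((0 : ℕ) : ℤ) - 1 = -1 := by simp
      rw [e, this]
      simp
    | succ k ih =>
      have := hM.finrank_Gam_succ_le hn ((k : ℤ) - 1)
      have e : ((k + 1 : ℕ) : ℤ) - 1 = (k : ℤ) - 1 + 1 := by push_cast; ring
      rw [e]
      nlinarith
  have h4 := h3 (b1 + 1)
  have e : ((b1 + 1 : ℕ) : ℤ) - 1 = b1 := by push_cast; ring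
  rw [e] at h4
  have h5 : (Module.finrank ℂ (Gam K M 0 b1) : ℤ) ≤ ((b1 : ℤ) + 1) * n := by exact_mod_cast h4
  have h6 := ha0 a0.toNat b1 (Int.self_le_toNat a0)
  have h7 := h2 a0.toNat
  rw [hM.HP_eq] at h6 ⊢
  nlinarith

end

end Crest.Agent.R169
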