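import Crest.Agent.R169.Pol2

/-! # Operations on sheaves -/

set_option autoImplicit false

namespace Crest.Agent.R169

noncomputable section

variable {K : Type} [Field K] [Algebra K0 K] [Algebra ℂ K] [IsScalarTower ℂ K0 K] (S : Surf K)
variable {V : Type} [AddCommGroup V] [Module K V] [Module ℂ V] [IsScalarTower ℂ K V]
variable {W : Type} [AddCommGroup W] [Module K W] [Module ℂ W] [IsScalarTower ℂ K W]
variable {U : Type} [AddCommGroup U] [Module K U] [Module ℂ U] [IsScalarTower ℂ K U]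

theorem Surf.R_fg (c : Chart) : (S.R c).FG := by
  classical
  obtain ⟨s, hs⟩ := S.fin c
  refine ⟨insert (co (lam K) c.1) (insert (co (mu K) c.2) s), le_antisymm ?_ fun x hx => ?_⟩
  · refine Algebra.adjoin_le fun x hx => ?_
    simp only [Finset.coe_insert, Set.mem_insert_iff] at hx
    rcases hx with rfl | rfl | hx
    · exact S.P_le c (Algebra.subset_adjoin (by simp))
    · exact S.P_le c (Algebra.subset_adjoin (by simp))
    · exact (hs x).2 (Submodule.subset_span hx)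
  · rw [hs] at hx
    induction hx using Submodule.span_induction with
    | mem x hx => exact Algebra.subset_adjoin (by simp [hx])
    | zero => exact zero_mem _
    | add x y _ _ hx hy => exact add_mem hx hy
    | smul a x _ hx =>
      refine mul_mem (Algebra.adjoin_mono ?_ a.2) hx
      intro y hy
      simp only [Set.mem_insert_iff, Set.mem_singleton_iff] at hy
      rcases hy with rfl | rfl <;> simp

theorem Surf.R_noeth (c : Chart) : IsNoetherianRing (S.R c) := by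
  exact isNoetherianRing_of_fg (S.R_fg c)

theorem Surf.R_isFractionRing (c : Chart) : IsFractionRing (S.R c) K := by
  refine IsFractionRing.of_field _ _ fun z => ?_
  obtain ⟨f, hf, h0, hz⟩ := S.frac c z
  refine ⟨⟨_, hz⟩, ⟨f, S.P_le c hf⟩, ?_⟩
  change z = f * z / f
  field_simp

theorem Surf.R_integral (c : Chart) {x : K} (hx : x ∈ S.R c) : IsIntegral (PP K c) x := by
  obtain ⟨s, hs⟩ := S.fin c
  refine isIntegral_of_smul_mem_submodule (Submodule.span (PP K c) (s : Set K)) (fun h => ?_)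
    ⟨s, rfl⟩ x fun n hn => (hs _).1 (mul_mem hx ((hs n).2 hn))
  have := (hs 1).1 (one_mem _)
  rw [h] at this
  exact one_ne_zero ((Submodule.mem_bot _).1 this)

include S in
theorem Surf.finiteDimensional : FiniteDimensional K0 K := by
  obtain ⟨s, hs⟩ := S.fin (false, false)
  refine ⟨s, eq_top_iff.2 fun x _ => ?_⟩
  obtain ⟨f, hf, h0, hx⟩ := S.frac (false, false) x
  have key : ∀ y ∈ Submodule.span (PP K (false, false)) (s : Set K),
      y ∈ Submodule.span K0 (s : Set K) := by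
    intro y hy
    induction hy using Submodule.span_induction with
    | mem x hx => exact Submodule.subset_span hx
    | zero => exact zero_mem _
    | add x y _ _ hx hy => exact add_mem hx hy
    | smul a x _ hx =>
      obtain ⟨b, -, hb⟩ := (mem_PP_iff K _ _).1 a.2
      have : a • x = b • x := by rw [Algebra.smul_def b, ← hb]; rfl
      rw [this]
      exact Submodule.smul_mem _ _ hx
  obtain ⟨b, -, rfl⟩ := (mem_PP_iff K _ _).1 hf
  have := Submodule.smul_mem _ b⁻¹ (key _ ((hs _).1 hx))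
  rwa [Algebra.smul_def, map_inv₀, inv_mul_cancel_left₀ h0] at this

theorem Surf.residue (c : Chart) (𝔪 : Ideal (S.R c)) (h : 𝔪.IsMaximal) (x : S.R c) :
    ∃ a : ℂ, x - algebraMap ℂ (S.R c) a ∈ 𝔪 :=
  residue_of_fg _ (S.R_fg c) 𝔪 h x

/-- local-global principle: the conductor of `v` into `N` is an ideal contained in no maximal ideal -/
theorem Surf.mem_of_local (c : Chart) (N : Submodule ℂ V) (hN : ∀ r ∈ S.R c, ∀ v ∈ N, r • v ∈ N) (v : V)
    (h : ∀ 𝔪 : Ideal (S.R c), 𝔪.IsMaximal → ∃ g : S.R c, g ∉ 𝔪 ∧ (g : K) • v ∈ N) : v ∈ N := by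
  let I : Ideal (S.R c) :=
    { carrier := {g | (g : K) • v ∈ N}
      add_mem' := fun {a b} ha hb => by
        change ((a : K) + b) • v ∈ N
        rw [add_smul]
        exact add_mem ha hb
      zero_mem' := by
        change (0 : K) • v ∈ N
        rw [zero_smul]
        exact zero_mem _
      smul_mem' := fun a b hb => by
        change ((a : K) * b) • v ∈ N
        rw [mul_smul]
        exact hN _ a.2 _ hb }
  by_cases hI : I = ⊤
  · have : (1 : S.R c) ∈ I := hI ▸ Submodule.mem_top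
    change (1 : K) • v ∈ N at this
    rwa [one_smul] at this
  · obtain ⟨𝔪, h1, h2⟩ := Ideal.exists_le_maximal I hI
    obtain ⟨g, h3, h4⟩ := h 𝔪 h1
    exact absurd (h2 h4) h3

variable {S}

theorem IsSheaf.smul_mem {M : Pre V} (hM : IsSheaf S M) (c : Chart) {r : K} (hr : r ∈ S.R c) {v : V}
    (hv : v ∈ M c) : r • v ∈ M c := by
  obtain ⟨s, hs⟩ := hM.fg c
  exact (hs _).2 (Submodule.smul_mem _ (⟨r, hr⟩ : S.R c) ((hs v).1 hv))

/-- `M c` as an `R c`-module -/
def IsSheaf.toSub {M : Pre V} (hM : IsSheaf S M) (c : Chart) : Submodule (S.R c) V where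
  carrier := M c
  add_mem' := (M c).add_mem
  zero_mem' := (M c).zero_mem
  smul_mem' := fun r _ hv => hM.smul_mem c r.2 hv

theorem IsSheaf.mem_toSub {M : Pre V} (hM : IsSheaf S M) (c : Chart) (v : V) :
    v ∈ hM.toSub c ↔ v ∈ M c := Iff.rfl

theorem IsSheaf.toSub_fg {M : Pre V} (hM : IsSheaf S M) (c : Chart) : (hM.toSub c).FG := by
  obtain ⟨s, hs⟩ := hM.fg c
  exact ⟨s, Submodule.ext fun v => (hs v).symm⟩

theorem IsSheaf.finiteDimensional {M : Pre V} (hM : IsSheaf S M) : FiniteDimensional K V := by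
  obtain ⟨s, hs⟩ := hM.fg (false, false)
  refine ⟨s, eq_top_iff.2 fun v _ => ?_⟩
  obtain ⟨f, -, h0, hv⟩ := hM.frac (false, false) v
  have := Submodule.smul_mem _ f⁻¹ (Submodule.span_subset_span _ K _ ((hs _).1 hv))
  rwa [inv_smul_smul₀ h0] at this

/-- denominators can be taken in `PP K c` -/
theorem IsSheaf.frac' {M : Pre V} (hM : IsSheaf S M) (c : Chart) (v : V) :
    ∃ f ∈ PP K c, f ≠ 0 ∧ f • v ∈ M c := by
  obtain ⟨f, -, h0, hv⟩ := hM.frac c v
  obtain ⟨g, hg, h1, h2⟩ := S.frac c f⁻¹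
  refine ⟨g, hg, h1, ?_⟩
  have := hM.smul_mem c h2 hv
  rwa [mul_smul, inv_smul_smul₀ h0] at this

/-- the exponent in `compat` can be increased, and chosen for all charts at once -/
theorem IsSheaf.compat' {M : Pre V} (hM : IsSheaf S M) (c : Chart) {v : V} (hv : v ∈ M c) :
    ∃ n : ℕ, ∀ c' (a b : ℤ), n ≤ a → n ≤ b → ((tau K c' a b)⁻¹ * tau K c a b) • v ∈ M c' := by
  choose n hn using fun c' => hM.compat c c' v hv
  refine ⟨Finset.univ.sup n, fun c' a b ha hb => ?_⟩
  have h1 : (n c' : ℤ) ≤ (Finset.univ.sup n : ℕ) := by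
    exact_mod_cast Finset.le_sup (f := n) (Finset.mem_univ c')
  have h2 := hM.smul_mem c' (S.P_le c' (tau_inv_mul_tau_mem K c' c (a := a - n c') (b := b - n c')
    (by omega) (by omega))) (hn c')
  have h3 : ∀ d, tau K d a b = tau K d (a - n c') (b - n c') * tau K d (n c') (n c') := by
    intro d
    rw [← tau_add, sub_add_cancel, sub_add_cancel]
  rw [smul_smul] at h2
  rw [h3 c, h3 c', mul_inv]
  convert h2 using 2
  ring

theorem ops_fg (c : Chart) (N : Submodule ℂ V) (hsm : ∀ r ∈ S.R c, ∀ v ∈ N, r • v ∈ N)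
    {T : Submodule (S.R c) V} (hT : T.FG) (hle : ∀ v ∈ N, v ∈ T) :
    ∃ s : Finset V, ∀ v, v ∈ N ↔ v ∈ Submodule.span (S.R c) (s : Set V) := by
  have := S.R_noeth c
  let N' : Submodule (S.R c) V :=
    { carrier := N
      add_mem' := N.add_mem
      zero_mem' := N.zero_mem
      smul_mem' := fun r _ hv => hsm r r.2 _ hv }
  obtain ⟨s, hs⟩ : N'.FG := hT.of_le hle
  exact ⟨s, fun v => by rw [hs]; rfl⟩

theorem ops_fg_scal {M : Pre V} (hM : IsSheaf S M) (c : Chart) {y : K} (hy : y ≠ 0) :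
    ∃ s : Finset V, ∀ v, v ∈ scal y (M c) ↔ v ∈ Submodule.span (S.R c) (s : Set V) := by
  obtain ⟨s, hs⟩ := (hM.toSub_fg c).map ((y • LinearMap.id : V →ₗ[K] V).restrictScalars (S.R c))
  refine ⟨s, fun v => ?_⟩
  rw [hs, mem_scal, Submodule.mem_map]
  constructor
  · intro hv
    exact ⟨_, hv, smul_inv_smul₀ hy v⟩
  · rintro ⟨w, hw, rfl⟩
    change y⁻¹ • y • w ∈ M c
    rwa [inv_smul_smul₀ hy]

/-- a convenient constructor: a compatible family of `R c`-submodules of a sheaf, of full rank -/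
theorem IsSheaf.of_le {M N : Pre V} (hM : IsSheaf S M) (hle : ∀ c, N c ≤ M c)
    (hsm : ∀ c, ∀ r ∈ S.R c, ∀ v ∈ N c, r • v ∈ N c)
    (hfrac : ∀ c (v : V), ∃ f ∈ S.R c, f ≠ 0 ∧ f • v ∈ N c)
    (hc : ∀ c c' (v : V), v ∈ N c → ∃ n : ℕ, ((tau K c' n n)⁻¹ * tau K c n n) • v ∈ N c') :
    IsSheaf S N := by
  refine ⟨fun c => ?_, hfrac, hc⟩
  exact ops_fg c (N c) (hsm c) (hM.toSub_fg c) (hle c)

variable (S) in
theorem isSheaf_OO : IsSheaf S (OO S) := by
  refine ⟨fun c => ⟨{1}, fun x => ?_⟩, fun c v => ?_, S.compat⟩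
  · simp only [Finset.coe_singleton, Submodule.mem_span_singleton]
    constructor
    · intro hx
      exact ⟨⟨x, hx⟩, mul_one x⟩
    · rintro ⟨a, rfl⟩
      change (a : K) * 1 ∈ S.R c
      rw [mul_one]
      exact a.2
  · obtain ⟨f, hf, h0, hv⟩ := S.frac c v
    exact ⟨f, S.P_le c hf, h0, hv⟩

theorem IsSheaf.twist {M : Pre V} (hM : IsSheaf S M) (a b : ℤ) : IsSheaf S (twist K M a b) := by
  refine ⟨fun c => ops_fg_scal hM c (tau_ne_zero K c a b), fun c v => ?_, fun c c' v hv => ?_⟩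
  · obtain ⟨f, hf, h0, hv⟩ := hM.frac c ((tau K c a b)⁻¹ • v)
    exact ⟨f, hf, h0, by rwa [smul_comm] at hv⟩
  · obtain ⟨n, hn⟩ := hM.compat' c (mem_scal.1 hv)
    refine ⟨n + a.natAbs + b.natAbs, mem_scal.2 ?_⟩
    have h1 := hn c' ((n + a.natAbs + b.natAbs : ℕ) + a) ((n + a.natAbs + b.natAbs : ℕ) + b)
      (by omega) (by omega)
    rw [tau_add, tau_add, smul_smul] at h1
    rw [smul_smul]
    convert h1 using 2
    have := tau_ne_zero K c a b
    field_simp

theorem IsSheaf.scal {M : Pre V} (hM : IsSheaf S M) {y : K} (hy : y ≠ 0) :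
    IsSheaf S (fun c => scal y (M c)) := by
  refine ⟨fun c => ops_fg_scal hM c hy, fun c v => ?_, fun c c' v hv => ?_⟩
  · obtain ⟨f, hf, h0, hv⟩ := hM.frac c (y⁻¹ • v)
    exact ⟨f, hf, h0, by rwa [smul_comm] at hv⟩
  · obtain ⟨n, hn⟩ := hM.compat c c' _ (mem_scal.1 hv)
    exact ⟨n, by rwa [smul_comm] at hn⟩

theorem IsSheaf.pull {M : Pre V} (hM : IsSheaf S M) {f : W →ₗ[K] V} (hf : Function.Injective f) :
    IsSheaf S (pull f M) := by
  refine ⟨fun c => ?_, fun c v => ?_, fun c c' v hv => ?_⟩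
  · have := S.R_noeth c
    obtain ⟨s, hs⟩ : ((hM.toSub c).comap (f.restrictScalars (S.R c))).FG :=
      Submodule.fg_of_fg_map_injective (f := f.restrictScalars (S.R c)) hf
        ((hM.toSub_fg c).of_le (Submodule.map_comap_le _ _))
    exact ⟨s, fun v => by rw [hs]; rfl⟩
  · obtain ⟨g, hg, h0, hv⟩ := hM.frac c (f v)
    exact ⟨g, hg, h0, by rwa [← map_smul] at hv⟩
  · obtain ⟨n, hn⟩ := hM.compat c c' (f v) hv
    exact ⟨n, by rwa [← map_smul] at hn⟩

theorem IsSheaf.push {M : Pre V} (hM : IsSheaf S M) {f : V →ₗ[K] W} (hf : Function.Surjective f) :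
    IsSheaf S (push f M) := by
  refine ⟨fun c => ?_, fun c v => ?_, fun c c' v hv => ?_⟩
  · obtain ⟨s, hs⟩ := (hM.toSub_fg c).map (f.restrictScalars (S.R c))
    exact ⟨s, fun v => by rw [hs]; rfl⟩
  · obtain ⟨v, rfl⟩ := hf v
    obtain ⟨g, hg, h0, hv⟩ := hM.frac c v
    exact ⟨g, hg, h0, _, hv, map_smul f g v⟩
  · obtain ⟨v, hv, rfl⟩ := hv
    obtain ⟨n, hn⟩ := hM.compat c c' v hv
    exact ⟨n, _, hn, map_smul f _ v⟩

theorem IsSheaf.inf {M N : Pre V} (hM : IsSheaf S M) (hN : IsSheaf S N) : IsSheaf S (M ⊓ N) := by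
  refine hM.of_le (fun c => inf_le_left)
    (fun c r hr v hv => ⟨hM.smul_mem c hr hv.1, hN.smul_mem c hr hv.2⟩) (fun c v => ?_)
    fun c c' v hv => ?_
  · obtain ⟨f, hf, h0, h1⟩ := hM.frac c v
    obtain ⟨g, hg, h2, h3⟩ := hN.frac c v
    refine ⟨f * g, mul_mem hf hg, mul_ne_zero h0 h2, ?_, ?_⟩
    · rw [mul_comm, mul_smul]; exact hM.smul_mem c hg h1
    · rw [mul_smul]; exact hN.smul_mem c hf h3
  · obtain ⟨n, hn⟩ := hM.compat' c hv.1
    obtain ⟨m, hm⟩ := hN.compat' c hv.2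
    exact ⟨n + m, hn c' _ _ (by omega) (by omega), hm c' _ _ (by omega) (by omega)⟩

theorem IsSheaf.sup {M N : Pre V} (hM : IsSheaf S M) (hN : IsSheaf S N) : IsSheaf S (M ⊔ N) := by
  refine ⟨fun c => ?_, fun c v => ?_, fun c c' v hv => ?_⟩
  · obtain ⟨s, hs⟩ := (hM.toSub_fg c).sup (hN.toSub_fg c)
    refine ⟨s, fun v => ?_⟩
    rw [hs, Submodule.mem_sup, Pi.sup_apply, Submodule.mem_sup]
    rfl
  · obtain ⟨f, hf, h0, h1⟩ := hM.frac c v
    exact ⟨f, hf, h0, Submodule.mem_sup_left h1⟩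
  · obtain ⟨x, hx, y, hy, rfl⟩ := Submodule.mem_sup.1 hv
    obtain ⟨n, hn⟩ := hM.compat' c hx
    obtain ⟨m, hm⟩ := hN.compat' c hy
    refine ⟨n + m, ?_⟩
    rw [smul_add]
    exact Submodule.add_mem_sup (hn c' _ _ (by omega) (by omega)) (hm c' _ _ (by omega) (by omega))

theorem IsSheaf.piP {ι : Type} [Finite ι] {M : ι → Pre V} (hM : ∀ i, IsSheaf S (M i)) :
    IsSheaf S (piP M) := by
  classical
  have := Fintype.ofFinite ι
  refine ⟨fun c => ?_, fun c v => ?_, fun c c' v hv => ?_⟩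
  · obtain ⟨s, hs⟩ := Submodule.fg_pi fun i => (hM i).toSub_fg c
    exact ⟨s, fun v => by rw [hs]; rfl⟩
  · choose f hf h0 h1 using fun i => (hM i).frac c (v i)
    refine ⟨∏ i, f i, prod_mem fun i _ => hf i, Finset.prod_ne_zero_iff.2 fun i _ => h0 i,
      fun i _ => ?_⟩
    rw [← Finset.prod_erase_mul _ _ (Finset.mem_univ i), Pi.smul_apply, mul_smul]
    exact (hM i).smul_mem c (prod_mem fun i _ => hf i) (h1 i)
  · choose n hn using fun i => (hM i).compat' c (hv i trivial)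
    refine ⟨Finset.univ.sup n, fun i _ => ?_⟩
    have h1 : (n i : ℤ) ≤ (Finset.univ.sup n : ℕ) := by
      exact_mod_cast Finset.le_sup (f := n) (Finset.mem_univ i)
    exact hn i c' _ _ h1 h1

end

end Crest.Agent.R169
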