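import Crest.Agent.R169.Ops

/-! # Operations on sheaves, continued -/

set_option autoImplicit false

namespace Crest.Agent.R169

noncomputable section

variable {K : Type} [Field K] [Algebra K0 K] [Algebra ℂ K] [IsScalarTower ℂ K0 K] {S : Surf K}
variable {V : Type} [AddCommGroup V] [Module K V] [Module ℂ V] [IsScalarTower ℂ K V]
variable {W : Type} [AddCommGroup W] [Module K W] [Module ℂ W] [IsScalarTower ℂ K W]
variable {U : Type} [AddCommGroup U] [Module K U] [Module ℂ U] [IsScalarTower ℂ K U]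
omit [Algebra ℂ K] [IsScalarTower ℂ K0 K] in
theorem ops2_e_add (c c' : Chart) (n m : ℕ) :
    (tau K c' (n + m : ℕ) (n + m : ℕ))⁻¹ * tau K c (n + m : ℕ) (n + m : ℕ) =
      ((tau K c' n n)⁻¹ * tau K c n n) * ((tau K c' m m)⁻¹ * tau K c m m) := by
  rw [Nat.cast_add, tau_add, tau_add, mul_inv]
  ring

omit [IsScalarTower ℂ K0 K] in
theorem ops2_e_mem (S : Surf K) (c c' : Chart) (n : ℕ) :
    (tau K c' n n)⁻¹ * tau K c n n ∈ S.R c' :=
  S.P_le c' (tau_inv_mul_tau_mem K c' c (Int.natCast_nonneg n) (Int.natCast_nonneg n))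

omit [IsScalarTower ℂ K0 K] [IsScalarTower ℂ K V] in
theorem ops2_span_le (c : Chart) {N : Submodule ℂ V} (hN : ∀ r ∈ S.R c, ∀ v ∈ N, r • v ∈ N)
    {T : Set V} (hT : T ⊆ N) {v : V} (hv : v ∈ Submodule.span (S.R c) T) : v ∈ N := by
  induction hv using Submodule.span_induction with
  | mem v hv => exact hT hv
  | zero => exact zero_mem _
  | add v w _ _ hv hw => exact add_mem hv hw
  | smul a v _ hv => exact hN a a.2 v hv

omit [IsScalarTower ℂ K0 K] [IsScalarTower ℂ K V] in
theorem ops2_frac (c : Chart) {N : Submodule ℂ V} (hN : ∀ r ∈ S.R c, ∀ v ∈ N, r • v ∈ N)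
    {T : Set V} (hT : Submodule.span K T = ⊤)
    (h : ∀ v ∈ T, ∃ f ∈ S.R c, f ≠ 0 ∧ f • v ∈ N) (v : V) : ∃ f ∈ S.R c, f ≠ 0 ∧ f • v ∈ N := by
  have hv : v ∈ Submodule.span K T := hT ▸ Submodule.mem_top
  induction hv using Submodule.span_induction with
  | mem v hv => exact h v hv
  | zero => exact ⟨1, one_mem _, one_ne_zero, by rw [smul_zero]; exact zero_mem _⟩
  | add v w _ _ hv hw =>
    obtain ⟨f, hf, hf0, hv⟩ := hv
    obtain ⟨g, hg, hg0, hw⟩ := hw
    refine ⟨f * g, mul_mem hf hg, mul_ne_zero hf0 hg0, ?_⟩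
    rw [smul_add]
    refine add_mem ?_ ?_
    · rw [mul_comm, mul_smul]; exact hN g hg _ hv
    · rw [mul_smul]; exact hN f hf _ hw
  | smul a v _ hv =>
    obtain ⟨f, hf, hf0, hv⟩ := hv
    obtain ⟨g, hg, hg0, ha⟩ := S.frac c a
    refine ⟨f * g, mul_mem hf (S.P_le c hg), mul_ne_zero hf0 hg0, ?_⟩
    have := hN _ ha _ hv
    rwa [smul_smul, show g * a * f = f * g * a by ring, mul_smul] at this

variable (S) in
/-- the vectors that come into `N` after twisting -/
def ops2_cp (c c' : Chart) {N : Submodule ℂ V} (hN : ∀ r ∈ S.R c', ∀ v ∈ N, r • v ∈ N) :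
    Submodule (S.R c) V where
  carrier := {v | ∃ n : ℕ, ((tau K c' n n)⁻¹ * tau K c n n) • v ∈ N}
  zero_mem' := ⟨0, by rw [smul_zero]; exact zero_mem _⟩
  add_mem' := by
    rintro v w ⟨n, hv⟩ ⟨m, hw⟩
    refine ⟨n + m, ?_⟩
    rw [smul_add, ops2_e_add]
    refine add_mem ?_ ?_
    · rw [mul_comm, mul_smul]; exact hN _ (ops2_e_mem S c c' m) _ hv
    · rw [mul_smul]; exact hN _ (ops2_e_mem S c c' n) _ hw
  smul_mem' := by
    rintro r v ⟨n, hv⟩
    obtain ⟨m, hm⟩ := S.compat c c' r r.2
    refine ⟨n + m, ?_⟩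
    have := hN _ hm _ hv
    rw [smul_smul] at this
    rw [ops2_e_add, Subalgebra.smul_def, smul_smul]
    convert this using 2
    ring


theorem IsSheaf.tens {M : Pre V} {N : Pre W} (hM : IsSheaf S M) (hN : IsSheaf S N)
    {β : V →ₗ[K] W →ₗ[K] U}
    (hβ : Submodule.span K (Set.image2 (fun x y => β x y) Set.univ Set.univ) = ⊤) :
    IsSheaf S (tens β M N) := by
  classical
  have hsm : ∀ c, ∀ r ∈ S.R c, ∀ v ∈ R169.tens β M N c, r • v ∈ R169.tens β M N c := by
    intro c r hr v hv
    induction hv using Submodule.span_induction with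
    | mem v hv =>
      obtain ⟨x, hx, y, hy, rfl⟩ := hv
      exact Submodule.subset_span ⟨r • x, hM.smul_mem c hr hx, y, hy, by simp⟩
    | zero => rw [smul_zero]; exact zero_mem _
    | add v w _ _ hv hw => rw [smul_add]; exact add_mem hv hw
    | smul a v _ hv => rw [smul_comm]; exact Submodule.smul_mem _ a hv
  refine ⟨fun c => ?_, fun c => ?_, fun c c' v hv => ?_⟩
  · obtain ⟨s, hs⟩ := hM.fg c
    obtain ⟨t, ht⟩ := hN.fg c
    refine ⟨Finset.image₂ (fun x y => β x y) s t, fun v => ⟨fun hv => ?_, fun hv => ?_⟩⟩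
    · have h : R169.tens β M N c ≤ (Submodule.span (S.R c)
          ((Finset.image₂ (fun x y => β x y) s t : Finset U) : Set U)).restrictScalars ℂ := by
        refine Submodule.span_le.2 ?_
        rintro _ ⟨x, hx, y, hy, rfl⟩
        have := Submodule.apply_mem_map₂ (β.restrictScalars₁₂ (S.R c) (S.R c))
          ((hs x).1 hx) ((ht y).1 hy)
        rw [Submodule.map₂_span_span] at this
        rw [Finset.coe_image₂]
        exact this
      exact h hv
    · refine ops2_span_le c (hsm c) ?_ hv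
      rw [Finset.coe_image₂]
      rintro _ ⟨x, hx, y, hy, rfl⟩
      exact Submodule.subset_span ⟨x, (hs x).2 (Submodule.subset_span hx), y,
        (ht y).2 (Submodule.subset_span hy), rfl⟩
  · refine ops2_frac c (hsm c) hβ ?_
    rintro _ ⟨x, -, y, -, rfl⟩
    obtain ⟨f, hf, hf0, hx⟩ := hM.frac c x
    obtain ⟨g, hg, hg0, hy⟩ := hN.frac c y
    refine ⟨f * g, mul_mem hf hg, mul_ne_zero hf0 hg0, Submodule.subset_span ⟨_, hx, _, hy, ?_⟩⟩
    simp only [map_smul, LinearMap.smul_apply, smul_smul, mul_comm]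
  · have h : R169.tens β M N c ≤ (ops2_cp S c c' (hsm c')).restrictScalars ℂ := by
      refine Submodule.span_le.2 ?_
      rintro _ ⟨x, hx, y, hy, rfl⟩
      obtain ⟨n, hn⟩ := hM.compat c c' x hx
      obtain ⟨m, hm⟩ := hN.compat c c' y hy
      refine ⟨n + m, Submodule.subset_span ⟨_, hn, _, hm, ?_⟩⟩
      rw [ops2_e_add]
      simp only [map_smul, LinearMap.smul_apply, smul_smul, mul_comm]
    exact h hv

theorem IsSheaf.tens_mk {M : Pre V} {N : Pre W} (hM : IsSheaf S M) (hN : IsSheaf S N) :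
    IsSheaf S (R169.tens (TensorProduct.mk K V W) M N) := by
  refine hM.tens hN ?_
  rw [← TensorProduct.span_tmul_eq_top K V W]
  congr 1
  ext t
  simp

theorem IsSheaf.tens_lsmul {L : Pre K} {N : Pre W} (hL : IsSheaf S L) (hN : IsSheaf S N) :
    IsSheaf S (R169.tens (LinearMap.lsmul K W) L N) := by
  refine hL.tens hN (eq_top_iff.2 fun y _ => Submodule.subset_span ⟨1, trivial, y, trivial, ?_⟩)
  simp

theorem isSheaf_genSh {s : Set V} (hs : s.Finite) (hsp : Submodule.span K s = ⊤) (a b : ℤ) :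
    IsSheaf S (genSh S s a b) := by
  have hsm : ∀ c, ∀ r ∈ S.R c, ∀ v ∈ (Submodule.span (S.R c) s).restrictScalars ℂ,
      r • v ∈ (Submodule.span (S.R c) s).restrictScalars ℂ := fun c r hr v hv =>
    (Submodule.span (S.R c) s).smul_mem ⟨r, hr⟩ hv
  have hG : IsSheaf S (fun c => (Submodule.span (S.R c) s).restrictScalars ℂ) := by
    refine ⟨fun c => ⟨hs.toFinset, fun v => by simp⟩, fun c => ?_, fun c c' v hv => ?_⟩
    · exact ops2_frac c (hsm c) hsp fun v hv =>
        ⟨1, one_mem _, one_ne_zero, by rw [one_smul]; exact Submodule.subset_span hv⟩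
    · have h : Submodule.span (S.R c) s ≤ ops2_cp S c c' (hsm c') :=
        Submodule.span_le.2 fun w hw => ⟨0, hsm c' _ (ops2_e_mem S c c' 0) _
          (Submodule.subset_span hw)⟩
      exact h hv
  have e : genSh S s a b =
      R169.twist K (fun c => (Submodule.span (S.R c) s).restrictScalars ℂ) (-a) (-b) := by
    funext c
    simp only [genSh, R169.twist, tau_neg]
  rw [e]
  exact hG.twist _ _

theorem IsSheaf.dualP {M : Pre V} (hM : IsSheaf S M) : IsSheaf S (dualP S M) := by
  classical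
  have key : ∀ c (s : Finset V), (∀ v, v ∈ M c ↔ v ∈ Submodule.span (S.R c) (s : Set V)) →
      ∀ φ : Module.Dual K V, (∀ x ∈ s, φ x ∈ S.R c) → φ ∈ R169.dualP S M c := by
    intro c s hs φ hφ x hx
    rw [hs] at hx
    induction hx using Submodule.span_induction with
    | mem v hv => exact hφ v hv
    | zero => rw [map_zero]; exact zero_mem _
    | add v w _ _ hv hw => rw [map_add]; exact add_mem hv hw
    | smul a v _ hv =>
      rw [Subalgebra.smul_def, map_smul, smul_eq_mul]
      exact mul_mem a.2 hv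
  refine ⟨fun c => ?_, fun c φ => ?_, fun c c' φ hφ => ?_⟩
  · obtain ⟨s, hs⟩ := hM.fg c
    have := S.R_noeth c
    let D : Submodule (S.R c) (Module.Dual K V) :=
      { carrier := R169.dualP S M c
        add_mem' := (R169.dualP S M c).add_mem
        zero_mem' := (R169.dualP S M c).zero_mem
        smul_mem' := fun r _ hφ x hx => mul_mem r.2 (hφ x hx) }
    let Φ : Module.Dual K V →ₗ[S.R c] (s → K) :=
      { toFun := fun φ x => φ x
        map_add' := fun _ _ => rfl
        map_smul' := fun _ _ => rfl }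
    have hΦ : Function.Injective Φ := by
      rw [injective_iff_map_eq_zero]
      intro φ hφ
      ext v
      obtain ⟨f, -, hf0, hv⟩ := hM.frac c v
      have h0 : ∀ w ∈ Submodule.span (S.R c) (s : Set V), φ w = 0 := by
        intro w hw
        induction hw using Submodule.span_induction with
        | mem v hv => exact congrFun hφ ⟨v, hv⟩
        | zero => exact map_zero _
        | add v w _ _ hv hw => rw [map_add, hv, hw, add_zero]
        | smul a v _ hv => rw [Subalgebra.smul_def, map_smul, hv, smul_zero]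
      have := h0 _ ((hs _).1 hv)
      rw [map_smul, smul_eq_mul] at this
      exact (mul_eq_zero.1 this).resolve_left hf0
    have hfg : D.FG := by
      refine Submodule.fg_of_fg_map_injective Φ hΦ (Submodule.FG.of_le (Submodule.fg_pi
        (p := fun _ : s => Submodule.span (S.R c) {(1 : K)})
        fun _ => Submodule.fg_span (Set.finite_singleton _)) ?_)
      rintro _ ⟨φ, hφ, rfl⟩ x _
      exact Submodule.mem_span_singleton.2
        ⟨⟨φ x, hφ x ((hs x).2 (Submodule.subset_span x.2))⟩, mul_one _⟩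
    obtain ⟨t, ht⟩ := hfg
    exact ⟨t, fun φ => by rw [ht]; rfl⟩
  · obtain ⟨s, hs⟩ := hM.fg c
    choose f hf hf0 hfx using fun x => S.frac c (φ x)
    refine ⟨∏ x ∈ s, f x, prod_mem fun x _ => S.P_le c (hf x),
      Finset.prod_ne_zero_iff.2 fun x _ => hf0 x, key c s hs _ fun x hx => ?_⟩
    rw [LinearMap.smul_apply, smul_eq_mul, ← Finset.prod_erase_mul _ _ hx, mul_assoc]
    exact mul_mem (prod_mem fun x _ => S.P_le c (hf x)) (hfx x)
  · obtain ⟨s, hs⟩ := hM.fg c'
    have h1 : ∀ x ∈ M c', ∃ l : ℕ, ((tau K c' l l)⁻¹ * tau K c l l) * φ x ∈ S.R c' := by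
      intro x hx
      obtain ⟨m, hm⟩ := hM.compat c' c x hx
      obtain ⟨l, hl⟩ := S.compat c c' _ (hφ _ hm)
      refine ⟨l, ?_⟩
      have := mul_mem (ops2_e_mem S c c' m) hl
      rw [map_smul, smul_eq_mul] at this
      convert this using 1
      have h2 := tau_ne_zero K c m m
      have h3 := tau_ne_zero K c' m m
      field_simp
    choose! l hl using h1
    refine ⟨∑ x ∈ s, l x, key c' s hs _ fun x hx => ?_⟩
    rw [LinearMap.smul_apply, smul_eq_mul, ← Finset.sum_erase_add _ _ hx, ops2_e_add, mul_assoc]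
    exact mul_mem (ops2_e_mem S c c' _) (hl x ((hs x).2 (Submodule.subset_span hx)))

theorem IsSheaf.bidual {M : Pre V} (hM : IsSheaf S M) : IsSheaf S (bidual S M) := by
  exact hM.dualP.dualP.pull (f := Module.Dual.eval K V) (Module.eval_apply_injective K)

/-- the inverse fractional ideal -/
def invP (S : Surf K) (L : Pre K) : Pre K := fun c =>
  { carrier := {y | ∀ x ∈ L c, x * y ∈ S.R c}
    add_mem' := fun ha hb x hx => by
      rw [mul_add]; exact (S.R c).add_mem (ha x hx) (hb x hx)
    zero_mem' := fun _ _ => by rw [mul_zero]; exact (S.R c).zero_mem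
    smul_mem' := fun r _ hy x hx => by
      rw [mul_smul_comm]; exact (S.R c).smul_mem (hy x hx) r }

theorem IsSheaf.invP {L : Pre K} (hL : IsSheaf S L) : IsSheaf S (invP S L) := by
  refine hL.dualP.pull (f := (LinearMap.mul K K).flip) fun y y' h => ?_
  simpa using LinearMap.congr_fun h 1

/-! ### change of the base surface -/

theorem Gam_K0 [Module K0 V] [IsScalarTower K0 K V] [IsScalarTower ℂ K0 V] (M : Pre V) (a b : ℤ) :
    Gam K0 M a b = Gam K M a b := by
  ext v
  simp only [mem_Gam, tau_map K, ← map_inv₀, algebraMap_smul]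

theorem HP_K0 [Module K0 V] [IsScalarTower K0 K V] [IsScalarTower ℂ K0 V] (M : Pre V) :
    HP K0 M = HP K M := by
  have e0 : Gam K0 M = Gam K M := funext₂ (Gam_K0 M)
  have e : IsHP K0 M = IsHP K M := by
    funext f
    unfold IsHP
    rw [e0]
  unfold HP
  rw [e]

theorem IsSheaf.toS0 [Module K0 V] [IsScalarTower K0 K V] [IsScalarTower ℂ K0 V] {M : Pre V}
    (hM : IsSheaf S M) : IsSheaf S0 M := by
  classical
  refine ⟨fun c => ?_, fun c v => ?_, fun c c' v hv => ?_⟩
  · obtain ⟨s, hs⟩ := hM.fg c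
    obtain ⟨r, hr⟩ := S.fin c
    refine ⟨Finset.image₂ (fun (x : K) (y : V) => x • y) r s, fun v => ⟨fun hv => ?_, fun hv => ?_⟩⟩
    · rw [hs] at hv
      suffices h : ∀ ρ ∈ S.R c, ρ • v ∈ Submodule.span (S0.R c)
          ((Finset.image₂ (fun (x : K) (y : V) => x • y) r s : Finset V) : Set V) by
        simpa using h 1 (one_mem _)
      induction hv using Submodule.span_induction with
      | mem v hv =>
        intro ρ hρ
        rw [hr] at hρ
        induction hρ using Submodule.span_induction with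
        | mem ρ hρ => exact Submodule.subset_span (Finset.mem_image₂_of_mem hρ hv)
        | zero => rw [zero_smul]; exact zero_mem _
        | add a b _ _ ha hb => rw [add_smul]; exact add_mem ha hb
        | smul a b _ hb =>
          obtain ⟨y, hy, e⟩ := (mem_PP_iff K c a).1 a.2
          rw [Subalgebra.smul_def, smul_eq_mul, mul_smul, e, algebraMap_smul]
          exact Submodule.smul_mem _ (⟨y, hy⟩ : S0.R c) hb
      | zero => intro ρ _; rw [smul_zero]; exact zero_mem _
      | add v w _ _ hv hw => intro ρ hρ; rw [smul_add]; exact add_mem (hv ρ hρ) (hw ρ hρ)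
      | smul a v _ hv =>
        intro ρ hρ
        rw [Subalgebra.smul_def, smul_smul]
        exact hv _ (mul_mem hρ a.2)
    · refine ops2_span_le (S := S0) c (fun y hy w hw => ?_) ?_ hv
      · rw [← algebraMap_smul K]
        exact hM.smul_mem c (S.P_le c ((mem_PP_iff K c _).2 ⟨y, hy, rfl⟩)) hw
      · rw [Finset.coe_image₂]
        rintro _ ⟨x, hx, y, hy, rfl⟩
        exact hM.smul_mem c ((hr x).2 (Submodule.subset_span hx))
          ((hs y).2 (Submodule.subset_span hy))
  · obtain ⟨f, hf, hf0, hv⟩ := hM.frac' c v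
    obtain ⟨y, hy, rfl⟩ := (mem_PP_iff K c f).1 hf
    exact ⟨y, hy, fun h => hf0 (by rw [h, map_zero]), by rwa [algebraMap_smul] at hv⟩
  · obtain ⟨n, hn⟩ := hM.compat c c' v hv
    refine ⟨n, ?_⟩
    rwa [tau_map K, tau_map K c, ← map_inv₀, ← map_mul, algebraMap_smul] at hn

theorem Refl.toS0 [Module K0 V] [IsScalarTower K0 K V] [IsScalarTower ℂ K0 V] {M : Pre V}
    (hM : IsSheaf S M) (h : Refl S M) : Refl S0 M := by
  classical
  rintro c N hN hMN ⟨s, hs⟩
  obtain ⟨r, hr⟩ := S.fin c
  have hle : N ≤ Submodule.span ℂ (Set.image2 (fun (x : K) (y : V) => x • y) (S.R c) N) :=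
    fun v hv => Submodule.subset_span ⟨1, one_mem _, v, hv, one_smul _ _⟩
  refine hle.trans (h c _ (fun ρ hρ v hv => ?_) (hMN.trans hle)
    ⟨Finset.image₂ (fun (x : K) (y : V) => x • y) r s, Submodule.span_le.2 ?_⟩)
  · induction hv using Submodule.span_induction with
    | mem v hv =>
      obtain ⟨x, hx, y, hy, rfl⟩ := hv
      exact Submodule.subset_span ⟨ρ * x, mul_mem hρ hx, y, hy, mul_smul _ _ _⟩
    | zero => rw [smul_zero]; exact zero_mem _
    | add v w _ _ hv hw => rw [smul_add]; exact add_mem hv hw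
    | smul a v _ hv => rw [smul_comm]; exact Submodule.smul_mem _ a hv
  · rintro _ ⟨ρ, hρ, v, hv, rfl⟩
    have hρ' := (hr ρ).1 hρ
    clear hρ
    simp only [SetLike.mem_coe] at hv ⊢
    induction hρ' using Submodule.span_induction generalizing v with
    | mem ρ hρ =>
      obtain ⟨m, hm, w, hw, rfl⟩ := Submodule.mem_sup.1 (hs hv)
      rw [smul_add]
      refine Submodule.add_mem_sup (hM.smul_mem c ((hr ρ).2 (Submodule.subset_span hρ)) hm) ?_
      clear hv
      induction hw using Submodule.span_induction with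
      | mem w hw => exact Submodule.subset_span (Finset.mem_image₂_of_mem hρ hw)
      | zero => rw [smul_zero]; exact zero_mem _
      | add v w _ _ hv hw => rw [smul_add]; exact add_mem hv hw
      | smul a v _ hv => rw [smul_comm]; exact Submodule.smul_mem _ a hv
    | zero => rw [zero_smul]; exact zero_mem _
    | add a b _ _ ha hb => rw [add_smul]; exact add_mem (ha v hv) (hb v hv)
    | smul a b _ hb =>
      obtain ⟨y, hy, e⟩ := (mem_PP_iff K c a).1 a.2
      rw [Subalgebra.smul_def, smul_eq_mul, mul_comm, mul_smul, e, algebraMap_smul]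
      exact hb _ (hN y hy v hv)

end

end Crest.Agent.R169
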