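import Crest.Agent.R169.Tens
import Crest.Agent.R169.GamC

/-! # The group of invertible sheaves in `K` -/

set_option autoImplicit false

namespace Crest.Agent.R169

noncomputable section

variable {K : Type} [Field K] [Algebra K0 K] [Algebra ℂ K] [IsScalarTower ℂ K0 K] (S : Surf K)
variable {V : Type} [AddCommGroup V] [Module K V] [Module ℂ V] [IsScalarTower ℂ K V]
variable {W : Type} [AddCommGroup W] [Module K W] [Module ℂ W] [IsScalarTower ℂ K W]
variable {U : Type} [AddCommGroup U] [Module K U] [Module ℂ U] [IsScalarTower ℂ K U]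

/-- rank one sheaves in `K` -/
def ShK : Type := {L : Pre K // IsSheaf S L}

instance : CommMonoid (ShK S) where
  mul L L' := ⟨tens (LinearMap.lsmul K K) L.1 L'.1, L.2.tens_lsmul L'.2⟩
  one := ⟨OO S, isSheaf_OO S⟩
  mul_assoc L L' L'' := Subtype.ext (tens_lsmul_assoc L.1 L'.1 L''.1)
  one_mul L := Subtype.ext (tens_lsmul_OO L.2)
  mul_one L := Subtype.ext ((tens_lsmul_comm _ _).trans (tens_lsmul_OO L.2))
  mul_comm L L' := Subtype.ext (tens_lsmul_comm _ _)

/-- invertible sheaves in `K` (Cartier divisors) -/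
abbrev Pic : Type := (ShK S)ˣ

variable {S}

/-- the underlying sheaf -/
def Pic.sh (x : Pic S) : Pre K := x.1.1

theorem Pic.isSheaf (x : Pic S) : IsSheaf S x.sh := x.1.2

theorem Pic.ext' {x y : Pic S} (h : x.sh = y.sh) : x = y := Units.ext (Subtype.ext h)

theorem Pic.sh_mul (x y : Pic S) : (x * y).sh = tens (LinearMap.lsmul K K) x.sh y.sh := rfl

theorem Pic.sh_one : (1 : Pic S).sh = OO S := rfl

theorem Pic.locFree (x : Pic S) : LocFree S x.sh :=
  locFree_of_mul_eq x.isSheaf (x⁻¹).isSheaf (by rw [← Pic.sh_mul, mul_inv_cancel, Pic.sh_one])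

/-- a locally free rank one sheaf as an element of `Pic` -/
def Pic.mk' (L : Pre K) (hL : IsSheaf S L) (h : LocFree S L) : Pic S where
  val := ⟨L, hL⟩
  inv := ⟨invP S L, hL.invP⟩
  val_inv := Subtype.ext (h.mul_invP hL)
  inv_val := Subtype.ext ((tens_lsmul_comm _ _).trans (h.mul_invP hL))

@[simp] theorem Pic.sh_mk' (L : Pre K) (hL : IsSheaf S L) (h : LocFree S L) :
    (Pic.mk' L hL h).sh = L := rfl

/-- `y • H` -/
def act (y : Pic S) (H : Pre V) : Pre V := tens (LinearMap.lsmul K V) y.sh H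

theorem act_sh (x y : Pic S) : act x y.sh = (x * y).sh := rfl

theorem act_mul (x y : Pic S) (H : Pre V) : act (x * y) H = act x (act y H) :=
  tens_lsmul_assoc _ _ _

theorem act_one {H : Pre V} (hH : IsSheaf S H) : act (1 : Pic S) H = H := tens_lsmul_OO hH

theorem act_tens (β : V →ₗ[K] W →ₗ[K] U) (y : Pic S) (M : Pre V) (N : Pre W) :
    act y (tens β M N) = tens β M (act y N) := tens_lsmul_tens _ _ _ _

theorem IsSheaf.act {H : Pre V} (hH : IsSheaf S H) (y : Pic S) : IsSheaf S (act y H) :=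
  y.isSheaf.tens_lsmul hH

theorem LocFree.act {H : Pre V} (hH : IsSheaf S H) (h : LocFree S H) (y : Pic S) :
    LocFree S (act y H) := LocFree.tens_lsmul y.isSheaf hH y.locFree h

variable (S) in
/-- `O(a,b)` -/
def Ftw (a b : ℤ) : Pic S :=
  Pic.mk' (twist K (OO S) a b) ((isSheaf_OO S).twist a b) ((locFree_OO S).twist a b)

theorem act_Ftw {H : Pre V} (hH : IsSheaf S H) (a b : ℤ) : act (Ftw S a b) H = twist K H a b :=
  tens_lsmul_twist hH a b

theorem locFree_scal_OO {y : K} (hy : y ≠ 0) : LocFree S (fun c => scal y (OO S c)) := by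
  rw [locFree_iff_rank_one]
  intro c 𝔪 h𝔪
  refine ⟨y, ?_, hy, 1, (Ideal.ne_top_iff_one 𝔪).1 h𝔪.ne_top, ?_⟩
  · simp only [mem_scal, smul_eq_mul, inv_mul_cancel₀ hy]
    exact (S.R c).one_mem
  · intro z hz
    simp only [mem_scal, smul_eq_mul] at hz
    have : ((1 : S.R c) : K) * (z / y) = y⁻¹ * z := by
      simp [div_eq_mul_inv, mul_comm]
    rw [this]
    exact hz

variable (S) in
/-- the principal sheaf `y O` -/
def prin (y : Kˣ) : Pic S :=
  Pic.mk' (fun c => scal (y : K) (OO S c)) ((isSheaf_OO S).scal y.ne_zero) (locFree_scal_OO y.ne_zero)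

theorem act_prin {H : Pre V} (hH : IsSheaf S H) (y : Kˣ) :
    act (prin S y) H = fun c => scal (y : K) (H c) := tens_lsmul_scal hH y.ne_zero

def chiP (x : Pic S) : ℤ := chi K x.sh
def pP (x : Pic S) : ℤ := pc K x.sh
def qP (x : Pic S) : ℤ := qc K x.sh

/-- the intersection form -/
def BB (x y : Pic S) : ℤ := chiP (x * y) - chiP x - chiP y + chiP (1 : Pic S)

/-- `K² / 8 - χ(O)` -/
def kappa (ω : Pic S) : ℚ := (BB ω ω : ℚ) / 8 - chiP (1 : Pic S)

/-- `ω'` is the dual of `O` with respect to the `K0`-linear form `θ` -/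
def IsDualizing (θ : K →ₗ[K0] K0) (ω' : Pic S) : Prop :=
  θ ≠ 0 ∧ ∀ c (y : K), y ∈ ω'.sh c ↔ ∀ r ∈ S.R c, θ (y * r) ∈ PP K0 c

omit [IsScalarTower ℂ K0 K] in
theorem twist_twist (H : Pre V) (a b a' b' : ℤ) :
    twist K (twist K H a b) a' b' = twist K H (a + a') (b + b') := by
  funext c
  ext v
  simp only [twist, mem_scal, tau_add, mul_inv, mul_smul]

theorem Ftw_add (a b a' b' : ℤ) : Ftw S (a + a') (b + b') = Ftw S a b * Ftw S a' b' := by
  apply Pic.ext'
  rw [← act_sh, act_Ftw (Pic.isSheaf _)]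
  show twist K (OO S) (a + a') (b + b') = twist K (twist K (OO S) a' b') a b
  rw [twist_twist, add_comm a, add_comm b]

theorem Ftw_zero : Ftw S 0 0 = 1 := by
  apply Pic.ext'
  funext c
  ext v
  show v ∈ scal (tau K c 0 0) (OO S c) ↔ v ∈ OO S c
  simp [tau_zero]

theorem chi_act_Ftw {H : Pre V} (hH : IsSheaf S H) (a b : ℤ) :
    chi K (act (Ftw S a b) H) = HP K H a b := by
  rw [act_Ftw hH, chi, hH.HP_twist, add_zero, add_zero]

theorem chiP_mul_Ftw (x : Pic S) (a b : ℤ) : chiP (x * Ftw S a b) =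
    (Module.finrank K0 K : ℤ) * a * b + pP x * a + qP x * b + chiP x := by
  rw [mul_comm, chiP, ← act_sh, chi_act_Ftw x.isSheaf, x.isSheaf.HP_eq]
  simp [pP, qP, chiP]

theorem chiP_prin_mul (y : Kˣ) (x : Pic S) : chiP (prin S y * x) = chiP x := by
  rw [chiP, ← act_sh, act_prin x.isSheaf, chi, HP_scal y.ne_zero]
  rfl

theorem Pic.mem_inv_iff (x : Pic S) (c : Chart) (y : K) :
    y ∈ (x⁻¹).sh c ↔ ∀ z ∈ x.sh c, z * y ∈ S.R c := by
  have h : x⁻¹ = (Pic.mk' x.sh x.isSheaf x.locFree)⁻¹ := by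
    congr 1
    exact Pic.ext' rfl
  rw [h]
  exact Iff.rfl

end

end Crest.Agent.R169
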