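import Crest.Agent.R169.Defs

/-! # `P¹ × P¹`: the field `K0`, the chart rings, the base surface -/

set_option autoImplicit false

namespace Crest.Agent.R169

noncomputable section

open Polynomial

theorem lam0_ne_zero : lam0 ≠ 0 := by
  exact (map_ne_zero_iff _ (algebraMap K1 K0).injective).2 RatFunc.X_ne_zero

theorem mu0_ne_zero : mu0 ≠ 0 := by
  exact RatFunc.X_ne_zero

theorem lam_K0 : lam K0 = lam0 := rfl
theorem mu_K0 : mu K0 = mu0 := rfl

section
variable (K : Type) [Field K] [Algebra K0 K]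

theorem lam_ne_zero : lam K ≠ 0 := by
  exact (map_ne_zero_iff _ (algebraMap K0 K).injective).2 lam0_ne_zero

theorem mu_ne_zero : mu K ≠ 0 := by
  exact (map_ne_zero_iff _ (algebraMap K0 K).injective).2 mu0_ne_zero

theorem Pol_hu_ne {L : Type} [Field L] {x : L} (hx : x ≠ 0) (i : Bool) : hu x i ≠ 0 := by
  cases i
  · exact one_ne_zero
  · exact hx

theorem Pol_hu_co {L : Type} [Field L] {x : L} (hx : x ≠ 0) (i : Bool) {a : ℤ} {k : ℕ}
    (hk : (k : ℤ) ≤ a) : ∃ n : ℕ, (hu x i ^ a)⁻¹ * x ^ k = co x i ^ n := by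
  cases i
  · exact ⟨k, by simp [hu, co]⟩
  · obtain ⟨n, rfl⟩ : ∃ n : ℕ, a = k + n := ⟨(a - k).toNat, by omega⟩
    refine ⟨n, ?_⟩
    simp only [hu, co, if_true]
    rw [zpow_add₀ hx, zpow_natCast, zpow_natCast, inv_pow]
    field_simp

theorem Pol_hu_pow {L : Type} [Field L] (x : L) (i : Bool) {a : ℤ} (ha : 0 ≤ a) :
    ∃ n : ℕ, (n : ℤ) ≤ a ∧ hu x i ^ a = x ^ n := by
  cases i
  · exact ⟨0, by simpa using ha, by simp [hu]⟩
  · obtain ⟨n, rfl⟩ := Int.eq_ofNat_of_zero_le ha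
    exact ⟨n, le_rfl, by simp [hu]⟩

theorem Pol_hu_mul_co {L : Type} [Field L] {x : L} (hx : x ≠ 0) (i : Bool) :
    ∃ n : ℕ, (n : ℤ) ≤ 1 ∧ hu x i * co x i = x ^ n := by
  cases i
  · exact ⟨1, by simp, by simp [hu, co]⟩
  · exact ⟨0, by simp, by simp [hu, co, hx]⟩

theorem tau_ne_zero (c : Chart) (a b : ℤ) : tau K c a b ≠ 0 := by
  exact mul_ne_zero (zpow_ne_zero _ (Pol_hu_ne (lam_ne_zero K) _))
    (zpow_ne_zero _ (Pol_hu_ne (mu_ne_zero K) _))

theorem tau_add (c : Chart) (a b a' b' : ℤ) :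
    tau K c (a + a') (b + b') = tau K c a b * tau K c a' b' := by
  unfold tau
  rw [zpow_add₀ (Pol_hu_ne (lam_ne_zero K) _), zpow_add₀ (Pol_hu_ne (mu_ne_zero K) _)]
  ring

theorem tau_zero (c : Chart) : tau K c 0 0 = 1 := by
  simp [tau]

theorem tau_neg (c : Chart) (a b : ℤ) : tau K c (-a) (-b) = (tau K c a b)⁻¹ := by
  unfold tau
  rw [zpow_neg, zpow_neg, mul_inv]

theorem tau_ff (a b : ℤ) : tau K (false, false) a b = 1 := by
  simp [tau, hu]

theorem tau_map (c : Chart) (a b : ℤ) : tau K c a b = algebraMap K0 K (tau K0 c a b) := by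
  obtain ⟨i, j⟩ := c
  cases i <;> cases j <;> simp [tau, hu, lam, mu, map_zpow₀]

variable [Algebra ℂ K]

theorem Pol_co1_mem (c : Chart) : co (lam K) c.1 ∈ PP K c :=
  Algebra.subset_adjoin (by simp)

theorem Pol_co2_mem (c : Chart) : co (mu K) c.2 ∈ PP K c :=
  Algebra.subset_adjoin (by simp)

/-- the monomial `λ^i μ^j` is a section of `O(a,b)` for `i ≤ a`, `j ≤ b` -/
theorem tau_inv_mul_mem (c : Chart) {a b : ℤ} {i j : ℕ} (hi : (i : ℤ) ≤ a) (hj : (j : ℤ) ≤ b) :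
    (tau K c a b)⁻¹ * (lam K ^ i * mu K ^ j) ∈ PP K c := by
  obtain ⟨n, hn⟩ := Pol_hu_co (lam_ne_zero K) c.1 hi
  obtain ⟨m, hm⟩ := Pol_hu_co (mu_ne_zero K) c.2 hj
  have : (tau K c a b)⁻¹ * (lam K ^ i * mu K ^ j) = co (lam K) c.1 ^ n * co (mu K) c.2 ^ m := by
    rw [← hn, ← hm, tau, mul_inv]; ring
  rw [this]
  exact mul_mem (pow_mem (Pol_co1_mem K c) _) (pow_mem (Pol_co2_mem K c) _)

/-- `hu c' / hu c` is a section of `O` on `c` -/
theorem tau_inv_mul_tau_mem (c c' : Chart) {a b : ℤ} (ha : 0 ≤ a) (hb : 0 ≤ b) :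
    (tau K c a b)⁻¹ * tau K c' a b ∈ PP K c := by
  obtain ⟨n, hn, e1⟩ := Pol_hu_pow (lam K) c'.1 ha
  obtain ⟨m, hm, e2⟩ := Pol_hu_pow (mu K) c'.2 hb
  rw [show tau K c' a b = lam K ^ n * mu K ^ m by rw [tau, e1, e2]]
  exact tau_inv_mul_mem K c hn hm

/-- compatibility of the chart rings -/
theorem PP_compat (c c' : Chart) {x : K} (hx : x ∈ PP K c) :
    ∃ n : ℕ, ((tau K c' n n)⁻¹ * tau K c n n) * x ∈ PP K c' := by
  induction hx using Algebra.adjoin_induction with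
  | mem x hx =>
    refine ⟨1, ?_⟩
    obtain ⟨n, hn, e1⟩ := Pol_hu_pow (lam K) c.1 (a := 1) zero_le_one
    obtain ⟨m, hm, e2⟩ := Pol_hu_pow (mu K) c.2 (a := 1) zero_le_one
    obtain ⟨n', hn', e3⟩ := Pol_hu_mul_co (lam_ne_zero K) c.1
    obtain ⟨m', hm', e4⟩ := Pol_hu_mul_co (mu_ne_zero K) c.2
    rw [zpow_one] at e1 e2
    simp only [Set.mem_insert_iff, Set.mem_singleton_iff] at hx
    rw [Nat.cast_one, mul_assoc]
    rcases hx with rfl | rfl
    · rw [show tau K c 1 1 * co (lam K) c.1 = lam K ^ n' * mu K ^ m by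
        rw [tau, zpow_one, zpow_one, ← e3, ← e2]; ring]
      exact tau_inv_mul_mem K c' hn' hm
    · rw [show tau K c 1 1 * co (mu K) c.2 = lam K ^ n * mu K ^ m' by
        rw [tau, zpow_one, zpow_one, ← e4, ← e1]; ring]
      exact tau_inv_mul_mem K c' hn hm'
  | algebraMap r =>
    exact ⟨0, mul_mem (tau_inv_mul_tau_mem K c' c le_rfl le_rfl) (Subalgebra.algebraMap_mem _ r)⟩
  | add x y _ _ ihx ihy =>
    obtain ⟨n, hn⟩ := ihx
    obtain ⟨m, hm⟩ := ihy
    refine ⟨n + m, ?_⟩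
    have h1 := mul_mem hn (tau_inv_mul_tau_mem K c' c (a := m) (b := m) (by simp) (by simp))
    have h2 := mul_mem hm (tau_inv_mul_tau_mem K c' c (a := n) (b := n) (by simp) (by simp))
    convert add_mem h1 h2 using 1
    rw [Nat.cast_add, tau_add, tau_add, mul_inv]; ring
  | mul x y _ _ ihx ihy =>
    obtain ⟨n, hn⟩ := ihx
    obtain ⟨m, hm⟩ := ihy
    refine ⟨n + m, ?_⟩
    convert mul_mem hn hm using 1
    rw [Nat.cast_add, tau_add, tau_add, mul_inv]; ring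

omit [Algebra K0 K] [Algebra ℂ K] in
theorem Pol_co_map {L : Type} [Field L] [Algebra L K] (x : L) (i : Bool) :
    co (algebraMap L K x) i = algebraMap L K (co x i) := by
  cases i <;> simp [co]

theorem Pol_transc (k : Type) [Field k] (i : Bool) :
    Transcendental k (co (RatFunc.X : RatFunc k) i) := by
  cases i
  · exact RatFunc.transcendental_X
  · exact fun h => RatFunc.transcendental_X (IsAlgebraic.inv_iff.1 h)

variable [IsScalarTower ℂ K0 K]

theorem mem_PP_iff (c : Chart) (x : K) : x ∈ PP K c ↔ ∃ y ∈ PP K0 c, x = algebraMap K0 K y := by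
  have h : PP K c = (PP K0 c).map (IsScalarTower.toAlgHom ℂ K0 K) := by
    unfold PP
    rw [AlgHom.map_adjoin, Set.image_pair]
    congr 2
    · exact Pol_co_map K lam0 c.1
    · exact congrArg _ (Pol_co_map K mu0 c.2)
  rw [h, Subalgebra.mem_map]
  exact ⟨fun ⟨y, hy, e⟩ => ⟨y, hy, e.symm⟩, fun ⟨y, hy, e⟩ => ⟨y, hy, e.symm⟩⟩

theorem algIndep_co (c : Chart) :
    AlgebraicIndependent ℂ ![co (lam K) c.1, co (mu K) c.2] := by
  have h1 : AlgebraicIndependent ℂ fun _ : Unit => co (RatFunc.X : K1) c.1 :=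
    algebraicIndependent_unique_type_iff.2 (Pol_transc ℂ c.1)
  have h2 : AlgebraicIndependent K1 fun _ : Unit => co (RatFunc.X : K0) c.2 :=
    algebraicIndependent_unique_type_iff.2 (Pol_transc K1 c.2)
  have h3 := ((h1.sumElim_comp h2).comp ![Sum.inr (), Sum.inl ()] (by decide)).map'
    (f := IsScalarTower.toAlgHom ℂ K0 K) (algebraMap K0 K).injective
  convert h3 using 1
  funext i
  fin_cases i
  · exact (Pol_co_map K lam0 c.1).trans (congrArg _ (Pol_co_map K0 (RatFunc.X : K1) c.1))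
  · exact Pol_co_map K mu0 c.2

/-- the chart rings are polynomial rings -/
theorem exists_PP_equiv (c : Chart) : ∃ φ : MvPolynomial (Fin 2) ℂ ≃ₐ[ℂ] PP K c,
    (φ (MvPolynomial.X 0) : K) = co (lam K) c.1 ∧ (φ (MvPolynomial.X 1) : K) = co (mu K) c.2 := by
  have h : Algebra.adjoin ℂ (Set.range ![co (lam K) c.1, co (mu K) c.2]) = PP K c := by
    unfold PP
    congr 1
    simp [Matrix.range_cons, Matrix.range_empty, Set.pair_comm]
  refine ⟨(algIndep_co K c).aevalEquiv.trans (Subalgebra.equivOfEq _ _ h), ?_, ?_⟩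
  · exact MvPolynomial.aeval_X ![co (lam K) c.1, co (mu K) c.2] 0
  · exact MvPolynomial.aeval_X ![co (lam K) c.1, co (mu K) c.2] 1

theorem PP_noeth (c : Chart) : IsNoetherianRing (PP K c) := by
  obtain ⟨φ, -⟩ := exists_PP_equiv K c
  exact isNoetherianRing_of_ringEquiv _ φ.toRingEquiv

end

theorem Pol_rat_mem {k L : Type} [Field k] [Field L] (φ : RatFunc k →+* L) (F : Subfield L)
    (hk : ∀ a : k, φ (algebraMap k _ a) ∈ F) (hX : φ RatFunc.X ∈ F) (x : RatFunc k) : φ x ∈ F := by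
  have hp : ∀ p : k[X], φ (algebraMap k[X] (RatFunc k) p) ∈ F := by
    intro p
    induction p using Polynomial.induction_on with
    | C a => rw [RatFunc.algebraMap_C]; exact hk a
    | add p q hp hq => rw [map_add, map_add]; exact add_mem hp hq
    | monomial n a h =>
      rw [pow_succ, ← mul_assoc, map_mul, map_mul, RatFunc.algebraMap_X]
      exact mul_mem h hX
  induction x using RatFunc.induction_on with
  | f p q _ => rw [map_div₀]; exact div_mem (hp p) (hp q)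

theorem Pol_mem_adjoin (c : Chart) (x : K0) :
    x ∈ IntermediateField.adjoin ℂ ({co (lam K0) c.1, co (mu K0) c.2} : Set K0) := by
  set F := IntermediateField.adjoin ℂ ({co (lam K0) c.1, co (mu K0) c.2} : Set K0)
  have h : ∀ (y : K0) (i : Bool), co y i ∈ F → y ∈ F := by
    intro y i hy
    cases i
    · exact hy
    · exact inv_mem_iff.1 hy
  have h1 : lam0 ∈ F := h _ c.1 (IntermediateField.subset_adjoin _ _ (Set.mem_insert _ _))
  have h2 : mu0 ∈ F := h _ c.2 (IntermediateField.subset_adjoin _ _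
    (Set.mem_insert_of_mem _ (Set.mem_singleton _)))
  refine Pol_rat_mem (RingHom.id K0) F.toSubfield (fun a => ?_) h2 x
  refine Pol_rat_mem (algebraMap K1 K0) F.toSubfield (fun a => ?_) h1 a
  rw [← IsScalarTower.algebraMap_apply]
  exact F.algebraMap_mem a

/-- every element of `K0` is a quotient of polynomials in the coordinates of any chart -/
theorem K0_frac (c : Chart) (x : K0) : ∃ f ∈ PP K0 c, f ≠ 0 ∧ f * x ∈ PP K0 c := by
  obtain ⟨r, hr, s, hs, rfl⟩ := IntermediateField.mem_adjoin_iff_div.1 (Pol_mem_adjoin c x)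
  by_cases h : s = 0
  · exact ⟨1, one_mem _, one_ne_zero, by simp [h]⟩
  · exact ⟨s, hs, h, by rw [mul_div_cancel₀ _ h]; exact hr⟩

theorem Pol_eventually (c : Chart) {y : K0} (hy : y ∈ PP K0 (false, false)) :
    ∀ᶠ d : ℕ in Filter.atTop, (tau K0 c d d)⁻¹ * y ∈ PP K0 c := by
  obtain ⟨n, hn⟩ := PP_compat K0 _ c hy
  rw [tau_ff, mul_one] at hn
  filter_upwards [Filter.eventually_ge_atTop n] with d hd
  obtain ⟨m, rfl⟩ := Nat.exists_eq_add_of_le hd
  have h := tau_inv_mul_tau_mem K0 c (false, false) (a := m) (b := m) (by simp) (by simp)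
  rw [tau_ff, mul_one] at h
  convert mul_mem hn h using 1
  rw [Nat.cast_add, tau_add, mul_inv]; ring

/-- common denominators, uniformly in the charts -/
theorem K0_denom (s : Finset K0) : ∃ (f : K0) (d : ℕ), f ≠ 0 ∧ ∀ c,
    (tau K0 c d d)⁻¹ * f ∈ PP K0 c ∧ ∀ x ∈ s, (tau K0 c d d)⁻¹ * (f * x) ∈ PP K0 c := by
  classical
  choose g hg hg0 hgx using K0_frac (false, false)
  have hf : ∏ x ∈ s, g x ∈ PP K0 (false, false) := prod_mem fun x _ => hg x
  have hfx : ∀ x ∈ s, (∏ x ∈ s, g x) * x ∈ PP K0 (false, false) := by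
    intro x hx
    rw [← Finset.prod_erase_mul _ _ hx, mul_assoc]
    exact mul_mem (prod_mem fun x _ => hg x) (hgx x)
  have h : ∀ᶠ d : ℕ in Filter.atTop, ∀ c, (tau K0 c d d)⁻¹ * (∏ x ∈ s, g x) ∈ PP K0 c ∧
      ∀ x ∈ s, (tau K0 c d d)⁻¹ * ((∏ x ∈ s, g x) * x) ∈ PP K0 c := by
    rw [Filter.eventually_all]
    intro c
    refine (Pol_eventually c hf).and ?_
    rw [Filter.eventually_all_finset]
    exact fun x hx => Pol_eventually c (hfx x hx)
  obtain ⟨d, hd⟩ := h.exists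
  exact ⟨_, d, Finset.prod_ne_zero_iff.2 fun x _ => hg0 x, hd⟩

theorem Pol_residue {K : Type} [Field K] [Algebra ℂ K] (R : Subalgebra ℂ K) (hR : R.FG)
    (𝔪 : Ideal R) (h : 𝔪.IsMaximal) (x : R) : ∃ a : ℂ, x - algebraMap ℂ R a ∈ 𝔪 := by
  letI := Ideal.Quotient.field 𝔪
  have : Algebra.FiniteType ℂ R := R.fg_iff_finiteType.1 hR
  have := finite_of_finite_type_of_isJacobsonRing ℂ (R ⧸ 𝔪)
  obtain ⟨a, ha⟩ := (IsAlgClosed.algebraMap_bijective_of_isIntegral (k := ℂ) (K := R ⧸ 𝔪)).2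
    (Ideal.Quotient.mk 𝔪 x)
  exact ⟨a, Ideal.Quotient.eq.1 ha.symm⟩

/-- Nullstellensatz: a maximal ideal is `(X₀ - α, X₁ - β)` -/
theorem PP_reg (c : Chart) (𝔪 : Ideal (PP K0 c)) (h : 𝔪.IsMaximal) : ∃ s ∈ 𝔪, ∃ t ∈ 𝔪,
    ∀ x ∈ 𝔪, ∃ g ∉ 𝔪, g * x ∈ Ideal.span {s, t} := by
  have hfg : (PP K0 c).FG := by
    classical
    exact ⟨{co (lam K0) c.1, co (mu K0) c.2}, by simp [PP]⟩
  obtain ⟨α, hα⟩ := Pol_residue _ hfg 𝔪 h ⟨_, Pol_co1_mem K0 c⟩
  obtain ⟨β, hβ⟩ := Pol_residue _ hfg 𝔪 h ⟨_, Pol_co2_mem K0 c⟩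
  refine ⟨_, hα, _, hβ, fun x hx => ⟨1, (Ideal.ne_top_iff_one _).1 h.ne_top, ?_⟩⟩
  set I : Ideal (PP K0 c) := Ideal.span {⟨_, Pol_co1_mem K0 c⟩ - algebraMap ℂ (PP K0 c) α,
    ⟨_, Pol_co2_mem K0 c⟩ - algebraMap ℂ (PP K0 c) β} with hI
  have hIm : I ≤ 𝔪 := by
    rw [hI, Ideal.span_le]
    rintro _ (rfl | rfl)
    exacts [hα, hβ]
  have key : ∀ (y : K0) (hy : y ∈ PP K0 c), ∃ a : ℂ, ⟨y, hy⟩ - algebraMap ℂ (PP K0 c) a ∈ I := by
    intro y hy
    induction hy using Algebra.adjoin_induction with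
    | mem y hy =>
      rcases hy with rfl | rfl
      · exact ⟨α, Ideal.subset_span (Set.mem_insert _ _)⟩
      · exact ⟨β, Ideal.subset_span (Set.mem_insert_of_mem _ (Set.mem_singleton _))⟩
    | algebraMap r =>
      refine ⟨r, ?_⟩
      convert I.zero_mem using 1
      exact sub_self _
    | add y z hy hz ihy ihz =>
      obtain ⟨a, ha⟩ := ihy
      obtain ⟨b, hb⟩ := ihz
      refine ⟨a + b, ?_⟩
      convert I.add_mem ha hb using 1
      rw [map_add]
      change (⟨y, hy⟩ + ⟨z, hz⟩ : PP K0 c) - _ = _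
      ring
    | mul y z hy hz ihy ihz =>
      obtain ⟨a, ha⟩ := ihy
      obtain ⟨b, hb⟩ := ihz
      refine ⟨a * b, ?_⟩
      convert I.add_mem (I.mul_mem_left ⟨y, hy⟩ hb)
        (I.mul_mem_left (algebraMap ℂ (PP K0 c) b) ha) using 1
      rw [map_mul]
      change (⟨y, hy⟩ * ⟨z, hz⟩ : PP K0 c) - _ = _
      ring
  obtain ⟨a, ha⟩ := key x.1 x.2
  have h1 : algebraMap ℂ (PP K0 c) a ∈ 𝔪 := by
    have := 𝔪.sub_mem hx (hIm ha)
    rwa [sub_sub_cancel] at this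
  have h2 : a = 0 := by
    by_contra h0
    exact h.ne_top (Ideal.eq_top_of_isUnit_mem _ h1 ((Ne.isUnit h0).map _))
  rw [h2, map_zero, sub_zero] at ha
  rwa [one_mul]

/-- `P¹ × P¹` itself -/
def S0 : Surf K0 where
  R := PP K0
  P_le := fun _ => le_rfl
  fin := fun c => ⟨{1}, fun x => by
    simp only [Finset.coe_singleton, Submodule.mem_span_singleton]
    constructor
    · intro hx
      exact ⟨⟨x, hx⟩, by simp [Subalgebra.smul_def]⟩
    · rintro ⟨a, rfl⟩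
      simp [Subalgebra.smul_def]⟩
  frac := K0_frac
  compat := fun c c' _ hx => PP_compat K0 c c' hx
  reg := PP_reg

/-- Nullstellensatz for finitely generated subalgebras -/
theorem residue_of_fg {K : Type} [Field K] [Algebra ℂ K] (R : Subalgebra ℂ K) (hR : R.FG)
    (𝔪 : Ideal R) (h : 𝔪.IsMaximal) (x : R) : ∃ a : ℂ, x - algebraMap ℂ R a ∈ 𝔪 := by
  exact Pol_residue R hR 𝔪 h x

end

end Crest.Agent.R169
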