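import Crest.Agent.R169.Pol

/-! # `P¹ × P¹`, continued: subfields of `K0`, sections of `O(a,b)` -/

set_option autoImplicit false

namespace Crest.Agent.R169

noncomputable section

open Polynomial

section
variable (K : Type) [Field K] [Algebra K0 K] [Algebra ℂ K] [IsScalarTower ℂ K0 K]

theorem pol2_algIndep : AlgebraicIndependent ℂ ![lam K, mu K] := algIndep_co K (false, false)

/-- the image of `K0` lies in every subfield containing `λ` and `μ` -/
theorem pol2_mem_of (E : IntermediateField ℂ K) (h1 : lam K ∈ E) (h2 : mu K ∈ E) (y : K0) :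
    algebraMap K0 K y ∈ E := by
  obtain ⟨f, hf, hf0, hfy⟩ := K0_frac (false, false) y
  have hP : ∀ z ∈ PP K0 (false, false), algebraMap K0 K z ∈ E := by
    intro z hz
    have h3 : algebraMap K0 K z ∈ PP K (false, false) := (mem_PP_iff K _ _).2 ⟨z, hz, rfl⟩
    have h4 : PP K (false, false) ≤ E.toSubalgebra := by
      refine Algebra.adjoin_le ?_
      rintro _ (rfl | rfl)
      · exact h1
      · exact h2
    exact h4 h3
  have e : y = f * y / f := by field_simp
  rw [e, map_div₀]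
  exact div_mem (hP _ hfy) (hP _ hf)

/-- `h(λμ, λ+μ) ≠ 0`: (evaluate at complex points: every `(p, s)` is `(l m, l + m)`) -/
theorem algIndep_sym : AlgebraicIndependent ℂ ![lam K * mu K, lam K + mu K] := by
  rw [algebraicIndependent_iff]
  intro p hp
  let σ : Fin 2 → MvPolynomial (Fin 2) ℂ :=
    ![MvPolynomial.X 0 * MvPolynomial.X 1, MvPolynomial.X 0 + MvPolynomial.X 1]
  have key : ∀ {L : Type} [CommRing L] [Algebra ℂ L] (l m : L),
      MvPolynomial.aeval ![l, m] (MvPolynomial.aeval σ p) = MvPolynomial.aeval ![l * m, l + m] p := by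
    intro L _ _ l m
    rw [← AlgHom.comp_apply, MvPolynomial.comp_aeval]
    congr 2
    funext i
    fin_cases i <;> simp [σ]
  have h1 : MvPolynomial.aeval σ p = 0 :=
    (algebraicIndependent_iff.1 (pol2_algIndep K)) _ (by rw [key, hp])
  refine MvPolynomial.funext fun x => ?_
  obtain ⟨z, hz⟩ := IsAlgClosed.exists_pow_nat_eq (x 1 ^ 2 / 4 - x 0) two_pos
  have h2 := key (x 1 / 2 + z) (x 1 / 2 - z)
  have h3 : ![(x 1 / 2 + z) * (x 1 / 2 - z), x 1 / 2 + z + (x 1 / 2 - z)] = x := by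
    funext i
    fin_cases i
    · simp only [Fin.zero_eta, Matrix.cons_val_zero]
      linear_combination -hz
    · simp only [Fin.mk_one, Matrix.cons_val_one, Matrix.cons_val_zero]
      ring
  rw [h1, h3, map_zero, MvPolynomial.aeval_eq_eval] at h2
  rw [map_zero, ← h2]

theorem transcendental_lam_k2 : Transcendental (k2 K) (lam K) := by
  rw [IntermediateField.transcendental_adjoin_iff]
  have h := (pol2_algIndep K).transcendental_adjoin (s := {1}) (i := 0) (by simp)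
  rwa [Set.image_singleton] at h

/-- `ℂ(μ)(λ)` is the image of `K0` -/
theorem mem_adjoin_k2_iff (x : K) :
    x ∈ IntermediateField.adjoin (k2 K) {lam K} ↔ ∃ y : K0, x = algebraMap K0 K y := by
  rw [← IntermediateField.mem_restrictScalars ℂ, IntermediateField.adjoin_adjoin_left]
  constructor
  · intro hx
    have h : IntermediateField.adjoin ℂ ({mu K} ∪ {lam K}) ≤
        (IsScalarTower.toAlgHom ℂ K0 K).fieldRange := by
      rw [IntermediateField.adjoin_le_iff]
      rintro _ (rfl | rfl)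
      · exact ⟨mu0, rfl⟩
      · exact ⟨lam0, rfl⟩
    obtain ⟨y, hy⟩ := h hx
    exact ⟨y, hy.symm⟩
  · rintro ⟨y, rfl⟩
    exact pol2_mem_of K _ (IntermediateField.subset_adjoin _ _ (Or.inr rfl))
      (IntermediateField.subset_adjoin _ _ (Or.inl rfl)) y

theorem finrank_adjoin_k2 :
    Module.rank (IntermediateField.adjoin (k2 K) {lam K}) K = Module.rank K0 K := by
  refine (rank_eq_of_equiv_equiv
    (fun y : K0 => (⟨algebraMap K0 K y, (mem_adjoin_k2_iff K _).2 ⟨y, rfl⟩⟩ :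
      IntermediateField.adjoin (k2 K) {lam K})) (AddEquiv.refl K) ⟨fun y y' h => ?_, fun x => ?_⟩
    fun r m => ?_).symm
  · exact (algebraMap K0 K).injective (congrArg Subtype.val h)
  · obtain ⟨y, hy⟩ := (mem_adjoin_k2_iff K _).1 x.2
    exact ⟨y, Subtype.ext hy.symm⟩
  · exact Algebra.smul_def r m

/-- `K0` is spanned by `1, λ` over `ℂ(λμ, λ+μ)` -/
theorem exists_sym_coords (y : K0) :
    ∃ s ∈ IntermediateField.adjoin ℂ {lam K * mu K, lam K + mu K},
    ∃ t ∈ IntermediateField.adjoin ℂ {lam K * mu K, lam K + mu K},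
      algebraMap K0 K y = s + t * lam K := by
  set F := IntermediateField.adjoin ℂ {lam K * mu K, lam K + mu K} with hF
  have hp : lam K * mu K ∈ F := IntermediateField.subset_adjoin _ _ (Or.inl rfl)
  have hs : lam K + mu K ∈ F := IntermediateField.subset_adjoin _ _ (Or.inr rfl)
  have hint : IsIntegral F (lam K) := by
    refine ⟨X ^ 2 + (C (-⟨_, hs⟩ : F) * X + C ⟨_, hp⟩), ?_, ?_⟩
    · exact monic_X_pow_add (degree_linear_lt)
    · simp only [eval₂_add, eval₂_mul, eval₂_C, eval₂_X, eval₂_X_pow, map_neg, eval₂_neg,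
        IntermediateField.algebraMap_apply]
      ring
  have h1 : lam K ∈ IntermediateField.adjoin F {lam K} :=
    IntermediateField.mem_adjoin_simple_self _ _
  have h2 : mu K ∈ IntermediateField.adjoin F {lam K} := by
    have h3 := sub_mem ((IntermediateField.adjoin F {lam K}).algebraMap_mem ⟨_, hs⟩) h1
    simpa using h3
  have h3 : algebraMap K0 K y ∈ (IntermediateField.adjoin F {lam K}).toSubalgebra :=
    pol2_mem_of K ((IntermediateField.adjoin F {lam K}).restrictScalars ℂ) h1 h2 y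
  rw [IntermediateField.adjoin_simple_toSubalgebra_of_isAlgebraic hint.isAlgebraic] at h3
  generalize algebraMap K0 K y = x at h3
  induction h3 using Algebra.adjoin_induction with
  | mem x hx =>
    obtain rfl : x = lam K := hx
    exact ⟨0, zero_mem _, 1, one_mem _, by ring⟩
  | algebraMap r => exact ⟨r, r.2, 0, zero_mem _, by simp⟩
  | add x y _ _ hx hy =>
    obtain ⟨s, hs', t, ht, rfl⟩ := hx
    obtain ⟨s', hs'', t', ht', rfl⟩ := hy
    exact ⟨s + s', add_mem hs' hs'', t + t', add_mem ht ht', by ring⟩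
  | mul x y _ _ hx hy =>
    obtain ⟨s, hs', t, ht, rfl⟩ := hx
    obtain ⟨s', hs'', t', ht', rfl⟩ := hy
    exact ⟨s * s' - t * t' * (lam K * mu K), sub_mem (mul_mem hs' hs'') (mul_mem (mul_mem ht ht') hp),
      s * t' + t * s' + t * t' * (lam K + mu K),
      add_mem (add_mem (mul_mem hs' ht') (mul_mem ht hs'')) (mul_mem (mul_mem ht ht') hs), by ring⟩

end

theorem pol2_linIndep_nat : LinearIndependent ℂ fun z : ℕ × ℕ => lam0 ^ z.1 * mu0 ^ z.2 := by
  have h1 := ((MvPolynomial.basisMonomials (Fin 2) ℂ).linearIndependent.map'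
    (MvPolynomial.aeval ![lam K0, mu K0]).toLinearMap
    (LinearMap.ker_eq_bot.2 (pol2_algIndep K0))).comp
    (fun z : ℕ × ℕ => Finsupp.single 0 z.1 + Finsupp.single 1 z.2) (by
      intro z z' h
      have h0 := DFunLike.congr_fun h 0
      have h1 := DFunLike.congr_fun h 1
      simp at h0 h1
      exact Prod.ext h0 h1)
  refine (congrArg (fun v => LinearIndependent ℂ v) (funext fun z => ?_)).mpr h1
  simp [MvPolynomial.aeval_monomial, Finsupp.prod_add_index', pow_add, lam_K0, mu_K0]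

theorem pol2_linIndep_int : LinearIndependent ℂ fun z : ℤ × ℤ => lam0 ^ z.1 * mu0 ^ z.2 := by
  rw [linearIndependent_iff_finset_linearIndependent]
  intro s
  obtain ⟨N, hN⟩ : ∃ N : ℤ, ∀ z ∈ s, 0 ≤ z.1 + N ∧ 0 ≤ z.2 + N := by
    obtain ⟨N, hN⟩ := (s.image fun z => max (-z.1) (-z.2)).bddAbove
    refine ⟨N, fun z hz => ?_⟩
    have := hN (Finset.mem_coe.2 (Finset.mem_image_of_mem _ hz))
    simp only [max_le_iff] at this
    omega
  have h0 : lam0 ^ (-N) * mu0 ^ (-N) ≠ 0 :=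
    mul_ne_zero (zpow_ne_zero _ lam0_ne_zero) (zpow_ne_zero _ mu0_ne_zero)
  have h1 := (pol2_linIndep_nat.comp (fun z : s => ((z.1.1 + N).toNat, (z.1.2 + N).toNat)) (by
    intro z z' h
    have h1 := hN _ z.2
    have h2 := hN _ z'.2
    simp only [Prod.mk.injEq] at h
    exact Subtype.ext (Prod.ext (by omega) (by omega)))).map'
    (LinearMap.mulLeft ℂ (lam0 ^ (-N) * mu0 ^ (-N)))
    (LinearMap.ker_eq_bot.2 (mul_right_injective₀ h0))
  refine (congrArg (fun v => LinearIndependent ℂ v) (funext fun z => ?_)).mpr h1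
  have h2 := hN _ z.2
  simp only [Function.comp_apply, LinearMap.mulLeft_apply]
  rw [← zpow_natCast, ← zpow_natCast, Int.toNat_of_nonneg h2.1, Int.toNat_of_nonneg h2.2,
    mul_mul_mul_comm, ← zpow_add₀ lam0_ne_zero, ← zpow_add₀ mu0_ne_zero]
  congr 2 <;> ring

theorem pol2_mem_span {u w t x : K0} {A : Set K0} (hx : x ∈ Algebra.adjoin ℂ {u, w})
    (h : ∀ i j : ℕ, t * (u ^ i * w ^ j) ∈ A) : t * x ∈ Submodule.span ℂ A := by
  rw [← Subalgebra.mem_toSubmodule, Algebra.adjoin_eq_span] at hx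
  have h1 := Submodule.mem_map_of_mem (f := LinearMap.mulLeft ℂ t) hx
  rw [Submodule.map_span] at h1
  refine Submodule.span_mono ?_ h1
  rintro _ ⟨y, hy, rfl⟩
  obtain ⟨i, j, rfl⟩ := (Submonoid.mem_closure_pair _ _ _).1 hy
  exact h i j

/-- sections of `O(a,b)` are the polynomials of bidegree `≤ (a,b)` -/
theorem Gam_S0 (a b : ℤ) : Gam K0 (OO S0) a b =
    Submodule.span ℂ {w | ∃ i j : ℕ, (i : ℤ) ≤ a ∧ (j : ℤ) ≤ b ∧ w = lam0 ^ i * mu0 ^ j} := by
  apply le_antisymm
  · intro v hv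
    rw [mem_Gam] at hv
    have key : ∀ (c : Chart) (A : Set (ℤ × ℤ)),
        (∀ i j : ℕ, tau K0 c a b * (co lam0 c.1 ^ i * co mu0 c.2 ^ j) ∈
          (fun z : ℤ × ℤ => lam0 ^ z.1 * mu0 ^ z.2) '' A) →
        ∃ l ∈ Finsupp.supported ℂ ℂ A,
          Finsupp.linearCombination ℂ (fun z : ℤ × ℤ => lam0 ^ z.1 * mu0 ^ z.2) l = v := by
      intro c A h
      have h1 := pol2_mem_span (t := tau K0 c a b) (hv c) h
      rw [smul_eq_mul, mul_inv_cancel_left₀ (tau_ne_zero K0 c a b)] at h1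
      exact (Finsupp.mem_span_image_iff_linearCombination ℂ).1 h1
    obtain ⟨l₁, h₁, e₁⟩ := key (false, false) {z | 0 ≤ z.1 ∧ 0 ≤ z.2} fun i j =>
      ⟨(i, j), ⟨by simp, by simp⟩, by simp [tau_ff, co]⟩
    obtain ⟨l₂, h₂, e₂⟩ := key (true, false) {z | z.1 ≤ a} fun i j =>
      ⟨(a - i, j), by simp, by
        simp [tau, hu, co, lam_K0, zpow_sub₀ lam0_ne_zero, div_eq_mul_inv, mul_assoc]⟩
    obtain ⟨l₃, h₃, e₃⟩ := key (false, true) {z | z.2 ≤ b} fun i j =>
      ⟨(i, b - j), by simp, by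
        simp [tau, hu, co, mu_K0, zpow_sub₀ mu0_ne_zero, div_eq_mul_inv, mul_left_comm]⟩
    obtain rfl : l₁ = l₂ := pol2_linIndep_int (e₁.trans e₂.symm)
    obtain rfl : l₁ = l₃ := pol2_linIndep_int (e₁.trans e₃.symm)
    have h4 : v ∈ Submodule.span ℂ ((fun z : ℤ × ℤ => lam0 ^ z.1 * mu0 ^ z.2) ''
        {z | (0 ≤ z.1 ∧ 0 ≤ z.2) ∧ z.1 ≤ a ∧ z.2 ≤ b}) :=
      (Finsupp.mem_span_image_iff_linearCombination ℂ).2
        ⟨l₁, fun z hz => ⟨h₁ hz, h₂ hz, h₃ hz⟩, e₁⟩
    refine Submodule.span_mono ?_ h4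
    rintro _ ⟨⟨i, j⟩, ⟨⟨hi, hj⟩, hi', hj'⟩, rfl⟩
    lift i to ℕ using hi
    lift j to ℕ using hj
    exact ⟨i, j, hi', hj', by simp⟩
  · rw [Submodule.span_le]
    rintro _ ⟨i, j, hi, hj, rfl⟩
    exact mem_Gam.2 fun c => tau_inv_mul_mem K0 c hi hj

theorem finrank_Gam_S0 (a b : ℤ) :
    FiniteDimensional ℂ (Gam K0 (OO S0) a b) ∧
      Module.finrank ℂ (Gam K0 (OO S0) a b) = (a + 1).toNat * (b + 1).toNat := by
  have e : {w | ∃ i j : ℕ, (i : ℤ) ≤ a ∧ (j : ℤ) ≤ b ∧ w = lam0 ^ i * mu0 ^ j} =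
      Set.range fun z : Fin (a + 1).toNat × Fin (b + 1).toNat =>
        lam0 ^ (z.1 : ℕ) * mu0 ^ (z.2 : ℕ) := by
    ext w
    constructor
    · rintro ⟨i, j, hi, hj, rfl⟩
      exact ⟨(⟨i, by omega⟩, ⟨j, by omega⟩), rfl⟩
    · rintro ⟨⟨i, j⟩, rfl⟩
      exact ⟨i, j, by omega, by omega, rfl⟩
  have h := pol2_linIndep_nat.comp
    (fun z : Fin (a + 1).toNat × Fin (b + 1).toNat => ((z.1 : ℕ), (z.2 : ℕ))) (by
      intro z z' h
      simp only [Prod.mk.injEq] at h
      exact Prod.ext (Fin.ext h.1) (Fin.ext h.2))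
  rw [Gam_S0, e]
  refine ⟨FiniteDimensional.span_of_finite ℂ (Set.finite_range _), ?_⟩
  exact (finrank_span_eq_card h).trans (by simp)

/-- `K1 = ℂ(λ)` -/
theorem K1_frac (f : K1) : ∃ p q : ℂ[X], aeval (RatFunc.X : K1) q ≠ 0 ∧
    f * aeval (RatFunc.X : K1) q = aeval (RatFunc.X : K1) p := by
  refine ⟨f.num, f.denom, ?_, ?_⟩
  · rw [RatFunc.aeval_X_left_eq_algebraMap]
    exact RatFunc.algebraMap_ne_zero f.denom_ne_zero
  · rw [RatFunc.aeval_X_left_eq_algebraMap, RatFunc.aeval_X_left_eq_algebraMap,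
      ← eq_div_iff (RatFunc.algebraMap_ne_zero f.denom_ne_zero), RatFunc.num_div_denom]

end

end Crest.Agent.R169
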