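import Crest.Agent.R169.Iwa

/-! # The rank two step (symmetric powers and Gauss's lemma) -/

set_option autoImplicit false

namespace Crest.Agent.R169

noncomputable section

open Matrix

namespace AdSys

variable {L : Type} [Field L] {A : AdSys L}

open Polynomial in
theorem rank2_gauss (I : Subring L) {x y p q : L} (hx : x ∈ I) (hy : y ∈ I) (hp : p ∈ I)
    (hq : q ∈ I) (h1 : p * x + q * y = 1) {Q : L[X]}
    (h : ∀ k, ((C x + C y * X) * Q).coeff k ∈ I) (k : ℕ) : Q.coeff k ∈ I := by
  have h0 : x * Q.coeff 0 ∈ I := by simpa [add_mul, mul_assoc] using h 0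
  have hs : ∀ k, x * Q.coeff (k + 1) + y * Q.coeff k ∈ I := fun k => by
    simpa [add_mul, mul_assoc] using h (k + 1)
  have up : ∀ k, x ^ (k + 1) * Q.coeff k ∈ I := by
    intro k
    induction k with
    | zero => simpa using h0
    | succ k ih =>
      have := I.sub_mem (I.mul_mem (I.pow_mem hx (k + 1)) (hs k)) (I.mul_mem hy ih)
      convert this using 1
      ring
  have down : ∀ m k, Q.natDegree < k + m → y ^ m * Q.coeff k ∈ I := by
    intro m
    induction m with
    | zero =>
      intro k hk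
      rw [coeff_eq_zero_of_natDegree_lt (n := k) hk, mul_zero]
      exact I.zero_mem
    | succ m ih =>
      intro k hk
      have := I.sub_mem (I.mul_mem (I.pow_mem hy m) (hs k)) (I.mul_mem hx (ih (k + 1) (by omega)))
      convert this using 1
      ring
  have hc : IsCoprime (⟨x, hx⟩ : I) ⟨y, hy⟩ := ⟨⟨p, hp⟩, ⟨q, hq⟩, Subtype.ext h1⟩
  obtain ⟨p', q', h2⟩ := hc.pow (m := k + 1) (n := Q.natDegree + 1)
  have h3 : (p' : L) * x ^ (k + 1) + q' * y ^ (Q.natDegree + 1) = 1 := by
    simpa using congrArg Subtype.val h2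
  have := I.add_mem (I.mul_mem p'.2 (up k)) (I.mul_mem q'.2 (down (Q.natDegree + 1) k (by omega)))
  rwa [← mul_assoc, ← mul_assoc, ← add_mul, h3, one_mul] at this

open Polynomial in
theorem rank2_roots {a b d : A.ι → L} (ha : A.IsIdele a) (hd : A.IsIdele d)
    (hb : {v | b v ∉ A.I v}.Finite) {t : ℚ} (h : A.Bd (fun v => !![a v, b v; 0, d v]) t)
    (rs : Multiset L) : ∀ κ : A.ι → L, A.IsIdele κ →
      (∀ v k, (C (κ v) * ((rs.map fun r => X - C r).prod).comp
        (C (a v / d v) * X - C (b v / d v))).coeff k ∈ A.I v) →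
      A.deg κ + rs.card * A.deg a ≤ rs.card * t := by
  induction rs using Multiset.induction_on with
  | empty =>
    intro κ hκ hc
    have h1 := deg_le_of_dvd (isIdele_const (A := A) one_ne_zero) hκ fun v => by
      simpa using hc v 0
    rw [deg_const one_ne_zero] at h1
    simpa using h1
  | cons r rs ih =>
    intro κ hκ hc
    choose g p q x y hp hq hx hy h1 h2 h3 using
      fun v => A.bezout v ((-r - b v / d v) / a v) (d v)⁻¹
    have hg : ∀ v, g v ≠ 0 := fun v e => inv_ne_zero (hd.1 v) (by rw [h3, e, zero_mul])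
    have hgi : ∀ v, (g v)⁻¹ = d v * y v := fun v => by
      have := hd.1 v
      have := hg v
      have h4 := h3 v
      field_simp at h4 ⊢
      linear_combination h4
    have hxa : ∀ v, -r - b v / d v = a v * g v * x v := fun v => by
      rw [mul_assoc, ← h2, mul_div_cancel₀ _ (ha.1 v)]
    have hgid : A.IsIdele g := by
      refine ⟨hg, (((ha.2.union hd.2).union hb).union (A.fin_supp r)).subset fun v hv => ?_⟩
      by_contra hn
      simp only [Set.mem_union, Set.mem_ofPred_eq, not_or, not_not] at hn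
      obtain ⟨⟨⟨⟨-, a2⟩, d1, d2⟩, b1⟩, r1⟩ := hn
      rcases hv with hv | hv
      · apply hv
        rw [h1, div_eq_mul_inv, div_eq_mul_inv]
        exact add_mem (mul_mem (hp v) (mul_mem (sub_mem (neg_mem r1) (mul_mem b1 d2)) a2))
          (mul_mem (hq v) d2)
      · exact hv (hgi v ▸ mul_mem d1 (hy v))
    have hdeg := h ![-r, 1] (by simp) _ hgid.inv fun v => ⟨![x v, y v], fun i => by
      fin_cases i
      · exact hx v
      · exact hy v, by
      have e1 := hd.1 v
      have e2 := hg v
      have e3 : a v * x v + b v * y v = (g v)⁻¹ * -r := by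
        rw [eq_inv_mul_iff_mul_eq₀ e2]
        linear_combination -hxa v - b v * h3 v
      ext i
      fin_cases i
      · simp [Matrix.mulVec, dotProduct, e3]
      · simp [Matrix.mulVec, dotProduct, hgi]⟩
    rw [deg_inv hgid] at hdeg
    have h4 := ih _ (hκ.mul (ha.mul hgid)) fun v => by
      have e : p v * x v + q v * y v = 1 := by
        apply mul_left_cancel₀ (hg v)
        linear_combination -h1 v - p v * h2 v - q v * h3 v
      refine rank2_gauss _ (hx v) (hy v) (hp v) (hq v) e fun k => ?_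
      have e2 : C (a v / d v) * X - C (b v / d v) - C r =
          C (a v * g v) * (C (x v) + C (y v) * X) := by
        rw [mul_add, ← mul_assoc, ← C_mul, ← C_mul, ← hxa, mul_assoc (a v), ← h3, C_sub, C_neg,
          div_eq_mul_inv (a v)]
        ring
      have := hc v k
      rw [Multiset.map_cons, Multiset.prod_cons, mul_comp, sub_comp, X_comp, C_comp, e2] at this
      convert this using 2
      rw [C_mul (a := κ v)]
      ring
    rw [deg_mul hκ (ha.mul hgid), deg_mul ha hgid] at h4
    rw [Multiset.card_cons]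
    push_cast
    linarith

open Polynomial in
theorem rank2_fin [IsAlgClosed L] (hRR : A.RR) (h1 : A.HasOne) {a b d : A.ι → L}
    (ha : A.IsIdele a) (hd : A.IsIdele d) {S : Set A.ι} (hS : S.Finite)
    (hS' : ∀ v, v ∉ S → a v = 1 ∧ b v = 0 ∧ d v = 1) {t : ℚ}
    (h : A.Bd (fun v => !![a v, b v; 0, d v]) t) : A.deg a + A.deg d ≤ 2 * t := by
  classical
  obtain ⟨u, hu, hu1, hu2⟩ := h1
  have hb : {v | b v ∉ A.I v}.Finite := hS.subset fun v hv => by
    by_contra hn
    exact hv ((hS' v hn).2.1 ▸ zero_mem _)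
  have hat : A.deg a ≤ t := h ![1, 0] (by simp) a ha fun v => by
    convert col_mem_Lat v !![a v, b v; 0, d v] 0 using 1
    ext i
    fin_cases i <;> simp
  let T : Finset L := (((hS.image a).union ((hS.image b).union (hS.image d))).union hu2).toFinset
  obtain ⟨γ, hγ⟩ := hRR T
  have hT : ∀ v, a v ∈ Subfield.closure (T : Set L) ∧ b v ∈ Subfield.closure (T : Set L) ∧
      d v ∈ Subfield.closure (T : Set L) ∧ u v ∈ Subfield.closure (T : Set L) := by
    intro v
    refine and_assoc.1 (and_assoc.1 ⟨and_assoc.2 ?_, Subfield.subset_closure (by simp [T])⟩)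
    by_cases hv : v ∈ S
    · refine ⟨Subfield.subset_closure ?_, Subfield.subset_closure ?_, Subfield.subset_closure ?_⟩ <;>
        simp only [T, Set.Finite.coe_toFinset]
      · exact Or.inl (Or.inl ⟨v, hv, rfl⟩)
      · exact Or.inl (Or.inr (Or.inl ⟨v, hv, rfl⟩))
      · exact Or.inl (Or.inr (Or.inr ⟨v, hv, rfl⟩))
    · obtain ⟨e1, e2, e3⟩ := hS' v hv
      rw [e1, e2, e3]
      exact ⟨one_mem _, zero_mem _, one_mem _⟩
  have main : ∀ n : ℕ, n * (A.deg a + A.deg d) / 2 ≤ n * t + γ + 1 := by
    intro n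
    let P : A.ι → ℕ → L[X] := fun v i => C (a v) ^ (n - i) * (C (b v) + C (d v) * X) ^ i
    let s : A.ι → Matrix (Fin (n + 1)) (Fin (n + 1)) L := fun v k i => (P v i).coeff k
    have hlin : ∀ v, (C (b v) + C (d v) * X).natDegree ≤ 1 := fun v => by compute_degree
    have hP : ∀ v i, (P v i).natDegree ≤ i := by
      intro v i
      simp only [P, ← C_pow]
      refine (natDegree_C_mul_le _ _).trans (natDegree_pow_le.trans ?_)
      simpa using Nat.mul_le_mul_left i (hlin v)
    have htri : ∀ v i j, s v i j ≠ 0 → i = j ∨ (i : ℕ) < (j : ℕ) := by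
      intro v i j hij
      have := (le_natDegree_of_ne_zero hij).trans (hP v j)
      rcases this.eq_or_lt with e | e
      · exact Or.inl (Fin.ext e)
      · exact Or.inr e
    have hdiag : ∀ v i, s v i i = a v ^ ((n - i : ℕ) : ℤ) * d v ^ ((i : ℕ) : ℤ) := by
      intro v i
      have := coeff_pow_of_natDegree_le (m := (i : ℕ)) (hlin v)
      rw [mul_one] at this
      simp only [s, P, ← C_pow, coeff_C_mul, this, zpow_natCast]
      simp
    have hs : A.IsBun s := by
      refine ⟨fun v => ?_, hS.subset fun v hv => ?_⟩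
      · rw [det_of_tri (htri v), Finset.prod_ne_zero_iff]
        intro i _
        rw [hdiag]
        exact mul_ne_zero (zpow_ne_zero _ (ha.1 v)) (zpow_ne_zero _ (hd.1 v))
      · by_contra hn
        obtain ⟨e1, e2, e3⟩ := hS' v hn
        apply hv
        congr 1
        ext k i
        simp [s, P, e1, e2, e3, coeff_X_pow, Matrix.one_apply, Fin.ext_iff]
    have hD : A.D s = (n + 1) * (n * (A.deg a + A.deg d) / 2) := by
      rw [(hs.diag_idele htri).2]
      simp only [hdiag, deg_mul (ha.zpow _) (hd.zpow _), deg_zpow ha, deg_zpow hd, Int.cast_natCast]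
      rw [Fin.sum_univ_eq_sum_range (fun i => ((n - i : ℕ) : ℚ) * A.deg a + (i : ℚ) * A.deg d),
        Finset.sum_add_distrib, ← Finset.sum_mul, ← Finset.sum_mul]
      have e1 : ∑ i ∈ Finset.range (n + 1), ((n - i : ℕ) : ℚ) = ∑ i ∈ Finset.range (n + 1), (i : ℚ) :=
        Finset.sum_range_reflect (fun i => (i : ℚ)) (n + 1)
      have e2 : (∑ i ∈ Finset.range (n + 1), (i : ℚ)) * 2 = (n + 1) * n := by
        have := congrArg (Nat.cast : ℕ → ℚ) (Finset.sum_range_id_mul_two (n + 1))
        simpa using this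
      rw [e1]
      linear_combination (A.deg a + A.deg d) / 2 * e2
    set j : ℤ := ⌊γ - n * (A.deg a + A.deg d) / 2⌋ + 1 with hj
    have hj1 : γ - n * (A.deg a + A.deg d) / 2 < j := by
      rw [hj]; push_cast; exact Int.lt_floor_add_one _
    have hj2 : (j : ℚ) ≤ γ - n * (A.deg a + A.deg d) / 2 + 1 := by
      rw [hj]; push_cast; linarith [Int.floor_le (γ - n * (A.deg a + A.deg d) / 2)]
    obtain ⟨hs1, hs2⟩ := hs.smul (hu.zpow j)
    obtain ⟨x, hx0, hx⟩ := hγ (n + 1) _ hs1 (fun v k i => by
      obtain ⟨t1, t2, t3, t4⟩ := hT v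
      refine mul_mem (zpow_mem t4 j) ?_
      have : P v i = (C (⟨a v, t1⟩ : Subfield.closure (T : Set L)) ^ (n - i) *
          (C (⟨b v, t2⟩ : Subfield.closure (T : Set L)) +
            C (⟨d v, t3⟩ : Subfield.closure (T : Set L)) * X) ^ (i : ℕ)).map
            (Subfield.subtype _) := by
        simp [P]
      simp only [s, this, coeff_map]
      exact Subtype.property _) (by
      rw [hs2, hD, deg_zpow hu, hu1, Fintype.card_fin]
      push_cast
      have : (0 : ℚ) < n + 1 := by positivity
      nlinarith)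
    let f : L[X] := ∑ k : Fin (n + 1), C (x k) * X ^ (k : ℕ)
    have hf0 : f ≠ 0 := by
      intro e
      apply hx0
      funext k
      have := congrArg (fun p => coeff p k) e
      simpa [f, coeff_X_pow, Fin.val_inj] using this
    have hfn : f.natDegree ≤ n := natDegree_sum_le_of_forall_le _ _ fun k _ =>
      (natDegree_C_mul_X_pow_le _ _).trans (Nat.lt_succ_iff.1 k.2)
    have hlc : f.leadingCoeff ≠ 0 := leadingCoeff_ne_zero.2 hf0
    have hκ := (isIdele_const (A := A) hlc).mul ((hu.zpow j).mul (ha.zpow n)).inv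
    have key := rank2_roots ha hd hb h f.roots _ hκ fun v k => by
      obtain ⟨y, hy, e⟩ := hx v
      have e1 : f = C (u v ^ j) * ∑ i : Fin (n + 1), C (y i) * P v i := by
        have e2 : ∀ i : Fin (n + 1), P v i = ∑ k : Fin (n + 1), C (s v k i) * X ^ (k : ℕ) := by
          intro i
          rw [Fin.sum_univ_eq_sum_range (fun k => C ((P v i).coeff k) * X ^ k)]
          exact as_sum_range_C_mul_X_pow' _ ((hP v i).trans_lt i.2)
        rw [Finset.sum_congr rfl fun i _ => by rw [e2 i], Finset.mul_sum]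
        simp only [Finset.mul_sum]
        rw [Finset.sum_comm]
        refine Finset.sum_congr rfl fun k _ => ?_
        rw [e]
        simp only [Matrix.mulVec, dotProduct, Matrix.smul_apply, smul_eq_mul, map_sum, C_mul,
          Finset.sum_mul]
        exact Finset.sum_congr rfl fun i _ => by ring
      have e3 : ∀ i : Fin (n + 1), (P v i).comp (C (a v / d v) * X - C (b v / d v)) =
          C (a v ^ (n : ℤ)) * X ^ (i : ℕ) := by
        intro i
        have e4 : C (b v) + C (d v) * (C (a v / d v) * X - C (b v / d v)) = C (a v) * X := by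
          rw [mul_sub, ← mul_assoc, ← C_mul, ← C_mul, mul_div_cancel₀ _ (hd.1 v),
            mul_div_cancel₀ _ (hd.1 v)]
          ring
        simp only [P, mul_comp, pow_comp, add_comp, C_comp, X_comp, e4, zpow_natCast, C_pow]
        rw [mul_pow, ← mul_assoc, ← pow_add, Nat.sub_add_cancel (Nat.lt_succ_iff.1 i.2)]
      have e5 : C (f.leadingCoeff * (u v ^ j * a v ^ (n : ℤ))⁻¹) *
          ((f.roots.map fun r => X - C r).prod).comp (C (a v / d v) * X - C (b v / d v)) =
          ∑ i : Fin (n + 1), C (y i) * X ^ (i : ℕ) := by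
        have e6 : u v ^ j * a v ^ (n : ℤ) ≠ 0 :=
          mul_ne_zero (zpow_ne_zero _ (hu.1 v)) (zpow_ne_zero _ (ha.1 v))
        rw [mul_comm f.leadingCoeff, C_mul, mul_assoc, ← C_mul_comp,
          C_leadingCoeff_mul_prod_multiset_X_sub_C IsAlgClosed.card_roots_eq_natDegree]
        conv_lhs => rw [e1]
        simp only [mul_comp, C_comp, Polynomial.sum_comp, e3]
        rw [Finset.mul_sum, Finset.mul_sum]
        refine Finset.sum_congr rfl fun i _ => ?_
        calc _ = C ((u v ^ j * a v ^ (n : ℤ))⁻¹ * (u v ^ j * a v ^ (n : ℤ))) *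
              (C (y i) * X ^ (i : ℕ)) := by simp only [C_mul]; ring
          _ = _ := by rw [inv_mul_cancel₀ e6, C_1, one_mul]
      rw [e5, finsetSum_coeff]
      refine sum_mem fun i _ => ?_
      rw [coeff_C_mul_X_pow]
      split_ifs
      · exact hy i
      · exact zero_mem _
    rw [deg_mul (isIdele_const hlc) ((hu.zpow j).mul (ha.zpow n)).inv, deg_const hlc,
      deg_inv ((hu.zpow j).mul (ha.zpow n)), deg_mul (hu.zpow j) (ha.zpow n), deg_zpow hu,
      deg_zpow ha, hu1, IsAlgClosed.card_roots_eq_natDegree, Int.cast_natCast] at key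
    have e7 : (f.natDegree : ℚ) ≤ n := by exact_mod_cast hfn
    nlinarith [mul_le_mul_of_nonneg_left hat (sub_nonneg.2 e7)]
  by_contra hcon
  have hpos : 0 < (A.deg a + A.deg d) / 2 - t := by linarith [not_le.1 hcon]
  obtain ⟨n, hn⟩ := exists_nat_gt ((γ + 1) / ((A.deg a + A.deg d) / 2 - t))
  rw [div_lt_iff₀ hpos] at hn
  linarith [main n]

/-- Plan.  At almost all `v` replace `(a, b, d)` by `(1, 0, 1)` (same lattice, same degrees), so that all entries lie in a
finite set `T` (add the values of the idele `u` of `HasOne`); let `γ` be given by `RR` for `T`.  For `n ≥ 1` let `s v` be the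
`(n+1) × (n+1)` matrix whose `i`-th column is the coefficient vector of `a^(n-i) (b + d X)^i`; it is upper triangular with
diagonal `a^(n-i) d^i`, so `D s = (n+1) n (deg a + deg d) / 2`.  Take the integer `j` with
`γ < n (deg a + deg d) / 2 + j ≤ γ + 1`; `RR` for `u^j • s` gives a polynomial `f ≠ 0` of degree `σ ≤ n` with
`f = u^j a^n φ_v((b + d X) / a)`, `φ_v ∈ (I v)[Y]`.  Factor `f = lc * ∏ (X - r i)`.  With `X = (a Y - b) / d`:
`X - r = a * (Y / d + (-r - b / d) / a)`; by `bezout` write `Y / d + (-r - b/d)/a = c * ℓ` with `ℓ` a linear polynomial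
whose coefficients generate the unit ideal of `I v`; then `c⁻¹ • ![-r, 1] ∈ Lat v`, `c` is an idele (choose `c = 1` where
everything is integral), so `deg c⁻¹ ≤ t`; also `a • ![1, 0] ∈ Lat v`, so `deg a ≤ t`.  Gauss: the coefficients of `∏ ℓ i` generate the
unit ideal (reduce modulo a maximal ideal), so `lc * a^(σ-n) * (∏ c i) * u^(-j) ∈ I v`.  Taking degrees:
`-j ≤ (n - σ) deg a + ∑ deg (c i)⁻¹ ≤ n t`.  So `n (deg a + deg d) / 2 ≤ n t + γ + 1` for all `n`. -/
theorem rank_two [IsAlgClosed L] (hRR : A.RR) (h1 : A.HasOne) {a b d : A.ι → L} (ha : A.IsIdele a)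
    (hd : A.IsIdele d) (hb : {v | b v ∉ A.I v}.Finite) {t : ℚ}
    (h : A.Bd (fun v => !![a v, b v; 0, d v]) t) : A.deg a + A.deg d ≤ 2 * t := by
  classical
  have hS := (ha.2.union hd.2).union hb
  set S := ({v | a v ∉ A.I v ∨ (a v)⁻¹ ∉ A.I v} ∪ {v | d v ∉ A.I v ∨ (d v)⁻¹ ∉ A.I v}) ∪
    {v | b v ∉ A.I v}
  have hn : ∀ v, v ∉ S → ((a v ∈ A.I v ∧ (a v)⁻¹ ∈ A.I v) ∧ d v ∈ A.I v ∧ (d v)⁻¹ ∈ A.I v) ∧
      b v ∈ A.I v := fun v hv => by
    simpa only [S, Set.mem_union, Set.mem_ofPred_eq, not_or, not_not] using hv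
  have key : ∀ c : A.ι → L, A.IsIdele c → (∀ v, v ∉ S → c v ∈ A.I v ∧ (c v)⁻¹ ∈ A.I v) →
      A.IsIdele (fun v => if v ∈ S then c v else 1) ∧
        A.deg (fun v => if v ∈ S then c v else 1) = A.deg c := by
    intro c hc hc'
    refine ⟨⟨fun v => ?_, hS.subset fun v hv => ?_⟩, ?_⟩
    · beta_reduce
      split_ifs
      · exact hc.1 v
      · exact one_ne_zero
    · by_contra hv'
      simp [hv'] at hv
    · unfold deg
      congr 1
      refine finsum_congr fun v => ?_
      beta_reduce
      split_ifs with hv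
      · rfl
      · rw [A.ν_one, A.ν_eq_zero v (hc.1 v) (hc' v hv).1 (hc' v hv).2]
  obtain ⟨a1, a2⟩ := key a ha fun v hv => (hn v hv).1.1
  obtain ⟨d1, d2⟩ := key d hd fun v hv => (hn v hv).1.2
  rw [← a2, ← d2]
  refine rank2_fin hRR h1 (b := fun v => if v ∈ S then b v else 0) a1 d1 hS
    (fun v hv => by simp [hv]) fun x hx c hc hL => h x hx c hc fun v => ?_
  have := hL v
  by_cases hv : v ∈ S
  · simpa only [if_pos hv] using this
  · simp only [if_neg hv] at this
    obtain ⟨y, hy, e⟩ := this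
    obtain ⟨⟨⟨-, a3⟩, -, d3⟩, b3⟩ := hn v hv
    refine ⟨![(y 0 - b v * (y 1 * (d v)⁻¹)) * (a v)⁻¹, y 1 * (d v)⁻¹], fun i => ?_, ?_⟩
    · fin_cases i
      · exact mul_mem (sub_mem (hy 0) (mul_mem b3 (mul_mem (hy 1) d3))) a3
      · exact mul_mem (hy 1) d3
    · rw [e]
      have e1 := ha.1 v
      have e2 := hd.1 v
      ext i
      fin_cases i
      · simp [Matrix.mulVec, dotProduct]
        field_simp
        ring
      · simp [Matrix.mulVec, dotProduct]
        field_simp

end AdSys

end

end Crest.Agent.R169
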