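import Crest.Agent.R169.Pic
import Crest.Agent.R169.LAS

/-! # Auxiliary lemmas for Serre duality -/

set_option autoImplicit false

namespace Crest.Agent.R169

noncomputable section

open Polynomial

section general

variable {K : Type} [Field K] [Algebra K0 K] [Algebra ℂ K] [IsScalarTower ℂ K0 K] {S : Surf K}
variable {V : Type} [AddCommGroup V] [Module K V] [Module ℂ V] [IsScalarTower ℂ K V]
variable {W : Type} [AddCommGroup W] [Module K W] [Module ℂ W] [IsScalarTower ℂ K W]
variable {U : Type} [AddCommGroup U] [Module K U] [Module ℂ U] [IsScalarTower ℂ K U]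

theorem IsSheaf.exists_smul_mem_Gam {M : Pre V} (hM : IsSheaf S M) (v : V) :
    ∃ f : K, f ≠ 0 ∧ ∃ n : ℕ, ∀ a b : ℤ, n ≤ a → n ≤ b → f • v ∈ Gam K M a b := by
  obtain ⟨f, -, hf0, hf⟩ := hM.frac (false, false) v
  obtain ⟨n, hn⟩ := hM.tau_smul_mem_Gam _ hf
  exact ⟨f, hf0, n, fun a b ha hb => by simpa [tau_ff] using hn a b ha hb⟩

omit [IsScalarTower ℂ K0 K] in
theorem mem_of_tau_smul_mem_Gam {M : Pre V} {c : Chart} {a b : ℤ} {v : V}
    (h : tau K c a b • v ∈ Gam K M a b) : v ∈ M c := by
  have := mem_Gam.1 h c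
  rwa [smul_smul, inv_mul_cancel₀ (tau_ne_zero K c a b), one_smul] at this

theorem HP_dual_exact {F : Pre U} (hF : IsSheaf S F) {i : W →ₗ[K] U} {π : U →ₗ[K] V}
    (hi : Function.Injective i) (hπ : Function.Surjective π)
    (hex : LinearMap.range i = LinearMap.ker π) (hl : LocFree S (push π F)) (a b : ℤ) :
    HP K (dualP S F) a b = HP K (dualP S (push π F)) a b + HP K (dualP S (pull i F)) a b := by
  have h1 : Function.Injective π.dualMap := LinearMap.dualMap_injective_of_surjective hπ
  have h2 : Function.Surjective i.dualMap := LinearMap.dualMap_surjective_of_injective hi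
  have h3 : LinearMap.range π.dualMap = LinearMap.ker i.dualMap := by
    rw [LinearMap.range_dualMap_eq_dualAnnihilator_ker, LinearMap.ker_dualMap_eq_dualAnnihilator_range,
      hex]
  have e1 : pull π.dualMap (dualP S F) = dualP S (push π F) := by
    funext c
    ext φ
    constructor
    · rintro h _ ⟨x, hx, rfl⟩
      exact h x hx
    · intro h x hx
      exact h _ ⟨x, hx, rfl⟩
  have e2 : push i.dualMap (dualP S F) = dualP S (pull i F) := by
    funext c
    apply le_antisymm
    · rintro _ ⟨φ, hφ, rfl⟩ x hx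
      exact hφ _ hx
    · intro φ hφ
      refine S.mem_of_local c _ (fun r hr v hv => (hF.dualP.push h2).smul_mem c hr hv) φ ?_
      intro 𝔪 h𝔪
      obtain ⟨bs, g, hg, hb, hb'⟩ := hl c 𝔪 h𝔪
      choose f hf hf' using hb
      let s : V →ₗ[K] U := bs.constr K f
      have hs : ∀ v, π (s v) = v := by
        intro v
        have : π ∘ₗ s = LinearMap.id := bs.ext fun j => by
          simpa [s] using hf' j
        exact LinearMap.congr_fun this v
      obtain ⟨ρ0, hρ0⟩ := i.exists_leftInverse_of_injective (LinearMap.ker_eq_bot.2 hi)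
      let ρ : U →ₗ[K] W := ρ0 ∘ₗ (LinearMap.id - s ∘ₗ π)
      have hρ : ∀ u, i (ρ u) = u - s (π u) := by
        intro u
        have : u - s (π u) ∈ LinearMap.range i := by
          rw [hex, LinearMap.mem_ker, map_sub, hs, sub_self]
        obtain ⟨w, hw⟩ := this
        have h0 : ρ u = w := by
          simp only [ρ, LinearMap.comp_apply, LinearMap.sub_apply, LinearMap.id_apply, ← hw]
          exact LinearMap.congr_fun hρ0 w
        rw [h0, hw]
      have hρi : ∀ w, ρ (i w) = w := by
        intro w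
        apply hi
        have : π (i w) = 0 := by
          rw [← LinearMap.mem_ker, ← hex]; exact ⟨w, rfl⟩
        rw [hρ, this, map_zero, sub_zero]
      refine ⟨g, hg, (g : K) • (φ ∘ₗ ρ), ?_, ?_⟩
      · intro u hu
        have hm : (g : K) • ρ u ∈ pull i F c := by
          show i ((g : K) • ρ u) ∈ F c
          rw [map_smul, hρ, smul_sub]
          refine (F c).sub_mem (hF.smul_mem c g.2 hu) ?_
          have : (g : K) • s (π u) = ∑ j, ((g : K) * bs.repr (π u) j) • f j := by
            simp only [s, Module.Basis.constr_apply_fintype, Module.Basis.equivFun_apply,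
              Finset.smul_sum, mul_smul]
          rw [this]
          exact Submodule.sum_mem _ fun j _ => hF.smul_mem c (hb' _ ⟨u, hu, rfl⟩ j) (hf j)
        have := hφ _ hm
        simpa using this
      · ext w
        simp [hρi]
  rw [hF.dualP.HP_exact h1 h2 h3, e1, e2]

end general

/-- the split sheaf `⊕ O(-d j, -b)` -/
def freeSh {J : Type} (d : J → ℤ) (b : ℤ) : Pre (J → K0) :=
  piP (fun j => twist K0 (OO S0) (-d j) (-b))

theorem isSheaf_freeSh {J : Type} [Finite J] (d : J → ℤ) (b : ℤ) : IsSheaf S0 (freeSh d b) :=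
  IsSheaf.piP fun _ => (isSheaf_OO S0).twist _ _

theorem mem_freeSh {J : Type} {d : J → ℤ} {b : ℤ} {c : Chart} {p : J → K0} :
    p ∈ freeSh d b c ↔ ∀ j, tau K0 c (d j) b * p j ∈ PP K0 c := by
  simp only [freeSh, piP, Submodule.mem_pi, Set.mem_univ, true_imp_iff, twist, mem_scal, tau_neg,
    inv_inv, smul_eq_mul]
  rfl

theorem mem_Gam_OO {a b : ℤ} {y : K0} :
    y ∈ Gam K0 (OO S0) a b ↔ ∀ c, (tau K0 c a b)⁻¹ * y ∈ PP K0 c := by
  rw [mem_Gam]
  rfl

theorem mem_Gam_freeSh {J : Type} {d : J → ℤ} {b a b' : ℤ} {p : J → K0} :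
    p ∈ Gam K0 (freeSh d b) a b' ↔ ∀ j, p j ∈ Gam K0 (OO S0) (a - d j) (b' - b) := by
  simp only [mem_Gam, mem_freeSh]
  rw [forall_comm]
  refine forall_congr' fun j => forall_congr' fun c => ?_
  have : (tau K0 c (a - d j) (b' - b))⁻¹ • p j = tau K0 c (d j) b * ((tau K0 c a b')⁻¹ • p) j := by
    rw [sub_eq_add_neg, sub_eq_add_neg, tau_add, tau_neg]
    simp only [mul_inv, inv_inv, smul_eq_mul, Pi.smul_apply]
    ring
  rw [this]
  rfl

theorem HP_freeSh {J : Type} [Fintype J] (d : J → ℤ) (b : ℤ) :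
    HP K0 (dualP S0 (freeSh d b)) (-2) (-2) = HP K0 (freeSh d b) 0 0 := by
  classical
  have e : pull (dotProductEquiv K0 J).toLinearMap (dualP S0 (freeSh d b)) =
      freeSh (fun j => -d j) (-b) := by
    funext c
    ext p
    rw [mem_freeSh]
    constructor
    · intro h j
      have h1 : (Pi.single j (tau K0 c (d j) b)⁻¹ : J → K0) ∈ freeSh d b c := by
        rw [mem_freeSh]
        intro l
        by_cases hl : l = j
        · subst hl
          rw [Pi.single_eq_same, mul_inv_cancel₀ (tau_ne_zero _ _ _ _)]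
          exact (PP K0 c).one_mem
        · rw [Pi.single_eq_of_ne hl, mul_zero]
          exact (PP K0 c).zero_mem
      have h2 := h _ h1
      rw [tau_neg, mul_comm]
      have h3 : p j * (tau K0 c (d j) b)⁻¹ ∈ S0.R c := by simpa using h2
      exact h3
    · intro h q hq
      rw [mem_freeSh] at hq
      have : (dotProductEquiv K0 J).toLinearMap.restrictScalars ℂ p q =
          ∑ j, (tau K0 c (-d j) (-b) * p j) * (tau K0 c (d j) b * q j) := by
        simp only [LinearMap.restrictScalars_apply, LinearEquiv.coe_coe, dotProductEquiv_apply_apply,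
          dotProduct, tau_neg]
        refine Finset.sum_congr rfl fun j _ => ?_
        have := tau_ne_zero K0 c (d j) b
        field_simp
      rw [this]
      exact Subalgebra.sum_mem _ fun j _ => Subalgebra.mul_mem _ (h j) (hq j)
  rw [← HP_pull_equiv (dotProductEquiv K0 J), e, freeSh, freeSh,
    HP_piP (S := S0) (fun j => (isSheaf_OO S0).twist _ _),
    HP_piP (S := S0) (fun j => (isSheaf_OO S0).twist _ _)]
  refine Finset.sum_congr rfl fun j _ => ?_
  rw [(isSheaf_OO S0).HP_twist, (isSheaf_OO S0).HP_twist, HP_S0, HP_S0]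
  ring

theorem mono_mem_Gam_OO {a b : ℤ} {i j : ℕ} (hi : (i : ℤ) ≤ a) (hj : (j : ℤ) ≤ b) :
    lam0 ^ i * mu0 ^ j ∈ Gam K0 (OO S0) a b := by
  rw [Gam_S0]
  exact Submodule.subset_span ⟨i, j, hi, hj, rfl⟩

theorem Gam_OO_decomp {a : ℤ} {n : ℕ} {y : K0} (hy : y ∈ Gam K0 (OO S0) a n) :
    ∃ y0 ∈ Gam K0 (OO S0) a ((n : ℤ) - 1), ∃ y1 ∈ Gam K0 (OO S0) a 0, y = y0 + mu0 ^ n * y1 := by
  rw [Gam_S0] at hy
  induction hy using Submodule.span_induction with
  | mem x hx =>
    obtain ⟨i, j, hi, hj, rfl⟩ := hx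
    by_cases h : j = n
    · subst h
      refine ⟨0, Submodule.zero_mem _, lam0 ^ i * mu0 ^ 0, mono_mem_Gam_OO hi (by simp), by ring⟩
    · exact ⟨_, mono_mem_Gam_OO (j := j) hi (by omega), 0, Submodule.zero_mem _, by ring⟩
  | zero => exact ⟨0, Submodule.zero_mem _, 0, Submodule.zero_mem _, by ring⟩
  | add x y _ _ hx hy =>
    obtain ⟨x0, hx0, x1, hx1, rfl⟩ := hx
    obtain ⟨y0, hy0, y1, hy1, rfl⟩ := hy
    exact ⟨_, Submodule.add_mem _ hx0 hy0, _, Submodule.add_mem _ hx1 hy1, by ring⟩
  | smul r x _ hx =>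
    obtain ⟨x0, hx0, x1, hx1, rfl⟩ := hx
    exact ⟨_, Submodule.smul_mem _ r hx0, _, Submodule.smul_mem _ r hx1, by
      rw [smul_add, mul_smul_comm]⟩

theorem Gam_OO_neg {a b : ℤ} (hb : b < 0) : Gam K0 (OO S0) a b = ⊥ := by
  rw [Gam_S0, Submodule.span_eq_bot]
  rintro _ ⟨i, j, -, hj, rfl⟩
  omega

theorem algebraMap_aeval_X (p : ℂ[X]) :
    algebraMap K1 K0 (aeval (RatFunc.X : K1) p) = aeval lam0 p := by
  rw [lam0, aeval_algebraMap_apply]

theorem mem_Gam_OO_zero {a : ℤ} {y : K0} : y ∈ Gam K0 (OO S0) a 0 ↔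
    ∃ p : ℂ[X], (p = 0 ∨ (p.natDegree : ℤ) ≤ a) ∧ y = aeval lam0 p := by
  constructor
  · intro hy
    rw [Gam_S0] at hy
    induction hy using Submodule.span_induction with
    | mem x hx =>
      obtain ⟨i, j, hi, hj, rfl⟩ := hx
      obtain rfl : j = 0 := by omega
      exact ⟨X ^ i, Or.inr (by simpa using hi), by simp⟩
    | zero => exact ⟨0, Or.inl rfl, by simp⟩
    | add x y _ _ hx hy =>
      obtain ⟨p, hp, rfl⟩ := hx
      obtain ⟨q, hq, rfl⟩ := hy
      refine ⟨p + q, ?_, by simp⟩
      rcases hp with rfl | hp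
      · simpa using hq
      rcases hq with rfl | hq
      · simpa using Or.inr hp
      right
      have := natDegree_add_le p q
      omega
    | smul r x _ hx =>
      obtain ⟨p, hp, rfl⟩ := hx
      refine ⟨r • p, ?_, by simp⟩
      rcases hp with rfl | hp
      · simp
      right
      have := natDegree_smul_le r p
      omega
  · rintro ⟨p, hp, rfl⟩
    rcases hp with rfl | hp
    · simp
    rw [aeval_eq_sum_range]
    refine Submodule.sum_mem _ fun i hi => Submodule.smul_mem _ _ ?_
    have hi' := Finset.mem_range.1 hi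
    simpa using mono_mem_Gam_OO (i := i) (j := 0) (a := a) (b := 0) (by omega) (by simp)

section split

variable {V : Type} [AddCommGroup V] [Module K0 V] [Module ℂ V] [IsScalarTower ℂ K0 V]

/-- splitting of the direct image of `M(0,b)` on the first `P¹` -/
theorem exists_split_Gam {M : Pre V} (hM : IsSheaf S0 M) (b : ℤ) :
    ∃ (J : Type) (_ : Fintype J) (w : J → V) (d : J → ℤ), (∀ j, w j ∈ Gam K0 M (d j) b) ∧
      (∀ a, ∀ v ∈ Gam K0 M a b, ∃ p ∈ Gam K0 (freeSh d b) a b, v = ∑ j, p j • w j) ∧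
      (∀ a, ∀ p ∈ Gam K0 (freeSh d b) a b, ∑ j, p j • w j = 0 → p = 0) := by
  classical
  let _ : Module K1 V := Module.compHom V (algebraMap K1 K0)
  have hsm : ∀ (x : K1) (v : V), x • v = algebraMap K1 K0 x • v := fun _ _ => rfl
  have : IsScalarTower ℂ K1 V := ⟨fun c x v => by
    rw [hsm, hsm, Algebra.smul_def, map_mul, ← IsScalarTower.algebraMap_apply, mul_smul,
      algebraMap_smul]⟩
  have h1 := hM.isFam1 b
  have hfam : IsFam (RatFunc.X : K1) (fun a => Gam K0 M a b) := ⟨h1.mono, h1.mul, h1.sat⟩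
  have := hM.finiteDimensional
  obtain ⟨f, f', dd, hf, -, hsand, -⟩ := hM.sandwich (Module.finBasis K0 V)
  have hfin : FiniteDimensional K1 (Submodule.span K1 (⋃ a, (Gam K0 M a b : Set V))) := by
    let s : Set V := Set.range (fun z : Fin (Module.finrank K0 V) × Fin ((b + dd).toNat + 1) =>
      (f⁻¹ * mu0 ^ (z.2 : ℕ)) • Module.finBasis K0 V z.1)
    have : FiniteDimensional K1 (Submodule.span K1 s) :=
      FiniteDimensional.span_of_finite K1 (Set.finite_range _)
    refine Submodule.finiteDimensional_of_le (S₂ := Submodule.span K1 s) (Submodule.span_le.2 ?_)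
    intro v hv
    obtain ⟨a, ha⟩ := Set.mem_iUnion.1 hv
    rw [← (Module.finBasis K0 V).sum_repr v]
    refine Submodule.sum_mem _ fun i _ => ?_
    have h2 := hsand a b v ha i
    have h3 : ∀ y ∈ Gam K0 (OO S0) (a + dd) (b + dd),
        (f⁻¹ * y) • Module.finBasis K0 V i ∈ Submodule.span K1 s := by
      intro y hy
      rw [Gam_S0] at hy
      induction hy using Submodule.span_induction with
      | mem x hx =>
        obtain ⟨l, j, -, hj, rfl⟩ := hx
        have : (f⁻¹ * (lam0 ^ l * mu0 ^ j)) • Module.finBasis K0 V i =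
            ((RatFunc.X : K1) ^ l) • ((f⁻¹ * mu0 ^ j) • Module.finBasis K0 V i) := by
          rw [hsm, smul_smul, map_pow]
          congr 1
          rw [lam0]; ring
        rw [this]
        exact Submodule.smul_mem _ _ (Submodule.subset_span ⟨(i, ⟨j, by omega⟩), rfl⟩)
      | zero => simp
      | add x y _ _ hx hy => rw [mul_add, add_smul]; exact Submodule.add_mem _ hx hy
      | smul r x _ hx =>
        rw [mul_smul_comm, smul_assoc]
        exact Submodule.smul_of_tower_mem _ r hx
    have := h3 _ h2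
    rwa [← mul_assoc, inv_mul_cancel₀ hf, one_mul] at this
  obtain ⟨a0, ha0⟩ := hM.Gam_eq_bot
  obtain ⟨J, _, w, d, hli, hw, hiff, -, -⟩ := hfam.split RatFunc.transcendental_X K1_frac hfin
    ⟨a0, ha0 a0 b (Or.inl le_rfl)⟩
  refine ⟨J, inferInstance, w, d, hw, fun a v hv => ?_, fun a p hp h0 => ?_⟩
  · obtain ⟨p, hp, rfl⟩ := (hiff a v).1 hv
    refine ⟨fun j => aeval lam0 (p j), ?_, ?_⟩
    · rw [mem_Gam_freeSh]
      intro j
      rw [sub_self, mem_Gam_OO_zero]
      exact ⟨p j, (hp j).imp id (fun h => by omega), rfl⟩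
    · simp only [hsm, algebraMap_aeval_X]
  · rw [mem_Gam_freeSh] at hp
    simp only [sub_self, mem_Gam_OO_zero] at hp
    choose q _ hq using hp
    have h2 : ∑ j, aeval (RatFunc.X : K1) (q j) • w j = 0 := by
      simpa only [hsm, algebraMap_aeval_X, ← hq] using h0
    have h3 := Fintype.linearIndependent_iff.1 hli _ h2
    funext j
    rw [hq j, ← algebraMap_aeval_X, h3 j, map_zero, Pi.zero_apply]

end split

end

end Crest.Agent.R169
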