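import Crest.Agent.R169.YLoc
import Crest.Agent.R169.PicQ

/-! # `Y` as a surface: Hilbert polynomial and dualizing sheaf -/

set_option autoImplicit false
set_option linter.unusedSectionVars false

namespace Crest.Agent.R169

noncomputable section

namespace YData

variable {K : Type} [Field K] [Algebra K0 K] [Algebra ℂ K] [IsScalarTower ℂ K0 K] (Y : YData K)

theorem card_YJ : Fintype.card YJ = 22 := by decide

theorem exists_all : ∃ T : Finset (Finset YJ × Finset YJ), ∀ s, s ∈ T :=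
  ⟨Finset.univ, Finset.mem_univ⟩

omit [IsScalarTower ℂ K0 K] in
theorem hu_div_mem_l (c : Chart) (b : Bool) : hu (lam K) b / hu (lam K) c.1 ∈ PP K c := by
  have h : co (lam K) c.1 ∈ PP K c := Algebra.subset_adjoin (by simp)
  obtain ⟨c1, c2⟩ := c
  cases b <;> cases c1
  · simp [hu]
  · simpa [hu, co] using h
  · simpa [hu, co] using h
  · simp [hu, lam_ne_zero K]

omit [IsScalarTower ℂ K0 K] in
theorem hu_div_mem_r (c : Chart) (b : Bool) : hu (mu K) b / hu (mu K) c.2 ∈ PP K c := by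
  have h : co (mu K) c.2 ∈ PP K c := Algebra.subset_adjoin (by simp)
  obtain ⟨c1, c2⟩ := c
  cases b <;> cases c2
  · simp [hu]
  · simpa [hu, co] using h
  · simpa [hu, co] using h
  · simp [hu, mu_ne_zero K]

omit [IsScalarTower ℂ K0 K] in
theorem ub_sq_mem (c : Chart) (i : YI) :
    Y.u i / hu (lam K) c.1 * (Y.u i / hu (lam K) c.1) ∈ PP K c := by
  have h1 := hu_div_mem_l (K := K) c true
  have h2 := hu_div_mem_l (K := K) c false
  have : Y.u i / hu (lam K) c.1 * (Y.u i / hu (lam K) c.1) =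
      algebraMap ℂ K (Y.al i) * (hu (lam K) true / hu (lam K) c.1) ^ 2 +
        algebraMap ℂ K (Y.be i) * (hu (lam K) false / hu (lam K) c.1) ^ 2 := by
    rw [← sq, div_pow, Y.u_sq, div_pow, div_pow]
    simp only [hu, if_true, Bool.false_eq_true, if_false]
    ring
  rw [this]
  exact add_mem (mul_mem (Subalgebra.algebraMap_mem _ _) (pow_mem h1 2))
    (mul_mem (Subalgebra.algebraMap_mem _ _) (pow_mem h2 2))

omit [IsScalarTower ℂ K0 K] in
theorem vb_sq_mem (c : Chart) (i : YI) :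
    Y.v i / hu (mu K) c.2 * (Y.v i / hu (mu K) c.2) ∈ PP K c := by
  have h1 := hu_div_mem_r (K := K) c true
  have h2 := hu_div_mem_r (K := K) c false
  have : Y.v i / hu (mu K) c.2 * (Y.v i / hu (mu K) c.2) =
      algebraMap ℂ K (Y.al i) * (hu (mu K) true / hu (mu K) c.2) ^ 2 +
        algebraMap ℂ K (Y.be i) * (hu (mu K) false / hu (mu K) c.2) ^ 2 := by
    rw [← sq, div_pow, Y.v_sq, div_pow, div_pow]
    simp only [hu, if_true, Bool.false_eq_true, if_false]
    ring
  rw [this]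
  exact add_mem (mul_mem (Subalgebra.algebraMap_mem _ _) (pow_mem h1 2))
    (mul_mem (Subalgebra.algebraMap_mem _ _) (pow_mem h2 2))

/-- the squarefree monomials in `ub`, `vb` -/
def eb (c : Chart) (s : Finset YJ × Finset YJ) : K :=
  (∏ i ∈ s.1, Y.u i.1 / hu (lam K) c.1) * ∏ i ∈ s.2, Y.v i.1 / hu (mu K) c.2

omit [IsScalarTower ℂ K0 K] in
theorem eb_eq (c : Chart) (s : Finset YJ × Finset YJ) :
    Y.eb c s = (tau K0 c s.1.card s.2.card)⁻¹ • Y.basis s := by
  rw [Algebra.smul_def, map_inv₀, ← tau_map, Y.basis_eq, eb, Finset.prod_div_distrib,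
    Finset.prod_div_distrib, Finset.prod_const, Finset.prod_const, tau, zpow_natCast, zpow_natCast]
  ring

omit [IsScalarTower ℂ K0 K] in
theorem eb_mem (c : Chart) (s : Finset YJ × Finset YJ) : Y.eb c s ∈ Y.R c :=
  mul_mem (prod_mem fun i _ => (Y.ub c i.1).2) (prod_mem fun i _ => (Y.vb c i.1).2)

/-- the coordinates are regular -/
def NN (c : Chart) (x : K) : Prop :=
  ∀ s : Finset YJ × Finset YJ, tau K0 c s.1.card s.2.card * Y.basis.repr x s ∈ PP K0 c

omit [IsScalarTower ℂ K0 K] in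
theorem NN_zero (c : Chart) : Y.NN c 0 := by
  intro s
  simp

omit [IsScalarTower ℂ K0 K] in
theorem NN_add {c : Chart} {x y : K} (hx : Y.NN c x) (hy : Y.NN c y) : Y.NN c (x + y) := by
  intro s
  rw [map_add, Finsupp.add_apply, mul_add]
  exact add_mem (hx s) (hy s)

omit [IsScalarTower ℂ K0 K] in
theorem NN_smul {c : Chart} {p : K0} (hp : p ∈ PP K0 c) {x : K} (hx : Y.NN c x) :
    Y.NN c (p • x) := by
  intro s
  rw [map_smul, Finsupp.smul_apply, smul_eq_mul, mul_left_comm]
  exact mul_mem hp (hx s)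

theorem NN_mul {c : Chart} {p : K} (hp : p ∈ PP K c) {x : K} (hx : Y.NN c x) :
    Y.NN c (p * x) := by
  obtain ⟨y, hy, rfl⟩ := (mem_PP_iff K c p).1 hp
  rw [← Algebra.smul_def]
  exact Y.NN_smul hy hx

omit [IsScalarTower ℂ K0 K] in
theorem NN_sum {c : Chart} {ι : Type} (t : Finset ι) (f : ι → K) (h : ∀ i ∈ t, Y.NN c (f i)) :
    Y.NN c (∑ i ∈ t, f i) :=
  Finset.sum_induction f (Y.NN c) (fun _ _ => Y.NN_add) (Y.NN_zero c) h

omit [IsScalarTower ℂ K0 K] in
theorem NN_eb (c : Chart) (s : Finset YJ × Finset YJ) : Y.NN c (Y.eb c s) := by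
  classical
  intro t
  rw [eb_eq, map_smul, Finsupp.smul_apply, Module.Basis.repr_self, Finsupp.single_apply]
  split_ifs with h
  · subst h
    rw [smul_eq_mul, mul_one, mul_inv_cancel₀ (tau_ne_zero K0 _ _ _)]
    exact one_mem _
  · rw [smul_zero, mul_zero]
    exact zero_mem _

omit [IsScalarTower ℂ K0 K] in
theorem expand (c : Chart) (x : K) :
    x = ∑ s : Finset YJ × Finset YJ,
      (tau K0 c s.1.card s.2.card * Y.basis.repr x s) • Y.eb c s := by
  conv_lhs => rw [← Y.basis.sum_repr x]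
  refine Finset.sum_congr rfl fun s _ => ?_
  rw [eb_eq, smul_smul, mul_comm (tau K0 c _ _), mul_assoc, mul_inv_cancel₀ (tau_ne_zero K0 _ _ _),
    mul_one]

omit [IsScalarTower ℂ K0 K] in
theorem NN_mul_of {c : Chart} {g : K} (hg : ∀ s, Y.NN c (g * Y.eb c s)) {x : K} (hx : Y.NN c x) :
    Y.NN c (g * x) := by
  rw [Y.expand c x, Finset.mul_sum]
  refine Y.NN_sum _ _ fun s _ => ?_
  rw [mul_smul_comm]
  exact Y.NN_smul (hx s) (hg s)

theorem NN_ub (c : Chart) (i : YI) (s : Finset YJ × Finset YJ) :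
    Y.NN c (Y.u i / hu (lam K) c.1 * Y.eb c s) := by
  classical
  by_cases hi : i ≠ (0, true) ∧ i ≠ (0, false)
  · by_cases hs : (⟨i, hi⟩ : YJ) ∈ s.1
    · have : Y.eb c s = Y.u i / hu (lam K) c.1 * Y.eb c (s.1.erase ⟨i, hi⟩, s.2) := by
        simp only [eb]
        rw [← mul_assoc, ← Finset.mul_prod_erase s.1 _ hs]
      rw [this, ← mul_assoc]
      exact Y.NN_mul (Y.ub_sq_mem c i) (Y.NN_eb c _)
    · have : Y.u i / hu (lam K) c.1 * Y.eb c s = Y.eb c (insert ⟨i, hi⟩ s.1, s.2) := by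
        simp only [eb]
        rw [Finset.prod_insert hs, mul_assoc]
      rw [this]
      exact Y.NN_eb c _
  · have : ∃ b, i = (0, b) := by
      by_cases h1 : i = (0, true)
      · exact ⟨_, h1⟩
      · by_cases h2 : i = (0, false)
        · exact ⟨_, h2⟩
        · exact absurd ⟨h1, h2⟩ hi
    obtain ⟨b, rfl⟩ := this
    rw [Y.u_base]
    exact Y.NN_mul (hu_div_mem_l c b) (Y.NN_eb c _)

theorem NN_vb (c : Chart) (i : YI) (s : Finset YJ × Finset YJ) :
    Y.NN c (Y.v i / hu (mu K) c.2 * Y.eb c s) := by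
  classical
  by_cases hi : i ≠ (0, true) ∧ i ≠ (0, false)
  · by_cases hs : (⟨i, hi⟩ : YJ) ∈ s.2
    · have : Y.eb c s = Y.v i / hu (mu K) c.2 * Y.eb c (s.1, s.2.erase ⟨i, hi⟩) := by
        simp only [eb]
        rw [mul_left_comm, ← Finset.mul_prod_erase s.2 _ hs]
      rw [this, ← mul_assoc]
      exact Y.NN_mul (Y.vb_sq_mem c i) (Y.NN_eb c _)
    · have : Y.v i / hu (mu K) c.2 * Y.eb c s = Y.eb c (s.1, insert ⟨i, hi⟩ s.2) := by
        simp only [eb]
        rw [Finset.prod_insert hs, mul_left_comm]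
      rw [this]
      exact Y.NN_eb c _
  · have : ∃ b, i = (0, b) := by
      by_cases h1 : i = (0, true)
      · exact ⟨_, h1⟩
      · by_cases h2 : i = (0, false)
        · exact ⟨_, h2⟩
        · exact absurd ⟨h1, h2⟩ hi
    obtain ⟨b, rfl⟩ := this
    rw [Y.v_base]
    exact Y.NN_mul (hu_div_mem_r c b) (Y.NN_eb c _)

theorem NN_mul_R {c : Chart} {g : K} (hg : g ∈ Y.R c) : ∀ x, Y.NN c x → Y.NN c (g * x) := by
  induction hg using Algebra.adjoin_induction with
  | mem g hg =>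
    intro x hx
    rcases hg with ⟨i, rfl⟩ | ⟨i, rfl⟩
    · exact Y.NN_mul_of (Y.NN_ub c i) hx
    · exact Y.NN_mul_of (Y.NN_vb c i) hx
  | algebraMap r =>
    intro x hx
    exact Y.NN_mul (Subalgebra.algebraMap_mem _ r) hx
  | add g g' _ _ h h' =>
    intro x hx
    rw [add_mul]
    exact Y.NN_add (h x hx) (h' x hx)
  | mul g g' _ _ h h' =>
    intro x hx
    rw [mul_assoc]
    exact h _ (h' x hx)

omit [IsScalarTower ℂ K0 K] in
theorem P_le' (c : Chart) : PP K c ≤ Y.R c := by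
  rw [PP, Algebra.adjoin_le_iff]
  rintro x (rfl | rfl)
  · have h := (Y.ub c (0, !c.1)).2
    simp only [ub, Y.u_base] at h
    obtain ⟨c1, c2⟩ := c
    cases c1 <;> simpa [hu, co] using h
  · have h := (Y.vb c (0, !c.2)).2
    simp only [vb, Y.v_base] at h
    obtain ⟨c1, c2⟩ := c
    cases c2 <;> simpa [hu, co] using h

/-- `R c` is free over `PP c` on the squarefree monomials in `ub`, `vb` -/
theorem mem_R_iff (c : Chart) (x : K) : x ∈ Y.R c ↔
    ∀ s : Finset YJ × Finset YJ, tau K0 c s.1.card s.2.card * Y.basis.repr x s ∈ PP K0 c := by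
  constructor
  · intro hx
    have h1 : Y.NN c 1 := by
      have := Y.NN_eb c (∅, ∅)
      simpa [eb] using this
    have := Y.NN_mul_R hx 1 h1
    rwa [mul_one] at this
  · intro hx
    rw [Y.expand c x]
    refine sum_mem fun s _ => ?_
    rw [Algebra.smul_def]
    exact mul_mem (Y.P_le' c ((mem_PP_iff K c _).2 ⟨_, hx s, rfl⟩)) (Y.eb_mem c s)

theorem P_le (c : Chart) : PP K c ≤ Y.R c := Y.P_le' c

theorem fin (c : Chart) : ∃ s : Finset K, ∀ x, x ∈ Y.R c ↔ x ∈ Submodule.span (PP K c) (s : Set K) := by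
  classical
  obtain ⟨T, hT⟩ := exists_all
  refine ⟨T.image (Y.eb c), fun x => ⟨fun hx => ?_, fun hx => ?_⟩⟩
  · rw [Y.mem_R_iff] at hx
    rw [Y.expand c x]
    refine sum_mem fun s _ => ?_
    have h1 : Y.eb c s ∈ Submodule.span (PP K c) ((T.image (Y.eb c) : Finset K) : Set K) :=
      Submodule.subset_span (Finset.mem_coe.2 (Finset.mem_image_of_mem _ (hT s)))
    have h2 := Submodule.smul_mem _ (⟨_, (mem_PP_iff K c _).2 ⟨_, hx s, rfl⟩⟩ : PP K c) h1
    rw [Algebra.smul_def]
    exact h2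
  · induction hx using Submodule.span_induction with
    | mem y hy =>
      obtain ⟨s, -, rfl⟩ := Finset.mem_image.1 (Finset.mem_coe.1 hy)
      exact Y.eb_mem c s
    | zero => exact zero_mem _
    | add y z _ _ hy hz => exact add_mem hy hz
    | smul a y _ hy => exact mul_mem (Y.P_le c a.2) hy

theorem frac (c : Chart) (x : K) : ∃ f ∈ PP K c, f ≠ 0 ∧ f * x ∈ Y.R c := by
  classical
  obtain ⟨T, hT⟩ := exists_all
  obtain ⟨f, d, hf, h⟩ := K0_denom (T.image fun s : Finset YJ × Finset YJ =>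
    tau K0 c s.1.card s.2.card * Y.basis.repr x s)
  refine ⟨algebraMap K0 K ((tau K0 c d d)⁻¹ * f), (mem_PP_iff K c _).2 ⟨_, (h c).1, rfl⟩, ?_, ?_⟩
  · rw [map_ne_zero]
    exact mul_ne_zero (inv_ne_zero (tau_ne_zero K0 _ _ _)) hf
  · rw [Y.mem_R_iff]
    intro s
    rw [← Algebra.smul_def, map_smul, Finsupp.smul_apply, smul_eq_mul, mul_left_comm, mul_assoc]
    exact (h c).2 _ (Finset.mem_image_of_mem _ (hT s))

theorem compat (c c' : Chart) (x : K) (hx : x ∈ Y.R c) :
    ∃ n : ℕ, ((tau K c' n n)⁻¹ * tau K c n n) * x ∈ Y.R c' := by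
  rw [Y.mem_R_iff] at hx
  choose n hn using fun s => PP_compat K0 c c' (hx s)
  obtain ⟨T, hT⟩ := exists_all
  refine ⟨T.sup n + 22, ?_⟩
  rw [Y.mem_R_iff]
  intro s
  have h1 : s.1.card ≤ 22 := card_YJ ▸ s.1.card_le_univ
  have h2 : s.2.card ≤ 22 := card_YJ ▸ s.2.card_le_univ
  have h3 : n s ≤ T.sup n := Finset.le_sup (hT s)
  set N : ℕ := T.sup n + 22 with hN
  have h4 := tau_inv_mul_tau_mem K0 c' c (a := N - n s - s.1.card) (b := N - n s - s.2.card)
    (by omega) (by omega)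
  have h5 := mul_mem h4 (hn s)
  have e : ∀ d : Chart, tau K0 d N N = tau K0 d (N - n s - s.1.card) (N - n s - s.2.card) *
      tau K0 d (n s) (n s) * tau K0 d s.1.card s.2.card := by
    intro d
    rw [← tau_add, ← tau_add]
    congr 1 <;> ring
  rw [tau_map K, tau_map K, ← map_inv₀, ← map_mul, ← Algebra.smul_def, map_smul, Finsupp.smul_apply,
    smul_eq_mul, e c, e c']
  convert h5 using 1
  have := tau_ne_zero K0 c' s.1.card s.2.card
  field_simp

/-- the surface `C × C` -/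
def surf : Surf K where
  R := Y.R
  P_le := Y.P_le
  fin := Y.fin
  frac := Y.frac
  compat := Y.compat
  reg := Y.reg

include Y in
theorem finrank_eq : Module.finrank K0 K = 2 ^ 44 := by
  rw [Module.finrank_eq_card_basis Y.basis, Fintype.card_prod, Fintype.card_finset, card_YJ]
  norm_num

theorem mem_Gam_iff (a b : ℤ) (x : K) : x ∈ Gam K (OO Y.surf) a b ↔
    ∀ s : Finset YJ × Finset YJ,
      Y.basis.repr x s ∈ Gam K0 (OO S0) (a - s.1.card) (b - s.2.card) := by
  have e : ∀ (c : Chart) (s : Finset YJ × Finset YJ),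
      tau K0 c s.1.card s.2.card * Y.basis.repr ((tau K c a b)⁻¹ • x) s =
        (tau K0 c (a - s.1.card) (b - s.2.card))⁻¹ • Y.basis.repr x s := by
    intro c s
    have e : tau K0 c a b = tau K0 c (a - s.1.card) (b - s.2.card) * tau K0 c s.1.card s.2.card := by
      rw [← tau_add]
      congr 1 <;> ring
    rw [tau_map K, ← map_inv₀, algebraMap_smul, map_smul, Finsupp.smul_apply, smul_eq_mul,
      smul_eq_mul, e]
    have := tau_ne_zero K0 c s.1.card s.2.card
    field_simp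
  simp only [mem_Gam]
  constructor
  · intro h s c
    have h1 : (tau K c a b)⁻¹ • x ∈ Y.R c := h c
    rw [Y.mem_R_iff] at h1
    have h2 := h1 s
    rw [e] at h2
    exact h2
  · intro h c
    show (tau K c a b)⁻¹ • x ∈ Y.R c
    rw [Y.mem_R_iff]
    intro s
    rw [e]
    exact h s c

/-- coordinates of sections -/
def gamEquiv (a b : ℤ) : Gam K (OO Y.surf) a b ≃ₗ[ℂ]
    ((s : Finset YJ × Finset YJ) → Gam K0 (OO S0) (a - s.1.card) (b - s.2.card)) where
  toFun x s := ⟨Y.basis.repr x s, (Y.mem_Gam_iff a b x).1 x.2 s⟩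
  map_add' x y := by
    funext s
    apply Subtype.ext
    simp only [Submodule.coe_add, map_add, Finsupp.add_apply, Pi.add_apply]
  map_smul' r x := by
    funext s
    apply Subtype.ext
    simp only [Submodule.coe_smul, RingHom.id_apply, Pi.smul_apply]
    rw [← algebraMap_smul K0 r (x : K), map_smul, Finsupp.smul_apply, algebraMap_smul]
  invFun f := ⟨Y.basis.equivFun.symm fun s => f s, (Y.mem_Gam_iff a b _).2 fun s => by
    rw [← Module.Basis.equivFun_apply, LinearEquiv.apply_symm_apply]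
    exact (f s).2⟩
  left_inv x := by
    apply Subtype.ext
    exact Y.basis.equivFun.symm_apply_apply x
  right_inv f := by
    funext s
    apply Subtype.ext
    show Y.basis.repr _ s = _
    rw [← Module.Basis.equivFun_apply, LinearEquiv.apply_symm_apply]

theorem sum_card_aux {ι : Type} [Fintype ι] [DecidableEq ι] (a : ℤ) :
    2 * ∑ S : Finset ι, (a - S.card + 1) = 2 ^ Fintype.card ι * (2 * a + 2 - Fintype.card ι) := by
  have h1 : ∑ S : Finset ι, (a - S.card + 1) = ∑ S : Finset ι, (a - (Sᶜ).card + 1) :=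
    (Equiv.sum_comp (Function.Involutive.toPerm _ compl_involutive)
      (fun S : Finset ι => (a - S.card + 1))).symm
  rw [two_mul]
  nth_rewrite 2 [h1]
  rw [← Finset.sum_add_distrib]
  have h2 : ∀ S : Finset ι, a - S.card + 1 + (a - (Sᶜ).card + 1) = 2 * a + 2 - Fintype.card ι := by
    intro S
    have := Finset.card_add_card_compl S
    omega
  rw [Finset.sum_congr rfl fun S _ => h2 S, Finset.sum_const, Finset.card_univ, Fintype.card_finset,
    nsmul_eq_mul]
  push_cast
  ring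

theorem sum_prod_aux {ι : Type} [Fintype ι] [DecidableEq ι] (a b : ℤ) (ha : (Fintype.card ι : ℤ) ≤ a)
    (hb : (Fintype.card ι : ℤ) ≤ b) :
    4 * ((∑ s : Finset ι × Finset ι, (a - s.1.card + 1).toNat * (b - s.2.card + 1).toNat : ℕ) : ℤ) =
      2 ^ Fintype.card ι * (2 * a + 2 - Fintype.card ι) *
        (2 ^ Fintype.card ι * (2 * b + 2 - Fintype.card ι)) := by
  rw [← sum_card_aux, ← sum_card_aux]
  push_cast
  have h : ∀ s : Finset ι × Finset ι,
      (((a - s.1.card + 1).toNat : ℕ) : ℤ) * (((b - s.2.card + 1).toNat : ℕ) : ℤ) =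
        (a - s.1.card + 1) * (b - s.2.card + 1) := by
    intro s
    have h1 := s.1.card_le_univ
    have h2 := s.2.card_le_univ
    rw [Int.toNat_of_nonneg (by omega), Int.toNat_of_nonneg (by omega)]
  rw [Finset.sum_congr rfl fun s _ => h s, Fintype.sum_prod_type]
  dsimp only
  rw [← Finset.sum_mul_sum]
  ring

theorem finrank_pi_aux {ι : Type} [Fintype ι] (a b : ℤ) :
    Module.finrank ℂ ((s : Finset ι × Finset ι) → Gam K0 (OO S0) (a - s.1.card) (b - s.2.card)) =
      ∑ s : Finset ι × Finset ι, (a - s.1.card + 1).toNat * (b - s.2.card + 1).toNat := by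
  have := fun s : Finset ι × Finset ι => (finrank_Gam_S0 (a - s.1.card) (b - s.2.card)).1
  rw [Module.finrank_pi_fintype]
  exact Finset.sum_congr rfl fun s _ => (finrank_Gam_S0 _ _).2

/-- `Γ(O(a,b)) = ⊕ Γ(P¹ × P¹, O(a - |S|, b - |T|)) u_S v_T` and `∑_S (a - |S| + 1) = 2²² (a - 10)` -/
theorem HP_OO (a b : ℤ) : HP K (OO Y.surf) a b = 2 ^ 44 * ((a - 10) * (b - 10)) := by
  classical
  have h : IsHP K (OO Y.surf) (fun a b => 2 ^ 44 * ((a - 10) * (b - 10))) := by
    refine ⟨⟨2 ^ 44, -10 * 2 ^ 44, -10 * 2 ^ 44, 100 * 2 ^ 44, fun a b => by ring⟩, 22,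
      fun a b ha hb => ?_⟩
    have h1 := sum_prod_aux (ι := YJ) a b (by rw [card_YJ]; exact ha) (by rw [card_YJ]; exact hb)
    rw [← finrank_pi_aux, ← (Y.gamEquiv a b).finrank_eq, card_YJ] at h1
    push_cast at h1 ⊢
    linarith
  rw [h.HP_eq]

theorem prod_mul_prod_aux {ι M : Type} [DecidableEq ι] [CommMonoid M] (f : ι → M) (S T : Finset ι) :
    (∏ i ∈ S, f i) * ∏ i ∈ T, f i = (∏ i ∈ S ∩ T, f i ^ 2) * ∏ i ∈ symmDiff S T, f i := by
  have h1 : Disjoint (S \ T) (T \ S) := disjoint_sdiff_sdiff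
  rw [symmDiff_def, Finset.sup_eq_union, Finset.prod_union h1, ← Finset.prod_inter_mul_prod_sdiff S T f,
    ← Finset.prod_inter_mul_prod_sdiff T S f, Finset.inter_comm T S, Finset.prod_pow, sq]
  ac_rfl

theorem basis_mul (s t : Finset YJ × Finset YJ) :
    ∃ a : K0, Y.basis s * Y.basis t = a • Y.basis (symmDiff s.1 t.1, symmDiff s.2 t.2) := by
  have hu : ∀ i, ∃ a : K0, Y.u i ^ 2 = algebraMap K0 K a := fun i =>
    ⟨algebraMap ℂ K0 (Y.al i) * lam0 ^ 2 + algebraMap ℂ K0 (Y.be i), by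
      rw [Y.u_sq, map_add, map_mul, map_pow, ← IsScalarTower.algebraMap_apply,
        ← IsScalarTower.algebraMap_apply, lam]⟩
  have hv : ∀ i, ∃ a : K0, Y.v i ^ 2 = algebraMap K0 K a := fun i =>
    ⟨algebraMap ℂ K0 (Y.al i) * mu0 ^ 2 + algebraMap ℂ K0 (Y.be i), by
      rw [Y.v_sq, map_add, map_mul, map_pow, ← IsScalarTower.algebraMap_apply,
        ← IsScalarTower.algebraMap_apply, mu]⟩
  choose A hA using hu
  choose B hB using hv
  refine ⟨(∏ i ∈ s.1 ∩ t.1, A i.1) * ∏ i ∈ s.2 ∩ t.2, B i.1, ?_⟩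
  rw [Algebra.smul_def, Y.basis_eq, Y.basis_eq, Y.basis_eq, mul_mul_mul_comm, prod_mul_prod_aux,
    prod_mul_prod_aux, map_mul, map_prod, map_prod]
  simp only [hA, hB]
  ring

theorem coord_mul_basis (y : K) (s : Finset YJ × Finset YJ) :
    Y.basis.coord (Finset.univ, Finset.univ) (y * Y.basis (s.1ᶜ, s.2ᶜ)) = Y.basis.repr y s := by
  have h : (Y.basis.coord (Finset.univ, Finset.univ)).comp
      (LinearMap.mulRight K0 (Y.basis (s.1ᶜ, s.2ᶜ))) = Y.basis.coord s := by
    refine Y.basis.ext fun t => ?_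
    rw [LinearMap.comp_apply, LinearMap.mulRight_apply, Module.Basis.coord_apply,
      Module.Basis.coord_apply, Module.Basis.repr_self]
    by_cases hts : t = s
    · subst hts
      have : Y.basis t * Y.basis (t.1ᶜ, t.2ᶜ) = Y.basis (Finset.univ, Finset.univ) := by
        rw [Y.basis_eq, Y.basis_eq, Y.basis_eq, mul_mul_mul_comm, Finset.prod_mul_prod_compl,
          Finset.prod_mul_prod_compl]
      rw [this, Module.Basis.repr_self, Finsupp.single_eq_same, Finsupp.single_eq_same]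
    · obtain ⟨a, ha⟩ := Y.basis_mul t (s.1ᶜ, s.2ᶜ)
      rw [ha, map_smul, Finsupp.smul_apply, Module.Basis.repr_self, Finsupp.single_eq_of_ne',
        Finsupp.single_eq_of_ne' hts, smul_zero]
      intro h
      apply hts
      have h1 : symmDiff t.1 s.1ᶜ = ⊤ := congrArg Prod.fst h
      have h2 : symmDiff t.2 s.2ᶜ = ⊤ := congrArg Prod.snd h
      rw [symmDiff_eq_top] at h1 h2
      exact Prod.ext (by rw [h1.eq_compl, compl_compl]) (by rw [h2.eq_compl, compl_compl])
  exact LinearMap.congr_fun h y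

/-- the coefficient of the top monomial: `θ (u_S v_T u_S' v_T') = 0` unless `S' = Sᶜ`, `T' = Tᶜ`, and then it is `1` -/
theorem isDualizing :
    IsDualizing (Y.basis.coord (Finset.univ, Finset.univ)) (Ftw Y.surf 22 22) := by
  refine ⟨fun h => ?_, fun c y => ?_⟩
  · have := LinearMap.congr_fun h (Y.basis (Finset.univ, Finset.univ))
    rw [Module.Basis.coord_apply, Module.Basis.repr_self, Finsupp.single_eq_same,
      LinearMap.zero_apply] at this
    exact one_ne_zero this
  · show (tau K c 22 22)⁻¹ • y ∈ Y.R c ↔ ∀ r ∈ Y.R c, _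
    constructor
    · intro hy r hr
      have h1 := (Y.mem_R_iff c _).1 (mul_mem hy hr) (Finset.univ, Finset.univ)
      rw [Finset.card_univ, card_YJ, tau_map K, ← map_inv₀, algebraMap_smul, smul_mul_assoc, map_smul,
        Finsupp.smul_apply, smul_eq_mul, Nat.cast_ofNat, ← mul_assoc,
        mul_inv_cancel₀ (tau_ne_zero K0 _ _ _), one_mul] at h1
      exact h1
    · intro h
      rw [Y.mem_R_iff]
      intro s
      have h1 := h _ (Y.eb_mem c (s.1ᶜ, s.2ᶜ))
      rw [eb_eq, mul_smul_comm, map_smul, coord_mul_basis, smul_eq_mul] at h1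
      have h2 := Finset.card_add_card_compl s.1
      have h3 := Finset.card_add_card_compl s.2
      rw [card_YJ] at h2 h3
      have e : tau K0 c 22 22 = tau K0 c s.1.card s.2.card * tau K0 c (s.1ᶜ).card (s.2ᶜ).card := by
        rw [← tau_add]
        congr 1 <;> omega
      rw [tau_map K, ← map_inv₀, algebraMap_smul, map_smul, Finsupp.smul_apply, smul_eq_mul, e]
      convert h1 using 1
      have := tau_ne_zero K0 c s.1.card s.2.card
      field_simp

theorem kappa_eq : kappa (Ftw Y.surf 22 22 * Ftw Y.surf (-2) (-2)) = 0 := by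
  have h1 : chiP (1 : Pic Y.surf) = 2 ^ 44 * 100 := by
    rw [chiP, Pic.sh_one, chi, HP_OO]
    norm_num
  rw [← Ftw_add, kappa, BB_Ftw_Ftw, h1, Y.finrank_eq]
  norm_num

end YData

end

end Crest.Agent.R169
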