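import Crest.Agent.R169.Defs

/-! # The key statement about a graded domain finite over `ℂ[x,y,z]` -/

set_option autoImplicit false

namespace Crest.Agent.R169

/-- `T` is a graded domain, finite over `ℂ[x,y,z]`, that has no representation by matrices over `ℂ⟦x,y,z⟧` extending
the scalar action of `ℂ[x,y,z]`. -/
structure KeyRing (T : Type) [CommRing T] [Algebra ℂ T] (𝒜 : ℕ → Submodule ℂ T)
    (j : P3 →ₐ[ℂ] T) : Prop where
  dom : IsDomain T
  inj : Function.Injective j
  fin : j.toRingHom.Finite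
  deg_one : ∀ i, j (MvPolynomial.X i) ∈ 𝒜 1
  deg_zero : ∀ x ∈ 𝒜 0, ∃ c : ℂ, x = algebraMap ℂ T c
  no_rep : ∀ N : ℕ, 0 < N → ∀ ρ : T →+* Matrix (Fin N) (Fin N) A3,
    (∀ p : P3, ρ (j p) = Matrix.scalar (Fin N) (p : A3)) → False

end Crest.Agent.R169
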