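import Crest.Agent.R169.TDefs
import Crest.Agent.R169.GamA
import Crest.Agent.R169.ASide3

/-! # The section ring of a surface -/

set_option autoImplicit false

namespace Crest.Agent.R169

noncomputable section

open Polynomial

variable {K : Type} [Field K] [Algebra K0 K] [Algebra ℂ K] [IsScalarTower ℂ K0 K] (S : Surf K)

/-- `T = ⊕ Γ(O(n,n)) tⁿ ⊆ K[t]` -/
def TR : Subalgebra ℂ K[X] where
  carrier := {f | ∀ n : ℕ, f.coeff n ∈ Gam K (OO S) n n}
  mul_mem' := by
    intro f g hf hg n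
    rw [coeff_mul]
    refine Submodule.sum_mem _ fun z hz => ?_
    have h := (isSheaf_OO S).Gam_mul (hf z.1) (hg z.2)
    have e : (z.1 : ℤ) + z.2 = n := by exact_mod_cast Finset.HasAntidiagonal.mem_antidiagonal.1 hz
    rwa [e, smul_eq_mul] at h
  add_mem' := by
    intro f g hf hg n
    rw [coeff_add]
    exact Submodule.add_mem _ (hf n) (hg n)
  algebraMap_mem' := by
    intro c n
    rw [Polynomial.algebraMap_apply, coeff_C]
    split_ifs with h
    · subst h
      rw [mem_Gam]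
      intro ch
      have : (tau K ch ((0 : ℕ) : ℤ) ((0 : ℕ) : ℤ))⁻¹ • algebraMap ℂ K c = algebraMap ℂ K c := by
        simp [tau_zero]
      rw [this]
      exact (S.R ch).algebraMap_mem c
    · exact Submodule.zero_mem _

/-- the homogeneous parts -/
def TA (n : ℕ) : Submodule ℂ (TR S) where
  carrier := {f | ∀ m, m ≠ n → (f : K[X]).coeff m = 0}
  add_mem' := by
    intro f g hf hg m hm
    simp [hf m hm, hg m hm]
  zero_mem' := by
    intro m _
    simp
  smul_mem' := by
    intro c f hf m hm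
    simp [hf m hm]

/-- the homogeneous element `τ tⁿ` -/
def trMon (n : ℕ) : Gam K (OO S) n n →ₗ[ℂ] TR S where
  toFun τ := ⟨monomial n τ.1, fun m => by
    rw [coeff_monomial]
    split_ifs with h
    · subst h; exact τ.2
    · exact Submodule.zero_mem _⟩
  map_add' a b := Subtype.ext (by simp)
  map_smul' c a := Subtype.ext (smul_monomial c n a.1).symm

@[simp] theorem trMon_coe (n : ℕ) (τ : Gam K (OO S) n n) :
    (trMon S n τ : K[X]) = monomial n τ.1 := rfl

theorem trMon_mem (n : ℕ) (τ : Gam K (OO S) n n) : trMon S n τ ∈ TA S n := fun m hm => by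
  rw [trMon_coe, coeff_monomial, if_neg (Ne.symm hm)]

theorem tr_sum (f : TR S) :
    f = ∑ n ∈ (f : K[X]).support, trMon S n ⟨(f : K[X]).coeff n, f.2 n⟩ := by
  apply Subtype.ext
  rw [AddSubmonoidClass.coe_finsetSum]
  exact (f : K[X]).as_sum_support

theorem TR_graded : Nonempty (GradedAlgebra (TA S)) := by
  have hint : DirectSum.IsInternal (TA S) := by
    have hc : ∀ (x : DirectSum ℕ fun n => TA S n) (n : ℕ),
        ((DirectSum.coeAddMonoidHom (TA S) x : TR S) : K[X]).coeff n =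
          ((x n : TR S) : K[X]).coeff n := by
      intro x n
      induction x using DirectSum.induction_on with
      | zero => simp
      | of i y =>
        rw [DirectSum.coeAddMonoidHom_of]
        by_cases h : n = i
        · subst h; rw [DirectSum.of_eq_same]
        · rw [DirectSum.of_eq_of_ne _ _ _ h, y.2 n h]; simp
      | add y z hy hz => simp [hy, hz]
    constructor
    · intro x y hx
      ext n m
      by_cases h : m = n
      · subst h; rw [← hc, hx, hc]
      · rw [(x n).2 m h, (y n).2 m h]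
    · intro f
      refine ⟨∑ n ∈ (f : K[X]).support, DirectSum.of (fun n => TA S n) n
        ⟨trMon S n ⟨(f : K[X]).coeff n, f.2 n⟩, trMon_mem S n _⟩, ?_⟩
      rw [map_sum]
      simp only [DirectSum.coeAddMonoidHom_of]
      exact (tr_sum S f).symm
  exact ⟨{ hint.chooseDecomposition with
    one_mem := fun m hm => by simp [coeff_one, hm]
    mul_mem := fun i j f g hf hg m hm => by
      rw [MulMemClass.coe_mul, coeff_mul]
      refine Finset.sum_eq_zero fun z hz => ?_
      have e := Finset.HasAntidiagonal.mem_antidiagonal.1 hz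
      by_cases h : z.1 = i
      · rw [hg z.2 (by omega), mul_zero]
      · rw [hf z.1 h, zero_mul] }⟩

theorem tr_extend {T L K M F : Type} [CommRing T] [IsDomain T] [Field L] [Field K] [Field F]
    [Ring M] [Algebra F M] (f : T →+* L) (hf : Function.Injective f) (i : K →+* L)
    (hi : ∀ x, ∃ a b : T, b ≠ 0 ∧ i x * f b = f a) (ρ : T →+* M)
    (hρ : ∀ t ≠ 0, ∃ σ, ∃ c : F, c ≠ 0 ∧ ρ (t * σ) = algebraMap F M c) :
    ∃ κ : K →+* M, ∀ x a b, i x * f b = f a → κ x * ρ b = ρ a := by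
  let B := Algebra.adjoin F (Set.range ρ)
  haveI : IsMulCommutative B := Algebra.isMulCommutative_adjoin F (by
    rintro _ ⟨a, rfl⟩ _ ⟨b, rfl⟩
    rw [← map_mul, ← map_mul, mul_comm])
  letI : CommRing B := { (inferInstance : Ring B) with mul_comm := fun a b => mul_comm' a b }
  let ρ' : T →+* B := ρ.codRestrict B fun t => Algebra.subset_adjoin ⟨t, rfl⟩
  have hu : ∀ y : nonZeroDivisors T, IsUnit (ρ' y) := by
    intro y
    obtain ⟨σ, c, hc, e⟩ := hρ y (nonZeroDivisors.ne_zero y.2)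
    have : ρ' y * ρ' σ = algebraMap F B c := by
      rw [← map_mul]; exact Subtype.ext e
    exact isUnit_of_mul_isUnit_left (this ▸ (IsUnit.mk0 c hc).map (algebraMap F B))
  let Φ : FractionRing T →+* B := IsLocalization.lift hu
  let ι : FractionRing T →+* L := IsFractionRing.lift hf
  have hr : ∀ x, i x ∈ ι.range := by
    intro x
    obtain ⟨a, b, hb, e⟩ := hi x
    refine ⟨algebraMap T _ a / algebraMap T _ b, ?_⟩
    rw [map_div₀, IsFractionRing.lift_algebraMap, IsFractionRing.lift_algebraMap, ← e,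
      mul_div_cancel_right₀ _ ((map_ne_zero_iff f hf).2 hb)]
  let e : FractionRing T ≃+* ι.range := RingEquiv.ofBijective ι.rangeRestrict
    ⟨fun a b h => ι.injective (congrArg Subtype.val h), ι.rangeRestrict_surjective⟩
  let k : K →+* FractionRing T := e.symm.toRingHom.comp (i.codRestrict _ hr)
  have hk : ∀ x, ι (k x) = i x := fun x =>
    congrArg Subtype.val (e.apply_symm_apply ⟨i x, hr x⟩)
  refine ⟨B.val.toRingHom.comp (Φ.comp k), fun x a b h => ?_⟩
  have h1 : k x * algebraMap T _ b = algebraMap T _ a := by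
    apply ι.injective
    rw [map_mul, hk, IsFractionRing.lift_algebraMap, IsFractionRing.lift_algebraMap, h]
  have h2 := congrArg Φ h1
  rw [map_mul, IsLocalization.lift_eq, IsLocalization.lift_eq] at h2
  exact congrArg Subtype.val h2

theorem tr_mono_mem {i j n : ℕ} (hi : i ≤ n) (hj : j ≤ n) :
    lam K ^ i * mu K ^ j ∈ Gam K (OO S) n n := mem_Gam.2 fun c =>
  S.P_le c (tau_inv_mul_mem K c (by exact_mod_cast hi) (by exact_mod_cast hj))

theorem tr_x_mem : lam K * mu K ∈ Gam K (OO S) (1 : ℕ) (1 : ℕ) := by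
  simpa using tr_mono_mem S (i := 1) (j := 1) (n := 1) le_rfl le_rfl

theorem tr_y_mem : lam K + mu K ∈ Gam K (OO S) (1 : ℕ) (1 : ℕ) :=
  Submodule.add_mem _ (by simpa using tr_mono_mem S (i := 1) (j := 0) (n := 1) le_rfl zero_le_one)
    (by simpa using tr_mono_mem S (i := 0) (j := 1) (n := 1) zero_le_one le_rfl)

theorem tr_one_mem (n : ℕ) : (1 : K) ∈ Gam K (OO S) n n := by
  simpa using tr_mono_mem S (i := 0) (j := 0) (n := n) n.zero_le n.zero_le

/-- the structure map -/
def trJ : P3 →ₐ[ℂ] TR S :=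
  MvPolynomial.aeval ![trMon S 1 ⟨_, tr_x_mem S⟩, trMon S 1 ⟨_, tr_y_mem S⟩,
    trMon S 1 ⟨_, tr_one_mem S 1⟩]

theorem trJ_0 : (trJ S (MvPolynomial.X 0) : K[X]) = monomial 1 (lam K * mu K) := by
  rw [trJ, MvPolynomial.aeval_X]; rfl
theorem trJ_1 : (trJ S (MvPolynomial.X 1) : K[X]) = monomial 1 (lam K + mu K) := by
  rw [trJ, MvPolynomial.aeval_X]; rfl
theorem trJ_2 : (trJ S (MvPolynomial.X 2) : K[X]) = X := by
  rw [trJ, MvPolynomial.aeval_X]; rfl

theorem trJ_injective : Function.Injective (trJ S) := by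
  refine (injective_iff_map_eq_zero _).2 fun p hp => ?_
  let ψ : P3 →ₐ[ℂ] (MvPolynomial (Fin 2) ℂ)[X] :=
    MvPolynomial.aeval ![C (MvPolynomial.X 0) * X, C (MvPolynomial.X 1) * X, X]
  let g : MvPolynomial (Fin 2) ℂ →ₐ[ℂ] K := MvPolynomial.aeval ![lam K * mu K, lam K + mu K]
  have h1 : (Polynomial.mapAlgHom g).comp ψ = (TR S).val.comp (trJ S) := by
    refine MvPolynomial.algHom_ext fun i => ?_
    fin_cases i
    · simp [ψ, g, trJ_0, ← C_mul_X_eq_monomial]
    · simp [ψ, g, trJ_1, ← C_mul_X_eq_monomial]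
    · simp [ψ, g, trJ_2]
  have h2 : ψ p = 0 := by
    apply Polynomial.map_injective g.toRingHom (algIndep_sym K)
    have := AlgHom.congr_fun h1 p
    simp only [AlgHom.comp_apply, hp, map_zero] at this
    rw [Polynomial.map_zero]
    exact this
  have h3 : p * MvPolynomial.X 2 = 0 := by
    refine MvPolynomial.funext fun x => ?_
    rw [map_mul, MvPolynomial.eval_X, map_zero]
    by_cases hx : x 2 = 0
    · rw [hx, mul_zero]
    let ev : (MvPolynomial (Fin 2) ℂ)[X] →ₐ[ℂ] ℂ :=
      Polynomial.eval₂AlgHom (MvPolynomial.aeval ![x 0 / x 2, x 1 / x 2]) (x 2)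
        fun _ => Commute.all _ _
    have h4 : ev.comp ψ = MvPolynomial.aeval x := by
      refine MvPolynomial.algHom_ext fun i => ?_
      fin_cases i <;> simp [ψ, ev, hx]
    have := AlgHom.congr_fun h4 p
    simp only [AlgHom.comp_apply, h2, map_zero] at this
    rw [show MvPolynomial.eval x p = 0 from this.symm, zero_mul]
  exact (mul_eq_zero.1 h3).resolve_right (MvPolynomial.X_ne_zero _)

theorem tr_gen : ∃ n0 : ℕ, ∀ n : ℕ, n0 ≤ n → ∀ v ∈ Gam K (OO S) (n + 1 : ℕ) (n + 1 : ℕ),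
    ∃ v0 ∈ Gam K (OO S) n n, ∃ v1 ∈ Gam K (OO S) n n, ∃ v2 ∈ Gam K (OO S) n n,
      v = v0 + lam K * mu K * v1 + (lam K + mu K) * v2 := by
  have hO := isSheaf_OO S
  obtain ⟨a0, g1, g2⟩ := hO.Gam_gen
  refine ⟨a0.toNat + 1, fun n hn v hv => ?_⟩
  have hn' : a0 ≤ (n : ℤ) - 1 := by omega
  push_cast at hv
  obtain ⟨v0, h0, v1, h1, rfl⟩ := g1 n (n + 1) (by omega) v hv
  obtain ⟨w0, k0, w1, k1, rfl⟩ := g2 n n (by omega) v0 h0
  obtain ⟨w2, k2, w3, k3, rfl⟩ := g2 n n (by omega) v1 h1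
  obtain ⟨u0, l0, u1, l1, e⟩ := g1 (n - 1) n hn' (w2 - w1)
    (by rw [sub_add_cancel]; exact Submodule.sub_mem _ k2 k1)
  have m0 := (hO.famClosed _ _ _ l0).2.1
  have m1 := (hO.famClosed _ _ _ l1).2.1
  have m2 := (hO.famClosed _ _ _ l1).1
  rw [sub_add_cancel] at m0 m1 m2
  refine ⟨w0 + lam K • u0, Submodule.add_mem _ k0 m0, w3 - u1, Submodule.sub_mem _ k3 m2,
    w1 + lam K • u1, Submodule.add_mem _ k1 m1, ?_⟩
  simp only [smul_eq_mul] at e ⊢
  linear_combination (lam K) * e

theorem trJ_finite : (trJ S).toRingHom.Finite := by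
  letI : Algebra P3 (TR S) := (trJ S).toRingHom.toAlgebra
  haveI : IsScalarTower ℂ P3 (TR S) := IsScalarTower.of_algHom (trJ S)
  obtain ⟨n0, hg⟩ := tr_gen S
  have hF : (⨆ n ∈ Finset.range (n0 + 1), LinearMap.range (trMon S n)).FG := by
    refine Submodule.fg_biSup _ _ fun n _ => ?_
    haveI := (isSheaf_OO S).Gam_finite n n
    rw [LinearMap.range_eq_map]
    exact Module.Finite.fg_top.map _
  obtain ⟨s, hs⟩ := hF
  refine ⟨⟨s, eq_top_iff.2 fun f _ => ?_⟩⟩
  have key : ∀ (n : ℕ) (τ : Gam K (OO S) n n), trMon S n τ ∈ Submodule.span P3 (s : Set (TR S)) := by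
    have small : ∀ n : ℕ, n ≤ n0 → ∀ τ : Gam K (OO S) n n,
        trMon S n τ ∈ Submodule.span P3 (s : Set (TR S)) := by
      intro n hn τ
      apply Submodule.span_le_restrictScalars ℂ P3
      rw [hs]
      exact Submodule.mem_iSup_of_mem n (Submodule.mem_iSup_of_mem
        (Finset.mem_range.2 (by omega)) ⟨τ, rfl⟩)
    intro n
    induction n with
    | zero => exact small 0 n0.zero_le
    | succ n ih =>
      by_cases hn : n + 1 ≤ n0
      · exact small _ hn
      intro τ
      obtain ⟨v0, h0, v1, h1, v2, h2, e⟩ := hg n (by omega) τ.1 τ.2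
      have : trMon S (n + 1) τ = (MvPolynomial.X 2 : P3) • trMon S n ⟨v0, h0⟩ +
          (MvPolynomial.X 0 : P3) • trMon S n ⟨v1, h1⟩ +
          (MvPolynomial.X 1 : P3) • trMon S n ⟨v2, h2⟩ := by
        apply Subtype.ext
        change _ = (trJ S (MvPolynomial.X 2) : K[X]) * monomial n v0 +
          (trJ S (MvPolynomial.X 0) : K[X]) * monomial n v1 +
          (trJ S (MvPolynomial.X 1) : K[X]) * monomial n v2
        rw [trJ_0, trJ_1, trJ_2, X_mul_monomial, monomial_mul_monomial, monomial_mul_monomial,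
          trMon_coe, e, add_comm 1 n, map_add, map_add]
      rw [this]
      exact Submodule.add_mem _ (Submodule.add_mem _ (Submodule.smul_mem _ _ (ih _))
        (Submodule.smul_mem _ _ (ih _))) (Submodule.smul_mem _ _ (ih _))
  rw [tr_sum S f]
  exact Submodule.sum_mem _ fun n _ => key n _

theorem tr_deg_zero {τ : K} (hτ : τ ∈ Gam K (OO S) 0 0) : ∃ c : ℂ, τ = algebraMap ℂ K c := by
  let B : Subalgebra ℂ K := (Gam K (OO S) 0 0).toSubalgebra (tr_one_mem S 0) fun x y hx hy => by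
    simpa using (isSheaf_OO S).Gam_mul hx hy
  haveI := (isSheaf_OO S).Gam_finite 0 0
  have hi : IsIntegral ℂ τ := IsIntegral.of_mem_of_fg B
    (Module.Finite.iff_fg.1 (show Module.Finite ℂ (Gam K (OO S) 0 0) from inferInstance)) τ hτ
  obtain ⟨c, hc⟩ := minpoly.mem_range_of_degree_eq_one ℂ τ
    (IsAlgClosed.degree_eq_one_of_irreducible ℂ (minpoly.irreducible hi))
  exact ⟨c, hc.symm⟩

theorem tr_mem_large {τ : K} (hτ : τ ∈ S.R (false, false)) :
    ∃ n0 : ℕ, ∀ n : ℕ, n0 ≤ n → τ ∈ Gam K (OO S) n n := by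
  obtain ⟨n0, h⟩ := (isSheaf_OO S).tau_smul_mem_Gam (false, false) hτ
  refine ⟨n0, fun n hn => ?_⟩
  have := h n n (by exact_mod_cast hn) (by exact_mod_cast hn)
  rwa [tau_ff, one_smul] at this

theorem tr_hgen : ∃ (s : Finset K) (n : ℕ), (∀ τ ∈ s, τ ∈ Gam K (OO S) n n) ∧
    Submodule.span (IntermediateField.adjoin ℂ {lam K * mu K, lam K + mu K}) (s : Set K) = ⊤ := by
  classical
  obtain ⟨s0, hs0⟩ := S.fin (false, false)
  have hl : lam K ∈ S.R (false, false) :=
    S.P_le _ (Algebra.subset_adjoin (by simp [co]))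
  have hmem : ∀ τ ∈ s0 ∪ s0.image (lam K * ·), τ ∈ S.R (false, false) := by
    intro τ hτ
    rcases Finset.mem_union.1 hτ with h | h
    · exact (hs0 τ).2 (Submodule.subset_span h)
    · obtain ⟨σ, hσ, rfl⟩ := Finset.mem_image.1 h
      exact (S.R _).mul_mem hl ((hs0 σ).2 (Submodule.subset_span hσ))
  choose! n hn using fun τ hτ => tr_mem_large S (hmem τ hτ)
  refine ⟨s0 ∪ s0.image (lam K * ·), (s0 ∪ s0.image (lam K * ·)).sup n,
    fun τ hτ => hn τ hτ _ (Finset.le_sup hτ), eq_top_iff.2 fun x _ => ?_⟩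
  have key : ∀ r ∈ Submodule.span (PP K (false, false)) (s0 : Set K), ∀ y : K0,
      algebraMap K0 K y * r ∈ Submodule.span
        (IntermediateField.adjoin ℂ {lam K * mu K, lam K + mu K})
        ((s0 ∪ s0.image (lam K * ·) : Finset K) : Set K) := by
    intro r hr
    induction hr using Submodule.span_induction with
    | mem r hr =>
      intro y
      obtain ⟨a, ha, b, hb, e⟩ := exists_sym_coords K y
      rw [e, add_mul, mul_assoc]
      refine Submodule.add_mem _ (Submodule.smul_mem _ (⟨a, ha⟩ : IntermediateField.adjoin ℂ _)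
        (Submodule.subset_span ?_)) (Submodule.smul_mem _ (⟨b, hb⟩ : IntermediateField.adjoin ℂ _)
        (Submodule.subset_span ?_))
      · exact Finset.mem_coe.2 (Finset.mem_union_left _ hr)
      · exact Finset.mem_coe.2 (Finset.mem_union_right _ (Finset.mem_image_of_mem _ hr))
    | zero => intro y; rw [mul_zero]; exact Submodule.zero_mem _
    | add r r' _ _ h h' => intro y; rw [mul_add]; exact Submodule.add_mem _ (h y) (h' y)
    | smul a r _ h =>
      intro y
      obtain ⟨y', -, e⟩ := (mem_PP_iff K _ _).1 a.2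
      rw [Subalgebra.smul_def, smul_eq_mul, e, ← mul_assoc, ← map_mul]
      exact h _
  obtain ⟨f, hf, hf0, hfx⟩ := S.frac (false, false) x
  obtain ⟨y, -, rfl⟩ := (mem_PP_iff K _ _).1 hf
  have := key _ ((hs0 _).1 hfx) y⁻¹
  rwa [map_inv₀, inv_mul_cancel_left₀ hf0] at this

theorem tr_no_rep {κ : ℚ} (hκ : (Module.finrank K0 K : ℚ) / 2 < κ)
    (main : RMainProp K (lam K * mu K) (lam K + mu K) (fun n => Gam K (OO S) n n)
      (Module.finrank K0 K) κ) (N : ℕ) (hN : 0 < N) (ρ : TR S →+* Matrix (Fin N) (Fin N) A3)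
    (hρ : ∀ p : P3, ρ (trJ S p) = Matrix.scalar (Fin N) (p : A3)) : False := by
  let ρ' : TR S →+* Matrix (Fin N) (Fin N) F3 := (algebraMap A3 F3).mapMatrix.comp ρ
  have hρ' : ∀ p : P3, ρ' (trJ S p) = algebraMap F3 _ (algebraMap A3 F3 (p : A3)) := by
    intro p
    simp only [ρ', RingHom.comp_apply, hρ]
    ext i j
    by_cases h : i = j <;> simp [Matrix.algebraMap_matrix_apply, Matrix.diagonal_apply, h]
  let L := FractionRing K[X]
  let f : TR S →+* L := (algebraMap K[X] L).comp (TR S).val.toRingHom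
  have hf : Function.Injective f := (IsFractionRing.injective K[X] L).comp Subtype.val_injective
  let i : K →+* L := (algebraMap K[X] L).comp C
  obtain ⟨k, hk⟩ := tr_extend (F := F3) f hf i (fun x => by
    obtain ⟨g, hg, hg0, hgx⟩ := S.frac (false, false) x
    obtain ⟨n1, h1⟩ := tr_mem_large S (S.P_le _ hg)
    obtain ⟨n2, h2⟩ := tr_mem_large S hgx
    refine ⟨trMon S (n1 + n2) ⟨_, h2 _ (by omega)⟩, trMon S (n1 + n2) ⟨_, h1 _ (by omega)⟩,
      fun h => hg0 ?_, ?_⟩
    · exact (monomial_eq_zero_iff g _).1 (congrArg Subtype.val h)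
    · change algebraMap K[X] L (C x) * algebraMap K[X] L (monomial _ g) =
        algebraMap K[X] L (monomial _ (g * x))
      rw [← map_mul, C_mul_monomial, mul_comm]) ρ' (fun t ht => by
    letI : Algebra P3 (TR S) := (trJ S).toRingHom.toAlgebra
    haveI : Module.Finite P3 (TR S) := trJ_finite S
    obtain ⟨p, hp, σ, e⟩ := (IsIntegral.of_finite P3 t).isAlgebraic.exists_nonzero_dvd
      (mem_nonZeroDivisors_of_ne_zero ht)
    refine ⟨σ, algebraMap A3 F3 (p : A3), ?_, by rw [← e]; exact hρ' p⟩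
    rw [map_ne_zero_iff _ (IsFractionRing.injective A3 F3)]
    exact fun h => hp (MvPolynomial.coe_eq_zero_iff.1 h))
  have hz : xv 2 ≠ 0 := by
    rw [xv, map_ne_zero_iff _ (IsFractionRing.injective A3 F3), ← MvPolynomial.coe_X]
    exact fun h => MvPolynomial.X_ne_zero _ (MvPolynomial.coe_eq_zero_iff.1 h)
  have hX : ∀ a, ρ' (trJ S (MvPolynomial.X a)) = algebraMap F3 _ (xv a) := fun a => by
    rw [hρ', MvPolynomial.coe_X, xv]
  have hkm : ∀ (n : ℕ) (τ : Gam K (OO S) n n), xv 2 ^ n • k τ.1 = ρ' (trMon S n τ) := by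
    intro n τ
    rw [← hk τ.1 (trMon S n τ) (trJ S (MvPolynomial.X 2) ^ n), map_pow, hX, ← map_pow,
      ← Algebra.commutes, Algebra.smul_def]
    change algebraMap K[X] L (C τ.1) *
      algebraMap K[X] L ((trJ S (MvPolynomial.X 2) ^ n : TR S) : K[X]) =
        algebraMap K[X] L (monomial _ τ.1)
    rw [← map_mul, SubmonoidClass.coe_pow, trJ_2, C_mul_X_pow_eq_monomial]
  letI : Module K (Fin N → F3) :=
    Module.compHom _ ((Matrix.toLinAlgEquiv' (R := F3) (n := Fin N)).toRingEquiv.toRingHom.comp k)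
  have hs : ∀ (τ : K) (u : Fin N → F3), τ • u = (k τ).mulVec u := fun _ _ => rfl
  have hsc : ∀ (c : F3) (u : Fin N → F3),
      (algebraMap F3 (Matrix (Fin N) (Fin N) F3) c).mulVec u = c • u := by
    intro c u
    rw [Algebra.algebraMap_eq_smul_one, Matrix.smul_mulVec, Matrix.one_mulVec]
  have h1 : ∀ (τ : Gam K (OO S) (1 : ℕ) (1 : ℕ)) (a : Fin 3),
      trMon S 1 τ = trJ S (MvPolynomial.X a) → ∀ u : Fin N → F3, τ.1 • u = (xv a / xv 2) • u := by
    intro τ a e u
    have := hkm 1 τ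
    rw [e, hX, pow_one] at this
    rw [hs, ← inv_smul_smul₀ hz (k τ.1), this, Matrix.smul_mulVec, hsc, smul_smul, div_eq_inv_mul]
  haveI : IsScalarTower ℂ K (Fin N → F3) := IsScalarTower.of_algebraMap_smul fun c u => by
    have hc : algebraMap ℂ K c ∈ Gam K (OO S) (0 : ℕ) (0 : ℕ) := by
      rw [Algebra.algebraMap_eq_smul_one]
      exact Submodule.smul_mem _ _ (tr_one_mem S 0)
    have := hkm 0 ⟨_, hc⟩
    rw [pow_zero, one_smul, show trMon S 0 ⟨_, hc⟩ = trJ S (MvPolynomial.C c) from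
      Subtype.ext (by rw [trMon_coe]; simp), hρ', MvPolynomial.coe_C] at this
    rw [hs, this, hsc]
    change algebraMap A3 F3 (algebraMap ℂ A3 c) • u = _
    rw [← IsScalarTower.algebraMap_apply, algebraMap_smul]
  haveI := S.finiteDimensional
  refine AData.false (N := N) (K := K) ⟨fun τ c u => ?_, h1 ⟨_, tr_x_mem S⟩ 0 (by simp [trJ]),
    h1 ⟨_, tr_y_mem S⟩ 1 (by simp [trJ]), fun n τ hτ u hu a => ?_, tr_hgen S⟩ hN
    Module.finrank_pos hκ main
  · rw [hs, hs, Matrix.mulVec_smul]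
  · choose b hb using hu
    simp only [pow_zero, one_mul] at hb
    refine ⟨∑ j, ρ (trMon S n ⟨τ, hτ⟩) a j * b j, ?_⟩
    have : xv 2 ^ n * (τ • u) a = (ρ' (trMon S n ⟨τ, hτ⟩)).mulVec u a := by
      rw [← hkm, Matrix.smul_mulVec, hs]; rfl
    rw [this, map_sum]
    simp only [Matrix.mulVec, dotProduct, hb, map_mul]
    rfl

/-- `j` sends `x, y, z` to `λ μ t`, `(λ + μ) t`, `t`.  Injective by `algIndep_sym`; finite by `Gam_gen` and `Gam_finite`
(`Γ(n+1,n+1) = λμ Γ(n,n) + (λ+μ) Γ(n,n) + Γ(n,n)` for large `n`, using `λ² = (λ+μ) λ - λ μ`); `Γ(0,0)` is a finite-dimensional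
`ℂ`-subalgebra of a field.  For `no_rep`: let `𝔅` be the commutative `F3`-subalgebra of matrices generated by the image of `ρ`; the map
`τ ↦ z^(-n) ρ(τ tⁿ)` (`τ ∈ Γ(n,n)`) is a ring homomorphism `R (ff,ff) → 𝔅` sending nonzero elements to units (a nonzero
`τ ∈ R (ff,ff)` is integral over `ℂ[λμ, λ+μ]`, so divides a nonzero `h(λμ, λ+μ)`, which acts as a nonzero scalar), so it extends to
`K = Frac (R (ff,ff))`.  This makes `Fin N → F3` a `K`-module (`Module.compHom`) with `AData` (`hgen`: `S.fin`, `S.frac`,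
`exists_sym_coords`, `tau_smul_mem_Gam`), and `AData.false` applies. -/
theorem exists_keyRing_of_main {κ : ℚ} (hκ : (Module.finrank K0 K : ℚ) / 2 < κ)
    (main : RMainProp K (lam K * mu K) (lam K + mu K) (fun n => Gam K (OO S) n n)
      (Module.finrank K0 K) κ) :
    ∃ j : P3 →ₐ[ℂ] TR S, KeyRing (TR S) (TA S) j := by
  refine ⟨trJ S, inferInstance, trJ_injective S, trJ_finite S, fun i => ?_, fun x hx => ?_,
    tr_no_rep S hκ main⟩
  · rw [trJ, MvPolynomial.aeval_X]
    fin_cases i <;> exact trMon_mem S 1 _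
  · obtain ⟨c, hc⟩ := tr_deg_zero S (x.2 0)
    refine ⟨c, Subtype.ext (Polynomial.ext fun m => ?_)⟩
    change _ = (algebraMap ℂ K[X] c).coeff m
    rw [Polynomial.algebraMap_apply, coeff_C]
    split_ifs with h
    · rw [h, hc]
    · exact hx m h

end

end Crest.Agent.R169
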