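import Crest.Agent.R169.Ops2

/-! # Tensor products and local freeness -/

set_option autoImplicit false
set_option linter.unusedSectionVars false
set_option linter.unusedVariables false

namespace Crest.Agent.R169

noncomputable section

open TensorProduct

variable {K : Type} [Field K] [Algebra K0 K] [Algebra ℂ K] [IsScalarTower ℂ K0 K] {S : Surf K}
variable {V : Type} [AddCommGroup V] [Module K V] [Module ℂ V] [IsScalarTower ℂ K V]
variable {W : Type} [AddCommGroup W] [Module K W] [Module ℂ W] [IsScalarTower ℂ K W]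
variable {U : Type} [AddCommGroup U] [Module K U] [Module ℂ U] [IsScalarTower ℂ K U]

theorem tens_mem (β : V →ₗ[K] W →ₗ[K] U) {M : Pre V} {N : Pre W} {c : Chart} {x : V} {y : W}
    (hx : x ∈ M c) (hy : y ∈ N c) : β x y ∈ tens β M N c :=
  Submodule.subset_span ⟨x, hx, y, hy, rfl⟩

theorem tens_le {β : V →ₗ[K] W →ₗ[K] U} {M : Pre V} {N : Pre W} {c : Chart} {P : Submodule ℂ U}
    (h : ∀ x ∈ M c, ∀ y ∈ N c, β x y ∈ P) : tens β M N c ≤ P := by
  refine Submodule.span_le.2 ?_
  rintro _ ⟨x, hx, y, hy, rfl⟩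
  exact h x hx y hy

theorem tens_map_mem {U' : Type} [AddCommGroup U'] [Module K U'] [Module ℂ U']
    [IsScalarTower ℂ K U'] {β : V →ₗ[K] W →ₗ[K] U} {M : Pre V} {N : Pre W} {c : Chart}
    (φ : U →ₗ[K] U') {P : Submodule ℂ U'} (h : ∀ x ∈ M c, ∀ y ∈ N c, φ (β x y) ∈ P) {u : U}
    (hu : u ∈ tens β M N c) : φ u ∈ P :=
  tens_le (P := P.comap (φ.restrictScalars ℂ)) h hu

theorem tens_smul_mem_left (β : V →ₗ[K] W →ₗ[K] U) {M : Pre V} (N : Pre W) {c : Chart} {r : K}
    (h : ∀ x ∈ M c, r • x ∈ M c) {u : U} (hu : u ∈ tens β M N c) : r • u ∈ tens β M N c :=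
  tens_map_mem (LinearMap.lsmul K U r) (fun x hx y hy => by
    simpa using tens_mem β (h x hx) hy) hu

theorem tens_smul_mem_right (β : V →ₗ[K] W →ₗ[K] U) (M : Pre V) {N : Pre W} {c : Chart} {r : K}
    (h : ∀ y ∈ N c, r • y ∈ N c) {u : U} (hu : u ∈ tens β M N c) : r • u ∈ tens β M N c :=
  tens_map_mem (LinearMap.lsmul K U r) (fun x hx y hy => by
    simpa using tens_mem β hx (h y hy)) hu

theorem tens_mem_OO {c : Chart} {x : K} : x ∈ OO S c ↔ x ∈ S.R c := Iff.rfl

theorem tens_mono (β : V →ₗ[K] W →ₗ[K] U) {M M' : Pre V} {N N' : Pre W} (h : ∀ c, M c ≤ M' c)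
    (h' : ∀ c, N c ≤ N' c) (c : Chart) : tens β M N c ≤ tens β M' N' c := by
  exact tens_le fun x hx y hy => tens_mem β (h c hx) (h' c hy)

theorem tens_lsmul_OO {H : Pre V} (hH : IsSheaf S H) : tens (LinearMap.lsmul K V) (OO S) H = H := by
  funext c
  refine le_antisymm (tens_le fun x hx y hy => hH.smul_mem c hx hy) fun v hv => ?_
  simpa using tens_mem (LinearMap.lsmul K V) (M := OO S) (S.R c).one_mem hv

theorem tens_lsmul_comm (L L' : Pre K) :
    tens (LinearMap.lsmul K K) L L' = tens (LinearMap.lsmul K K) L' L := by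
  have key : ∀ (L L' : Pre K) c,
      tens (LinearMap.lsmul K K) L L' c ≤ tens (LinearMap.lsmul K K) L' L c :=
    fun L L' c => tens_le fun x hx y hy => by
      simpa [mul_comm] using tens_mem (LinearMap.lsmul K K) hy hx
  funext c
  exact le_antisymm (key _ _ _) (key _ _ _)

theorem tens_lsmul_assoc (L L' : Pre K) (H : Pre V) :
    tens (LinearMap.lsmul K V) (tens (LinearMap.lsmul K K) L L') H =
      tens (LinearMap.lsmul K V) L (tens (LinearMap.lsmul K V) L' H) := by
  funext c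
  refine le_antisymm (tens_le fun z hz v hv => ?_) (tens_le fun x hx w hw => ?_)
  · refine tens_map_mem ((LinearMap.lsmul K V).flip v) (fun x hx y hy => ?_) hz
    change (x * y) • v ∈ _
    rw [mul_smul]
    exact tens_mem (LinearMap.lsmul K V) hx (tens_mem (LinearMap.lsmul K V) hy hv)
  · refine tens_map_mem (LinearMap.lsmul K V x) (fun y hy v hv => ?_) hw
    change x • y • v ∈ _
    rw [← mul_smul]
    exact tens_mem (LinearMap.lsmul K V) (tens_mem (LinearMap.lsmul K K) hx hy) hv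

theorem tens_lsmul_tens (β : V →ₗ[K] W →ₗ[K] U) (L : Pre K) (M : Pre V) (N : Pre W) :
    tens (LinearMap.lsmul K U) L (tens β M N) = tens β M (tens (LinearMap.lsmul K W) L N) := by
  funext c
  refine le_antisymm (tens_le fun x hx u hu => ?_) (tens_le fun m hm w hw => ?_)
  · refine tens_map_mem (LinearMap.lsmul K U x) (fun m hm n hn => ?_) hu
    simpa using tens_mem β hm (tens_mem (LinearMap.lsmul K W) hx hn)
  · refine tens_map_mem (β m) (fun x hx n hn => ?_) hw
    simpa using tens_mem (LinearMap.lsmul K U) hx (tens_mem β hm hn)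

theorem tens_lsmul_sup (L L' : Pre K) (H : Pre V) :
    tens (LinearMap.lsmul K V) (L ⊔ L') H =
      tens (LinearMap.lsmul K V) L H ⊔ tens (LinearMap.lsmul K V) L' H := by
  funext c
  refine le_antisymm (tens_le fun x hx v hv => ?_) (sup_le
    (tens_mono _ (fun _ => le_sup_left) (fun _ => le_rfl) c)
    (tens_mono _ (fun _ => le_sup_right) (fun _ => le_rfl) c))
  obtain ⟨a, ha, b, hb, rfl⟩ := Submodule.mem_sup.1 hx
  rw [map_add, LinearMap.add_apply]
  exact Submodule.add_mem_sup (tens_mem _ ha hv) (tens_mem _ hb hv)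

theorem tens_lsmul_scal' {H : Pre V} (hH : IsSheaf S H) {y : Chart → K} (hy : ∀ c, y c ≠ 0) :
    tens (LinearMap.lsmul K V) (fun c => scal (y c) (OO S c)) H = fun c => scal (y c) (H c) := by
  funext c
  refine le_antisymm (tens_le fun x hx v hv => ?_) fun v hv => ?_
  · rw [mem_scal] at hx ⊢
    rw [LinearMap.lsmul_apply, ← smul_assoc]
    exact hH.smul_mem c hx hv
  · have h1 : y c ∈ scal (y c) (OO S c) := by
      rw [mem_scal, smul_eq_mul, inv_mul_cancel₀ (hy c)]
      exact (S.R c).one_mem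
    have := tens_mem (LinearMap.lsmul K V) (M := fun c => scal (y c) (OO S c)) h1 (mem_scal.1 hv)
    rwa [LinearMap.lsmul_apply, smul_inv_smul₀ (hy c)] at this

theorem tens_lsmul_twist {H : Pre V} (hH : IsSheaf S H) (a b : ℤ) :
    tens (LinearMap.lsmul K V) (twist K (OO S) a b) H = twist K H a b := by
  exact tens_lsmul_scal' hH fun c => tau_ne_zero K c a b

theorem tens_lsmul_scal {H : Pre V} (hH : IsSheaf S H) {y : K} (hy : y ≠ 0) :
    tens (LinearMap.lsmul K V) (fun c => scal y (OO S c)) H = fun c => scal y (H c) := by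
  exact tens_lsmul_scal' hH fun _ => hy

theorem push_rTensor (f : V →ₗ[K] W) (M : Pre V) (H : Pre U) :
    push (f.rTensor U) (tens (TensorProduct.mk K V U) M H) =
      tens (TensorProduct.mk K W U) (push f M) H := by
  funext c
  refine le_antisymm ?_ (tens_le ?_)
  · rintro _ ⟨u, hu, rfl⟩
    refine tens_map_mem (f.rTensor U) (fun x hx y hy => ?_) hu
    exact tens_mem (TensorProduct.mk K W U) (M := push f M) ⟨x, hx, rfl⟩ hy
  · rintro _ ⟨x, hx, rfl⟩ y hy
    exact ⟨_, tens_mem (TensorProduct.mk K V U) hx hy, rfl⟩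

theorem push_lid (L : Pre K) (H : Pre U) :
    push (TensorProduct.lid K U).toLinearMap (tens (TensorProduct.mk K K U) L H) =
      tens (LinearMap.lsmul K U) L H := by
  funext c
  refine le_antisymm ?_ (tens_le fun x hx y hy => ?_)
  · rintro _ ⟨u, hu, rfl⟩
    refine tens_map_mem (TensorProduct.lid K U).toLinearMap (fun x hx y hy => ?_) hu
    exact tens_mem (LinearMap.lsmul K U) hx hy
  · exact ⟨_, tens_mem (TensorProduct.mk K K U) hx hy, rfl⟩

/-- the coefficient of `b j` -/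
def tensCo {ι : Type} (b : Module.Basis ι K U) (j : ι) (V : Type) [AddCommGroup V] [Module K V] :
    V ⊗[K] U →ₗ[K] V := (TensorProduct.rid K V).toLinearMap ∘ₗ (b.coord j).lTensor V

theorem tensCo_tmul {ι : Type} (b : Module.Basis ι K U) (j : ι) (v : V) (u : U) :
    tensCo b j V (v ⊗ₜ u) = b.repr u j • v := by
  simp [tensCo]

theorem tensCo_sum {ι : Type} [Fintype ι] (b : Module.Basis ι K U) (x : V ⊗[K] U) :
    ∑ j, tensCo b j V x ⊗ₜ[K] b j = x := by
  induction x with
  | zero => simp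
  | tmul v u =>
    simp only [tensCo_tmul, smul_tmul]
    rw [← tmul_sum, b.sum_repr]
  | add x y hx hy => simp only [map_add, add_tmul, Finset.sum_add_distrib, hx, hy]

theorem tensCo_rTensor {ι : Type} (b : Module.Basis ι K U) (j : ι) (f : W →ₗ[K] V)
    (x : W ⊗[K] U) : tensCo b j V (f.rTensor U x) = f (tensCo b j W x) := by
  induction x with
  | zero => simp
  | tmul v u => simp [tensCo_tmul]
  | add x y hx hy => simp only [map_add, hx, hy]

/-- Flatness of locally free sheaves.  At a maximal ideal with local basis `b` and `g`: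
`g • x ∈ ∑ M ⊗ b j`, and the coefficients in `∑ m j ⊗ b j` are unique. -/
theorem pull_rTensor {f : W →ₗ[K] V} (hf : Function.Injective f) {M : Pre V} (hM : IsSheaf S M)
    {H : Pre U} (hH : IsSheaf S H) (hl : LocFree S H) :
    pull (f.rTensor U) (tens (TensorProduct.mk K V U) M H) =
      tens (TensorProduct.mk K W U) (pull f M) H := by
  funext c
  refine le_antisymm (fun x hx => ?_) (tens_le fun w hw y hy => ?_)
  · refine S.mem_of_local c _ (fun r hr v hv =>
      tens_smul_mem_right _ _ (fun y hy => hH.smul_mem c hr hy) hv) x fun 𝔪 h𝔪 => ?_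
    obtain ⟨b, g, hg, hb, hb'⟩ := hl c 𝔪 h𝔪
    refine ⟨g, hg, ?_⟩
    rw [← tensCo_sum b ((g : K) • x)]
    refine Submodule.sum_mem _ fun j _ => tens_mem (TensorProduct.mk K W U) ?_ (hb j)
    change f (tensCo b j W ((g : K) • x)) ∈ M c
    rw [← tensCo_rTensor, map_smul, map_smul]
    refine tens_map_mem ((g : K) • tensCo b j V) (fun m hm y hy => ?_) hx
    rw [LinearMap.smul_apply, TensorProduct.mk_apply, tensCo_tmul, smul_smul]
    exact hM.smul_mem c (hb' y hy j) hm
  · exact tens_mem (TensorProduct.mk K V U) (M := M) hw hy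

/-- local freeness with an arbitrary finite index type -/
theorem locFree_of_basis {M : Pre V}
    (h : ∀ c (𝔪 : Ideal (S.R c)), 𝔪.IsMaximal → ∃ (ι : Type) (_ : Finite ι) (b : Module.Basis ι K V)
      (g : S.R c), g ∉ 𝔪 ∧ (∀ j, b j ∈ M c) ∧ ∀ v ∈ M c, ∀ j, (g : K) * b.repr v j ∈ S.R c) :
    LocFree S M := by
  intro c 𝔪 h𝔪
  obtain ⟨ι, _, b, g, hg, hb, hb'⟩ := h c 𝔪 h𝔪
  cases nonempty_fintype ι
  let e : ι ≃ Fin (Module.finrank K V) :=
    Fintype.equivFinOfCardEq (Module.finrank_eq_card_basis b).symm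
  refine ⟨b.reindex e, g, hg, fun j => ?_, fun v hv j => ?_⟩
  · rw [Module.Basis.reindex_apply]; exact hb _
  · rw [Module.Basis.repr_reindex_apply]; exact hb' v hv _

/-- the basis `x • b` -/
def tensSc {ι : Type} (b : Module.Basis ι K V) (x : K) (hx : x ≠ 0) : Module.Basis ι K V :=
  b.map (LinearEquiv.smulOfNeZero K V x hx)

theorem tensSc_apply {ι : Type} (b : Module.Basis ι K V) (x : K) (hx : x ≠ 0) (j : ι) :
    tensSc b x hx j = x • b j := by
  simp [tensSc]

theorem tensSc_repr {ι : Type} (b : Module.Basis ι K V) (x : K) (hx : x ≠ 0) (v : V) (j : ι) :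
    (tensSc b x hx).repr v j = x⁻¹ * b.repr v j := by
  simp [tensSc, Units.smul_def]

/-- rank one form -/
theorem locFree_iff_rank_one {L : Pre K} : LocFree S L ↔ ∀ c (𝔪 : Ideal (S.R c)), 𝔪.IsMaximal →
    ∃ x ∈ L c, x ≠ 0 ∧ ∃ g : S.R c, g ∉ 𝔪 ∧ ∀ y ∈ L c, (g : K) * (y / x) ∈ S.R c := by
  constructor
  · intro h c 𝔪 h𝔪
    obtain ⟨b, g, hg, hb, hb'⟩ := h c 𝔪 h𝔪
    have : Unique (Fin (Module.finrank K K)) := by
      rw [Module.finrank_self]; infer_instance
    refine ⟨b default, hb _, b.ne_zero _, g, hg, fun y hy => ?_⟩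
    have h1 := b.sum_repr y
    rw [Fintype.sum_unique, smul_eq_mul] at h1
    rw [(div_eq_iff (b.ne_zero default)).2 h1.symm]
    exact hb' y hy _
  · intro h
    refine locFree_of_basis fun c 𝔪 h𝔪 => ?_
    obtain ⟨x, hx, hx0, g, hg, h'⟩ := h c 𝔪 h𝔪
    refine ⟨Unit, inferInstance, tensSc (Module.Basis.singleton Unit K) x hx0, g, hg,
      fun j => ?_, fun v hv j => ?_⟩
    · simpa [tensSc_apply] using hx
    · simpa [tensSc_repr, div_eq_inv_mul] using h' v hv

variable (S) in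
theorem locFree_OO : LocFree S (OO S) := by
  rw [locFree_iff_rank_one]
  intro c 𝔪 h𝔪
  refine ⟨1, (S.R c).one_mem, one_ne_zero, 1, (Ideal.ne_top_iff_one 𝔪).1 h𝔪.ne_top,
    fun y hy => ?_⟩
  simpa using tens_mem_OO.1 hy

theorem LocFree.twist {M : Pre V} (h : LocFree S M) (a b : ℤ) : LocFree S (twist K M a b) := by
  intro c 𝔪 h𝔪
  obtain ⟨e, g, hg, he, he'⟩ := h c 𝔪 h𝔪
  have hτ := tau_ne_zero K c a b
  refine ⟨tensSc e _ hτ, g, hg, fun j => ?_, fun v hv j => ?_⟩
  · change (tau K c a b)⁻¹ • tensSc e _ hτ j ∈ M c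
    rw [tensSc_apply, inv_smul_smul₀ hτ]
    exact he j
  · simpa [tensSc_repr] using he' _ (mem_scal.1 hv) j

theorem LocFree.tens_mk {M : Pre V} {N : Pre W} (hM : IsSheaf S M) (hN : IsSheaf S N)
    (h : LocFree S M) (h' : LocFree S N) : LocFree S (R169.tens (TensorProduct.mk K V W) M N) := by
  refine locFree_of_basis fun c 𝔪 h𝔪 => ?_
  obtain ⟨b, g, hg, hb, hb'⟩ := h c 𝔪 h𝔪
  obtain ⟨e, g', hg', he, he'⟩ := h' c 𝔪 h𝔪
  refine ⟨_, inferInstance, b.tensorProduct e, g * g',
    fun hh => (h𝔪.isPrime.mem_or_mem hh).elim hg hg', fun j => ?_, fun v hv j => ?_⟩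
  · rw [Module.Basis.tensorProduct_apply']
    exact tens_mem (TensorProduct.mk K V W) (hb _) (he _)
  · refine tens_map_mem (P := OO S c) (((g * g' : S.R c) : K) • (b.tensorProduct e).coord j)
      (fun x hx y hy => ?_) hv
    have := (S.R c).mul_mem (hb' x hx j.1) (he' y hy j.2)
    rw [tens_mem_OO]
    convert this using 1
    obtain ⟨i, j⟩ := j
    simp [Module.Basis.tensorProduct_repr_tmul_apply]
    ring

theorem LocFree.tens_lsmul {L : Pre K} {N : Pre W} (hL : IsSheaf S L) (hN : IsSheaf S N)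
    (h : LocFree S L) (h' : LocFree S N) : LocFree S (R169.tens (LinearMap.lsmul K W) L N) := by
  intro c 𝔪 h𝔪
  obtain ⟨x, hx, hx0, g, hg, hx'⟩ := locFree_iff_rank_one.1 h c 𝔪 h𝔪
  obtain ⟨e, g', hg', he, he'⟩ := h' c 𝔪 h𝔪
  refine ⟨tensSc e x hx0, g * g',
    fun hh => (h𝔪.isPrime.mem_or_mem hh).elim hg hg', fun j => ?_, fun v hv j => ?_⟩
  · rw [tensSc_apply]
    exact tens_mem (LinearMap.lsmul K W) hx (he _)
  · refine tens_map_mem (P := OO S c) (((g * g' : S.R c) : K) • (tensSc e x hx0).coord j)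
      (fun y hy n hn => ?_) hv
    have := (S.R c).mul_mem (hx' y hy) (he' n hn j)
    rw [tens_mem_OO]
    convert this using 1
    simp [tensSc_repr]
    ring

/-- a locally free rank one sheaf is invertible -/
theorem LocFree.mul_invP {L : Pre K} (hL : IsSheaf S L) (h : LocFree S L) :
    R169.tens (LinearMap.lsmul K K) L (invP S L) = OO S := by
  funext c
  refine le_antisymm (tens_le fun x hx y hy => hy x hx) fun r hr => ?_
  refine S.mem_of_local c _ (fun r hr v hv =>
    tens_smul_mem_left _ _ (fun y hy => hL.smul_mem c hr hy) hv) r fun 𝔪 h𝔪 => ?_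
  obtain ⟨x, hx, hx0, g, hg, hx'⟩ := locFree_iff_rank_one.1 h c 𝔪 h𝔪
  refine ⟨g, hg, ?_⟩
  have h1 : (g : K) / x ∈ invP S L c := fun y hy => by
    convert hx' y hy using 1
    ring
  convert tens_mem (LinearMap.lsmul K K) (hL.smul_mem c hr hx) h1 using 1
  simp only [LinearMap.lsmul_apply, smul_eq_mul]
  field_simp

/-- an invertible sheaf is locally free: `∑ x i * y i = 1`, some `x i * y i ∉ 𝔪` -/
theorem locFree_of_mul_eq {L L' : Pre K} (hL : IsSheaf S L) (hL' : IsSheaf S L')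
    (h : R169.tens (LinearMap.lsmul K K) L L' = OO S) : LocFree S L := by
  rw [locFree_iff_rank_one]
  intro c 𝔪 h𝔪
  have hm : ∀ x ∈ L c, ∀ y ∈ L' c, x * y ∈ S.R c := fun x hx y hy => by
    have := tens_mem (LinearMap.lsmul K K) hx hy
    rwa [h] at this
  have : ∃ x, ∃ hx : x ∈ L c, ∃ y, ∃ hy : y ∈ L' c, (⟨x * y, hm x hx y hy⟩ : S.R c) ∉ 𝔪 := by
    by_contra hc
    push Not at hc
    have h1 : R169.tens (LinearMap.lsmul K K) L L' c ≤
        (𝔪.restrictScalars ℂ).map (S.R c).val.toLinearMap :=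
      tens_le fun x hx y hy => ⟨_, hc x hx y hy, rfl⟩
    rw [h] at h1
    obtain ⟨z, hz, hz1⟩ := h1 (S.R c).one_mem
    have : z = 1 := Subtype.ext hz1
    exact (Ideal.ne_top_iff_one 𝔪).1 h𝔪.ne_top (this ▸ hz)
  obtain ⟨x, hx, y, hy, hxy⟩ := this
  have hx0 : x ≠ 0 := by
    rintro rfl
    exact hxy (by convert 𝔪.zero_mem using 1; ext; simp)
  refine ⟨x, hx, hx0, _, hxy, fun z hz => ?_⟩
  convert hm z hz y hy using 1
  field_simp

/-- intersections commute with multiplication by a locally free sheaf -/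
theorem tens_lsmul_inf {L L' : Pre K} (hL : IsSheaf S L) (hL' : IsSheaf S L') {H : Pre V}
    (hH : IsSheaf S H) (hl : LocFree S H) :
    tens (LinearMap.lsmul K V) (L ⊓ L') H =
      tens (LinearMap.lsmul K V) L H ⊓ tens (LinearMap.lsmul K V) L' H := by
  funext c
  refine le_antisymm (le_inf
    (tens_mono _ (fun _ => inf_le_left) (fun _ => le_rfl) c)
    (tens_mono _ (fun _ => inf_le_right) (fun _ => le_rfl) c)) fun v hv => ?_
  refine S.mem_of_local c _ (fun r hr v hv =>
    tens_smul_mem_right _ _ (fun y hy => hH.smul_mem c hr hy) hv) v fun 𝔪 h𝔪 => ?_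
  obtain ⟨b, g, hg, hb, hb'⟩ := hl c 𝔪 h𝔪
  refine ⟨g, hg, ?_⟩
  have key : ∀ {L : Pre K}, IsSheaf S L → v ∈ tens (LinearMap.lsmul K V) L H c →
      ∀ j, b.repr ((g : K) • v) j ∈ L c := by
    intro L hL hv j
    refine tens_map_mem (b.coord j ∘ₗ LinearMap.lsmul K V g) (fun x hx y hy => ?_) hv
    convert hL.smul_mem c (hb' y hy j) hx using 1
    simp
    ring
  rw [← b.sum_repr ((g : K) • v)]
  exact Submodule.sum_mem _ fun j _ => tens_mem (LinearMap.lsmul K V) (M := L ⊓ L')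
    ⟨key hL hv.1 j, key hL' hv.2 j⟩ (hb j)

theorem FinCol.pull {M M' : Pre V} (h : FinCol M M') {f : W →ₗ[K] V} (hf : Function.Injective f) :
    FinCol (pull f M) (pull f M') := by
  classical
  intro c
  obtain ⟨h1, s, hs⟩ := h c
  refine ⟨Submodule.comap_mono h1, ?_⟩
  let φ : W →ₗ[ℂ] V ⧸ M c := (M c).mkQ ∘ₗ f.restrictScalars ℂ
  have h2 : (R169.pull f M' c).map φ ≤ (Submodule.span ℂ (s : Set V)).map (M c).mkQ := by
    rintro _ ⟨w, hw, rfl⟩
    obtain ⟨a, ha, b, hb, hab⟩ := Submodule.mem_sup.1 (hs hw)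
    refine ⟨b, hb, ?_⟩
    change (M c).mkQ b = (M c).mkQ (f.restrictScalars ℂ w)
    rw [← hab, map_add, Submodule.mkQ_apply _ a, (Submodule.Quotient.mk_eq_zero _).2 ha, zero_add]
  have h3 : ((R169.pull f M' c).map φ).FG :=
    Submodule.FG.of_le (Submodule.FG.map _ ⟨s, rfl⟩) h2
  obtain ⟨t, ht⟩ := h3
  have h4 : (t : Set (V ⧸ M c)) ⊆ φ '' (R169.pull f M' c) := by
    rw [← Submodule.map_coe, ← ht]; exact Submodule.subset_span
  obtain ⟨s', -, rfl⟩ := Finset.subset_set_image_iff.1 h4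
  refine ⟨s', fun w hw => ?_⟩
  have h5 : φ w ∈ (Submodule.span ℂ (s' : Set W)).map φ := by
    rw [Submodule.map_span, ← Finset.coe_image, ht]
    exact ⟨w, hw, rfl⟩
  obtain ⟨w', hw', e⟩ := h5
  refine Submodule.mem_sup.2 ⟨w - w', ?_, w', hw', sub_add_cancel _ _⟩
  have : φ (w - w') = 0 := by rw [map_sub, e, sub_self]
  exact (Submodule.Quotient.mk_eq_zero (M c)).1 this

end

end Crest.Agent.R169
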