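import Crest.Agent.R169.Pol

/-! # The surface `Y = C × C`, `C` a complete intersection of diagonal quadrics in `P²³`: definitions -/

set_option autoImplicit false

namespace Crest.Agent.R169

noncomputable section

/-- the 24 homogeneous coordinates, in 12 pairs; `(0, true)` and `(0, false)` are the coordinates of `P¹` -/
abbrev YI : Type := Fin 12 × Bool
/-- the 22 coordinates that are new square roots -/
abbrev YJ : Type := {i : YI // i ≠ (0, true) ∧ i ≠ (0, false)}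

structure YData (K : Type) [Field K] [Algebra K0 K] [Algebra ℂ K] where
  u : YI → K
  v : YI → K
  al : YI → ℂ
  be : YI → ℂ
  u_base : ∀ i, u (0, i) = hu (lam K) i
  v_base : ∀ i, v (0, i) = hu (mu K) i
  al_t : al (0, true) = 1
  be_t : be (0, true) = 0
  al_f : al (0, false) = 0
  be_f : be (0, false) = 1
  u_sq : ∀ i, u i ^ 2 = algebraMap ℂ K (al i) * lam K ^ 2 + algebraMap ℂ K (be i)
  v_sq : ∀ i, v i ^ 2 = algebraMap ℂ K (al i) * mu K ^ 2 + algebraMap ℂ K (be i)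
  nonprop : ∀ i j, i ≠ j → al i * be j - al j * be i ≠ 0
  basis : Module.Basis (Finset YJ × Finset YJ) K0 K
  basis_eq : ∀ s, basis s = (∏ i ∈ s.1, u i.1) * ∏ i ∈ s.2, v i.1

namespace YData

variable {K : Type} [Field K] [Algebra K0 K] [Algebra ℂ K] (Y : YData K)

/-- the chart rings -/
def R (c : Chart) : Subalgebra ℂ K :=
  Algebra.adjoin ℂ (Set.range (fun i => Y.u i / hu (lam K) c.1) ∪
    Set.range (fun i => Y.v i / hu (mu K) c.2))

def ub (c : Chart) (i : YI) : Y.R c :=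
  ⟨Y.u i / hu (lam K) c.1, Algebra.subset_adjoin (Or.inl ⟨i, rfl⟩)⟩

def vb (c : Chart) (i : YI) : Y.R c :=
  ⟨Y.v i / hu (mu K) c.2, Algebra.subset_adjoin (Or.inr ⟨i, rfl⟩)⟩

def alp (k : Fin 12) : K := Y.u (k, true) * Y.v (k, false) - Y.u (k, false) * Y.v (k, true)
def bet (k : Fin 12) : K := Y.u (k, true) * Y.v (k, false) + Y.u (k, false) * Y.v (k, true)

/-- sections of `O(12,12)` -/
def Psi (I : Finset (Fin 12)) : K := ∏ k, if k ∈ I then Y.bet k else Y.alp k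

/-- `Psi I` in the chart `c` -/
def psib (c : Chart) (I : Finset (Fin 12)) : Y.R c :=
  ∏ k, if k ∈ I then Y.ub c (k, true) * Y.vb c (k, false) + Y.ub c (k, false) * Y.vb c (k, true)
    else Y.ub c (k, true) * Y.vb c (k, false) - Y.ub c (k, false) * Y.vb c (k, true)

/-- `λ² - μ²` in the chart `c` -/
def delb (c : Chart) : Y.R c :=
  Y.ub c (0, true) ^ 2 * Y.vb c (0, false) ^ 2 - Y.ub c (0, false) ^ 2 * Y.vb c (0, true) ^ 2

end YData

/-- `x` lies in the localisation of `R` at `𝔪` -/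
def LocMem {K : Type} [Field K] [Algebra ℂ K] {R : Subalgebra ℂ K} (𝔪 : Ideal R) (x : K) : Prop :=
  ∃ g : R, g ∉ 𝔪 ∧ (g : K) * x ∈ R

/-- `s, t` generate `𝔪` locally -/
def LocGen {R : Type} [CommRing R] (𝔪 : Ideal R) (s t : R) : Prop :=
  ∀ x ∈ 𝔪, ∃ g ∉ 𝔪, g * x ∈ Ideal.span {s, t}

/-- the local condition for the double cover `w² = Ψ`, `O ⊕ w J`, to be regular -/
def BranchReg {K : Type} [Field K] [Algebra K0 K] [Algebra ℂ K] (S : Surf K) (J : Pre K) (Ψ : K) : Prop :=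
  ∀ c (𝔪 : Ideal (S.R c)), 𝔪.IsMaximal → ∃ j ∈ J c, j ≠ 0 ∧
    (∃ g : S.R c, g ∉ 𝔪 ∧ ∀ y ∈ J c, (g : K) * (y / j) ∈ S.R c) ∧
    ∃ s : S.R c, (s : K) = Ψ * j ^ 2 ∧ (s ∉ 𝔪 ∨ ∃ t ∈ 𝔪, LocGen 𝔪 s t)

end

end Crest.Agent.R169
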