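import Crest.Agent.R169.YDefs

/-! # Local analysis on `Y`: the ring theoretic part -/

set_option autoImplicit false

namespace Crest.Agent.R169

noncomputable section

namespace YLocAux

variable {A : Type} [CommRing A] [Algebra ℂ A]

/-- the contraction of the extension of `J` to the localisation at the kernel of `ρ` -/
def loc (ρ : A →ₐ[ℂ] ℂ) (J : Ideal A) : Ideal A where
  carrier := {x | ∃ g, ρ g ≠ 0 ∧ g * x ∈ J}
  add_mem' := by
    rintro x y ⟨g, hg, hx⟩ ⟨h, hh, hy⟩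
    refine ⟨g * h, by rw [map_mul]; exact mul_ne_zero hg hh, ?_⟩
    have : g * h * (x + y) = h * (g * x) + g * (h * y) := by ring
    rw [this]
    exact J.add_mem (J.mul_mem_left _ hx) (J.mul_mem_left _ hy)
  zero_mem' := ⟨1, by simp, by simp⟩
  smul_mem' := by
    rintro r x ⟨g, hg, hx⟩
    refine ⟨g, hg, ?_⟩
    have : g * (r • x) = r * (g * x) := by rw [smul_eq_mul]; ring
    rw [this]
    exact J.mul_mem_left _ hx

variable {ρ : A →ₐ[ℂ] ℂ}

theorem le_loc {J : Ideal A} {x : A} (hx : x ∈ J) : x ∈ loc ρ J := ⟨1, by simp, by simpa using hx⟩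

theorem loc_cancel {J : Ideal A} {g x : A} (hg : ρ g ≠ 0) (h : g * x ∈ loc ρ J) : x ∈ loc ρ J := by
  obtain ⟨h, hh, hx⟩ := h
  exact ⟨h * g, by rw [map_mul]; exact mul_ne_zero hh hg, by rwa [mul_assoc]⟩

theorem left_mem_loc (s t : A) : s ∈ loc ρ (Ideal.span {s, t}) :=
  le_loc (Ideal.subset_span (by simp))

theorem right_mem_loc (s t : A) : t ∈ loc ρ (Ideal.span {s, t}) :=
  le_loc (Ideal.subset_span (by simp))

theorem self_mem_loc (s : A) : s ∈ loc ρ (Ideal.span {s}) :=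
  le_loc (Ideal.subset_span (by simp))

theorem loc_trans {J : Ideal A} {s t x : A} (hs : s ∈ loc ρ J) (ht : t ∈ loc ρ J)
    (hx : x ∈ loc ρ (Ideal.span {s, t})) : x ∈ loc ρ J := by
  obtain ⟨g, hg, hx⟩ := hx
  refine loc_cancel hg ((Ideal.span_le.2 ?_ : Ideal.span {s, t} ≤ loc ρ J) hx)
  rintro y (rfl | rfl)
  exacts [hs, ht]

/-- one family of coordinates -/
structure Fam (ρ : A →ₐ[ℂ] ℂ) (al be : YI → ℂ) (U : YI → A) (i₀ : YI) : Prop where
  sq : ∀ i, U i ^ 2 = algebraMap ℂ A (al i) * U (0, true) ^ 2 + algebraMap ℂ A (be i) * U (0, false) ^ 2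
  one : U i₀ = 1
  np : ∀ i j, i ≠ j → al i * be j - al j * be i ≠ 0

namespace Fam

variable {al be : YI → ℂ} {U : YI → A} {i₀ : YI} (F : Fam ρ al be U i₀)
include F

theorem rel (i j k : YI) : algebraMap ℂ A (al i * be j - al j * be i) * U k ^ 2 =
    algebraMap ℂ A (al k * be j - al j * be k) * U i ^ 2 +
      algebraMap ℂ A (al i * be k - al k * be i) * U j ^ 2 := by
  rw [F.sq i, F.sq j, F.sq k]
  simp only [map_sub, map_mul]
  ring

theorem uniq {i j : YI} (hi : ρ (U i) = 0) (hij : j ≠ i) : ρ (U j) ≠ 0 := by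
  intro hj
  have h := congrArg ρ (F.rel i j i₀)
  rw [F.one] at h
  simp only [map_mul, map_add, map_pow, AlgHom.commutes, hi, hj, map_one] at h
  exact F.np i j hij.symm (by simpa using h)

theorem ne_base {i : YI} (hi : ρ (U i) = 0) : i ≠ i₀ := by
  rintro rfl
  rw [F.one, map_one] at hi
  exact one_ne_zero hi

theorem exists_par : ∃ i₁, i₁ ≠ i₀ ∧ ∀ j, j ≠ i₁ → ρ (U j) ≠ 0 := by
  by_cases h : ∃ i, ρ (U i) = 0
  · obtain ⟨i, hi⟩ := h
    exact ⟨i, F.ne_base hi, fun j hj => F.uniq hi hj⟩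
  · obtain ⟨i, hi⟩ := exists_ne i₀
    exact ⟨i, hi, fun j _ hj => h ⟨j, hj⟩⟩

theorem all_mem {J : Ideal A} {i₁ : YI} (h0 : i₁ ≠ i₀) (h1 : ∀ j, j ≠ i₁ → ρ (U j) ≠ 0)
    (hJ : U i₁ - algebraMap ℂ A (ρ (U i₁)) ∈ loc ρ J) (j : YI) :
    U j - algebraMap ℂ A (ρ (U j)) ∈ loc ρ J := by
  by_cases hj : j = i₁
  · rw [hj]; exact hJ
  have h := F.rel i₁ i₀ j
  rw [F.one] at h
  have h2 := congrArg (fun x => algebraMap ℂ A (ρ x)) h
  simp only [map_mul, map_add, map_pow, AlgHom.commutes, map_one, Algebra.algebraMap_self,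
    RingHom.id_apply] at h2
  refine loc_cancel (g := algebraMap ℂ A (al i₁ * be i₀ - al i₀ * be i₁) *
    (U j + algebraMap ℂ A (ρ (U j)))) ?_ ?_
  · simp only [map_mul, map_add, AlgHom.commutes, Algebra.algebraMap_self, RingHom.id_apply]
    refine mul_ne_zero (F.np _ _ h0) ?_
    rw [← two_mul]
    exact mul_ne_zero two_ne_zero (h1 j hj)
  · have : algebraMap ℂ A (al i₁ * be i₀ - al i₀ * be i₁) * (U j + algebraMap ℂ A (ρ (U j))) *
        (U j - algebraMap ℂ A (ρ (U j))) = algebraMap ℂ A (al j * be i₀ - al i₀ * be j) *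
        (U i₁ + algebraMap ℂ A (ρ (U i₁))) * (U i₁ - algebraMap ℂ A (ρ (U i₁))) := by
      linear_combination h - h2
    rw [this]
    exact Ideal.mul_mem_left _ _ hJ

end Fam

/-- the two families generate the ring -/
structure Dat (ρ : A →ₐ[ℂ] ℂ) (al be : YI → ℂ) (U V : YI → A) (i₀ j₀ : YI) : Prop where
  fu : Fam ρ al be U i₀
  fv : Fam ρ al be V j₀
  gen : ∀ J : Ideal A, (∀ i, U i - algebraMap ℂ A (ρ (U i)) ∈ J) →
    (∀ i, V i - algebraMap ℂ A (ρ (V i)) ∈ J) → ∀ x, ρ x = 0 → x ∈ J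

/-- the local equation of the branch curve -/
def del (U V : YI → A) : A :=
  U (0, true) ^ 2 * V (0, false) ^ 2 - U (0, false) ^ 2 * V (0, true) ^ 2

def aa (U V : YI → A) (k : Fin 12) : A := U (k, true) * V (k, false) - U (k, false) * V (k, true)
def bb (U V : YI → A) (k : Fin 12) : A := U (k, true) * V (k, false) + U (k, false) * V (k, true)

def psi (U V : YI → A) (I : Finset (Fin 12)) : A := ∏ k, if k ∈ I then bb U V k else aa U V k

namespace Dat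

variable {al be : YI → ℂ} {U V : YI → A} {i₀ j₀ : YI} (D : Dat ρ al be U V i₀ j₀)
include D

theorem reg : ∃ s t, ρ s = 0 ∧ ρ t = 0 ∧ ∀ x, ρ x = 0 → x ∈ loc ρ (Ideal.span {s, t}) := by
  obtain ⟨i₁, hi0, hi1⟩ := D.fu.exists_par
  obtain ⟨j₁, hj0, hj1⟩ := D.fv.exists_par
  refine ⟨U i₁ - algebraMap ℂ A (ρ (U i₁)), V j₁ - algebraMap ℂ A (ρ (V j₁)), by simp, by simp, ?_⟩
  exact D.gen _ (D.fu.all_mem hi0 hi1 (left_mem_loc _ _)) (D.fv.all_mem hj0 hj1 (right_mem_loc _ _))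

theorem cross (i j : YI) : U i ^ 2 * V j ^ 2 - U j ^ 2 * V i ^ 2 =
    algebraMap ℂ A (al i * be j - al j * be i) * del U V := by
  rw [D.fu.sq i, D.fu.sq j, D.fv.sq i, D.fv.sq j]
  simp only [map_sub, map_mul, del]
  ring

theorem aa_mul_bb (k : Fin 12) : ∃ c : ℂ, c ≠ 0 ∧ aa U V k * bb U V k = algebraMap ℂ A c * del U V :=
  ⟨_, D.fu.np (k, true) (k, false) (by simp), by rw [← D.cross]; unfold aa bb; ring⟩

theorem bad {k : Fin 12} (ha : ρ (aa U V k) = 0) (hb : ρ (bb U V k) = 0) :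
    ∃ ε, ρ (U (k, ε)) = 0 ∧ ρ (V (k, ε)) = 0 := by
  simp only [aa, bb, map_sub, map_add, map_mul] at ha hb
  have h1 : ρ (U (k, true)) * ρ (V (k, false)) = 0 := by linear_combination (ha + hb) / 2
  have h2 : ρ (U (k, false)) * ρ (V (k, true)) = 0 := by linear_combination (hb - ha) / 2
  rcases mul_eq_zero.1 h1 with h | h
  · exact ⟨true, h, (mul_eq_zero.1 h2).resolve_left (D.fu.uniq h (by simp))⟩
  · exact ⟨false, (mul_eq_zero.1 h2).resolve_right (D.fv.uniq h (by simp)), h⟩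

theorem gen_del (hn : ∀ i, ¬ (ρ (U i) = 0 ∧ ρ (V i) = 0)) (hd : ρ (del U V) = 0) :
    ∃ t, ρ t = 0 ∧ ∀ s, del U V ∈ loc ρ (Ideal.span {s, t}) →
      ∀ x, ρ x = 0 → x ∈ loc ρ (Ideal.span {s, t}) := by
  have hc : ∀ i j, ρ (U i) ^ 2 * ρ (V j) ^ 2 = ρ (U j) ^ 2 * ρ (V i) ^ 2 := by
    intro i j
    have h := congrArg ρ (D.cross i j)
    simp only [map_sub ρ, map_mul ρ, map_pow, hd, mul_zero] at h
    exact sub_eq_zero.1 h
  have hu : ∀ i, ρ (U i) ≠ 0 := by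
    intro i hi
    have h := hc i i₀
    rw [hi, D.fu.one] at h
    exact hn i ⟨hi, by simpa using h.symm⟩
  have hv : ∀ i, ρ (V i) ≠ 0 := by
    intro i hi
    have h := hc i j₀
    rw [hi, D.fv.one] at h
    exact hn i ⟨by simpa using h, hi⟩
  obtain ⟨i₁, hi0⟩ := exists_ne i₀
  obtain ⟨j₁, hj0⟩ := exists_ne j₀
  refine ⟨V j₁ - algebraMap ℂ A (ρ (V j₁)), by simp, fun s hs => ?_⟩
  have hV := D.fv.all_mem hj0 (fun j _ => hv j) (right_mem_loc s _)
  refine D.gen _ (D.fu.all_mem hi0 (fun j _ => hu j) ?_) hV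
  have h := D.cross i₁ i₀
  have h2 := congrArg (algebraMap ℂ A) (hc i₁ i₀)
  rw [D.fu.one] at h h2
  simp only [map_mul, map_pow, map_one] at h2
  refine loc_cancel (g := algebraMap ℂ A (ρ (V i₀)) ^ 2 * (U i₁ + algebraMap ℂ A (ρ (U i₁)))) ?_ ?_
  · simp only [map_mul, map_add, map_pow, AlgHom.commutes, Algebra.algebraMap_self,
      RingHom.id_apply]
    refine mul_ne_zero (pow_ne_zero _ (hv _)) ?_
    rw [← two_mul]
    exact mul_ne_zero two_ne_zero (hu _)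
  · have : algebraMap ℂ A (ρ (V i₀)) ^ 2 * (U i₁ + algebraMap ℂ A (ρ (U i₁))) *
        (U i₁ - algebraMap ℂ A (ρ (U i₁))) =
        algebraMap ℂ A (al i₁ * be i₀ - al i₀ * be i₁) * del U V -
          U i₁ ^ 2 * (V i₀ + algebraMap ℂ A (ρ (V i₀))) * (V i₀ - algebraMap ℂ A (ρ (V i₀))) +
          (V i₁ + algebraMap ℂ A (ρ (V i₁))) * (V i₁ - algebraMap ℂ A (ρ (V i₁))) := by
      linear_combination h - h2
    rw [this]
    exact Ideal.add_mem _ (Ideal.sub_mem _ (Ideal.mul_mem_left _ _ hs)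
      (Ideal.mul_mem_left _ _ (hV _))) (Ideal.mul_mem_left _ _ (hV _))

/-- the analysis of the distinguished pair -/
theorem pair : ∃ k₀ : Fin 12, (∀ k, k ≠ k₀ → ρ (aa U V k) ≠ 0 ∨ ρ (bb U V k) ≠ 0) ∧
    (ρ (aa U V k₀) ≠ 0 ∨ ∃ t, ρ t = 0 ∧ ∀ x, ρ x = 0 → x ∈ loc ρ (Ideal.span {aa U V k₀, t})) ∧
    (ρ (bb U V k₀) ≠ 0 ∨ ∃ t, ρ t = 0 ∧ ∀ x, ρ x = 0 → x ∈ loc ρ (Ideal.span {bb U V k₀, t})) ∧
    (((∀ i, ¬ (ρ (U i) = 0 ∧ ρ (V i) = 0)) ∧ (ρ (aa U V k₀) ≠ 0 ∨ ρ (bb U V k₀) ≠ 0)) ∨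
      ∃ i, ρ (U i) = 0 ∧ ρ (V i) = 0 ∧ ρ (aa U V k₀) = 0 ∧ ρ (bb U V k₀) = 0 ∧
        (∀ x, ρ x = 0 → x ∈ loc ρ (Ideal.span {aa U V k₀, bb U V k₀})) ∧
        ∀ x, ρ x = 0 → x ∈ loc ρ (Ideal.span {U i, V i})) := by
  by_cases h : ∃ i, ρ (U i) = 0 ∧ ρ (V i) = 0
  · obtain ⟨⟨k₀, ε⟩, hu, hv⟩ := h
    have ha : ρ (aa U V k₀) = 0 := by cases ε <;> simp [aa, hu, hv]
    have hb : ρ (bb U V k₀) = 0 := by cases ε <;> simp [bb, hu, hv]
    have g1 : ∀ x, ρ x = 0 → x ∈ loc ρ (Ideal.span {U (k₀, ε), V (k₀, ε)}) :=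
      D.gen _ (D.fu.all_mem (D.fu.ne_base hu) (fun j hj => D.fu.uniq hu hj)
          (by rw [hu, map_zero, sub_zero]; exact left_mem_loc _ _))
        (D.fv.all_mem (D.fv.ne_base hv) (fun j hj => D.fv.uniq hv hj)
          (by rw [hv, map_zero, sub_zero]; exact right_mem_loc _ _))
    have g2 : ∀ x, ρ x = 0 → x ∈ loc ρ (Ideal.span {aa U V k₀, bb U V k₀}) := by
      intro x hx
      have hp : bb U V k₀ + aa U V k₀ ∈ loc ρ (Ideal.span {aa U V k₀, bb U V k₀}) :=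
        Ideal.add_mem _ (right_mem_loc _ _) (left_mem_loc _ _)
      have hm : bb U V k₀ - aa U V k₀ ∈ loc ρ (Ideal.span {aa U V k₀, bb U V k₀}) :=
        Ideal.sub_mem _ (right_mem_loc _ _) (left_mem_loc _ _)
      have h2 : ρ 2 = 2 := map_ofNat ρ 2
      have hu' : ρ (2 * U (k₀, !ε)) ≠ 0 := by
        rw [map_mul, h2]; exact mul_ne_zero two_ne_zero (D.fu.uniq hu (by simp))
      have hv' : ρ (2 * V (k₀, !ε)) ≠ 0 := by
        rw [map_mul, h2]; exact mul_ne_zero two_ne_zero (D.fv.uniq hv (by simp))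
      refine loc_trans (loc_cancel hv' ?_) (loc_cancel hu' ?_) (g1 x hx)
      · cases ε
        · convert hm using 1; simp only [aa, bb, Bool.not_false]; ring
        · convert hp using 1; simp only [aa, bb, Bool.not_true]; ring
      · cases ε
        · convert hp using 1; simp only [aa, bb, Bool.not_false]; ring
        · convert hm using 1; simp only [aa, bb, Bool.not_true]; ring
    refine ⟨k₀, fun k hk => ?_, Or.inr ⟨_, hb, g2⟩, Or.inr ⟨_, ha, ?_⟩,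
      Or.inr ⟨(k₀, ε), hu, hv, ha, hb, g2, g1⟩⟩
    · by_contra hcon
      push Not at hcon
      obtain ⟨η, h1, -⟩ := D.bad hcon.1 hcon.2
      exact D.fu.uniq hu (by simp [hk]) h1
    · rw [Set.pair_comm]; exact g2
  · have hn : ∀ i, ¬ (ρ (U i) = 0 ∧ ρ (V i) = 0) := fun i hi => h ⟨i, hi⟩
    have hg : ∀ k, ρ (aa U V k) ≠ 0 ∨ ρ (bb U V k) ≠ 0 := by
      intro k
      by_contra hcon
      push Not at hcon
      obtain ⟨η, h1⟩ := D.bad hcon.1 hcon.2
      exact hn _ h1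
    obtain ⟨c, hc, hab⟩ := D.aa_mul_bb 0
    have hc' : ρ (algebraMap ℂ A c) ≠ 0 := by simpa using hc
    have hd : ρ (aa U V 0) = 0 ∨ ρ (bb U V 0) = 0 → ρ (del U V) = 0 := by
      intro h0
      have h1 := congrArg ρ hab
      rw [map_mul, map_mul, mul_eq_zero.2 h0] at h1
      exact (mul_eq_zero.1 h1.symm).resolve_left hc'
    refine ⟨0, fun k _ => hg k, ?_, ?_, Or.inl ⟨hn, hg 0⟩⟩
    · by_cases h0 : ρ (aa U V 0) = 0
      · obtain ⟨t, ht, hgen⟩ := D.gen_del hn (hd (Or.inl h0))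
        refine Or.inr ⟨t, ht, hgen _ (loc_cancel hc' ?_)⟩
        rw [← hab]
        exact Ideal.mul_mem_right _ _ (left_mem_loc _ _)
      · exact Or.inl h0
    · by_cases h0 : ρ (bb U V 0) = 0
      · obtain ⟨t, ht, hgen⟩ := D.gen_del hn (hd (Or.inr h0))
        refine Or.inr ⟨t, ht, hgen _ (loc_cancel hc' ?_)⟩
        rw [← hab]
        exact Ideal.mul_mem_left _ _ (left_mem_loc _ _)
      · exact Or.inl h0

/-- the two distinguished sets -/
theorem sets {k₀ : Fin 12} (hk : ∀ k, k ≠ k₀ → ρ (aa U V k) ≠ 0 ∨ ρ (bb U V k) ≠ 0) :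
    ∃ (J : Finset (Fin 12)) (W : A), k₀ ∉ J ∧ ρ W ≠ 0 ∧ psi U V J = W * aa U V k₀ ∧
      psi U V (insert k₀ J) = W * bb U V k₀ ∧
      ∀ I', I' = J ∨ I' = insert k₀ J ∨ psi U V I' ∈ loc ρ (Ideal.span {del U V}) := by
  classical
  set J : Finset (Fin 12) := Finset.univ.filter fun k => k ≠ k₀ ∧ ρ (bb U V k) ≠ 0 with hJ
  have hmem : ∀ k, k ∈ J ↔ k ≠ k₀ ∧ ρ (bb U V k) ≠ 0 := by intro k; simp [hJ]
  have h0 : k₀ ∉ J := by simp [hmem]
  have hunit : ∀ k, k ≠ k₀ → ρ (if k ∈ J then bb U V k else aa U V k) ≠ 0 := by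
    intro k hne
    split_ifs with h
    · exact ((hmem k).1 h).2
    · refine (hk k hne).resolve_right fun hb => h ((hmem k).2 ⟨hne, hb⟩)
  refine ⟨J, ∏ k ∈ Finset.univ.erase k₀, if k ∈ J then bb U V k else aa U V k, h0, ?_, ?_, ?_, ?_⟩
  · rw [map_prod]
    exact Finset.prod_ne_zero_iff.2 fun k hk' => hunit k (Finset.ne_of_mem_erase hk')
  · unfold psi
    rw [← Finset.prod_erase_mul _ _ (Finset.mem_univ k₀), if_neg h0]
  · unfold psi
    rw [← Finset.prod_erase_mul _ _ (Finset.mem_univ k₀), if_pos (Finset.mem_insert_self _ _)]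
    congr 1
    refine Finset.prod_congr rfl fun k hk' => ?_
    simp only [Finset.mem_insert, Finset.ne_of_mem_erase hk', false_or]
  · intro I'
    by_cases h : ∀ k, k ≠ k₀ → (k ∈ I' ↔ k ∈ J)
    · by_cases h1 : k₀ ∈ I'
      · refine Or.inr (Or.inl (Finset.ext fun k => ?_))
        by_cases hk' : k = k₀
        · simp [hk', h1]
        · simp [hk', h k hk']
      · refine Or.inl (Finset.ext fun k => ?_)
        by_cases hk' : k = k₀
        · simp [hk', h1, h0]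
        · exact h k hk'
    · push Not at h
      obtain ⟨k, hne, hk'⟩ := h
      refine Or.inr (Or.inr ?_)
      unfold psi
      rw [← Finset.prod_erase_mul _ _ (Finset.mem_univ k)]
      refine Ideal.mul_mem_left _ _ (loc_cancel (hunit k hne) ?_)
      obtain ⟨c, -, hab⟩ := D.aa_mul_bb k
      have : (if k ∈ J then bb U V k else aa U V k) * (if k ∈ I' then bb U V k else aa U V k) =
          algebraMap ℂ A c * del U V := by
        rw [← hab]
        rcases hk' with ⟨h1, h2⟩ | ⟨h1, h2⟩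
        · rw [if_pos h1, if_neg h2]
        · rw [if_neg h1, if_pos h2, mul_comm]
      rw [this]
      exact Ideal.mul_mem_left _ _ (self_mem_loc _)

theorem types : ∃ I : Bool → Finset (Fin 12), (∀ π, Odd (I π).card ↔ π = true) ∧
    (∀ π (I' : Finset (Fin 12)), (Odd I'.card ↔ π = true) →
      psi U V I' ∈ loc ρ (Ideal.span {psi U V (I π)})) ∧
    (∀ π, ρ (psi U V (I π)) ≠ 0 ∨
      ∃ t, ρ t = 0 ∧ ∀ x, ρ x = 0 → x ∈ loc ρ (Ideal.span {psi U V (I π), t})) ∧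
    psi U V (I false) * psi U V (I true) ∈ loc ρ (Ideal.span {del U V}) ∧
    del U V ∈ loc ρ (Ideal.span {psi U V (I false) * psi U V (I true)}) ∧
    (((∀ i, ¬ (ρ (U i) = 0 ∧ ρ (V i) = 0)) ∧
        (ρ (psi U V (I false)) ≠ 0 ∨ ρ (psi U V (I true)) ≠ 0)) ∨
      ∃ i, ρ (U i) = 0 ∧ ρ (V i) = 0 ∧ (∀ j, j ≠ i → ρ (U j) ≠ 0 ∧ ρ (V j) ≠ 0) ∧
        ρ (psi U V (I false)) = 0 ∧ ρ (psi U V (I true)) = 0 ∧
        (∀ x, ρ x = 0 → x ∈ loc ρ (Ideal.span {psi U V (I false), psi U V (I true)})) ∧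
        ∀ x, ρ x = 0 → x ∈ loc ρ (Ideal.span {U i, V i})) := by
  obtain ⟨k₀, hk, pa, pb, p6⟩ := D.pair
  obtain ⟨J, W, h0, hW, eJ, eJ', hall⟩ := D.sets hk
  obtain ⟨c, hc, hab⟩ := D.aa_mul_bb k₀
  have hc' : ρ (algebraMap ℂ A c) ≠ 0 := by simpa using hc
  have hcard : (insert k₀ J).card = J.card + 1 := Finset.card_insert_of_notMem h0
  -- a symmetric formulation
  have main : ∀ (I : Bool → Finset (Fin 12)) (x : Bool → A), (∀ π, psi U V (I π) = W * x π) →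
      x false * x true = algebraMap ℂ A c * del U V → (∀ π, Odd (I π).card ↔ π = true) →
      (∀ I', I' = I false ∨ I' = I true ∨ psi U V I' ∈ loc ρ (Ideal.span {del U V})) →
      (∀ π, ρ (x π) ≠ 0 ∨ ∃ t, ρ t = 0 ∧ ∀ y, ρ y = 0 → y ∈ loc ρ (Ideal.span {x π, t})) →
      (((∀ i, ¬ (ρ (U i) = 0 ∧ ρ (V i) = 0)) ∧ (ρ (x false) ≠ 0 ∨ ρ (x true) ≠ 0)) ∨
        ∃ i, ρ (U i) = 0 ∧ ρ (V i) = 0 ∧ ρ (x false) = 0 ∧ ρ (x true) = 0 ∧
          (∀ y, ρ y = 0 → y ∈ loc ρ (Ideal.span {x false, x true})) ∧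
          ∀ y, ρ y = 0 → y ∈ loc ρ (Ideal.span {U i, V i})) →
      (∀ π, Odd (I π).card ↔ π = true) ∧
      (∀ π (I' : Finset (Fin 12)), (Odd I'.card ↔ π = true) →
        psi U V I' ∈ loc ρ (Ideal.span {psi U V (I π)})) ∧
      (∀ π, ρ (psi U V (I π)) ≠ 0 ∨
        ∃ t, ρ t = 0 ∧ ∀ x, ρ x = 0 → x ∈ loc ρ (Ideal.span {psi U V (I π), t})) ∧
      psi U V (I false) * psi U V (I true) ∈ loc ρ (Ideal.span {del U V}) ∧
      del U V ∈ loc ρ (Ideal.span {psi U V (I false) * psi U V (I true)}) ∧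
      (((∀ i, ¬ (ρ (U i) = 0 ∧ ρ (V i) = 0)) ∧
          (ρ (psi U V (I false)) ≠ 0 ∨ ρ (psi U V (I true)) ≠ 0)) ∨
        ∃ i, ρ (U i) = 0 ∧ ρ (V i) = 0 ∧ (∀ j, j ≠ i → ρ (U j) ≠ 0 ∧ ρ (V j) ≠ 0) ∧
          ρ (psi U V (I false)) = 0 ∧ ρ (psi U V (I true)) = 0 ∧
          (∀ x, ρ x = 0 → x ∈ loc ρ (Ideal.span {psi U V (I false), psi U V (I true)})) ∧
          ∀ x, ρ x = 0 → x ∈ loc ρ (Ideal.span {U i, V i})) := by
    intro I x hx hxx hpar hI h3 h6
    have hprod : psi U V (I false) * psi U V (I true) = W ^ 2 * algebraMap ℂ A c * del U V := by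
      rw [hx, hx]; linear_combination W ^ 2 * hxx
    have hWc : ρ (W ^ 2 * algebraMap ℂ A c) ≠ 0 := by
      rw [map_mul, map_pow]; exact mul_ne_zero (pow_ne_zero _ hW) hc'
    have hne : ∀ π, ρ (x π) ≠ 0 → ρ (psi U V (I π)) ≠ 0 := by
      intro π h; rw [hx, map_mul]; exact mul_ne_zero hW h
    have hz : ∀ π, ρ (x π) = 0 → ρ (psi U V (I π)) = 0 := by
      intro π h; rw [hx, map_mul, h, mul_zero]
    refine ⟨hpar, fun π I' hI' => ?_, fun π => ?_, ?_, ?_, ?_⟩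
    · have hdel : del U V ∈ loc ρ (Ideal.span {psi U V (I π)}) := by
        refine loc_cancel hWc ?_
        rw [← hprod]
        cases π
        · exact Ideal.mul_mem_right _ _ (self_mem_loc _)
        · exact Ideal.mul_mem_left _ _ (self_mem_loc _)
      rcases hI I' with h | h | h
      · have : π = false := by
          have := hpar false
          rw [← h, hI'] at this
          simpa using this
        rw [h, this]; exact self_mem_loc _
      · have : π = true := by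
          have := hpar true
          rw [← h, hI'] at this
          simpa using this
        rw [h, this]; exact self_mem_loc _
      · refine loc_trans hdel hdel ?_
        rwa [Set.pair_eq_singleton]
    · rcases h3 π with h | ⟨t, ht, h⟩
      · exact Or.inl (hne π h)
      · refine Or.inr ⟨t, ht, fun y hy => loc_trans (loc_cancel hW ?_) (right_mem_loc _ _) (h y hy)⟩
        rw [← hx]; exact left_mem_loc _ _
    · rw [hprod]; exact Ideal.mul_mem_left _ _ (self_mem_loc _)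
    · refine loc_cancel hWc ?_
      rw [← hprod]; exact self_mem_loc _
    · rcases h6 with ⟨h, h'⟩ | ⟨i, hu, hv, h1, h2, g1, g2⟩
      · exact Or.inl ⟨h, h'.imp (hne _) (hne _)⟩
      · refine Or.inr ⟨i, hu, hv, fun j hj => ⟨D.fu.uniq hu hj, D.fv.uniq hv hj⟩, hz _ h1, hz _ h2,
          fun y hy => loc_trans (loc_cancel hW ?_) (loc_cancel hW ?_) (g1 y hy), g2⟩
        · rw [← hx]; exact left_mem_loc _ _
        · rw [← hx]; exact right_mem_loc _ _
  by_cases hodd : Odd J.card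
  · refine ⟨fun π => bif π then J else insert k₀ J, main _
      (fun π => bif π then aa U V k₀ else bb U V k₀) ?_ ?_ ?_ ?_ ?_ ?_⟩
    · rintro (_ | _)
      exacts [eJ', eJ]
    · rw [← hab]; exact mul_comm _ _
    · rintro (_ | _)
      · simp [hcard, Nat.odd_add_one, hodd]
      · simpa using hodd
    · intro I'
      rcases hall I' with h | h | h
      exacts [Or.inr (Or.inl h), Or.inl h, Or.inr (Or.inr h)]
    · rintro (_ | _)
      exacts [pb, pa]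
    · rcases p6 with ⟨h, h'⟩ | ⟨i, hu, hv, h1, h2, g1, g2⟩
      · exact Or.inl ⟨h, h'.symm⟩
      · refine Or.inr ⟨i, hu, hv, h2, h1, ?_, g2⟩
        rw [Set.pair_comm]; exact g1
  · refine ⟨fun π => bif π then insert k₀ J else J, main _
      (fun π => bif π then bb U V k₀ else aa U V k₀) ?_ hab ?_ hall ?_ p6⟩
    · rintro (_ | _)
      exacts [eJ, eJ']
    · rintro (_ | _)
      · simpa using hodd
      · simp [hcard, Nat.odd_add_one, hodd]
    · rintro (_ | _)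
      exacts [pa, pb]

end Dat

theorem exists_rho (𝔪 : Ideal A) (h : 𝔪.IsMaximal)
    (hres : ∀ x : A, ∃ a : ℂ, x - algebraMap ℂ A a ∈ 𝔪) :
    ∃ ρ : A →ₐ[ℂ] ℂ, ∀ x, x ∈ 𝔪 ↔ ρ x = 0 := by
  have hnt : Nontrivial (A ⧸ 𝔪) := Ideal.Quotient.nontrivial_iff.2 h.ne_top
  have hb : Function.Bijective (Algebra.ofId ℂ (A ⧸ 𝔪)) := by
    refine ⟨(algebraMap ℂ (A ⧸ 𝔪)).injective, fun y => ?_⟩
    obtain ⟨x, rfl⟩ := Ideal.Quotient.mk_surjective y
    obtain ⟨a, ha⟩ := hres x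
    exact ⟨a, ((Ideal.Quotient.eq).2 ha).symm⟩
  refine ⟨((AlgEquiv.ofBijective _ hb).symm : (A ⧸ 𝔪) →ₐ[ℂ] ℂ).comp (Ideal.Quotient.mkₐ ℂ 𝔪),
    fun x => ?_⟩
  simp [Ideal.Quotient.eq_zero_iff_mem]

end YLocAux

end

end Crest.Agent.R169
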