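import Crest.Agent.R169.YDefs
import Crest.Agent.R169.YLocAux

/-! # Local analysis on `Y` -/

set_option autoImplicit false
set_option linter.unusedSectionVars false

namespace Crest.Agent.R169

noncomputable section

namespace YData

variable {K : Type} [Field K] [Algebra K0 K] [Algebra ℂ K] [IsScalarTower ℂ K0 K] (Y : YData K)

theorem R_fg (c : Chart) : (Y.R c).FG := by
  exact Subalgebra.fg_def.2 ⟨_, (Set.finite_range _).union (Set.finite_range _), rfl⟩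

theorem yloc_hu_ne {x : K} (hx : x ≠ 0) (b : Bool) : hu x b ≠ 0 := by
  cases b
  · exact one_ne_zero
  · exact hx

theorem u_ne_zero (i : YI) : Y.u i ≠ 0 := by
  by_cases h : i ≠ (0, true) ∧ i ≠ (0, false)
  · have h1 := Y.basis.ne_zero ({⟨i, h⟩}, ∅)
    rw [Y.basis_eq] at h1
    simpa using h1
  · rw [not_and_or, not_not, not_not] at h
    rcases h with rfl | rfl <;> rw [Y.u_base] <;> exact yloc_hu_ne (lam_ne_zero K) _

theorem v_ne_zero (i : YI) : Y.v i ≠ 0 := by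
  by_cases h : i ≠ (0, true) ∧ i ≠ (0, false)
  · have h1 := Y.basis.ne_zero (∅, {⟨i, h⟩})
    rw [Y.basis_eq] at h1
    simpa using h1
  · rw [not_and_or, not_not, not_not] at h
    rcases h with rfl | rfl <;> rw [Y.v_base] <;> exact yloc_hu_ne (mu_ne_zero K) _

theorem alp_mul_bet (k : Fin 12) : Y.alp k * Y.bet k =
    algebraMap ℂ K (Y.al (k, true) * Y.be (k, false) - Y.al (k, false) * Y.be (k, true)) *
      (lam K ^ 2 - mu K ^ 2) := by
  have h : Y.alp k * Y.bet k =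
      Y.u (k, true) ^ 2 * Y.v (k, false) ^ 2 - Y.u (k, false) ^ 2 * Y.v (k, true) ^ 2 := by
    unfold alp bet; ring
  rw [h, Y.u_sq, Y.u_sq, Y.v_sq, Y.v_sq]
  simp only [map_sub, map_mul]
  ring

theorem del_ne_zero : lam K ^ 2 - mu K ^ 2 ≠ 0 := by
  intro h
  have h1 := algIndep_co K (false, false)
  have h2 := h1.eq_zero_of_aeval_eq_zero (MvPolynomial.X 0 ^ 2 - MvPolynomial.X 1 ^ 2)
    (by simpa [co] using h)
  have h3 := congrArg (MvPolynomial.eval ![(1 : ℂ), 0]) h2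
  simp at h3

theorem yloc_ab_ne (k : Fin 12) : Y.alp k ≠ 0 ∧ Y.bet k ≠ 0 := by
  refine mul_ne_zero_iff.1 ?_
  rw [Y.alp_mul_bet]
  exact mul_ne_zero ((map_ne_zero _).2 (Y.nonprop _ _ (by simp))) del_ne_zero

theorem Psi_ne_zero (I : Finset (Fin 12)) : Y.Psi I ≠ 0 := by
  refine Finset.prod_ne_zero_iff.2 fun k _ => ?_
  split_ifs
  exacts [(Y.yloc_ab_ne k).2, (Y.yloc_ab_ne k).1]

theorem coe_psib (c : Chart) (I : Finset (Fin 12)) :
    (Y.psib c I : K) = (tau K c 12 12)⁻¹ * Y.Psi I := by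
  have h1 := yloc_hu_ne (lam_ne_zero K) c.1
  have h2 := yloc_hu_ne (mu_ne_zero K) c.2
  have h3 : (tau K c 12 12)⁻¹ = ∏ _k : Fin 12, (hu (lam K) c.1 * hu (mu K) c.2)⁻¹ := by
    rw [Finset.prod_const, Finset.card_univ, Fintype.card_fin, tau, inv_pow, mul_pow]
    norm_cast
  unfold psib Psi
  rw [h3, ← Finset.prod_mul_distrib, SubmonoidClass.coe_finsetProd]
  refine Finset.prod_congr rfl fun k _ => ?_
  split_ifs
  · simp only [ub, vb, bet, Subalgebra.coe_add, Subalgebra.coe_mul]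
    field_simp
  · simp only [ub, vb, alp, Subalgebra.coe_sub, Subalgebra.coe_mul]
    field_simp

theorem coe_delb (c : Chart) : (Y.delb c : K) = (tau K c 2 2)⁻¹ * (lam K ^ 2 - mu K ^ 2) := by
  have h1 := yloc_hu_ne (lam_ne_zero K) c.1
  have h2 := yloc_hu_ne (mu_ne_zero K) c.2
  have h3 : tau K c 2 2 = hu (lam K) c.1 ^ 2 * hu (mu K) c.2 ^ 2 := by
    rw [tau]; norm_cast
  have e1 : Y.u (0, true) = lam K := Y.u_base true
  have e2 : Y.u (0, false) = 1 := Y.u_base false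
  have e3 : Y.v (0, true) = mu K := Y.v_base true
  have e4 : Y.v (0, false) = 1 := Y.v_base false
  rw [h3]
  simp only [delb, ub, vb, Subalgebra.coe_sub, Subalgebra.coe_mul, Subalgebra.coe_pow, e1, e2, e3, e4]
  field_simp

/-- the quotient of two `Psi` of the same parity is a square:
`β / α = c δ / α²`, `α / β = c δ / β²`, and `|I Δ I'|` is even -/
theorem exists_sq_ratio (I I' : Finset (Fin 12)) (h : Odd I.card ↔ Odd I'.card) :
    ∃ j : K, j ≠ 0 ∧ j ^ 2 * Y.Psi I' = Y.Psi I := by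
  have key : ∀ k : Fin 12, ∃ s : K, (if k ∈ I then Y.bet k else Y.alp k) =
      s ^ 2 * (lam K ^ 2 - mu K ^ 2) ^ (if (k ∈ I ↔ k ∈ I') then 0 else 1) *
        (if k ∈ I' then Y.bet k else Y.alp k) := by
    intro k
    obtain ⟨d, hd⟩ := IsAlgClosed.exists_pow_nat_eq
      (Y.al (k, true) * Y.be (k, false) - Y.al (k, false) * Y.be (k, true)) two_pos
    have hab := Y.alp_mul_bet k
    rw [← hd, map_pow] at hab
    obtain ⟨ha, hb⟩ := Y.yloc_ab_ne k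
    by_cases h1 : k ∈ I <;> by_cases h2 : k ∈ I'
    · exact ⟨1, by simp [h1, h2]⟩
    · refine ⟨algebraMap ℂ K d / Y.alp k, ?_⟩
      simp only [h1, h2, if_true, if_false, iff_false, not_true, pow_one]
      field_simp
      linear_combination hab
    · refine ⟨algebraMap ℂ K d / Y.bet k, ?_⟩
      simp only [h1, h2, if_true, if_false, iff_true, pow_one]
      field_simp
      linear_combination hab
    · exact ⟨1, by simp [h1, h2]⟩
  choose s hs using key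
  have hsum : (∑ k : Fin 12, if (k ∈ I ↔ k ∈ I') then 0 else 1) +
      2 * ∑ k : Fin 12, (if k ∈ I ∧ k ∈ I' then 1 else 0) = I.card + I'.card := by
    have e : ∀ J : Finset (Fin 12), J.card = ∑ k : Fin 12, if k ∈ J then 1 else 0 := by
      intro J; simp
    rw [e I, e I', Finset.mul_sum, ← Finset.sum_add_distrib, ← Finset.sum_add_distrib]
    refine Finset.sum_congr rfl fun k _ => ?_
    by_cases h1 : k ∈ I <;> by_cases h2 : k ∈ I' <;> simp [h1, h2]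
  obtain ⟨m, hm⟩ : ∃ m, (∑ k : Fin 12, if (k ∈ I ↔ k ∈ I') then 0 else 1) = m * 2 := by
    rw [Nat.odd_iff, Nat.odd_iff] at h
    exact ⟨(∑ k : Fin 12, if (k ∈ I ↔ k ∈ I') then 0 else 1) / 2, by omega⟩
  have hj : ((∏ k, s k) * (lam K ^ 2 - mu K ^ 2) ^ m) ^ 2 * Y.Psi I' = Y.Psi I := by
    unfold Psi
    rw [Finset.prod_congr rfl fun k _ => hs k, Finset.prod_mul_distrib, Finset.prod_mul_distrib,
      Finset.prod_pow_eq_pow_sum, hm, Finset.prod_pow, mul_pow, pow_mul]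
  refine ⟨_, fun h0 => Y.Psi_ne_zero I ?_, hj⟩
  rw [← hj, h0]; simp

theorem yloc_dat (c : Chart) (ρ : Y.R c →ₐ[ℂ] ℂ) :
    YLocAux.Dat ρ Y.al Y.be (Y.ub c) (Y.vb c) (0, c.1) (0, c.2) := by
  have h1 := yloc_hu_ne (lam_ne_zero K) c.1
  have h2 := yloc_hu_ne (mu_ne_zero K) c.2
  have e1 : Y.u (0, true) = lam K := Y.u_base true
  have e2 : Y.u (0, false) = 1 := Y.u_base false
  have e3 : Y.v (0, true) = mu K := Y.v_base true
  have e4 : Y.v (0, false) = 1 := Y.v_base false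
  refine ⟨⟨fun i => Subtype.ext ?_, Subtype.ext ?_, Y.nonprop⟩,
    ⟨fun i => Subtype.ext ?_, Subtype.ext ?_, Y.nonprop⟩, fun J hU hV x hx => ?_⟩
  · simp only [ub, Subalgebra.coe_add, Subalgebra.coe_mul, Subalgebra.coe_pow,
      Subalgebra.coe_algebraMap, e1, e2, div_pow, Y.u_sq i]
    field_simp
  · simp only [ub, Y.u_base, div_self h1, Subalgebra.coe_one]
  · simp only [vb, Subalgebra.coe_add, Subalgebra.coe_mul, Subalgebra.coe_pow,
      Subalgebra.coe_algebraMap, e3, e4, div_pow, Y.v_sq i]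
    field_simp
  · simp only [vb, Y.v_base, div_self h2, Subalgebra.coe_one]
  · have key : ∀ (y : K) (hy : y ∈ Y.R c),
        (⟨y, hy⟩ : Y.R c) - algebraMap ℂ (Y.R c) (ρ ⟨y, hy⟩) ∈ J := by
      intro y hy
      induction hy using Algebra.adjoin_induction with
      | mem y hy =>
        rcases hy with ⟨i, rfl⟩ | ⟨i, rfl⟩
        exacts [hU i, hV i]
      | algebraMap a =>
        change algebraMap ℂ (Y.R c) a - algebraMap ℂ (Y.R c) (ρ (algebraMap ℂ (Y.R c) a)) ∈ J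
        simp
      | add y z hy hz iy iz =>
        change (⟨y, hy⟩ + ⟨z, hz⟩ : Y.R c) - algebraMap ℂ (Y.R c) (ρ (⟨y, hy⟩ + ⟨z, hz⟩)) ∈ J
        rw [map_add, map_add, add_sub_add_comm]
        exact J.add_mem iy iz
      | mul y z hy hz iy iz =>
        change (⟨y, hy⟩ * ⟨z, hz⟩ : Y.R c) - algebraMap ℂ (Y.R c) (ρ (⟨y, hy⟩ * ⟨z, hz⟩)) ∈ J
        rw [map_mul, map_mul]
        convert J.add_mem (J.mul_mem_left ⟨y, hy⟩ iz)
          (J.mul_mem_left (algebraMap ℂ (Y.R c) (ρ ⟨z, hz⟩)) iy) using 1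
        ring
    have h := key x.1 x.2
    rw [show (⟨x.1, x.2⟩ : Y.R c) = x from rfl, hx, map_zero, sub_zero] at h
    exact h

theorem yloc_locMem {R : Subalgebra ℂ K} {𝔪 : Ideal R} {ρ : R →ₐ[ℂ] ℂ}
    (hρ : ∀ x, x ∈ 𝔪 ↔ ρ x = 0) {x y : R} (h : x ∈ YLocAux.loc ρ (Ideal.span {y})) :
    LocMem 𝔪 ((x : K) / y) := by
  obtain ⟨g, hg, hx⟩ := h
  obtain ⟨z, hz⟩ := Ideal.mem_span_singleton'.1 hx
  refine ⟨g, fun h => hg ((hρ g).1 h), ?_⟩
  by_cases hy : (y : K) = 0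
  · rw [hy, div_zero, mul_zero]; exact R.zero_mem
  · have h1 : (z : K) * y = g * x := by exact_mod_cast congrArg Subtype.val hz
    rw [← mul_div_assoc, ← h1, mul_div_cancel_right₀ _ hy]
    exact z.2

theorem yloc_locGen {R : Type} [CommRing R] [Algebra ℂ R] {𝔪 : Ideal R} {ρ : R →ₐ[ℂ] ℂ}
    (hρ : ∀ x, x ∈ 𝔪 ↔ ρ x = 0) {s t : R}
    (h : ∀ x, ρ x = 0 → x ∈ YLocAux.loc ρ (Ideal.span {s, t})) : LocGen 𝔪 s t := by
  intro x hx
  obtain ⟨g, hg, hgx⟩ := h x ((hρ x).1 hx)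
  exact ⟨g, fun h => hg ((hρ g).1 h), hgx⟩

/-- `Y` is regular.  Let `a i`, `b i ∈ ℂ` be the residues of `ub c i`, `vb c i` (`residue_of_fg`); `𝔪` is generated by
the `ub c i - a i`, `vb c i - b i`.  At most one `a i` vanishes (`nonprop`), and `a (0, c.1) = 1`.  Choose
`i₁ ≠ (0, c.1)` such that `a j ≠ 0` for `j ≠ i₁`; from the linear relation `ub j ² = A ub i₁ ² + B` we get
`(ub j - a j)(ub j + a j) = A (ub i₁ - a i₁)(ub i₁ + a i₁)` and `ub j + a j ∉ 𝔪`. -/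
theorem reg (c : Chart) (𝔪 : Ideal (Y.R c)) (h : 𝔪.IsMaximal) :
    ∃ s ∈ 𝔪, ∃ t ∈ 𝔪, ∀ x ∈ 𝔪, ∃ g ∉ 𝔪, g * x ∈ Ideal.span {s, t} := by
  obtain ⟨ρ, hρ⟩ := YLocAux.exists_rho 𝔪 h (residue_of_fg _ (Y.R_fg c) 𝔪 h)
  obtain ⟨s, t, hs, ht, hst⟩ := (Y.yloc_dat c ρ).reg
  exact ⟨s, (hρ s).2 hs, t, (hρ t).2 ht, yloc_locGen hρ hst⟩

/-- The three local types.  `ub i ² vb j ² - ub j ² vb i ² = c_{ij} delb` with `c_{ij} ≠ 0` for `i ≠ j`.
* `delb ∉ 𝔪`: all `α k`, `β k` are units.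
* `delb ∈ 𝔪` (then `a i = 0 ↔ b i = 0`), no `a i` vanishes: for each `k` exactly one of `α k`, `β k` lies in `𝔪`
  (`α + β = 2 ub vb ∉ 𝔪`) and is a unit times `delb`; let `I₀` be the set with `psib I₀ ∉ 𝔪`; for the other parity
  change `I₀` in one place; `(delb, t)` generate `𝔪` locally, for `t = vb j₁ - b j₁`.
* `delb ∈ 𝔪`, `a i = b i = 0` for one `i = (k₀, ε)`: `α k₀`, `β k₀` generate `𝔪 = (ub i, vb i)` locally; for `k ≠ k₀` as before;
  the two sets `I π` agree outside `k₀`. -/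
theorem local_types (c : Chart) (𝔪 : Ideal (Y.R c)) (h : 𝔪.IsMaximal) :
    ∃ I : Bool → Finset (Fin 12), (∀ π, Odd (I π).card ↔ π = true) ∧
      (∀ π (I' : Finset (Fin 12)), (Odd I'.card ↔ π = true) → LocMem 𝔪 (Y.Psi I' / Y.Psi (I π))) ∧
      (∀ π, Y.psib c (I π) ∉ 𝔪 ∨ ∃ t ∈ 𝔪, LocGen 𝔪 (Y.psib c (I π)) t) ∧
      LocMem 𝔪 ((Y.psib c (I false) * Y.psib c (I true) : K) / Y.delb c) ∧
      LocMem 𝔪 ((Y.delb c : K) / (Y.psib c (I false) * Y.psib c (I true))) ∧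
      (((∀ i, ¬ (Y.ub c i ∈ 𝔪 ∧ Y.vb c i ∈ 𝔪)) ∧ (Y.psib c (I false) ∉ 𝔪 ∨ Y.psib c (I true) ∉ 𝔪)) ∨
        ∃ i, Y.ub c i ∈ 𝔪 ∧ Y.vb c i ∈ 𝔪 ∧ (∀ j, j ≠ i → Y.ub c j ∉ 𝔪 ∧ Y.vb c j ∉ 𝔪) ∧
          Y.psib c (I false) ∈ 𝔪 ∧ Y.psib c (I true) ∈ 𝔪 ∧
          LocGen 𝔪 (Y.psib c (I false)) (Y.psib c (I true)) ∧ LocGen 𝔪 (Y.ub c i) (Y.vb c i)) := by
  obtain ⟨ρ, hρ⟩ := YLocAux.exists_rho 𝔪 h (residue_of_fg _ (Y.R_fg c) 𝔪 h)
  obtain ⟨I, h1, h2, h3, h4, h5, h6⟩ := (Y.yloc_dat c ρ).types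
  have ep : ∀ J, YLocAux.psi (Y.ub c) (Y.vb c) J = Y.psib c J := fun _ => rfl
  have ed : YLocAux.del (Y.ub c) (Y.vb c) = Y.delb c := rfl
  simp only [ep, ed] at h2 h3 h4 h5 h6
  refine ⟨I, h1, fun π I' hI' => ?_, fun π => ?_, yloc_locMem hρ h4, yloc_locMem hρ h5, ?_⟩
  · have h7 := yloc_locMem hρ (h2 π I' hI')
    rwa [coe_psib, coe_psib, mul_div_mul_left _ _ (inv_ne_zero (tau_ne_zero K c 12 12))] at h7
  · rcases h3 π with h7 | ⟨t, ht, h7⟩
    · exact Or.inl fun h8 => h7 ((hρ _).1 h8)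
    · exact Or.inr ⟨t, (hρ t).2 ht, yloc_locGen hρ h7⟩
  · simp only [hρ]
    rcases h6 with h7 | ⟨i, a1, a2, a3, a4, a5, a6, a7⟩
    · exact Or.inl h7
    · exact Or.inr ⟨i, a1, a2, a3, a4, a5, yloc_locGen hρ a6, yloc_locGen hρ a7⟩

end YData

end

end Crest.Agent.R169
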